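import Crest.Agent.R340.CS3_809

set_option autoImplicit false

/-!
# Row 340: Chernoff bounds for the matrix elements (helper809)

`u_j(g) = sp Q g e_j`, so that `⟪u_j(g), u_k(h)⟫ = sp Q (gᴴ h) j k`.  For `k ≤ 1`:

* `K4_up` : `∑_{j ≥ L} ‖sp Q (gᴴ h) j k‖² ≤ 3 exp (3/4 dQ² - L)`;
* `K4_dn` : `∑_{j < L} ‖sp Q (gᴴ h) j k‖² ≤ 28 exp (L - dQ²/8)`;
* `K4_up_wt`, `K4_dn_wt` : the exponential moments.
-/

namespace Crest.Agent.R340.CS809

open Matrix Finset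
open scoped ComplexConjugate

/-- Gram matrix trick: exponential moments of a column of `sp` -/
theorem sum_wt_sp (Q : ℕ) (h : Matrix (Fin 2) (Fin 2) ℂ) (e : ℝ) (k : Fin (Q + 1)) :
    ((∑ j : Fin (Q + 1), e ^ (j : ℕ) * ‖sp Q h j k‖ ^ 2 : ℝ) : ℂ) =
      sp Q (hᴴ * diagonal ![1, (e : ℂ)] * h) k k := by
  rw [sp_mul, sp_mul, ← sp_conjTranspose, sp_diagonal, mul_apply, Complex.ofReal_sum]
  refine sum_congr rfl fun j _ => ?_
  rw [mul_diagonal, conjTranspose_apply, one_pow, one_mul, Complex.star_def]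
  push_cast
  rw [← Complex.conj_mul']
  ring

section entries

variable {h : Matrix (Fin 2) (Fin 2) ℂ} (hh : hᴴ * h = 1) (e : ℝ)

include hh

lemma M00 : (hᴴ * diagonal ![1, (e : ℂ)] * h) 0 0 = ((1 + (e - 1) * ‖h 1 0‖ ^ 2 : ℝ) : ℂ) := by
  have h1 := ent_col0 hh
  rw [mul_apply, Fin.sum_univ_two, mul_diagonal, mul_diagonal, conjTranspose_apply,
    conjTranspose_apply, Complex.star_def]
  simp only [cons_val_zero, cons_val_one, mul_one]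
  have e1 : conj (h 0 0) * h 0 0 = ((‖h 0 0‖ ^ 2 : ℝ) : ℂ) := by
    rw [Complex.conj_mul']; push_cast; ring
  have e2 : conj (h 1 0) * (e : ℂ) * h 1 0 = (e : ℂ) * ((‖h 1 0‖ ^ 2 : ℝ) : ℂ) := by
    rw [mul_right_comm, Complex.conj_mul']; push_cast; ring
  rw [e1, e2, ← Complex.ofReal_mul, ← Complex.ofReal_add]
  congr 1
  linarith

lemma M11 : (hᴴ * diagonal ![1, (e : ℂ)] * h) 1 1 = ((e + (1 - e) * ‖h 1 0‖ ^ 2 : ℝ) : ℂ) := by
  have h1 := ent_col1 hh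
  rw [ent_10 hh] at h1
  rw [mul_apply, Fin.sum_univ_two, mul_diagonal, mul_diagonal, conjTranspose_apply,
    conjTranspose_apply, Complex.star_def]
  simp only [cons_val_zero, cons_val_one, mul_one]
  have e1 : conj (h 0 1) * h 0 1 = ((‖h 1 0‖ ^ 2 : ℝ) : ℂ) := by
    rw [Complex.conj_mul', ent_10 hh]; push_cast; ring
  have e2 : conj (h 1 1) * (e : ℂ) * h 1 1 = (e : ℂ) * ((‖h 1 1‖ ^ 2 : ℝ) : ℂ) := by
    rw [mul_right_comm, Complex.conj_mul']; push_cast; ring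
  rw [e1, e2, ← Complex.ofReal_mul, ← Complex.ofReal_add]
  congr 1
  have h2 : ‖h 1 1‖ ^ 2 = 1 - ‖h 1 0‖ ^ 2 := by linarith
  rw [h2]
  ring

lemma M01 : (hᴴ * diagonal ![1, (e : ℂ)] * h) 0 1 = ((e : ℂ) - 1) * (conj (h 1 0) * h 1 1) := by
  have h1 := congrFun (congrFun hh 0) 1
  rw [mul_apply, Fin.sum_univ_two, conjTranspose_apply, conjTranspose_apply, Complex.star_def,
    one_apply_ne (by decide)] at h1
  rw [mul_apply, Fin.sum_univ_two, mul_diagonal, mul_diagonal, conjTranspose_apply,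
    conjTranspose_apply, Complex.star_def]
  simp only [cons_val_zero, cons_val_one, mul_one]
  linear_combination h1

lemma norm_M01 : ‖(hᴴ * diagonal ![1, (e : ℂ)] * h) 0 1‖ ≤ |e - 1| * ‖h 1 0‖ := by
  have ha1 : ‖h 1 1‖ ≤ 1 := by
    have := ent_col1 hh
    nlinarith [norm_nonneg (h 1 1), norm_nonneg (h 0 1)]
  rw [M01 hh, norm_mul, norm_mul, Complex.norm_conj]
  have e1 : ‖(e : ℂ) - 1‖ = |e - 1| := by
    rw [← Complex.ofReal_one, ← Complex.ofReal_sub, Complex.norm_real, Real.norm_eq_abs]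
  rw [e1]
  have : ‖h 1 0‖ * ‖h 1 1‖ ≤ ‖h 1 0‖ := mul_le_of_le_one_right (norm_nonneg _) ha1
  exact mul_le_mul_of_nonneg_left this (abs_nonneg _)

omit hh in
lemma M10 : ‖(hᴴ * diagonal ![1, (e : ℂ)] * h) 1 0‖ = ‖(hᴴ * diagonal ![1, (e : ℂ)] * h) 0 1‖ := by
  have h1 : (hᴴ * diagonal ![1, (e : ℂ)] * h)ᴴ = hᴴ * diagonal ![1, (e : ℂ)] * h := by
    have hd : (diagonal ![1, (e : ℂ)])ᴴ = diagonal ![1, (e : ℂ)] := by
      rw [diagonal_conjTranspose]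
      congr 1
      ext i
      fin_cases i <;> simp
    rw [conjTranspose_mul, conjTranspose_mul, conjTranspose_conjTranspose, hd, Matrix.mul_assoc]
  have h2 := congrFun (congrFun h1 0) 1
  rw [conjTranspose_apply] at h2
  rw [← h2, norm_star]

/-- bound of the exponential moment of a column `k ≤ 1` -/
lemma sum_wt_le {Q : ℕ} (he : 0 ≤ e) (k : Fin (Q + 1)) (hk : (k : ℕ) ≤ 1) :
    ∑ j : Fin (Q + 1), e ^ (j : ℕ) * ‖sp Q h j k‖ ^ 2 ≤
      (1 + (e - 1) * ‖h 1 0‖ ^ 2) ^ (Q - (k : ℕ)) * (1 + e) ^ (k : ℕ) +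
        (k : ℕ) * (Q : ℝ) * (1 + (e - 1) * ‖h 1 0‖ ^ 2) ^ (Q - 2) * (e - 1) ^ 2 *
          ‖h 1 0‖ ^ 2 := by
  have hb : ‖h 1 0‖ ^ 2 ≤ 1 := by nlinarith [ent_col0 hh, sq_nonneg ‖h 0 0‖]
  have hb0 : 0 ≤ ‖h 1 0‖ ^ 2 := sq_nonneg _
  have hm : 0 ≤ 1 + (e - 1) * ‖h 1 0‖ ^ 2 := by nlinarith
  have h0 := sum_wt_sp Q h e k
  have h1 : ∑ j : Fin (Q + 1), e ^ (j : ℕ) * ‖sp Q h j k‖ ^ 2 ≤
      ‖sp Q (hᴴ * diagonal ![1, (e : ℂ)] * h) k k‖ := by
    rw [← h0, Complex.norm_real]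
    exact le_abs_self _
  refine h1.trans ?_
  rcases Nat.le_one_iff_eq_zero_or_eq_one.1 hk with hk0 | hk1
  · have ek : k = 0 := Fin.ext hk0
    rw [ek, sp_zero_zero, M00 hh, norm_pow, Complex.norm_real, Real.norm_of_nonneg hm]
    simp
  · rw [sp_one_one _ k k hk1 hk1, hk1, M00 hh, M11 hh]
    refine (norm_add_le _ _).trans ?_
    rw [norm_mul, norm_mul, norm_mul, norm_mul, norm_pow, norm_pow, Complex.norm_real,
      Real.norm_of_nonneg hm, M10 e, Complex.norm_natCast, Complex.norm_real, Real.norm_eq_abs]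
    have e11 : |e + (1 - e) * ‖h 1 0‖ ^ 2| ≤ (1 + e) ^ 1 := by
      rw [pow_one, abs_le]
      constructor <;> nlinarith
    have hq : ((Q - 1 : ℕ) : ℝ) ≤ Q := by exact_mod_cast Nat.sub_le Q 1
    have h01 := norm_M01 hh e
    have h02 : ‖(hᴴ * diagonal ![1, (e : ℂ)] * h) 0 1‖ * ‖(hᴴ * diagonal ![1, (e : ℂ)] * h) 0 1‖ ≤
        (e - 1) ^ 2 * ‖h 1 0‖ ^ 2 := by
      calc _ ≤ (|e - 1| * ‖h 1 0‖) * (|e - 1| * ‖h 1 0‖) :=
            mul_le_mul h01 h01 (norm_nonneg _) (by positivity)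
        _ = (e - 1) ^ 2 * ‖h 1 0‖ ^ 2 := by
            rw [mul_mul_mul_comm, abs_mul_abs_self]; ring
    have hp : 0 ≤ (1 + (e - 1) * ‖h 1 0‖ ^ 2) ^ (Q - 1) := pow_nonneg hm _
    have hp2 : 0 ≤ (1 + (e - 1) * ‖h 1 0‖ ^ 2) ^ (Q - 2) := pow_nonneg hm _
    have t1 := mul_le_mul_of_nonneg_left e11 hp
    have t2 : ((Q - 1 : ℕ) : ℝ) * (1 + (e - 1) * ‖h 1 0‖ ^ 2) ^ (Q - 2) *
        ‖(hᴴ * diagonal ![1, (e : ℂ)] * h) 0 1‖ * ‖(hᴴ * diagonal ![1, (e : ℂ)] * h) 0 1‖ ≤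
        ((1 : ℕ) : ℝ) * (Q : ℝ) * (1 + (e - 1) * ‖h 1 0‖ ^ 2) ^ (Q - 2) * (e - 1) ^ 2 *
          ‖h 1 0‖ ^ 2 := by
      calc _ = (((Q - 1 : ℕ) : ℝ) * (1 + (e - 1) * ‖h 1 0‖ ^ 2) ^ (Q - 2)) *
            (‖(hᴴ * diagonal ![1, (e : ℂ)] * h) 0 1‖ *
              ‖(hᴴ * diagonal ![1, (e : ℂ)] * h) 0 1‖) := by ring
        _ ≤ ((Q : ℝ) * (1 + (e - 1) * ‖h 1 0‖ ^ 2) ^ (Q - 2)) *
            ((e - 1) ^ 2 * ‖h 1 0‖ ^ 2) :=
            mul_le_mul (mul_le_mul_of_nonneg_right hq hp2) h02 (by positivity) (by positivity)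
        _ = _ := by push_cast; ring
    exact add_le_add t1 t2

end entries

lemma exp_one_bounds : 2.7 < Real.exp 1 ∧ Real.exp 1 < 2.72 :=
  ⟨(by norm_num : (2.7 : ℝ) < 2.7182818283).trans Real.exp_one_gt_d9,
    Real.exp_one_lt_d9.trans (by norm_num)⟩

/-- exponential moments, upper tail -/
theorem K4_up_wt {Q : ℕ} {h : Matrix (Fin 2) (Fin 2) ℂ} (hh : hᴴ * h = 1) (k : Fin (Q + 1))
    (hk : (k : ℕ) ≤ 1) :
    ∑ j : Fin (Q + 1), Real.exp (j : ℕ) * ‖sp Q h j k‖ ^ 2 ≤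
      4 * Real.exp (3 * (Q * ‖h 1 0‖ ^ 2)) := by
  obtain ⟨e1, e2⟩ := exp_one_bounds
  set b2 := ‖h 1 0‖ ^ 2 with hb2
  have hb0 : 0 ≤ b2 := sq_nonneg _
  set y : ℝ := Q * b2 with hy
  have hy0 : 0 ≤ y := by positivity
  have h1 := sum_wt_le hh (Real.exp 1) (Real.exp_pos 1).le k hk
  have h2 : ∀ j : Fin (Q + 1), Real.exp 1 ^ (j : ℕ) = Real.exp (j : ℕ) := by
    intro j
    rw [← Real.exp_nat_mul, mul_one]
  simp only [h2] at h1
  refine h1.trans ?_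
  have hpow : ∀ m : ℕ, m ≤ Q → (1 + (Real.exp 1 - 1) * b2) ^ m ≤ Real.exp (2 * y) := by
    intro m hm
    have hm' : (m : ℝ) ≤ Q := by exact_mod_cast hm
    calc (1 + (Real.exp 1 - 1) * b2) ^ m ≤ Real.exp (2 * b2) ^ m := by
          apply pow_le_pow_left₀
          · nlinarith
          · have := Real.add_one_le_exp (2 * b2)
            nlinarith
      _ = Real.exp (m * (2 * b2)) := by rw [← Real.exp_nat_mul]
      _ ≤ Real.exp (2 * y) := by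
          apply Real.exp_le_exp.2
          rw [hy]
          nlinarith
  have hexp : Real.exp (3 * y) = Real.exp (2 * y) * Real.exp y := by
    rw [← Real.exp_add]; congr 1; ring
  have hey : 1 + y ≤ Real.exp y := by linarith [Real.add_one_le_exp y]
  have hE0 := Real.exp_pos (2 * y)
  have p1 := hpow (Q - (k : ℕ)) (Nat.sub_le _ _)
  have p2 := hpow (Q - 2) (Nat.sub_le _ _)
  have p1' : 0 ≤ (1 + (Real.exp 1 - 1) * b2) ^ (Q - (k : ℕ)) := pow_nonneg (by nlinarith) _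
  have p2' : 0 ≤ (1 + (Real.exp 1 - 1) * b2) ^ (Q - 2) := pow_nonneg (by nlinarith) _
  rw [hexp]
  rcases Nat.le_one_iff_eq_zero_or_eq_one.1 hk with hk0 | hk1
  · rw [hk0] at p1 p1' ⊢
    simp only [pow_zero, mul_one, Nat.cast_zero, zero_mul, add_zero]
    nlinarith
  · rw [hk1] at p1 p1' ⊢
    simp only [pow_one, Nat.cast_one, one_mul]
    have t1 : (1 + (Real.exp 1 - 1) * b2) ^ (Q - 1) * (1 + Real.exp 1) ≤ Real.exp (2 * y) * 3.72 :=
      mul_le_mul p1 (by linarith) (by linarith) hE0.le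
    have t2 : (Q : ℝ) * (1 + (Real.exp 1 - 1) * b2) ^ (Q - 2) * (Real.exp 1 - 1) ^ 2 * b2 ≤
        Real.exp (2 * y) * (3 * y) := by
      have : (Real.exp 1 - 1) ^ 2 ≤ 3 := by nlinarith
      calc (Q : ℝ) * (1 + (Real.exp 1 - 1) * b2) ^ (Q - 2) * (Real.exp 1 - 1) ^ 2 * b2
          = (1 + (Real.exp 1 - 1) * b2) ^ (Q - 2) * ((Real.exp 1 - 1) ^ 2 * y) := by
            rw [hy]; ring
        _ ≤ Real.exp (2 * y) * (3 * y) :=
            mul_le_mul p2 (mul_le_mul_of_nonneg_right this hy0) (by positivity) hE0.le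
    nlinarith [mul_le_mul_of_nonneg_left hey hE0.le]

/-- exponential moments, lower tail -/
theorem K4_dn_wt {Q : ℕ} {h : Matrix (Fin 2) (Fin 2) ℂ} (hh : hᴴ * h = 1) (k : Fin (Q + 1))
    (hk : (k : ℕ) ≤ 1) :
    ∑ j : Fin (Q + 1), Real.exp (-((j : ℕ) : ℝ)) * ‖sp Q h j k‖ ^ 2 ≤
      60 * Real.exp (-(Q * ‖h 1 0‖ ^ 2 / 2)) := by
  obtain ⟨e1, e2⟩ := exp_one_bounds
  set b2 := ‖h 1 0‖ ^ 2 with hb2
  have hb0 : 0 ≤ b2 := sq_nonneg _
  have hb1 : b2 ≤ 1 := by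
    have := ent_col0 hh
    nlinarith [sq_nonneg ‖h 0 0‖]
  set y : ℝ := Q * b2 with hy
  have hy0 : 0 ≤ y := by positivity
  have he0 : 0 < Real.exp (-1) := Real.exp_pos _
  have he1 : Real.exp (-1) ≤ 3 / 8 := by
    rw [Real.exp_neg, inv_le_comm₀ (Real.exp_pos 1) (by norm_num)]
    linarith
  have h1 := sum_wt_le hh (Real.exp (-1)) he0.le k hk
  have h2 : ∀ j : Fin (Q + 1), Real.exp (-1) ^ (j : ℕ) = Real.exp (-((j : ℕ) : ℝ)) := by
    intro j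
    rw [← Real.exp_nat_mul]
    congr 1
    ring
  simp only [h2] at h1
  refine h1.trans ?_
  have hbase : 0 ≤ 1 + (Real.exp (-1) - 1) * b2 := by nlinarith
  have hpow : ∀ m : ℕ, Q ≤ m + 2 →
      (1 + (Real.exp (-1) - 1) * b2) ^ m ≤ 4 * Real.exp (-(5 * y / 8)) := by
    intro m hm
    have hm' : (Q : ℝ) ≤ m + 2 := by exact_mod_cast hm
    calc (1 + (Real.exp (-1) - 1) * b2) ^ m ≤ Real.exp (-(5 * b2 / 8)) ^ m := by
          apply pow_le_pow_left₀ hbase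
          have := Real.add_one_le_exp (-(5 * b2 / 8))
          nlinarith
      _ = Real.exp (m * (-(5 * b2 / 8))) := by rw [← Real.exp_nat_mul]
      _ ≤ Real.exp (5 / 4 + -(5 * y / 8)) := by
          apply Real.exp_le_exp.2
          rw [hy]
          nlinarith
      _ = Real.exp (5 / 4) * Real.exp (-(5 * y / 8)) := Real.exp_add _ _
      _ ≤ 4 * Real.exp (-(5 * y / 8)) := by
          gcongr
          have h3 : Real.exp (5 / 4) ^ 4 ≤ 4 ^ 4 := by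
            rw [← Real.exp_nat_mul]
            have : Real.exp (((4 : ℕ) : ℝ) * (5 / 4)) = Real.exp 1 ^ 5 := by
              rw [← Real.exp_nat_mul]; norm_num
            rw [this]
            calc Real.exp 1 ^ 5 ≤ 2.72 ^ 5 := pow_le_pow_left₀ (Real.exp_pos 1).le e2.le 5
              _ ≤ 4 ^ 4 := by norm_num
          exact le_of_pow_le_pow_left₀ (by norm_num) (by norm_num) h3
  have hexp : Real.exp (-(y / 2)) = Real.exp (-(5 * y / 8)) * Real.exp (y / 8) := by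
    rw [← Real.exp_add]; congr 1; ring
  have hey : 1 + y ≤ 8 * Real.exp (y / 8) := by linarith [Real.add_one_le_exp (y / 8)]
  have hE0 := Real.exp_pos (-(5 * y / 8))
  have p1 := hpow (Q - (k : ℕ)) (by omega)
  have p2 := hpow (Q - 2) (by omega)
  have p1' : 0 ≤ (1 + (Real.exp (-1) - 1) * b2) ^ (Q - (k : ℕ)) := pow_nonneg hbase _
  have p2' : 0 ≤ (1 + (Real.exp (-1) - 1) * b2) ^ (Q - 2) := pow_nonneg hbase _
  rw [hexp]
  have hge : 1 ≤ Real.exp (y / 8) := Real.one_le_exp (by positivity)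
  rcases Nat.le_one_iff_eq_zero_or_eq_one.1 hk with hk0 | hk1
  · rw [hk0] at p1 p1' ⊢
    simp only [pow_zero, mul_one, Nat.cast_zero, zero_mul, add_zero]
    nlinarith
  · rw [hk1] at p1 p1' ⊢
    simp only [pow_one, Nat.cast_one, one_mul]
    have t1 : (1 + (Real.exp (-1) - 1) * b2) ^ (Q - 1) * (1 + Real.exp (-1)) ≤
        4 * Real.exp (-(5 * y / 8)) * 1.5 :=
      mul_le_mul p1 (by linarith) (by linarith) (by positivity)
    have t2 : (Q : ℝ) * (1 + (Real.exp (-1) - 1) * b2) ^ (Q - 2) * (Real.exp (-1) - 1) ^ 2 * b2 ≤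
        4 * Real.exp (-(5 * y / 8)) * (1 * y) := by
      have : (Real.exp (-1) - 1) ^ 2 ≤ 1 := by nlinarith
      calc (Q : ℝ) * (1 + (Real.exp (-1) - 1) * b2) ^ (Q - 2) * (Real.exp (-1) - 1) ^ 2 * b2
          = (1 + (Real.exp (-1) - 1) * b2) ^ (Q - 2) * ((Real.exp (-1) - 1) ^ 2 * y) := by
            rw [hy]; ring
        _ ≤ 4 * Real.exp (-(5 * y / 8)) * (1 * y) :=
            mul_le_mul p2 (mul_le_mul_of_nonneg_right this hy0) (by positivity) (by positivity)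
    nlinarith [mul_le_mul_of_nonneg_left hey hE0.le]

lemma rel_10 (Q : ℕ) (g h : U2) :
    (Q : ℝ) * ‖((g : Matrix (Fin 2) (Fin 2) ℂ)ᴴ * (h : Matrix (Fin 2) (Fin 2) ℂ)) 1 0‖ ^ 2 =
      dQ Q g h ^ 2 / 4 := by
  have h1 := ent_col0 (rel_unit g h)
  have h2 : ‖((g : Matrix (Fin 2) (Fin 2) ℂ)ᴴ * (h : Matrix (Fin 2) (Fin 2) ℂ)) 1 0‖ ^ 2 =
      1 - ov g h := by rw [ov]; linarith
  rw [h2, dQ_sq]
  ring

/-- (K4), upper tail -/
theorem K4_up {Q : ℕ} (g h : U2) (k : Fin (Q + 1)) (hk : (k : ℕ) ≤ 1) (L : ℕ) :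
    ∑ j ∈ univ.filter (fun j : Fin (Q + 1) => L ≤ (j : ℕ)),
      ‖sp Q ((g : Matrix (Fin 2) (Fin 2) ℂ)ᴴ * h) j k‖ ^ 2 ≤
      4 * Real.exp (3 / 4 * dQ Q g h ^ 2 - L) := by
  have h1 := K4_up_wt (rel_unit g h) k hk
  rw [rel_10] at h1
  rw [sub_eq_add_neg, Real.exp_add, ← mul_assoc, mul_comm _ (Real.exp (-(L : ℝ)))]
  calc _ ≤ ∑ j ∈ univ.filter (fun j : Fin (Q + 1) => L ≤ (j : ℕ)), Real.exp (-(L : ℝ)) *
        (Real.exp (j : ℕ) * ‖sp Q ((g : Matrix (Fin 2) (Fin 2) ℂ)ᴴ * h) j k‖ ^ 2) := by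
        refine sum_le_sum fun j hj => ?_
        rw [← mul_assoc, ← Real.exp_add]
        have hj' : (L : ℝ) ≤ (j : ℕ) := by exact_mod_cast (mem_filter.1 hj).2
        have : 1 ≤ Real.exp (-(L : ℝ) + (j : ℕ)) := Real.one_le_exp (by linarith)
        nlinarith [sq_nonneg ‖sp Q ((g : Matrix (Fin 2) (Fin 2) ℂ)ᴴ * h) j k‖]
    _ ≤ ∑ j : Fin (Q + 1), Real.exp (-(L : ℝ)) *
        (Real.exp (j : ℕ) * ‖sp Q ((g : Matrix (Fin 2) (Fin 2) ℂ)ᴴ * h) j k‖ ^ 2) :=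
        sum_le_sum_of_subset_of_nonneg (filter_subset _ _) fun _ _ _ => by positivity
    _ ≤ _ := by
        rw [← mul_sum]
        gcongr
        refine h1.trans (le_of_eq ?_)
        congr 2
        ring

/-- (K4), lower tail -/
theorem K4_dn {Q : ℕ} (g h : U2) (k : Fin (Q + 1)) (hk : (k : ℕ) ≤ 1) (L : ℕ) :
    ∑ j ∈ univ.filter (fun j : Fin (Q + 1) => (j : ℕ) < L),
      ‖sp Q ((g : Matrix (Fin 2) (Fin 2) ℂ)ᴴ * h) j k‖ ^ 2 ≤
      60 * Real.exp (L - dQ Q g h ^ 2 / 8) := by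
  have h1 := K4_dn_wt (rel_unit g h) k hk
  rw [rel_10] at h1
  rw [sub_eq_add_neg, Real.exp_add, mul_left_comm]
  calc _ ≤ ∑ j ∈ univ.filter (fun j : Fin (Q + 1) => (j : ℕ) < L), Real.exp (L : ℝ) *
        (Real.exp (-((j : ℕ) : ℝ)) *
          ‖sp Q ((g : Matrix (Fin 2) (Fin 2) ℂ)ᴴ * h) j k‖ ^ 2) := by
        refine sum_le_sum fun j hj => ?_
        rw [← mul_assoc, ← Real.exp_add]
        have hj' : ((j : ℕ) : ℝ) ≤ L := by exact_mod_cast (mem_filter.1 hj).2.le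
        have : 1 ≤ Real.exp ((L : ℝ) + -((j : ℕ) : ℝ)) := Real.one_le_exp (by linarith)
        nlinarith [sq_nonneg ‖sp Q ((g : Matrix (Fin 2) (Fin 2) ℂ)ᴴ * h) j k‖]
    _ ≤ ∑ j : Fin (Q + 1), Real.exp (L : ℝ) *
        (Real.exp (-((j : ℕ) : ℝ)) *
          ‖sp Q ((g : Matrix (Fin 2) (Fin 2) ℂ)ᴴ * h) j k‖ ^ 2) :=
        sum_le_sum_of_subset_of_nonneg (filter_subset _ _) fun _ _ _ => by positivity
    _ ≤ _ := by
        rw [← mul_sum]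
        gcongr
        refine h1.trans (le_of_eq ?_)
        congr 2
        ring

end Crest.Agent.R340.CS809
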