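import Crest.Agent.R340.CS4_809

set_option autoImplicit false
set_option maxHeartbeats 400000

/-!
# Row 340: Schur's lemma for `sp Q` and averages (helper809)

* `schur` : a matrix commuting with `sp Q g`, `g ∈ SU(2)`, is scalar;
* `avg_group` : `∫ |⟪v, sp Q h e_k⟫|² dμ(h) = ‖v‖² / (Q+1)` for a left invariant probability
  measure on `U2`; `avg_sphere` : the same on `S2` with the surface measure `σ` (total mass `4π`);
* `law_uniform` : a `[0,1]`-valued function with moments `1/(n+1)` is uniformly distributed;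
* `law_group`, `law_sphere` : the squared overlap is uniformly distributed.
-/

namespace Crest.Agent.R340.CS809

open Matrix Finset MeasureTheory Crest.MathPhysics.Laughlin Crest.Agent.R070.RotInv260
open scoped ComplexConjugate ENNReal

/-! ## Schur's lemma -/

lemma exists_unit_smul (ζ : Fin 2 → ℂ) :
    ∃ (r : ℂ) (η : Fin 2 → ℂ), conj (η 0) * η 0 + conj (η 1) * η 1 = 1 ∧ ζ = r • η := by
  by_cases h : ζ = 0
  · refine ⟨0, ![1, 0], by simp, by rw [h, zero_smul]⟩
  · set s : ℝ := ‖ζ 0‖ ^ 2 + ‖ζ 1‖ ^ 2 with hs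
    have hs0 : 0 < s := by
      rcases lt_or_eq_of_le (show 0 ≤ s by positivity) with h1 | h1
      · exact h1
      · exfalso
        apply h
        have a : ‖ζ 0‖ ^ 2 = 0 := by nlinarith [sq_nonneg ‖ζ 0‖, sq_nonneg ‖ζ 1‖]
        have b : ‖ζ 1‖ ^ 2 = 0 := by nlinarith [sq_nonneg ‖ζ 0‖, sq_nonneg ‖ζ 1‖]
        ext i
        fin_cases i
        · simpa using a
        · simpa using b
    have hr : (0 : ℝ) < Real.sqrt s := Real.sqrt_pos.2 hs0
    have hrc : ((Real.sqrt s : ℝ) : ℂ) ≠ 0 := by exact_mod_cast hr.ne'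
    refine ⟨((Real.sqrt s : ℝ) : ℂ), (((Real.sqrt s : ℝ) : ℂ)⁻¹) • ζ, ?_, ?_⟩
    · simp only [Pi.smul_apply, smul_eq_mul, map_mul, map_inv₀, Complex.conj_ofReal]
      have e0 : conj (ζ 0) * ζ 0 = ((‖ζ 0‖ ^ 2 : ℝ) : ℂ) := by
        rw [Complex.conj_mul']; push_cast; ring
      have e1 : conj (ζ 1) * ζ 1 = ((‖ζ 1‖ ^ 2 : ℝ) : ℂ) := by
        rw [Complex.conj_mul']; push_cast; ring
      have e2 : ((Real.sqrt s : ℝ) : ℂ) * ((Real.sqrt s : ℝ) : ℂ) = ((s : ℝ) : ℂ) := by
        rw [← Complex.ofReal_mul, Real.mul_self_sqrt hs0.le]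
      have e3 : ((s : ℝ) : ℂ) = ((‖ζ 0‖ ^ 2 : ℝ) : ℂ) + ((‖ζ 1‖ ^ 2 : ℝ) : ℂ) := by
        rw [hs]; push_cast; ring
      calc _ = (((Real.sqrt s : ℝ) : ℂ) * ((Real.sqrt s : ℝ) : ℂ))⁻¹ *
            (conj (ζ 0) * ζ 0 + conj (ζ 1) * ζ 1) := by rw [mul_inv]; ring
        _ = 1 := by
            rw [e0, e1, e2, ← e3]
            exact inv_mul_cancel₀ (by exact_mod_cast hs0.ne')
    · rw [smul_smul, mul_inv_cancel₀ hrc, one_smul]

/-- Schur's lemma -/
theorem schur {Q : ℕ} {A : Matrix (Fin (Q + 1)) (Fin (Q + 1)) ℂ}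
    (hA : ∀ g : Matrix (Fin 2) (Fin 2) ℂ, gᴴ * g = 1 → g.det = 1 → A * sp Q g = sp Q g * A) :
    ∃ c : ℂ, A = c • 1 := by
  have h0 : ∀ j : Fin (Q + 1), j ≠ 0 → A j 0 = 0 := by
    intro j hj
    have hj0 : (j : ℕ) ≠ 0 := fun h => hj (Fin.ext h)
    set c : ℂ := Complex.exp ((Real.pi / (2 * (j : ℕ)) : ℝ) * Complex.I) with hc
    have hcc : conj c * c = 1 := by
      rw [Complex.conj_mul', hc, Complex.norm_exp_ofReal_mul_I]
      norm_num
    have hc2 : c ^ (2 * (j : ℕ)) = -1 := by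
      rw [hc, ← Complex.exp_nat_mul]
      have hjc : ((j : ℕ) : ℂ) ≠ 0 := by exact_mod_cast hj0
      have : ((2 * (j : ℕ) : ℕ) : ℂ) * (((Real.pi / (2 * (j : ℕ)) : ℝ) : ℂ) * Complex.I) =
          (Real.pi : ℂ) * Complex.I := by
        push_cast
        field_simp
      rw [this, Complex.exp_pi_mul_I]
    have hDs : (diagonal ![c, conj c] : Matrix (Fin 2) (Fin 2) ℂ) = su c 0 := by
      ext i k
      fin_cases i <;> fin_cases k <;> simp [su]
    have hu : (diagonal ![c, conj c] : Matrix (Fin 2) (Fin 2) ℂ)ᴴ * diagonal ![c, conj c] = 1 := by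
      rw [hDs]
      exact su_ct_mul (by simpa using hcc)
    have hd : (diagonal ![c, conj c] : Matrix (Fin 2) (Fin 2) ℂ).det = 1 := by
      rw [hDs]
      exact su_det (by simpa using hcc)
    have h1 := congrFun (congrFun (hA _ hu hd) j) 0
    rw [sp_diagonal, mul_diagonal, diagonal_mul] at h1
    simp only [Fin.coe_ofNat_eq_mod, Nat.zero_mod, Nat.sub_zero, pow_zero, mul_one] at h1
    have hc0 : c ≠ 0 := Complex.exp_ne_zero _
    have hjQ : (j : ℕ) ≤ Q := Nat.lt_succ_iff.1 j.2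
    -- multiply by `c ^ j`
    have h2 : A j 0 * c ^ (Q - (j : ℕ)) * (c ^ (2 * (j : ℕ)) - 1) = 0 := by
      have e1 : c ^ Q = c ^ (Q - (j : ℕ)) * c ^ (j : ℕ) := by
        rw [← pow_add, Nat.sub_add_cancel hjQ]
      have e2 : conj c ^ (j : ℕ) * c ^ (j : ℕ) = 1 := by
        rw [← mul_pow, hcc, one_pow]
      have e3 : c ^ (2 * (j : ℕ)) = c ^ (j : ℕ) * c ^ (j : ℕ) := by rw [two_mul, pow_add]
      rw [e1] at h1
      rw [e3]
      linear_combination c ^ (j : ℕ) * h1 + A j 0 * c ^ (Q - (j : ℕ)) * e2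
    rw [hc2] at h2
    have h3 : c ^ (Q - (j : ℕ)) ≠ 0 := pow_ne_zero _ hc0
    have h4 : (-1 - 1 : ℂ) ≠ 0 := by norm_num
    rcases mul_eq_zero.1 h2 with h5 | h5
    · rcases mul_eq_zero.1 h5 with h6 | h6
      · exact h6
      · exact absurd h6 h3
    · exact absurd h5 h4
  refine ⟨A 0 0, ?_⟩
  apply ext_kap
  intro ζ
  obtain ⟨r, η, hη, rfl⟩ := exists_unit_smul ζ
  rw [kap_smul, mulVec_smul, smul_mulVec, one_mulVec, smul_comm (A 0 0) (r ^ Q)]
  congr 1
  have e : η = su (η 0) (η 1) *ᵥ ![1, 0] := by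
    ext i
    fin_cases i <;> simp [su, mulVec, dotProduct, Fin.sum_univ_two]
  have hk : A *ᵥ kap Q ![1, 0] = A 0 0 • kap Q ![1, 0] := by
    rw [Rot303.kap_north, mulVec_single_one]
    ext j
    by_cases hj : j = 0
    · subst hj; simp
    · simp [hj, h0 j hj]
  rw [e, ← sp_mulVec_kap, mulVec_mulVec, hA _ (su_ct_mul hη) (su_det hη), ← mulVec_mulVec, hk,
    mulVec_smul]

/-! ## the uniform law from its moments -/

theorem law_uniform {Z : Type*} [MeasurableSpace Z] (ν : Measure Z) [IsProbabilityMeasure ν]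
    {T : Z → ℝ} (hT : Measurable T) (h01 : ∀ z, T z ∈ Set.Icc (0 : ℝ) 1)
    (hm : ∀ n : ℕ, ∫ z, T z ^ n ∂ν = 1 / ((n : ℝ) + 1)) :
    ν.map T = volume.restrict (Set.Icc (0 : ℝ) 1) := by
  have : IsProbabilityMeasure (ν.map T) := Measure.isProbabilityMeasure_map hT.aemeasurable
  have : IsFiniteMeasure (volume.restrict (Set.Icc (0 : ℝ) 1)) := ⟨by simp⟩
  apply ext_of_forall_integral_eq_of_IsFiniteMeasure
  intro f
  rw [integral_map hT.aemeasurable f.continuous.aestronglyMeasurable]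
  have hTn : ∀ n : ℕ, Integrable (fun z => T z ^ n) ν := by
    intro n
    refine Integrable.of_bound (hT.pow_const n).aestronglyMeasurable 1 ?_
    filter_upwards with z
    rw [Real.norm_eq_abs, abs_of_nonneg (pow_nonneg (h01 z).1 n)]
    exact pow_le_one₀ (h01 z).1 (h01 z).2
  have hIn : ∀ n : ℕ, ∫ x in Set.Icc (0 : ℝ) 1, x ^ n = 1 / ((n : ℝ) + 1) := by
    intro n
    rw [integral_Icc_eq_integral_Ioc, ← intervalIntegral.integral_of_le zero_le_one, integral_pow]
    simp
  have hInt : ∀ n : ℕ, Integrable (fun x : ℝ => x ^ n) (volume.restrict (Set.Icc (0 : ℝ) 1)) :=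
    fun n => (continuous_pow n).continuousOn.integrableOn_Icc
  -- polynomials
  have hpoly : ∀ p : Polynomial ℝ, ∫ z, p.eval (T z) ∂ν = ∫ x in Set.Icc (0 : ℝ) 1, p.eval x := by
    intro p
    simp only [Polynomial.eval_eq_sum_range]
    rw [integral_finsetSum _ fun i _ => (hTn i).const_mul _,
      integral_finsetSum _ fun i _ => (hInt i).const_mul _]
    refine sum_congr rfl fun i _ => ?_
    rw [integral_const_mul, integral_const_mul, hm, hIn]
  have hfi : Integrable (fun z => f (T z)) ν :=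
    Integrable.of_bound (f.continuous.measurable.comp hT).aestronglyMeasurable ‖f‖
      (Filter.Eventually.of_forall fun z => f.norm_coe_le_norm _)
  have hfi2 : Integrable (fun x => f x) (volume.restrict (Set.Icc (0 : ℝ) 1)) :=
    Integrable.of_bound f.continuous.aestronglyMeasurable ‖f‖
      (Filter.Eventually.of_forall fun z => f.norm_coe_le_norm _)
  have hpi : ∀ p : Polynomial ℝ, Integrable (fun z => p.eval (T z)) ν := by
    intro p
    simp only [Polynomial.eval_eq_sum_range]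
    exact integrable_finsetSum _ fun i _ => (hTn i).const_mul _
  have hpi2 : ∀ p : Polynomial ℝ, Integrable (fun x => p.eval x)
      (volume.restrict (Set.Icc (0 : ℝ) 1)) := by
    intro p
    simp only [Polynomial.eval_eq_sum_range]
    exact integrable_finsetSum _ fun i _ => (hInt i).const_mul _
  refine eq_of_forall_dist_le fun ε hε => ?_
  obtain ⟨p, hp⟩ := exists_polynomial_near_of_continuousOn 0 1 f f.continuous.continuousOn (ε / 2)
    (by positivity)
  have h1 : |∫ z, f (T z) ∂ν - ∫ z, p.eval (T z) ∂ν| ≤ ε / 2 := by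
    rw [← integral_sub hfi (hpi p), ← Real.norm_eq_abs]
    have := norm_integral_le_of_norm_le_const (μ := ν) (C := ε / 2)
      (f := fun z => f (T z) - p.eval (T z)) (Filter.Eventually.of_forall fun z => by
        rw [Real.norm_eq_abs, abs_sub_comm]
        exact (hp _ (h01 z)).le)
    simpa using this
  have h2 : |(∫ x in Set.Icc (0 : ℝ) 1, f x) - ∫ x in Set.Icc (0 : ℝ) 1, p.eval x| ≤ ε / 2 := by
    rw [← integral_sub hfi2 (hpi2 p), ← Real.norm_eq_abs]
    have := norm_setIntegral_le_of_norm_le_const (μ := volume) (s := Set.Icc (0 : ℝ) 1)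
      (C := ε / 2) (f := fun x => f x - p.eval x) (by simp) (fun z hz => by
        rw [Real.norm_eq_abs, abs_sub_comm]
        exact (hp _ hz).le)
    simpa using this
  rw [Real.dist_eq]
  rw [hpoly] at h1
  have h3 := abs_sub_le_iff.1 h1
  have h4 := abs_sub_le_iff.1 h2
  exact abs_sub_le_iff.2 ⟨by linarith [h3.1, h3.2, h4.1, h4.2], by linarith [h3.1, h3.2, h4.1, h4.2]⟩

/-! ## averages over the group -/

lemma sp_ct_mul_apply (Q : ℕ) (g h : Matrix (Fin 2) (Fin 2) ℂ) (j k : Fin (Q + 1)) :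
    sp Q (gᴴ * h) j k = ∑ i, conj (sp Q g i j) * sp Q h i k := by
  rw [sp_mul, ← sp_conjTranspose, mul_apply]
  rfl

lemma sum_norm_sp_sq (Q : ℕ) {g : Matrix (Fin 2) (Fin 2) ℂ} (hg : gᴴ * g = 1) (k : Fin (Q + 1)) :
    ∑ i, ‖sp Q g i k‖ ^ 2 = 1 := by
  have h1 := congrFun (congrFun (sp_unitary Q hg) k) k
  rw [mul_apply, one_apply_eq] at h1
  have h3 : ((∑ i, ‖sp Q g i k‖ ^ 2 : ℝ) : ℂ) = 1 := by
    rw [← h1, Complex.ofReal_sum]
    refine sum_congr rfl fun i _ => ?_
    rw [conjTranspose_apply, Complex.star_def, Complex.conj_mul', Complex.ofReal_pow]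
  exact_mod_cast h3

lemma continuous_ov (g : U2) : Continuous fun h : U2 => ov g h := by
  have h1 : Continuous fun h : U2 =>
      ((g : Matrix (Fin 2) (Fin 2) ℂ)ᴴ * (h : Matrix (Fin 2) (Fin 2) ℂ)) :=
    continuous_const.matrix_mul continuous_subtype_val
  exact (((continuous_apply 0).comp ((continuous_apply 0).comp h1)).norm).pow 2

section group

lemma continuous_sp_coe (Q : ℕ) : Continuous fun h : U2 => sp Q (h : Matrix (Fin 2) (Fin 2) ℂ) :=
  (Rot303.continuous_sp Q).comp continuous_subtype_val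

lemma continuous_sp_apply (Q : ℕ) (j k : Fin (Q + 1)) :
    Continuous fun h : U2 => sp Q (h : Matrix (Fin 2) (Fin 2) ℂ) j k :=
  (continuous_apply k).comp ((continuous_apply j).comp (continuous_sp_coe Q))

lemma norm_sp_apply_le (Q : ℕ) (j k : Fin (Q + 1)) {h : Matrix (Fin 2) (Fin 2) ℂ}
    (hh : hᴴ * h = 1) : ‖sp Q h j k‖ ≤ 1 := by
  have h1 := congrFun (congrFun (sp_unitary Q hh) k) k
  rw [mul_apply, one_apply_eq] at h1
  have h2 : ∑ i, ‖sp Q h i k‖ ^ 2 = 1 := by
    have h3 : ((∑ i, ‖sp Q h i k‖ ^ 2 : ℝ) : ℂ) = 1 := by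
      rw [← h1, Complex.ofReal_sum]
      refine sum_congr rfl fun i _ => ?_
      rw [conjTranspose_apply, Complex.star_def, Complex.conj_mul', Complex.ofReal_pow]
    exact_mod_cast h3
  have h4 : ‖sp Q h j k‖ ^ 2 ≤ 1 := by
    rw [← h2]
    exact single_le_sum (f := fun i => ‖sp Q h i k‖ ^ 2) (fun _ _ => sq_nonneg _) (mem_univ j)
  nlinarith [norm_nonneg (sp Q h j k)]

variable [MeasurableSpace U2] [BorelSpace U2] (μ : Measure U2) [IsProbabilityMeasure μ]

lemma integrable_sp_mul (Q : ℕ) (i j k : Fin (Q + 1)) :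
    Integrable (fun h : U2 => sp Q (h : Matrix (Fin 2) (Fin 2) ℂ) i k *
      conj (sp Q (h : Matrix (Fin 2) (Fin 2) ℂ) j k)) μ := by
  refine Integrable.of_bound ?_ 1 (Filter.Eventually.of_forall fun h => ?_)
  · exact ((continuous_sp_apply Q i k).mul
      (Complex.continuous_conj.comp (continuous_sp_apply Q j k))).aestronglyMeasurable
  · rw [norm_mul, Complex.norm_conj]
    exact mul_le_one₀ (norm_sp_apply_le Q i k (U2_ct_mul h)) (norm_nonneg _)
      (norm_sp_apply_le Q j k (U2_ct_mul h))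

variable [μ.IsMulLeftInvariant]

/-- the average of `|sp h e_k⟩⟨sp h e_k|` -/
theorem avg_matrix (Q : ℕ) (i j k : Fin (Q + 1)) :
    ∫ h : U2, sp Q (h : Matrix (Fin 2) (Fin 2) ℂ) i k *
      conj (sp Q (h : Matrix (Fin 2) (Fin 2) ℂ) j k) ∂μ = if i = j then ((Q : ℂ) + 1)⁻¹ else 0 := by
  set A : Matrix (Fin (Q + 1)) (Fin (Q + 1)) ℂ := Matrix.of fun i j =>
    ∫ h : U2, sp Q (h : Matrix (Fin 2) (Fin 2) ℂ) i k *
      conj (sp Q (h : Matrix (Fin 2) (Fin 2) ℂ) j k) ∂μ with hA
  have hinv : ∀ g : Matrix (Fin 2) (Fin 2) ℂ, gᴴ * g = 1 → sp Q g * A * (sp Q g)ᴴ = A := by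
    intro g hg
    set g' : U2 := ⟨g, by rw [Matrix.mem_unitaryGroup_iff']; exact hg⟩ with hg'
    ext i j
    have h1 : A i j = ∫ h : U2, sp Q ((g' * h : U2) : Matrix (Fin 2) (Fin 2) ℂ) i k *
        conj (sp Q ((g' * h : U2) : Matrix (Fin 2) (Fin 2) ℂ) j k) ∂μ := by
      rw [integral_mul_left_eq_self (μ := μ) (fun h : U2 =>
        sp Q (h : Matrix (Fin 2) (Fin 2) ℂ) i k *
          conj (sp Q (h : Matrix (Fin 2) (Fin 2) ℂ) j k)) g']
      rfl
    rw [h1]
    have h2 : ∀ h : U2, sp Q ((g' * h : U2) : Matrix (Fin 2) (Fin 2) ℂ) i k *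
        conj (sp Q ((g' * h : U2) : Matrix (Fin 2) (Fin 2) ℂ) j k) =
        ∑ a, ∑ b, sp Q g i a * conj (sp Q g j b) *
          (sp Q (h : Matrix (Fin 2) (Fin 2) ℂ) a k *
            conj (sp Q (h : Matrix (Fin 2) (Fin 2) ℂ) b k)) := by
      intro h
      have e : sp Q ((g' * h : U2) : Matrix (Fin 2) (Fin 2) ℂ) =
          sp Q g * sp Q (h : Matrix (Fin 2) (Fin 2) ℂ) := sp_mul Q _ _
      rw [e, mul_apply, mul_apply, map_sum, sum_mul_sum]
      refine sum_congr rfl fun a _ => sum_congr rfl fun b _ => ?_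
      rw [map_mul]
      ring
    simp only [h2]
    rw [integral_finsetSum _ fun a _ => integrable_finsetSum _ fun b _ =>
      (integrable_sp_mul μ Q a b k).const_mul _]
    rw [mul_apply]
    simp only [mul_apply, sum_mul]
    rw [sum_comm]
    refine sum_congr rfl fun a _ => ?_
    rw [integral_finsetSum _ fun b _ => (integrable_sp_mul μ Q a b k).const_mul _]
    refine sum_congr rfl fun b _ => ?_
    rw [integral_const_mul, conjTranspose_apply, Complex.star_def]
    simp only [hA, of_apply]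
    ring
  obtain ⟨c, hc⟩ := schur (A := A) fun g hg _ => by
    have h1 := hinv g hg
    calc A * sp Q g = (sp Q g * A * (sp Q g)ᴴ) * sp Q g := by rw [h1]
      _ = sp Q g * A * ((sp Q g)ᴴ * sp Q g) := by simp only [Matrix.mul_assoc]
      _ = sp Q g * A := by rw [sp_unitary Q hg, Matrix.mul_one]
  have htr : A.trace = 1 := by
    rw [trace]
    simp only [diag_apply, hA, of_apply]
    rw [← integral_finsetSum _ fun a _ => integrable_sp_mul μ Q a a k]
    have h1 : ∀ h : U2, ∑ a, sp Q (h : Matrix (Fin 2) (Fin 2) ℂ) a k *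
        conj (sp Q (h : Matrix (Fin 2) (Fin 2) ℂ) a k) = 1 := by
      intro h
      have := congrFun (congrFun (sp_unitary Q (U2_ct_mul h)) k) k
      rw [mul_apply, one_apply_eq] at this
      rw [← this]
      exact sum_congr rfl fun a _ => by rw [conjTranspose_apply, Complex.star_def, mul_comm]
    simp only [h1]
    simp
  have hc1 : c = ((Q : ℂ) + 1)⁻¹ := by
    rw [hc, trace_smul, trace_one, Fintype.card_fin, smul_eq_mul] at htr
    push_cast at htr
    exact eq_inv_of_mul_eq_one_left htr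
  have h1 : A i j = (c • (1 : Matrix (Fin (Q + 1)) (Fin (Q + 1)) ℂ)) i j := by rw [← hc]
  rw [show A i j = ∫ h : U2, sp Q (h : Matrix (Fin 2) (Fin 2) ℂ) i k *
      conj (sp Q (h : Matrix (Fin 2) (Fin 2) ℂ) j k) ∂μ from rfl] at h1
  rw [h1, Matrix.smul_apply, one_apply, hc1, smul_eq_mul]
  split_ifs <;> simp

/-- average of the squared overlap with any vector -/
theorem avg_group (Q : ℕ) (v : Fin (Q + 1) → ℂ) (k : Fin (Q + 1)) :
    ∫ h : U2, ‖∑ i, conj (v i) * sp Q (h : Matrix (Fin 2) (Fin 2) ℂ) i k‖ ^ 2 ∂μ =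
      (∑ i, ‖v i‖ ^ 2) / ((Q : ℝ) + 1) := by
  have h1 : ∀ h : U2,
      ((‖∑ i, conj (v i) * sp Q (h : Matrix (Fin 2) (Fin 2) ℂ) i k‖ ^ 2 : ℝ) : ℂ) =
      ∑ i, ∑ j, conj (v i) * v j * (sp Q (h : Matrix (Fin 2) (Fin 2) ℂ) i k *
        conj (sp Q (h : Matrix (Fin 2) (Fin 2) ℂ) j k)) := by
    intro h
    rw [Complex.ofReal_pow, ← Complex.mul_conj', map_sum, sum_mul_sum]
    refine sum_congr rfl fun i _ => sum_congr rfl fun j _ => ?_
    rw [map_mul, Complex.conj_conj]
    ring
  have h2 : ((∫ h : U2, ‖∑ i, conj (v i) * sp Q (h : Matrix (Fin 2) (Fin 2) ℂ) i k‖ ^ 2 ∂μ : ℝ) :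
      ℂ) = (((∑ i, ‖v i‖ ^ 2) / ((Q : ℝ) + 1) : ℝ) : ℂ) := by
    rw [← integral_complex_ofReal]
    simp only [h1]
    rw [integral_finsetSum _ fun i _ => integrable_finsetSum _ fun j _ =>
      (integrable_sp_mul μ Q i j k).const_mul _]
    have h3 : ∀ i, ∫ h : U2, ∑ j, conj (v i) * v j *
        (sp Q (h : Matrix (Fin 2) (Fin 2) ℂ) i k *
        conj (sp Q (h : Matrix (Fin 2) (Fin 2) ℂ) j k)) ∂μ =
        ((‖v i‖ ^ 2 : ℝ) : ℂ) * ((Q : ℂ) + 1)⁻¹ := by
      intro i
      rw [integral_finsetSum _ fun j _ => (integrable_sp_mul μ Q i j k).const_mul _,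
        sum_eq_single i]
      · rw [integral_const_mul, avg_matrix, if_pos rfl, Complex.conj_mul', Complex.ofReal_pow]
      · intro j _ hj
        rw [integral_const_mul, avg_matrix, if_neg (Ne.symm hj), mul_zero]
      · simp
    simp only [h3]
    rw [← sum_mul, ← Complex.ofReal_sum, div_eq_mul_inv]
    push_cast
    ring
  exact_mod_cast h2

/-- average of the squared matrix elements -/
theorem avg_entry (Q : ℕ) (g : U2) (j k : Fin (Q + 1)) :
    ∫ h : U2, ‖sp Q ((g : Matrix (Fin 2) (Fin 2) ℂ)ᴴ * h) j k‖ ^ 2 ∂μ = 1 / ((Q : ℝ) + 1) := by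
  simp only [sp_ct_mul_apply]
  rw [avg_group, sum_norm_sp_sq Q (U2_ct_mul g)]

/-- the squared overlap is uniformly distributed on `[0,1]` -/
theorem law_group (g : U2) :
    μ.map (fun h : U2 => ov g h) = volume.restrict (Set.Icc (0 : ℝ) 1) := by
  apply law_uniform μ (continuous_ov g).measurable fun h => ⟨ov_nonneg g h, ov_le_one g h⟩
  intro n
  rw [← avg_entry μ n g 0 0]
  refine integral_congr_ae (Filter.Eventually.of_forall fun h => ?_)
  change ov g h ^ n = ‖sp n ((g : Matrix (Fin 2) (Fin 2) ℂ)ᴴ * h) 0 0‖ ^ 2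
  rw [sp_zero_zero, norm_pow, ov, ← pow_mul, ← pow_mul, mul_comm]

end group

/-! ## averages over the sphere -/

section sphere

/-- the surface measure of the unit sphere -/
noncomputable abbrev sg : Measure S2 := (volume : Measure E3).toSphere

lemma sg_univ : sg Set.univ = ENNReal.ofReal (4 * Real.pi) := by
  rw [Measure.toSphere_apply_univ]
  have h1 : (volume : Measure E3) (Metric.ball 0 1) = ENNReal.ofReal (Real.pi * 4 / 3) := by
    rw [EuclideanSpace.volume_ball_fin_three]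
    simp
  rw [h1, finrank_euclideanSpace_fin, ← ENNReal.ofReal_natCast, ← ENNReal.ofReal_mul (by simp)]
  congr 1
  push_cast
  ring

lemma sg_real_univ : sg.real Set.univ = 4 * Real.pi := by
  rw [measureReal_def, sg_univ, ENNReal.toReal_ofReal (by positivity)]

lemma continuous_coord (i : Fin 3) : Continuous fun x : S2 => (x : E3) i :=
  (EuclideanSpace.proj (𝕜 := ℝ) i).continuous.comp continuous_subtype_val

lemma measurable_zs0 : Measurable fun x : S2 => zs x 0 := by
  have : (fun x : S2 => zs x 0) =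
      fun x : S2 => ((Real.sqrt ((1 + (x : E3) 2) / 2) : ℝ) : ℂ) := by
    ext x; simp [zs]
  rw [this]
  have h1 : Continuous fun x : S2 => (1 + (x : E3) 2) / 2 :=
    (continuous_const.add (continuous_coord 2)).div_const _
  exact (Complex.continuous_ofReal.comp (Real.continuous_sqrt.comp h1)).measurable

lemma measurable_zs1 : Measurable fun x : S2 => zs x 1 := by
  have : (fun x : S2 => zs x 1) = fun x : S2 => if (x : E3) 2 = -1 then (1 : ℂ) else
      ((((x : E3) 0 : ℝ) : ℂ) - (((x : E3) 1 : ℝ) : ℂ) * Complex.I) /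
        (2 * ((Real.sqrt ((1 + (x : E3) 2) / 2) : ℝ) : ℂ)) := by
    ext x; simp [zs]
  rw [this]
  have h1 : Continuous fun x : S2 => (1 + (x : E3) 2) / 2 :=
    (continuous_const.add (continuous_coord 2)).div_const _
  refine Measurable.ite ((continuous_coord 2).measurable (measurableSet_singleton _))
    measurable_const (Measurable.div ?_ ?_)
  · exact ((Complex.continuous_ofReal.comp (continuous_coord 0)).sub
      ((Complex.continuous_ofReal.comp (continuous_coord 1)).mul continuous_const)).measurable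
  · exact (continuous_const.mul
      (Complex.continuous_ofReal.comp (Real.continuous_sqrt.comp h1))).measurable

lemma measurable_sp_gx (Q : ℕ) (j k : Fin (Q + 1)) : Measurable fun x : S2 => sp Q (gx x) j k := by
  have h1 : Continuous fun p : ℂ × ℂ => sp Q (su p.1 p.2) j k := by
    have h2 : Continuous fun p : ℂ × ℂ => su p.1 p.2 := by
      refine continuous_matrix fun i j => ?_
      fin_cases i <;> fin_cases j <;> simp [su] <;> fun_prop
    exact (continuous_apply k).comp ((continuous_apply j).comp ((Rot303.continuous_sp Q).comp h2))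
  have h3 : Measurable fun x : S2 => (zs x 0, zs x 1) := measurable_zs0.prodMk measurable_zs1
  have h4 := Measurable.comp (g := fun p : ℂ × ℂ => sp Q (su p.1 p.2) j k) h1.measurable h3
  simp only [gx]
  exact h4

lemma measurable_uu (Q : ℕ) (k j : Fin (Q + 1)) : Measurable fun x : S2 => uu Q k x j :=
  measurable_sp_gx Q j k

lemma norm_uu_le (Q : ℕ) (k j : Fin (Q + 1)) (x : S2) : ‖uu Q k x j‖ ≤ 1 :=
  norm_sp_apply_le Q j k (gx_ct_mul x)

lemma integrable_uu_mul (Q : ℕ) (i j k l : Fin (Q + 1)) :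
    Integrable (fun x : S2 => uu Q k x i * conj (uu Q l x j)) sg := by
  refine Integrable.of_bound ?_ 1 (Filter.Eventually.of_forall fun x => ?_)
  · exact ((measurable_uu Q k i).mul
      (Complex.continuous_conj.measurable.comp (measurable_uu Q l j))).aestronglyMeasurable
  · rw [norm_mul, Complex.norm_conj]
    exact mul_le_one₀ (norm_uu_le Q k i x) (norm_nonneg _) (norm_uu_le Q l j x)

/-- `∫ |u_k(x)⟩⟨u_k(x)| dσ = 4π/(Q+1)` -/
theorem avg_matrix_sphere (Q : ℕ) (i j k : Fin (Q + 1)) :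
    ∫ x : S2, uu Q k x i * conj (uu Q k x j) ∂sg =
      if i = j then (4 * Real.pi : ℂ) * ((Q : ℂ) + 1)⁻¹ else 0 := by
  set A : Matrix (Fin (Q + 1)) (Fin (Q + 1)) ℂ := Matrix.of fun i j =>
    ∫ x : S2, uu Q k x i * conj (uu Q k x j) ∂sg with hA
  have hinv : ∀ g : Matrix (Fin 2) (Fin 2) ℂ, gᴴ * g = 1 → g.det = 1 →
      sp Q g * A * (sp Q g)ᴴ = A := by
    intro g hg hd
    ext i j
    have h1 : A i j = ∫ x : S2, uu Q k (rotS g hg x) i * conj (uu Q k (rotS g hg x) j) ∂sg := by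
      have h3 := integral_sphMap (rotE g hg) (fun x : S2 => uu Q k x i * conj (uu Q k x j))
      exact h3.symm
    rw [h1]
    have h2 : ∀ x : S2, uu Q k (rotS g hg x) i * conj (uu Q k (rotS g hg x) j) =
        ∑ a, ∑ b, sp Q g i a * conj (sp Q g j b) * (uu Q k x a * conj (uu Q k x b)) := by
      intro x
      obtain ⟨c, hc, h⟩ := uu_rot Q g hg hd x
      have e : ∀ i, uu Q k (rotS g hg x) i =
          (c ^ (Q - (k : ℕ)) * conj c ^ (k : ℕ)) * ∑ a, sp Q g i a * uu Q k x a := by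
        intro i
        rw [h k]
        rfl
      have hcc : ∀ n : ℕ, conj c ^ n * c ^ n = 1 := fun n => by rw [← mul_pow, hc, one_pow]
      rw [e i, e j, map_mul, map_sum, map_mul, map_pow, map_pow, Complex.conj_conj]
      have h3 : (c ^ (Q - (k : ℕ)) * conj c ^ (k : ℕ)) *
          (conj c ^ (Q - (k : ℕ)) * c ^ (k : ℕ)) = 1 := by
        linear_combination (conj c ^ (k : ℕ) * c ^ (k : ℕ)) * hcc (Q - (k : ℕ)) + hcc (k : ℕ)
      calc _ = (c ^ (Q - (k : ℕ)) * conj c ^ (k : ℕ)) *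
            (conj c ^ (Q - (k : ℕ)) * c ^ (k : ℕ)) * ((∑ a, sp Q g i a * uu Q k x a) *
            (∑ b, conj (sp Q g j b * uu Q k x b))) := by ring
        _ = _ := by
            rw [h3, one_mul, sum_mul_sum]
            refine sum_congr rfl fun a _ => sum_congr rfl fun b _ => ?_
            rw [map_mul]
            ring
    simp only [h2]
    rw [integral_finsetSum _ fun a _ => integrable_finsetSum _ fun b _ =>
      (integrable_uu_mul Q a b k k).const_mul _]
    rw [mul_apply]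
    simp only [mul_apply, sum_mul]
    rw [sum_comm]
    refine sum_congr rfl fun a _ => ?_
    rw [integral_finsetSum _ fun b _ => (integrable_uu_mul Q a b k k).const_mul _]
    refine sum_congr rfl fun b _ => ?_
    rw [integral_const_mul, conjTranspose_apply, Complex.star_def]
    simp only [hA, of_apply]
    ring
  obtain ⟨c, hc⟩ := schur (A := A) fun g hg hd => by
    have h1 := hinv g hg hd
    calc A * sp Q g = (sp Q g * A * (sp Q g)ᴴ) * sp Q g := by rw [h1]
      _ = sp Q g * A * ((sp Q g)ᴴ * sp Q g) := by simp only [Matrix.mul_assoc]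
      _ = sp Q g * A := by rw [sp_unitary Q hg, Matrix.mul_one]
  have htr : A.trace = 4 * Real.pi := by
    rw [trace]
    simp only [diag_apply, hA, of_apply]
    rw [← integral_finsetSum _ fun a _ => integrable_uu_mul Q a a k k]
    have h1 : ∀ x : S2, ∑ a, uu Q k x a * conj (uu Q k x a) = 1 := by
      intro x
      have := uu_orth Q k k x
      rw [if_pos rfl, dotProduct] at this
      rw [← this]
      exact sum_congr rfl fun a _ => by rw [Pi.star_apply, Complex.star_def, mul_comm]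
    simp only [h1]
    rw [integral_const, sg_real_univ]
    simp
  have hc1 : c = (4 * Real.pi : ℂ) * ((Q : ℂ) + 1)⁻¹ := by
    rw [hc, trace_smul, trace_one, Fintype.card_fin, smul_eq_mul] at htr
    push_cast at htr
    have hQ : ((Q : ℂ) + 1) ≠ 0 := by exact_mod_cast Nat.succ_ne_zero Q
    rw [← htr, mul_assoc, mul_inv_cancel₀ hQ, mul_one]
  have h1 : A i j = (c • (1 : Matrix (Fin (Q + 1)) (Fin (Q + 1)) ℂ)) i j := by rw [← hc]
  rw [show A i j = ∫ x : S2, uu Q k x i * conj (uu Q k x j) ∂sg from rfl] at h1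
  rw [h1, Matrix.smul_apply, one_apply, hc1, smul_eq_mul]
  split_ifs <;> simp

end sphere

end Crest.Agent.R340.CS809
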