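import Mathlib

/-!
# The P = 8 certificate for S0533: definitions and tables (helper132, R340)

Planar normalisation: `d_j = c_j / sqrt(j!)`, `w_q = ∑_{i<j, i+j=q+1} (j-i) d_j d_i`.
`dl j`, `wl q` are these operators on functions of finite sets of orbitals, in the coordinates
`f S = φ S * ∏_{i∈S} ν_i` in which they have integer coefficients.
Tables: `G8` entries `(p, n)`, `B8` entries `(q, j, q', j', n)`, `A8` entries `(q, s, q', s', n)`;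
common denominator 2048 (omitted); off-diagonal entries are listed once and their `n` contains the
factor 2.
-/

set_option autoImplicit false

namespace Crest.Agent.R340.Cert132

open Finset

/-- Jordan-Wigner sign. -/
def sgZ (j : ℕ) (T : Finset ℕ) : ℤ := (-1) ^ (T.filter (· < j)).card

/-- annihilator `d_j` on functions of finite sets of orbitals -/
def dl {K : Type*} [AddCommGroup K] (j : ℕ) (f : Finset ℕ → K) (T : Finset ℕ) : K :=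
  if j ∈ T then 0 else sgZ j T • f (insert j T)

/-- pair annihilator `w_q = ∑_{i<j, i+j=q+1} (j-i) d_j d_i` -/
def wl {K : Type*} [AddCommGroup K] (q : ℕ) (f : Finset ℕ → K) (T : Finset ℕ) : K :=
  ∑ i ∈ range (q / 2 + 1), ((q : ℤ) + 1 - 2 * i) • dl (q + 1 - i) (dl i f) T

/-- The local quadratic form of the tables `G`, `B`, `A` at the point `T`. -/
def form (G : List (ℕ × ℤ)) (B A : List (ℕ × ℕ × ℕ × ℕ × ℤ)) (f : Finset ℕ → ℝ) (T : Finset ℕ) : ℝ :=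
  (G.map fun x => (x.2 : ℝ) * (wl x.1 f T * wl x.1 f T)).sum +
  (B.map fun x => (x.2.2.2.2 : ℝ) *
    (dl x.2.1 (wl x.1 f) T * dl x.2.2.2.1 (wl x.2.2.1 f) T)).sum +
  (A.map fun x => (x.2.2.2.2 : ℝ) *
    (wl x.2.1 (wl x.1 f) T * wl x.2.2.2.1 (wl x.2.2.1 f) T)).sum

/-- Positivity of the local form on the orbitals `0, …, P`. -/
def PSD (P : ℕ) (G : List (ℕ × ℤ)) (B A : List (ℕ × ℕ × ℕ × ℕ × ℤ)) : Prop :=
  ∀ f : Finset ℕ → ℝ, 0 ≤ ∑ T ∈ (range (P + 1)).powerset,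
    ((∏ i ∈ T, i.factorial : ℕ) : ℝ) * form G B A f T

/-- The tables only contain operators of the orbitals `0, …, P`. -/
def Adm (P : ℕ) (G : List (ℕ × ℤ)) (B A : List (ℕ × ℕ × ℕ × ℕ × ℤ)) : Prop :=
  (∀ x ∈ G, x.1 < P) ∧ (∀ x ∈ B, x.1 < P ∧ x.2.1 ≤ P ∧ x.2.2.1 < P ∧ x.2.2.2.1 ≤ P) ∧
    ∀ x ∈ A, x.1 < P ∧ x.2.1 < P ∧ x.2.2.1 < P ∧ x.2.2.2.1 < P

def G8 : List (ℕ × ℤ) := [
  (0,957), (1,1), (2,39), (3,178), (4,613), (5,357), (6,689), (7,3923)]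

def B8 : List (ℕ × ℕ × ℕ × ℕ × ℤ) := [
  (0,2,0,2,-1454), (0,3,0,3,-101), (0,4,0,4,-7433), (0,4,1,3,6520), (0,5,0,5,-26639),
  (0,5,1,4,41442), (0,5,3,2,-6368), (0,6,0,6,-153013), (0,6,1,5,225920), (0,6,2,4,39520),
  (0,6,4,2,15816), (0,7,0,7,2789377), (0,7,1,6,3159306), (0,7,2,5,626362), (0,7,4,3,-350200),
  (0,7,6,1,-215952), (0,8,0,8,33472335), (0,8,1,7,20628114), (0,8,2,6,3979434), (0,8,3,5,-554312),
  (0,8,5,3,-131320), (0,8,7,1,-3202030), (1,3,1,3,458), (1,4,1,4,7452), (1,5,1,5,24508),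
  (1,5,4,2,1088), (1,6,1,6,490930), (1,6,4,3,-68346), (1,6,6,1,12112), (1,7,1,7,2725852),
  (1,7,5,3,51642), (1,7,7,1,-341736), (1,8,1,8,4450052), (1,8,4,5,94706), (1,8,6,3,414558),
  (1,8,7,2,-50046), (2,4,1,5,8654), (2,4,2,4,-274), (2,4,4,2,-1440), (2,5,1,6,280780),
  (2,5,2,5,41374), (2,5,4,3,-19392), (2,5,6,1,23614), (2,6,1,7,1527796), (2,6,2,6,269377),
  (2,6,3,5,32598), (2,6,5,3,-8420), (2,6,7,1,-5838), (2,7,1,8,2775664), (2,7,2,7,753363),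
  (2,7,3,6,88212), (2,7,4,5,-232346), (2,7,6,3,189550), (2,7,7,2,-155206), (2,8,2,8,1727573),
  (2,8,3,7,5566270), (2,8,4,6,4747338), (2,8,5,5,2496896), (2,8,6,4,955916), (2,8,7,3,-45920),
  (3,2,1,4,-4584), (3,2,3,2,233), (3,5,1,7,224798), (3,5,3,5,11629), (3,5,5,3,-31018),
  (3,5,7,1,38296), (3,6,1,8,754022), (3,6,3,6,-5994), (3,6,4,5,46192), (3,6,6,3,-44232),
  (3,6,7,2,-11422), (3,7,3,7,2758205), (3,7,4,6,5200416), (3,7,5,5,3137758), (3,7,6,4,1033986),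
  (3,7,7,3,-35840), (3,8,3,8,979145), (3,8,4,7,5792758), (3,8,5,6,346676), (3,8,6,5,2778522),
  (3,8,7,4,1086164), (4,2,4,2,-1328), (4,3,4,3,1760), (4,3,6,1,2486), (4,5,4,5,-23769),
  (4,5,6,3,-30708), (4,5,7,2,22526), (4,6,4,6,2332081), (4,6,5,5,2920640), (4,6,6,4,1173574),
  (4,6,7,3,22296), (4,7,4,7,699394), (4,7,5,6,3492908), (4,7,6,5,2418218), (4,7,7,4,519362),
  (4,8,4,8,6469523), (4,8,5,7,2869412), (4,8,6,6,6169902), (4,8,7,5,3077442), (5,3,5,3,2450),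
  (5,3,7,1,2498), (5,5,5,5,837678), (5,6,5,6,1663156), (5,6,6,5,843164), (5,6,7,4,57796),
  (5,7,5,7,2485264), (5,7,6,6,5613228), (5,7,7,5,138650), (5,8,5,8,1332692), (5,8,6,7,23908758),
  (5,8,7,6,14520034), (6,1,6,1,5764), (6,3,6,3,18338), (6,3,7,2,-13068), (6,4,5,5,621368),
  (6,4,6,4,111529), (6,4,7,3,9282), (6,5,6,5,449183), (6,6,6,6,3099987), (6,7,6,7,6980086),
  (6,7,7,6,11035720), (6,8,6,8,19791392), (6,8,7,7,-12377892), (7,1,7,1,34742), (7,2,7,2,2195),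
  (7,3,5,5,1144), (7,3,7,3,-16680), (7,4,6,5,549252), (7,4,7,4,195835), (7,5,6,6,-1177228),
  (7,5,7,5,43287), (7,6,7,6,610417), (7,7,7,7,360399), (7,8,7,8,-57368866)]

def A8 : List (ℕ × ℕ × ℕ × ℕ × ℤ) := [
  (0,7,0,7,-110310), (0,7,2,5,19298), (1,4,1,4,476), (1,5,1,5,673), (1,7,1,7,-75810),
  (2,2,2,2,345), (2,5,2,5,985), (2,6,1,7,-35296), (2,6,2,6,-2428), (2,7,2,7,714386),
  (2,7,4,5,2460130), (3,3,1,5,1150), (3,3,3,3,1033), (3,6,2,7,2056050), (3,6,3,6,1449498),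
  (3,6,4,5,3416506), (3,7,3,7,304383), (3,7,4,6,581124), (4,4,1,7,-11654), (4,4,2,6,1788),
  (4,4,4,4,3067), (4,5,4,5,2021110), (4,6,4,6,286904), (4,7,4,7,255483), (4,7,5,6,349230),
  (5,5,3,7,397894), (5,5,4,6,342948), (5,5,5,5,125197), (5,6,5,6,210771), (5,7,5,7,2565545),
  (6,6,5,7,1077672), (6,6,6,6,189433), (6,7,6,7,15686671), (7,7,7,7,20207590)]

set_option maxRecDepth 20000 in
theorem adm : Adm 8 G8 B8 A8 := by
  unfold Adm
  decide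

end Crest.Agent.R340.Cert132
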