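import Crest.Agent.R340.PD3_757
import Crest.Agent.R340.CS3_809
import Crest.Agent.R340.Avg_814

/-!
# R340 (helper757): the frame of rotated orbitals over `U2` with Haar measure

`ub Q g : OrthonormalBasis (Fin (Q+1)) ℂ (L (Fin (Q+1)))`, `ub Q g k = sp Q g e_k`;
`tq g h = 1 - ov g h`; `frm Q : Frm hm Q (ub Q) tq (dQ Q)`.
-/

set_option autoImplicit false
set_option linter.unusedSectionVars false

namespace Crest.Agent.R340.PD757

open Finset MeasureTheory Matrix Crest.Agent.R340.QL331 Crest.Agent.R340.CS809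
  Crest.Agent.R340.Fock649 Crest.Agent.R340.Avg814 Crest.Agent.R340.Rot303

noncomputable section

/-- the `k`-th orbital about `g` -/
def uk (Q : ℕ) (g : Matrix (Fin 2) (Fin 2) ℂ) (k : Fin (Q + 1)) : L (Fin (Q + 1)) :=
  WithLp.toLp 2 fun i => sp Q g i k

theorem uk_apply (Q : ℕ) (g : Matrix (Fin 2) (Fin 2) ℂ) (k i : Fin (Q + 1)) :
    uk Q g k i = sp Q g i k := rfl

theorem inner_uk (Q : ℕ) (g h : Matrix (Fin 2) (Fin 2) ℂ) (k l : Fin (Q + 1)) :
    (inner ℂ (uk Q g k) (uk Q h l) : ℂ) = sp Q (gᴴ * h) k l := by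
  rw [inner_eq_sum, sp_mul, ← sp_conjTranspose, Matrix.mul_apply]
  rfl

theorem uk_orthonormal (Q : ℕ) (g : U2) :
    Orthonormal ℂ (uk Q (g : Matrix (Fin 2) (Fin 2) ℂ)) := by
  rw [orthonormal_iff_ite]
  intro i j
  rw [inner_uk, U2_ct_mul, sp_one, Matrix.one_apply]

/-- the orthonormal basis of orbitals about `g` -/
def ub (Q : ℕ) (g : U2) : OrthonormalBasis (Fin (Q + 1)) ℂ (L (Fin (Q + 1))) :=
  OrthonormalBasis.mk (uk_orthonormal Q g) (by
    rw [LinearIndependent.span_eq_top_of_card_eq_finrank' (uk_orthonormal Q g).linearIndependent]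
    simp)

@[simp] theorem ub_apply (Q : ℕ) (g : U2) (k : Fin (Q + 1)) :
    ub Q g k = uk Q (g : Matrix (Fin 2) (Fin 2) ℂ) k := by
  unfold ub; rw [OrthonormalBasis.coe_mk]

/-- squared chordal distance / 4 -/
def tq (g h : U2) : ℝ := 1 - ov g h

theorem tq_nonneg (g h : U2) : 0 ≤ tq g h := by unfold tq; linarith [ov_le_one g h]
theorem tq_le_one (g h : U2) : tq g h ≤ 1 := by unfold tq; linarith [ov_nonneg g h]

theorem tq_eq (g h : U2) :
    tq g h = ‖((g : Matrix (Fin 2) (Fin 2) ℂ)ᴴ * (h : Matrix (Fin 2) (Fin 2) ℂ)) 0 1‖ ^ 2 := by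
  have h1 := ent_row0 (rel_unit g h)
  unfold tq ov
  linarith

theorem norm_sp_zero_sq (Q : ℕ) (g h : U2) (j : Fin (Q + 1)) :
    ‖sp Q ((g : Matrix (Fin 2) (Fin 2) ℂ)ᴴ * (h : Matrix (Fin 2) (Fin 2) ℂ)) 0 j‖ ^ 2 =
      bw Q j (tq g h) := by
  rw [sp_zero_j, norm_mul, norm_sb, norm_mul, norm_pow, norm_pow, mul_pow, sb_sq, mul_pow,
    ← pow_mul, ← pow_mul, mul_comm _ 2, mul_comm _ 2, pow_mul, pow_mul]
  have h1 : ‖((g : Matrix (Fin 2) (Fin 2) ℂ)ᴴ * (h : Matrix (Fin 2) (Fin 2) ℂ)) 0 0‖ ^ 2 =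
      1 - tq g h := by unfold tq ov; ring
  rw [h1, ← tq_eq]
  unfold bw
  ring

theorem continuous_ov_left (w : U2) : Continuous fun z : U2 => ov z w := by
  unfold ov
  have h1 : Continuous fun z : U2 => ((z : Matrix (Fin 2) (Fin 2) ℂ)ᴴ *
      (w : Matrix (Fin 2) (Fin 2) ℂ)) 0 0 := by
    have h2 : Continuous fun z : U2 => ((z : Matrix (Fin 2) (Fin 2) ℂ)ᴴ *
      (w : Matrix (Fin 2) (Fin 2) ℂ)) :=
      (continuous_subtype_val.matrix_conjTranspose).matrix_mul continuous_const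
    exact (continuous_apply_apply 0 0).comp h2
  exact h1.norm.pow 2

theorem continuous_tq_left (w : U2) : Continuous fun z : U2 => tq z w :=
  continuous_const.sub (continuous_ov_left w)

theorem mom_zero (Q : ℕ) (j : Fin (Q + 1)) :
    ∫ g : U2, ‖sp Q (g : Matrix (Fin 2) (Fin 2) ℂ) 0 j‖ ^ 2 ∂hm = 1 / ((Q:ℝ) + 1) := by
  have h := schur Q 0 j 0 j
  rw [if_pos ⟨rfl, rfl⟩] at h
  have h1 : ∫ g : U2, sp Q (g : Matrix (Fin 2) (Fin 2) ℂ) 0 j *
      star (sp Q (g : Matrix (Fin 2) (Fin 2) ℂ) 0 j) ∂hm =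
      ((∫ g : U2, ‖sp Q (g : Matrix (Fin 2) (Fin 2) ℂ) 0 j‖ ^ 2 ∂hm : ℝ) : ℂ) := by
    refine Eq.trans (integral_congr_ae (Filter.Eventually.of_forall fun g => ?_))
      (integral_ofReal (𝕜 := ℂ) (μ := hm)
        (f := fun g : U2 => ‖sp Q (g : Matrix (Fin 2) (Fin 2) ℂ) 0 j‖ ^ 2))
    simp only [Complex.star_def, Complex.mul_conj']
    push_cast; rfl
  have h2 : ((∫ g : U2, ‖sp Q (g : Matrix (Fin 2) (Fin 2) ℂ) 0 j‖ ^ 2 ∂hm : ℝ) : ℂ) =
      ((1 / ((Q:ℝ) + 1) : ℝ) : ℂ) := by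
    rw [← h1]
    refine h.trans ?_
    push_cast; rw [one_div]
  exact_mod_cast h2

theorem tau_tq (w : U2) : Tau hm fun z => tq z w where
  fin := inferInstance
  meas := (continuous_tq_left w).measurable
  nonneg z := tq_nonneg z w
  le_one z := tq_le_one z w
  mom Q j hj := by
    have h1 : ∀ z : U2, bw Q j (tq z w) =
        ‖sp Q (((star z) * w : U2) : Matrix (Fin 2) (Fin 2) ℂ) 0 ⟨j, Nat.lt_succ_of_le hj⟩‖ ^ 2 := by
      intro z
      exact (norm_sp_zero_sq Q z w ⟨j, Nat.lt_succ_of_le hj⟩).symm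
    simp_rw [h1]
    have h2 := Crest.Agent.R124.Haar.integral_star' (N := Fin 2)
      (fun z : U2 => ‖sp Q (((star z) * w : U2) : Matrix (Fin 2) (Fin 2) ℂ) 0
        ⟨j, Nat.lt_succ_of_le hj⟩‖ ^ 2)
    simp only [star_star] at h2
    have h3 := Crest.Agent.R124.Haar.integral_mul_right' (N := Fin 2)
      (fun z : U2 => ‖sp Q (z : Matrix (Fin 2) (Fin 2) ℂ) 0 ⟨j, Nat.lt_succ_of_le hj⟩‖ ^ 2) w
    exact (h2.symm.trans h3).trans (mom_zero Q ⟨j, Nat.lt_succ_of_le hj⟩)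

theorem continuous_uk (Q : ℕ) (k : Fin (Q + 1)) :
    Continuous fun g : U2 => uk Q (g : Matrix (Fin 2) (Fin 2) ℂ) k := by
  unfold uk
  refine (PiLp.continuous_toLp 2 _).comp ?_
  exact continuous_pi fun i => continuous_sp_entry Q i k

theorem frm_int (Q : ℕ) (k : Fin (Q + 1)) (v : L (Fin (Q + 1))) :
    Integrable (fun z : U2 => (inner ℂ (uk Q (z : Matrix (Fin 2) (Fin 2) ℂ) k) v : ℂ) •
      uk Q (z : Matrix (Fin 2) (Fin 2) ℂ) k) hm := by
  refine Crest.Agent.R124.Haar.integrable_of_cont (N := Fin 2) ?_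
  exact (Continuous.inner (𝕜 := ℂ) (continuous_uk Q k) continuous_const).smul (continuous_uk Q k)

/-- coherent resolution of the identity, for every orbital -/
theorem resolution (Q : ℕ) (k : Fin (Q + 1)) (v : L (Fin (Q + 1))) :
    ((Q : ℝ) + 1) • ∫ z : U2, (inner ℂ (uk Q (z : Matrix (Fin 2) (Fin 2) ℂ) k) v : ℂ) •
      uk Q (z : Matrix (Fin 2) (Fin 2) ℂ) k ∂hm = v := by
  have hint := frm_int Q k v
  have hQ : ((Q:ℂ) + 1) ≠ 0 := by exact_mod_cast (Nat.succ_ne_zero Q)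
  ext i
  have h1 : (((Q : ℝ) + 1) • ∫ z : U2, (inner ℂ (uk Q (z : Matrix (Fin 2) (Fin 2) ℂ) k) v : ℂ) •
      uk Q (z : Matrix (Fin 2) (Fin 2) ℂ) k ∂hm) i = ((Q : ℂ) + 1) * ∫ z : U2,
      ((inner ℂ (uk Q (z : Matrix (Fin 2) (Fin 2) ℂ) k) v : ℂ) •
      uk Q (z : Matrix (Fin 2) (Fin 2) ℂ) k) i ∂hm := by
    have h2 := ContinuousLinearMap.integral_comp_comm
      (EuclideanSpace.proj i : EuclideanSpace ℂ (Fin (Q + 1)) →L[ℂ] ℂ) hint
    have h3 : (((Q : ℝ) + 1) • ∫ z : U2, (inner ℂ (uk Q (z : Matrix (Fin 2) (Fin 2) ℂ) k) v : ℂ) •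
      uk Q (z : Matrix (Fin 2) (Fin 2) ℂ) k ∂hm) i = ((Q : ℂ) + 1) *
      (∫ z : U2, (inner ℂ (uk Q (z : Matrix (Fin 2) (Fin 2) ℂ) k) v : ℂ) •
      uk Q (z : Matrix (Fin 2) (Fin 2) ℂ) k ∂hm) i := by
      rw [PiLp.smul_apply, Complex.real_smul]; push_cast; rfl
    rw [h3]
    congr 1
    exact h2.symm
  rw [h1]
  have h4 : ∀ z : U2, ((inner ℂ (uk Q (z : Matrix (Fin 2) (Fin 2) ℂ) k) v : ℂ) •
      uk Q (z : Matrix (Fin 2) (Fin 2) ℂ) k) i =
      ∑ j, v j * (star (sp Q (z : Matrix (Fin 2) (Fin 2) ℂ) j k) *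
        sp Q (z : Matrix (Fin 2) (Fin 2) ℂ) i k) := by
    intro z
    rw [PiLp.smul_apply, inner_eq_sum, smul_eq_mul, Finset.sum_mul]
    refine Finset.sum_congr rfl fun j _ => ?_
    rw [uk_apply, uk_apply]
    change star _ * _ * _ = _
    ring
  simp_rw [h4]
  have hi : ∀ j : Fin (Q + 1), Integrable (fun z : U2 =>
      v j * (star (sp Q (z : Matrix (Fin 2) (Fin 2) ℂ) j k) *
        sp Q (z : Matrix (Fin 2) (Fin 2) ℂ) i k)) hm := by
    intro j
    refine Integrable.const_mul (Crest.Agent.R124.Haar.integrable_of_cont (N := Fin 2) ?_) _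
    exact (continuous_sp_entry Q _ k).star.mul (continuous_sp_entry Q i k)
  rw [integral_finsetSum _ fun j _ => hi j]
  · have h5 : ∀ j, ∫ z : U2, v j * (star (sp Q (z : Matrix (Fin 2) (Fin 2) ℂ) j k) *
        sp Q (z : Matrix (Fin 2) (Fin 2) ℂ) i k) ∂hm =
        v j * (if j = i ∧ k = k then ((Q : ℂ) + 1)⁻¹ else 0) := by
      intro j
      rw [integral_const_mul]
      exact congrArg _ (schur' Q j k i k)
    rw [Finset.sum_congr rfl fun j _ => h5 j, Finset.sum_eq_single i]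
    · rw [if_pos ⟨rfl, rfl⟩]
      field_simp
    · intro j _ hj
      rw [if_neg (fun h => hj h.1), mul_zero]
    · intro h; exact absurd (Finset.mem_univ i) h

/-- **the frame** -/
theorem frm (Q : ℕ) : Frm hm Q (ub Q) tq (dQ Q) where
  tau := tau_tq
  ov0 z w j := by
    rw [ub_apply, ub_apply, inner_uk]
    exact norm_sp_zero_sq Q z w j
  int v := by simpa only [ub_apply] using frm_int Q 0 v
  res v := by simpa only [ub_apply] using resolution Q 0 v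
  Dnn := dQ_nonneg Q
  Dlo z w := by
    have h := dQ_sq Q z w
    have h0 := dQ_nonneg Q z w
    have h1 := mul_nonneg (Nat.cast_nonneg (α := ℝ) Q) (tq_nonneg z w)
    unfold tq at *
    nlinarith
  Dup z w := by
    have h := dQ_sq Q z w
    have h0 := dQ_nonneg Q z w
    unfold tq at *
    nlinarith [sq_nonneg (dQ Q z w - 4)]
  symm := dQ_comm Q
  tri x y z := dQ_triangle Q x y z

end

end Crest.Agent.R340.PD757
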