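import Crest.Agent.R340.LocT8_163
import Crest.Agent.R340.GG_467
import Crest.Agent.R340.GeoM_986

/-!
helper163, R340 orphan O2, part 9: order statement, kernel and gap of `HT t Q`.
-/

set_option autoImplicit false
set_option linter.unusedSectionVars false

open scoped BigOperators ENNReal InnerProductSpace ComplexConjugate Matrix
open MeasureTheory

namespace Crest.Agent.R340.LocT163

open Crest.Agent.R340.Fock649 Crest.Agent.R340.LR667 Crest.Agent.R340.CS809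
open Crest.Agent.R340.Avg814 Crest.Agent.R340.Rot303
open Crest.Agent.R340.Geo986 (nu0 nuT pairs bz bcoef res PosM Zs mem_pairs GapG posM_nuT mem_Zs_iff
  Bg_apply)
open Crest.Agent.R340.PV341 (Adm G Gf half nrm aa xx beta dd mem_half)
open Finset (range sum_congr sum_le_sum mul_sum sum_eq_zero single_le_sum mem_range)
open Crest.Agent.R340.GG467 (pj pj_mem pj_of_mem star_pj)

theorem re_inner_HT {Q : ℕ} (hQ : 1 ≤ Q) (t : Fin 3 → ℝ) (x : Fk (Fin (Q + 1))) :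
    (⟪x, HT t Q x⟫_ℂ).re = ∑ p ∈ range (2 * Q), hh t Q p * ‖Geo986.Bg (nuT t Q) Q p x‖ ^ 2 := by
  rw [HT_eq_sum hQ t, sum_ap, inner_sum, Complex.re_sum]
  refine sum_congr rfl fun p _ => ?_
  rw [smul_ap, inner_smul_right, Complex.re_ofReal_mul, inner_star_mul_self,
    ← Complex.ofReal_pow, Complex.ofReal_re]

theorem Bg_zero_ap (ν : ℕ → ℝ) (Q : ℕ) (x : Fk (Fin (Q + 1))) : Geo986.Bg ν Q 0 x = 0 := by
  rw [Bg_zero_ring]; rfl

/-- two-sided order comparison of `HT` with the pair Hamiltonian of the metric -/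
theorem HT_bounds : ∃ c C : ℝ, 0 < c ∧ c ≤ C ∧ ∀ (t : Fin 3 → ℝ), Adm t → ∀ Q : ℕ, 1 ≤ Q →
    ∀ x : Fk (Fin (Q + 1)),
      c * ∑ p ∈ range (2 * Q), ‖Geo986.Bg (nuT t Q) Q p x‖ ^ 2 ≤ (⟪x, HT t Q x⟫_ℂ).re ∧
      (⟪x, HT t Q x⟫_ℂ).re ≤ C * ∑ p ∈ range (2 * Q), ‖Geo986.Bg (nuT t Q) Q p x‖ ^ 2 := by
  obtain ⟨c, C, hc, hcC, h⟩ := hh_bounds
  refine ⟨c, C, hc, hcC, fun t ht Q hQ x => ?_⟩
  rw [re_inner_HT hQ]
  constructor
  · rw [mul_sum]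
    refine sum_le_sum fun p hp => ?_
    rcases Nat.eq_zero_or_pos p with rfl | hp0
    · rw [Bg_zero_ap]; simp
    · exact mul_le_mul_of_nonneg_right (h t ht Q p hp0 (by rw [mem_range] at hp; omega)).1
        (sq_nonneg _)
  · rw [mul_sum]
    refine sum_le_sum fun p hp => ?_
    rcases Nat.eq_zero_or_pos p with rfl | hp0
    · rw [Bg_zero_ap]; simp
    · exact mul_le_mul_of_nonneg_right (h t ht Q p hp0 (by rw [mem_range] at hp; omega)).2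
        (sq_nonneg _)

theorem HT_apply_eq_zero {t : Fin 3 → ℝ} {Q : ℕ} (hQ : 1 ≤ Q) {x : Fk (Fin (Q + 1))}
    (hx : x ∈ Zs (nuT t Q) Q) : HT t Q x = 0 := by
  rw [HT_eq_sum hQ t, sum_ap]
  refine sum_eq_zero fun p _ => ?_
  rw [smul_ap, mul_ap, Bg_apply, hx p, smul_zero, map_zero, smul_zero]

theorem HT_ker {t : Fin 3 → ℝ} (ht : Adm t) {Q : ℕ} (hQ : 1 ≤ Q) {x : Fk (Fin (Q + 1))} :
    HT t Q x = 0 ↔ x ∈ Zs (nuT t Q) Q := by
  refine ⟨fun h => ?_, HT_apply_eq_zero hQ⟩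
  obtain ⟨c, C, hc, hcC, hB⟩ := HT_bounds
  have h1 := (hB t ht Q hQ x).1
  rw [h, inner_zero_right, Complex.zero_re] at h1
  have h2 : ∑ p ∈ range (2 * Q), ‖Geo986.Bg (nuT t Q) Q p x‖ ^ 2 ≤ 0 := by
    by_contra h3
    push Not at h3
    nlinarith [mul_pos hc h3]
  rw [mem_Zs_iff (posM_nuT t Q)]
  intro p hp
  have h3 : ‖Geo986.Bg (nuT t Q) Q p x‖ ^ 2 ≤ 0 :=
    (single_le_sum (f := fun p => ‖Geo986.Bg (nuT t Q) Q p x‖ ^ 2) (fun _ _ => sq_nonneg _) hp).trans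
      h2
  have h4 : ‖Geo986.Bg (nuT t Q) Q p x‖ = 0 := by
    have := sq_nonneg ‖Geo986.Bg (nuT t Q) Q p x‖
    exact pow_eq_zero_iff (two_ne_zero) |>.1 (le_antisymm h3 this)
  exact norm_eq_zero.1 h4

theorem HT_mul_pj {t : Fin 3 → ℝ} {Q : ℕ} (hQ : 1 ≤ Q) : HT t Q * pj (Zs (nuT t Q) Q) = 0 :=
  Op.ext fun v => by rw [mul_ap, zero_ap]; exact HT_apply_eq_zero hQ (pj_mem _ v)

theorem bT_mul_pj {t : Fin 3 → ℝ} {Q : ℕ} (hQ : 1 ≤ Q) (g : U2) :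
    bT t Q g * pj (Zs (nuT t Q) Q) = 0 :=
  Op.ext fun v => by rw [mul_ap, zero_ap]; exact bT_mul_eq_zero hQ t g (pj_mem _ v)

/-- form gap of `HT` above the zero modes -/
theorem gap_HT : ∃ c : ℝ, 0 < c ∧ ∀ (t : Fin 3 → ℝ), Adm t → ∀ Q : ℕ, 1 ≤ Q → ∀ γ : ℝ,
    GapG (nuT t Q) Q γ → ∀ x : Fk (Fin (Q + 1)),
      c * γ * ‖x - pj (Zs (nuT t Q) Q) x‖ ^ 2 ≤ (⟪x, HT t Q x⟫_ℂ).re := by
  obtain ⟨c, C, hc, hcC, hB⟩ := HT_bounds
  refine ⟨c, hc, fun t ht Q hQ γ hγ x => ?_⟩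
  set P := pj (Zs (nuT t Q) Q) with hP
  have h0 : HT t Q (x - P x) = HT t Q x := by
    have : HT t Q (x - P x) = HT t Q x - HT t Q (P x) := (HT t Q).ap.map_sub x (P x)
    rw [this, HT_apply_eq_zero hQ (pj_mem _ x), sub_zero]
  have h1 : (⟪x - P x, HT t Q (x - P x)⟫_ℂ) = ⟪x, HT t Q x⟫_ℂ := by
    rw [h0, inner_sub_left]
    have : ⟪P x, HT t Q x⟫_ℂ = 0 := by
      have hs : star (HT t Q) = HT t Q := isSelfAdjoint_HT t Q
      rw [← hs, inner_star_right, HT_apply_eq_zero hQ (pj_mem _ x), inner_zero_left]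
    rw [this, sub_zero]
  have h2 : ∀ z ∈ Zs (nuT t Q) Q, ⟪z, x - P x⟫_ℂ = 0 := by
    intro z hz
    have hz' : P z = z := pj_of_mem hz
    have hs : star P = P := star_pj _
    have : ⟪z, P x⟫_ℂ = ⟪z, x⟫_ℂ := by
      conv_lhs => rw [← hs]
      rw [inner_star_right, hz']
    rw [inner_sub_right, this, sub_self]
  have h3 := hγ _ h2
  have h4 := (hB t ht Q hQ (x - P x)).1
  rw [h1] at h4
  calc c * γ * ‖x - P x‖ ^ 2 = c * (γ * ‖x - P x‖ ^ 2) := by ring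
    _ ≤ _ := (mul_le_mul_of_nonneg_left h3 hc.le).trans h4

end Crest.Agent.R340.LocT163
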