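import Crest.Agent.R340.Tth3_927
import Crest.Agent.R340.LocT9_163
import Crest.Agent.R340.FX2_963

/-!
# R340 (helper163): filters of `HT t Q` preserve the classes `PC` and `DY`

`HT_comm_Nh`, `PC_tau`, `PC_Fl`, `PC_SS` (same exponent, constants uniform in `Q ≥ 1`, `Adm t`,
centre `g`), `DY_SS`, `DY_Fl` (exponent loss 4).
-/

set_option autoImplicit false
set_option linter.unusedSectionVars false

open MeasureTheory
open scoped ENNReal Matrix

namespace Crest.Agent.R340.ClsT163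

open Crest.Agent.R340.CS809 Crest.Agent.R340.Fock649 Crest.Agent.R340.FI331
  Crest.Agent.R340.LR667 Crest.Agent.R340.Avg814 Crest.Agent.R340.QL331
open Crest.Agent.R340.LocT163 (nuQ muQ HT bT kT vT Bv pb uF vF)
open Crest.Agent.R340.PV341 (Adm)
open Crest.Agent.R340.Filt867 (EvoHyp cPoly cPoly_nonneg cEvo mom mom_nonneg)
open Crest.Agent.R340.PD757 (Kn Ks)
open Crest.Agent.R340.Tth927 (C12 evoHyp_theta)
open Crest.Agent.R340.FX963 (DY KX KB)

/-! ### particle number -/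

theorem Nh_mul_pb {ι : Type*} [Fintype ι] [LinearOrder ι] (v1 v0 : L ι) :
    Nh * pb v1 v0 = pb v1 v0 * Nh - 2 * pb v1 v0 := by
  have h1 : Nh * an v1 = an v1 * Nh - an v1 := by
    have := Nh_comm_an v1
    rw [sub_eq_iff_eq_add] at this
    rw [this]; abel
  have h0 : Nh * an v0 = an v0 * Nh - an v0 := by
    have := Nh_comm_an v0
    rw [sub_eq_iff_eq_add] at this
    rw [this]; abel
  unfold LocT163.pb
  calc Nh * (an v1 * an v0) = (Nh * an v1) * an v0 := by rw [mul_assoc]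
    _ = an v1 * (Nh * an v0) - an v1 * an v0 := by rw [h1, sub_mul, mul_assoc]
    _ = an v1 * an v0 * Nh - 2 * (an v1 * an v0) := by
        rw [h0, mul_sub, ← mul_assoc, two_mul]; abel

theorem Nh_mul_star_pb {ι : Type*} [Fintype ι] [LinearOrder ι] (v1 v0 : L ι) :
    Nh * star (pb v1 v0) = star (pb v1 v0) * Nh + 2 * star (pb v1 v0) := by
  have h := congrArg star (Nh_mul_pb v1 v0)
  have hN : star (Nh : Op ι) = Nh := by
    unfold Nh; rw [star_dG, Matrix.conjTranspose_one]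
  have h2 : star ((2 : Op ι)) = 2 := by simp
  rw [star_sub, star_mul, star_mul, star_mul, hN, h2] at h
  have h3 : star (pb v1 v0) * 2 = 2 * star (pb v1 v0) := by rw [mul_two, two_mul]
  rw [h3] at h
  rw [h]; abel

theorem comm_pbb_Nh {ι : Type*} [Fintype ι] [LinearOrder ι] (v1 v0 : L ι) :
    Commute (star (pb v1 v0) * pb v1 v0) (Nh : Op ι) := by
  show star (pb v1 v0) * pb v1 v0 * Nh = Nh * (star (pb v1 v0) * pb v1 v0)
  have h1 := Nh_mul_pb v1 v0
  have h2 := Nh_mul_star_pb v1 v0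
  have h3 : star (pb v1 v0) * (2 * pb v1 v0) = 2 * star (pb v1 v0) * pb v1 v0 := by
    rw [two_mul, two_mul, mul_add, add_mul]
  calc star (pb v1 v0) * pb v1 v0 * Nh = star (pb v1 v0) * (Nh * pb v1 v0 + 2 * pb v1 v0) := by
        rw [h1, mul_assoc]; abel_nf
    _ = (star (pb v1 v0) * Nh + 2 * star (pb v1 v0)) * pb v1 v0 := by
        rw [mul_add, add_mul, ← mul_assoc, h3]
    _ = Nh * (star (pb v1 v0) * pb v1 v0) := by rw [← h2, mul_assoc]

theorem HT_comm_Nh {Q : ℕ} (hQ : 1 ≤ Q) (t : Fin 3 → ℝ) :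
    Commute (HT t Q) (Nh : Op (Fin (Q + 1))) := by
  have hi := Tth927.integrable_bb hQ t
  show HT t Q * _ = _ * HT t Q
  rw [LocT163.HT_eq, integral_mul_op hi, mul_integral_op hi]
  refine integral_congr_ae (Filter.Eventually.of_forall fun z => ?_)
  exact (comm_pbb_Nh _ _).eq

/-! ### profiles -/

/-- evolution constant of `HT`, exponent `m` -/
noncomputable def KE (m : ℕ) : ℝ := cEvo (vT 1) 1 C12 (4 * Kn (m + 7)) (2 * Ks m) m

theorem KE_nonneg (m : ℕ) : 0 ≤ KE m :=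
  (evoHyp_theta (Q := 1) le_rfl (t := fun _ => 0) (fun _ => ⟨le_rfl, by norm_num⟩) m).cEvo_nonneg

/-- constant of the filters `Fl w`, `SS w` on the class `PC` with exponent `m` -/
noncomputable def KF (w : ℝ → ℝ) (m : ℕ) : ℝ := mom w 1 + KE m * mom w (m + 10)

theorem KF_nonneg (w : ℝ → ℝ) (m : ℕ) : 0 ≤ KF w m := by
  have := KE_nonneg m
  have := mom_nonneg w 1
  have := mom_nonneg w (m + 10)
  unfold KF
  positivity

section

variable {Q : ℕ} {t : Fin 3 → ℝ} {X : Op (Fin (Q + 1))} {m : ℕ} {C : ℝ} {g : U2}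

theorem PC_nonneg (h : PC fcar (uf Q) (dQ Q) m C X g) : 0 ≤ C := (norm_nonneg _).trans h.1

/-- evolved operators stay in the class (polynomial growth in time) -/
theorem PC_tau (hQ : 1 ≤ Q) (ht : Adm t) (hX : (fcar : Car (Op (Fin (Q + 1))) _).Ev X)
    (h : PC fcar (uf Q) (dQ Q) m C X g) (s : ℝ) :
    PC fcar (uf Q) (dQ Q) m ((1 + KE m) * C * (1 + |s|) ^ (m + 9)) (tau (HT t Q) s X) g := by
  have h0 := PC_nonneg h
  have hK := KE_nonneg m
  have h1 : 1 ≤ (1 + |s|) ^ (m + 9) := one_le_pow₀ (by have := abs_nonneg s; linarith)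
  refine ⟨?_, fun k w => ?_⟩
  · rw [norm_tau (LocT163.isSelfAdjoint_HT t Q)]
    calc ‖X‖ ≤ C := h.1
      _ = 1 * C * 1 := by ring
      _ ≤ (1 + KE m) * C * (1 + |s|) ^ (m + 9) := by gcongr; linarith
  · have h2 := (evoHyp_theta hQ ht m).tau hX h0 h.2 s k w
    refine h2.trans ?_
    have hd : 0 < (1 + dQ Q w g) ^ m := by have := dQ_nonneg Q w g; positivity
    refine div_le_div_of_nonneg_right ?_ hd.le
    show KE m * C * (1 + |s|) ^ (m + 9) ≤ _
    gcongr
    linarith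

theorem PC_Fl (hQ : 1 ≤ Q) (ht : Adm t) {w : ℝ → ℝ} (hw : IsFilter w)
    (hX : (fcar : Car (Op (Fin (Q + 1))) _).Ev X) (h : PC fcar (uf Q) (dQ Q) m C X g) :
    PC fcar (uf Q) (dQ Q) m (KF w m * C) (Fl w (HT t Q) X) g := by
  have h0 := PC_nonneg h
  have hK := KE_nonneg m
  have h3 := mom_nonneg w (m + 10)
  have h1 := mom_nonneg w 1
  refine ⟨?_, fun k z => ?_⟩
  · refine (Filt867.norm_Fl_le_mom (LocT163.isSelfAdjoint_HT t Q) X).trans ?_
    have h4 := Filt867.mom_mono hw (Nat.zero_le 1)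
    have h2 := mom_nonneg w 0
    have hX' := h.1
    unfold KF
    calc ‖X‖ * mom w 0 ≤ C * mom w 1 := by gcongr
      _ = mom w 1 * C := by ring
      _ ≤ (mom w 1 + KE m * mom w (m + 10)) * C := by
        gcongr
        have : 0 ≤ KE m * mom w (m + 10) := by positivity
        linarith
  · have h2 := (evoHyp_theta hQ ht m).Fl hw hX h0 h.2 k z
    refine h2.trans ?_
    have hd : 0 < (1 + dQ Q z g) ^ m := by have := dQ_nonneg Q z g; positivity
    refine div_le_div_of_nonneg_right ?_ hd.le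
    have h5 := Filt867.mom_mono hw (Nat.le_succ (m + 9))
    show KE m * mom w (m + 9) * C ≤ KF w m * C
    unfold KF
    have h6 : KE m * mom w (m + 9) ≤ KE m * mom w (m + 10) := by gcongr
    exact mul_le_mul_of_nonneg_right (by linarith) h0

theorem PC_SS (hQ : 1 ≤ Q) (ht : Adm t) {w : ℝ → ℝ} (hw : IsFilter w)
    (hX : (fcar : Car (Op (Fin (Q + 1))) _).Ev X) (h : PC fcar (uf Q) (dQ Q) m C X g) :
    PC fcar (uf Q) (dQ Q) m (KF w m * C) (SS w (HT t Q) X) g := by
  have h0 := PC_nonneg h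
  have hK := KE_nonneg m
  have h3 := mom_nonneg w (m + 10)
  have h1 := mom_nonneg w 1
  refine ⟨?_, fun k z => ?_⟩
  · refine (Filt867.norm_SS_le_mom hw (LocT163.isSelfAdjoint_HT t Q) X).trans ?_
    have hX' := h.1
    unfold KF
    calc ‖X‖ * mom w 1 ≤ C * mom w 1 := by gcongr
      _ = mom w 1 * C := by ring
      _ ≤ (mom w 1 + KE m * mom w (m + 10)) * C := by
        gcongr
        have : 0 ≤ KE m * mom w (m + 10) := by positivity
        linarith
  · have h2 := (evoHyp_theta hQ ht m).SS hw hX h0 h.2 k z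
    refine h2.trans ?_
    have hd : 0 < (1 + dQ Q z g) ^ m := by have := dQ_nonneg Q z g; positivity
    refine div_le_div_of_nonneg_right ?_ hd.le
    show KE m * mom w (m + 10) * C ≤ KF w m * C
    unfold KF
    exact mul_le_mul_of_nonneg_right (by linarith) h0

/-- filters keep the particle number -/
theorem SS_comm_Nh (hQ : 1 ≤ Q) {w : ℝ → ℝ} (hw : IsFilter w)
    (hX : Commute X (Nh : Op (Fin (Q + 1)))) : Commute (SS w (HT t Q) X) (Nh : Op (Fin (Q + 1))) :=
  Filt867.SS_comm hw (LocT163.isSelfAdjoint_HT t Q) (HT_comm_Nh hQ t) hX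

theorem Fl_comm_Nh (hQ : 1 ≤ Q) {w : ℝ → ℝ} (hw : IsFilter w)
    (hX : Commute X (Nh : Op (Fin (Q + 1)))) : Commute (Fl w (HT t Q) X) (Nh : Op (Fin (Q + 1))) :=
  Filt867.Fl_comm hw (LocT163.isSelfAdjoint_HT t Q) (HT_comm_Nh hQ t) hX

/-- constant of the filters on the class `DY` -/
noncomputable def KDY (w : ℝ → ℝ) (k : ℕ) : ℝ := KB k * (KF w (k + 5) * KX (k + 5))

/-- **the filter `SS` preserves the flux-independent class** (exponent loss 4) -/
theorem DY_SS (hQ : 1 ≤ Q) (ht : Adm t) {w : ℝ → ℝ} (hw : IsFilter w) {k : ℕ}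
    (h : DY Q (k + 5) C X) : DY Q (k + 1) (KDY w k * C) (SS w (HT t Q) X) := by
  have h1 := PC_SS hQ ht hw (FX963.ev_of_comm_Nh h.comm) h.pc
  have h2 := DY.of_pc (SS_comm_Nh (t := t) hQ hw h.comm) h1
  have e : KB k * (KF w (k + 5) * (KX (k + 5) * C)) = KDY w k * C := by unfold KDY; ring
  rwa [e] at h2

/-- **the filter `Fl` preserves the flux-independent class** (exponent loss 4) -/
theorem DY_Fl (hQ : 1 ≤ Q) (ht : Adm t) {w : ℝ → ℝ} (hw : IsFilter w) {k : ℕ}
    (h : DY Q (k + 5) C X) : DY Q (k + 1) (KDY w k * C) (Fl w (HT t Q) X) := by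
  have h1 := PC_Fl hQ ht hw (FX963.ev_of_comm_Nh h.comm) h.pc
  have h2 := DY.of_pc (Fl_comm_Nh (t := t) hQ hw h.comm) h1
  have e : KB k * (KF w (k + 5) * (KX (k + 5) * C)) = KDY w k * C := by unfold KDY; ring
  rwa [e] at h2

end

end Crest.Agent.R340.ClsT163
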