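import Crest.Agent.R340.Defs_150
import Crest.Agent.R340.Conv1_102
import Crest.Agent.R340.RecE_735

/-!
# R340 (helper757): cross numbers of small profiles

`crs_H_le`: `|⟪off (TT (gm b) ψ), off (TT H ψ)⟫| ≤ 984 b CG M / (Q+2)² * ∑_{q<Q-1} prof a S q`
if `|dd H q| ≤ M dd (prof a S) q`; closed forms and absorption into `C f_Q / (S+Q)`.
-/

set_option autoImplicit false

namespace Crest.Agent.R340.CrsH757

open Finset
open Crest.Agent.R340.Fock649 Crest.Agent.R340.Geo986 Crest.Agent.R340.Peel596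
  Crest.Agent.R340.PathStep880 Crest.Agent.R340.Step596
open Crest.Agent.R340.PeelX596 (RC2 RX2)
open Crest.Agent.R340.Scal725
open Crest.Agent.R340.PV341 (Adm)

/-! ### 1. real sums -/

/-- `om Q q ≤ 4 (q+1)² / (Q+2)²` -/
theorem om_le {Q q : ℕ} (hq : q ≤ Q) :
    PSD716.om Q q ≤ 4 * ((q : ℝ) + 1) ^ 2 / ((Q : ℝ) + 2) ^ 2 := by
  have hqR : (q : ℝ) ≤ Q := by exact_mod_cast hq
  set x : ℝ := (q : ℝ) + 1 with hx
  set y : ℝ := (Q : ℝ) - q + 1 with hy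
  have hx0 : 0 < x := by positivity
  have hy0 : 0 < y := by rw [hy]; linarith
  have hxy : (Q : ℝ) + 2 = x + y := by rw [hx, hy]; ring
  have hdd : PSD716.dd Q q = min x y := rfl
  have h1 : min x y * (x + y) ≤ 2 * x * y := by
    rcases le_total x y with h | h
    · rw [min_eq_left h]; nlinarith
    · rw [min_eq_right h]; nlinarith
  have h2 : min x y / y ≤ 2 * x / (x + y) := by
    rw [div_le_div_iff₀ hy0 (by positivity)]
    exact h1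
  have h3 : 0 ≤ min x y / y := by
    have : 0 ≤ min x y := le_min hx0.le hy0.le
    positivity
  unfold PSD716.om
  rw [hdd, hxy]
  calc (min x y / y) ^ 2 ≤ (2 * x / (x + y)) ^ 2 := pow_le_pow_left₀ h3 h2 2
    _ = _ := by rw [div_pow]; ring

/-- summation by parts -/
theorem sum_sq_dd (f : ℕ → ℝ) (N : ℕ) :
    ∑ q ∈ range N, ((q : ℝ) + 1) ^ 2 * dd f q =
      2 * ∑ q ∈ range N, f q - f 0 - (2 * N - 1) * f N - (N : ℝ) ^ 2 * (f N - f (N + 1)) := by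
  induction N with
  | zero => simp
  | succ N ih =>
    rw [sum_range_succ, ih, sum_range_succ, dd]
    push_cast
    ring

theorem sum_sq_dd_le {f : ℕ → ℝ} (h0 : ∀ j, 0 ≤ f j) (ha : ∀ j, f (j + 1) ≤ f j) (N : ℕ) :
    ∑ q ∈ range N, ((q : ℝ) + 1) ^ 2 * dd f q ≤ 2 * ∑ q ∈ range N, f q := by
  rcases Nat.eq_zero_or_pos N with rfl | hN
  · simp
  rw [sum_sq_dd]
  have h1 := h0 0
  have h2 := h0 N
  have h3 := ha N
  have h4 : (1 : ℝ) ≤ N := by exact_mod_cast hN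
  have h5 : 0 ≤ (2 * (N : ℝ) - 1) * f N := by
    have : 0 ≤ 2 * (N : ℝ) - 1 := by linarith
    positivity
  have h6 : 0 ≤ (N : ℝ) ^ 2 * (f N - f (N + 1)) := by
    have : 0 ≤ f N - f (N + 1) := by linarith
    positivity
  linarith

/-- the geometry generator in the form needed by `cross_abs` -/
theorem dd_gm_abs_le {b Q p : ℕ} (hp : p < Q - 1) :
    |dd (gm b Q) p| ≤ 3 * b / ((Q : ℝ) - p + 1) ^ 2 := by
  rw [abs_of_nonneg (dd_gm_nonneg hp)]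
  refine (dd_gm_le hp).trans ?_
  have h2 : (2 : ℝ) ≤ (Q : ℝ) - p := by
    have h := two_le_arg hp 0
    simpa using h
  set y : ℝ := (Q : ℝ) - p with hy
  have hb : (0 : ℝ) ≤ b := Nat.cast_nonneg _
  rw [div_eq_mul_inv, ← div_eq_mul_inv, ← div_eq_mul_inv,
    div_le_div_iff₀ (by positivity) (by positivity)]
  have h3 : 4 * (y + 1) ^ 2 ≤ 9 * y ^ 2 := by nlinarith
  nlinarith [mul_le_mul_of_nonneg_left h3 hb]

/-! ### 2. the cross number -/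

theorem crs_H_le {Q : ℕ} (b : ℕ) (Z : Submodule ℂ (Fk (Fin (Q + 1)))) {ψ : Fk (Fin (Q + 1))}
    (h1 : TT Q (fun _ => 1) ψ ∈ Z) (hj : TT Q (fun j => (j : ℝ)) ψ ∈ Z) {CG m : ℝ} (hCG : 0 ≤ CG)
    (hm : 8 ≤ m)
    (hG : ∀ p < Q - 1, ∀ q < Q - 1,
      ‖inner ℂ (off Z (TT Q (kink (p + 1)) ψ)) (off Z (TT Q (kink (q + 1)) ψ))‖ ≤
        CG * (PSD716.dd Q p * Real.sqrt (PSD716.dd Q p)) * (1 + PSD716.DD Q p q) ^ (-m))
    {H : ℕ → ℝ} {M a S : ℝ} (hM : 0 ≤ M) (ha0 : 0 ≤ a) (hS : 0 ≤ S) (haS : a < S + 1)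
    (hH : ∀ q < Q - 1, |dd H q| ≤ M * dd (prof a S) q) :
    ‖inner ℂ (off Z (TT Q (gm b Q) ψ)) (off Z (TT Q H ψ))‖ ≤
      984 * b * CG * M / ((Q : ℝ) + 2) ^ 2 * ∑ q ∈ range (Q - 1), prof a S q := by
  have hT : ∀ f g : ℕ → ℝ, (∀ j ≤ Q, f j = g j) → TT Q f = TT Q g := fun f g h => TT_congr h
  rw [off_eq_sum (TT Q) hT Z h1 hj (gm b Q), off_eq_sum (TT Q) hT Z h1 hj H]
  have hDsymm : ∀ p q : ℕ, PSD716.DD Q p q = PSD716.DD Q q p := fun p q => PSD716.DD_symm Q p q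
  have hG' : ∀ p ∈ range (Q - 1), ∀ q ∈ range (Q - 1),
      ‖inner ℂ (off Z (TT Q (kink (p + 1)) ψ)) (off Z (TT Q (kink (q + 1)) ψ))‖ ≤
        CG * (PSD716.dd Q q * Real.sqrt (PSD716.dd Q q)) * (1 + PSD716.DD Q p q) ^ (-m) := by
    intro p hp q hq
    have h := hG q (mem_range.1 hq) p (mem_range.1 hp)
    rw [norm_inner_symm, hDsymm q p] at h
    exact h
  have h := PSD716.cross_abs (Q := Q) (range (Q - 1)) (range (Q - 1))
    (fun p hp => by have := mem_range.1 hp; omega) (fun p hp => by have := mem_range.1 hp; omega)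
    (fun p => off Z (TT Q (kink (p + 1)) ψ)) (dd (gm b Q)) (dd H) (3 * b) CG (by positivity) hCG
    m hm hG' (fun p hp => dd_gm_abs_le (mem_range.1 hp))
  refine h.trans ?_
  have hp0 : ∀ j, 0 ≤ prof a S j := fun j => (prof_pos hS haS j).le
  have hanti : ∀ j, prof a S (j + 1) ≤ prof a S j := fun j =>
    prof_antitone hS ha0 haS (Nat.le_succ j)
  have hsum : ∑ q ∈ range (Q - 1), |dd H q| * PSD716.om Q q ≤
      M * (4 / ((Q : ℝ) + 2) ^ 2) * (2 * ∑ q ∈ range (Q - 1), prof a S q) := by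
    calc ∑ q ∈ range (Q - 1), |dd H q| * PSD716.om Q q
        ≤ ∑ q ∈ range (Q - 1), M * (4 / ((Q : ℝ) + 2) ^ 2) *
            (((q : ℝ) + 1) ^ 2 * dd (prof a S) q) := by
          refine sum_le_sum fun q hq => ?_
          have hq' := mem_range.1 hq
          have h2 := hH q hq'
          have h3 := om_le (Q := Q) (q := q) (by omega)
          have h4 := PSD716.om_nonneg Q q
          have h5 := dd_prof_nonneg hS ha0 haS q
          calc |dd H q| * PSD716.om Q q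
              ≤ (M * dd (prof a S) q) * (4 * ((q : ℝ) + 1) ^ 2 / ((Q : ℝ) + 2) ^ 2) := by
                gcongr
            _ = _ := by ring
      _ = M * (4 / ((Q : ℝ) + 2) ^ 2) *
            ∑ q ∈ range (Q - 1), ((q : ℝ) + 1) ^ 2 * dd (prof a S) q := by rw [mul_sum]
      _ ≤ _ := by
          gcongr
          exact sum_sq_dd_le hp0 hanti _
  calc 41 * (3 * (b : ℝ)) * CG * ∑ q ∈ range (Q - 1), |dd H q| * PSD716.om Q q
      ≤ 41 * (3 * (b : ℝ)) * CG *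
        (M * (4 / ((Q : ℝ) + 2) ^ 2) * (2 * ∑ q ∈ range (Q - 1), prof a S q)) := by gcongr
    _ = _ := by ring

/-- closed form for `a < 1` -/
theorem sum_prof_le {a S : ℝ} (ha0 : 0 ≤ a) (ha1 : a < 1) (hS : 0 ≤ S) (Q : ℕ) :
    ∑ q ∈ range (Q - 1), prof a S q ≤ (S + Q) * prof a S Q / (1 - a) := by
  have h0 : ∀ j, 0 ≤ prof a S j := fun j => (prof_pos hS (by linarith) j).le
  have h1 : ∑ q ∈ range (Q - 1), prof a S q ≤ ∑ q ∈ range Q, prof a S q := by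
    apply sum_le_sum_of_subset_of_nonneg
    · intro j hj
      simp only [mem_range] at hj ⊢
      omega
    · intro j _ _; exact h0 j
  refine h1.trans ?_
  rw [le_div_iff₀ (by linarith)]
  have h2 := sum_prof (a := a) hS Q
  linarith

/-- **cross numbers of small profiles** in every geometry and every sector: constant
`984 b K M / (1-a)`. -/
theorem crs_le {K : ℝ} (hRC : Defs150.RC K) {Q : ℕ} (hQ : 1 ≤ Q) {t : Fin 3 → ℝ} (ht : Adm t)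
    (n b : ℕ) {ψ : Fk (Fin (Q + 1))} (hψ : ψ ∈ Zn (nuT t Q) Q n)
    {H : ℕ → ℝ} {M a S : ℝ} (hM : 0 ≤ M) (ha0 : 0 ≤ a) (ha1 : a < 1) (hS : 0 ≤ S)
    (hH : ∀ q, q + 2 ≤ Q → |dd H q| ≤ M * dd (prof a S) q) :
    ‖inner ℂ (off (Zn (nuT t Q) Q n) (TT Q (gm b Q) ψ))
        (off (Zn (nuT t Q) Q n) (TT Q H ψ))‖ ≤
      984 * b * K * M / (1 - a) * ((S + Q) * prof a S Q / ((Q : ℝ) + 2) ^ 2) * ‖ψ‖ ^ 2 := by
  have h1a : 0 < 1 - a := by linarith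
  -- reduction to unit vectors
  rcases eq_or_ne ψ 0 with rfl | hne
  · simp
  have hn0 : 0 < ‖ψ‖ := norm_pos_iff.2 hne
  set Z := Zn (nuT t Q) Q n with hZ
  obtain ⟨φ, hφZ, hφ1, hψφ⟩ : ∃ φ ∈ Z, ‖φ‖ = 1 ∧ ψ = ((‖ψ‖ : ℝ) : ℂ) • φ := by
    refine ⟨((‖ψ‖⁻¹ : ℝ) : ℂ) • ψ, Z.smul_mem _ hψ, ?_, ?_⟩
    · rw [norm_smul, Complex.norm_real, Real.norm_of_nonneg (by positivity),
        inv_mul_cancel₀ hn0.ne']
    · rw [smul_smul, ← Complex.ofReal_mul, mul_inv_cancel₀ hn0.ne', Complex.ofReal_one, one_smul]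
  have key := crs_H_le b Z (ψ := φ) (TT_one_mem_Zn hφZ) (TT_lin_mem_Zn hφZ) hRC.1
    (show (8 : ℝ) ≤ 20 by norm_num) (fun p hp q hq => (hRC.2 Q hQ t ht n).unit hφZ hφ1 hp hq)
    (H := H) (M := M) (a := a) (S := S) hM ha0 hS (by linarith) (fun q hq => hH q (by omega))
  have hs := sum_prof_le ha0 ha1 hS Q
  have hscal : ‖inner ℂ (off Z (TT Q (gm b Q) ψ)) (off Z (TT Q H ψ))‖ =
      ‖ψ‖ ^ 2 * ‖inner ℂ (off Z (TT Q (gm b Q) φ)) (off Z (TT Q H φ))‖ := by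
    have e1 : ∀ T : Fk (Fin (Q + 1)) →L[ℂ] Fk (Fin (Q + 1)),
        off Z (T ψ) = ((‖ψ‖ : ℝ) : ℂ) • off Z (T φ) := by
      intro T
      conv_lhs => rw [hψφ]
      rw [map_smul, map_smul]
    rw [e1, e1, inner_smul_left, inner_smul_right, norm_mul, norm_mul, Complex.conj_ofReal,
      Complex.norm_real, Real.norm_of_nonneg hn0.le]
    ring
  rw [hscal]
  have hK := hRC.1
  calc ‖ψ‖ ^ 2 * ‖inner ℂ (off Z (TT Q (gm b Q) φ)) (off Z (TT Q H φ))‖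
      ≤ ‖ψ‖ ^ 2 * (984 * b * K * M / ((Q : ℝ) + 2) ^ 2 * ((S + Q) * prof a S Q / (1 - a))) := by
        gcongr
        exact key.trans (by gcongr)
    _ = _ := by ring

/-- the real part (875's `crs`) -/
theorem abs_crs_le {K : ℝ} (hRC : Defs150.RC K) {Q : ℕ} (hQ : 1 ≤ Q) {t : Fin 3 → ℝ} (ht : Adm t)
    (n b : ℕ) {ψ : Fk (Fin (Q + 1))} (hψ : ψ ∈ Zn (nuT t Q) Q n)
    {H : ℕ → ℝ} {M a S : ℝ} (hM : 0 ≤ M) (ha0 : 0 ≤ a) (ha1 : a < 1) (hS : 0 ≤ S)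
    (hH : ∀ q, q + 2 ≤ Q → |dd H q| ≤ M * dd (prof a S) q) :
    |(inner ℂ (off (Zn (nuT t Q) Q n) (TT Q (gm b Q) ψ))
        (off (Zn (nuT t Q) Q n) (TT Q H ψ))).re| ≤
      984 * b * K * M / (1 - a) * ((S + Q) * prof a S Q / ((Q : ℝ) + 2) ^ 2) * ‖ψ‖ ^ 2 :=
  (Complex.abs_re_le_norm _).trans (crs_le hRC hQ ht n b hψ hM ha0 ha1 hS hH)

/-- the hypothesis on `H` from `Conv102.DD` bounds (735's `Cls`) -/
theorem abs_dd_le_of_DD {Q : ℕ} {H f : ℕ → ℝ} {M : ℝ}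
    (h : ∀ j, j + 2 ≤ Q → 0 ≤ Conv102.DD H 2 j ∧ Conv102.DD H 2 j ≤ M * Conv102.DD f 2 j) :
    ∀ q, q + 2 ≤ Q → |dd H q| ≤ M * dd f q := by
  intro q hq
  have h1 := h q hq
  rw [Conv102.DD_two, Conv102.DD_two] at h1
  rw [abs_of_nonneg h1.1]
  exact h1.2

/-! ### 3. absorption -/

/-- `(S+Q) prof a S Q / (Q+2)² ≤ b 2^a S^a Q^(-1-a)` for `S + Q ≤ b Q`. -/
theorem size_le {a S b : ℝ} (ha0 : 0 ≤ a) (ha1 : a < 1) (hS : 1 ≤ S) {Q : ℕ} (hQ : 1 ≤ Q)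
    (hb : S + Q ≤ b * Q) :
    (S + Q) * prof a S Q / ((Q : ℝ) + 2) ^ 2 ≤ b * 2 ^ a * S ^ a * (Q : ℝ) ^ (-(1 + a)) := by
  have hQ0 : (0 : ℝ) < Q := by exact_mod_cast hQ
  have hS0 : 0 < S := by linarith
  have hb0 : 0 < b := by
    by_contra hcon
    push Not at hcon
    nlinarith
  have h1 : prof a S Q ≤ (2 * S / Q) ^ a := by
    refine (prof_le_rpow hS0.le ha0 (by linarith) Q).trans ?_
    apply Real.rpow_le_rpow (by positivity) _ ha0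
    rw [div_le_div_iff₀ (by positivity) hQ0]
    nlinarith
  have hp0 := prof_pos hS0.le (show a < S + 1 by linarith) Q
  have h2 : (2 * S / (Q : ℝ)) ^ a = 2 ^ a * S ^ a * (Q : ℝ) ^ (-a) := by
    rw [Real.div_rpow (by positivity) hQ0.le, Real.mul_rpow (by norm_num) hS0.le,
      Real.rpow_neg hQ0.le]
    rfl
  have h3 : (Q : ℝ) ^ (-(1 + a)) = (Q : ℝ) ^ (-a) / Q := by
    rw [show -(1 + a) = -a - 1 by ring, Real.rpow_sub_one hQ0.ne']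
  have h4 : (S + Q) / ((Q : ℝ) + 2) ^ 2 ≤ b / Q := by
    rw [div_le_div_iff₀ (by positivity) hQ0]
    calc (S + Q) * (Q : ℝ) ≤ (b * Q) * Q := by gcongr
      _ = b * (Q : ℝ) ^ 2 := by ring
      _ ≤ b * ((Q : ℝ) + 2) ^ 2 := by gcongr; linarith
  calc (S + Q) * prof a S Q / ((Q : ℝ) + 2) ^ 2
      = (S + Q) / ((Q : ℝ) + 2) ^ 2 * prof a S Q := by ring
    _ ≤ b / Q * (2 ^ a * S ^ a * (Q : ℝ) ^ (-a)) := by
        rw [← h2]
        gcongr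
    _ = _ := by rw [h3]; ring

/-- **absorption**: with `M = C (C1 S^(1-a) / Q)` the cross number is `≤ c C f_Q/(S+Q)`,
`f = prof A S`, `A < 1 + a`. -/
theorem crs_absorb {A ε a : ℝ} (K C1 : ℝ) {c : ℝ} (hK : 0 ≤ K) (hC1 : 0 ≤ C1) (ha0 : 0 ≤ a)
    (ha1 : a < 1) (hA1 : 1 ≤ A) (hAa : A < 1 + a) (hε : 0 < ε) (hc : 0 < c) :
    ∃ S0 : ℝ, 400 ≤ S0 ∧ ∀ S : ℝ, S0 ≤ S → ∀ Q : ℕ, ε * S ≤ Q →
      K * (C1 * S ^ (1 - a) / Q) * ((S + Q) * prof a S Q / ((Q : ℝ) + 2) ^ 2) ≤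
        c * (prof A S Q / (S + Q)) := by
  set b : ℝ := 1 + 1 / ε with hb
  obtain ⟨S0, h0, h⟩ := RecE735.pow_absorb (A := A) (ε := ε) (p := 1) (q := 2 + a)
    (K * C1 * (b * 2 ^ a)) hA1 hε (by linarith) (by linarith) hc
  refine ⟨S0, h0, fun S hS Q hQ => ?_⟩
  have hS400 : 400 ≤ S := h0.trans hS
  have hS0 : 0 < S := by linarith
  have hQ0 : (0 : ℝ) < Q := lt_of_lt_of_le (by positivity) hQ
  have hQ1 : 1 ≤ Q := by
    have : 0 < Q := by exact_mod_cast hQ0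
    omega
  have hbQ : S + Q ≤ b * Q := by
    have h1 : S ≤ 1 / ε * Q := by
      rw [one_div, inv_mul_eq_div, le_div_iff₀ hε]
      linarith
    rw [hb]; linarith
  have h2 := size_le ha0 ha1 (by linarith) hQ1 hbQ
  refine le_trans ?_ (h S hS Q hQ)
  have e1 : S ^ (1 - a) * S ^ a = S := by
    rw [← Real.rpow_add hS0]; simp
  have e2 : (Q : ℝ) ^ (-(2 + a)) = (Q : ℝ) ^ (-(1 + a)) / Q := by
    rw [show -(2 + a) = -(1 + a) - 1 by ring, Real.rpow_sub_one hQ0.ne']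
  calc K * (C1 * S ^ (1 - a) / Q) * ((S + Q) * prof a S Q / ((Q : ℝ) + 2) ^ 2)
      ≤ K * (C1 * S ^ (1 - a) / Q) * (b * 2 ^ a * S ^ a * (Q : ℝ) ^ (-(1 + a))) := by
        gcongr
    _ = K * C1 * (b * 2 ^ a) * (S ^ (1 - a) * S ^ a) * ((Q : ℝ) ^ (-(1 + a)) / Q) := by ring
    _ = _ := by rw [e1, e2, Real.rpow_one]

end Crest.Agent.R340.CrsH757
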