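import Crest.Agent.R340.Defs_150
import Crest.Agent.R340.Str1_875
import Crest.Agent.R340.CrsYr_874

/-!
# R340, strong pass (helper874): the crude error `eY` (free leaf (b) of helper875)

* `crs_T_le` : for the averaged local operator `((Q+1) • ∫ T g dhm)` of (TZ), for EVERY admissible
  metric `t` and every sector,
  `|crs (TT (gm 3 Q)) Z (((Q+1) • ∫ T)) ψ| ≤ 560 KZ K S^A Q^(-(A+3/2)) ‖ψ‖²`   [from (RZ)];
* `crs_Y_le` : for `Y` with `Dy nW Q C Y`,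
  `|crs (TT (gm 3 Q)) Z Y ψ| ≤ 48 KX C / Q² ‖ψ‖²`                              [from (RX)].
-/

set_option autoImplicit false

namespace Crest.Agent.R340.CrsY874

open Finset MeasureTheory
open scoped InnerProductSpace
open Crest.Agent.R340.Fock649 Crest.Agent.R340.Emb596 Crest.Agent.R340.Geo986
  Crest.Agent.R340.Peel596 Crest.Agent.R340.Step596 Crest.Agent.R340.PathStep880
open Crest.Agent.R340.PeelX596 (RC2 RX2)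
open Crest.Agent.R340.FX963 (DY)
open Crest.Agent.R340.PV341 (Adm)
open Crest.Agent.R340.Rot303 (cj cj_smul cj_cj cj_id cj_zero)
open Crest.Agent.R340.Avg814 (G2 hm tt)
open Crest.Agent.R340.Defs150
open Crest.Agent.R340.Str875 (crs)

theorem Dr_eq_Dj (Q p : ℕ) (j : ℝ) : Dr Q p j = Dj Q p j := rfl

/-! ### scaling of the class -/

theorem dy_smul {n Q : ℕ} {C : ℝ} {X : Op (Fin (Q + 1))} (h : Dy n Q C X) (r : ℝ) :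
    Dy n Q (|r| * C) ((r : ℂ) • X) := by
  refine ⟨?_, ?_⟩
  · rw [IsSelfAdjoint, star_smul, h.1.star_eq]
    congr 1
    exact Complex.conj_ofReal r
  · have := h.2.smul (r : ℂ)
    rwa [Complex.norm_real, Real.norm_eq_abs] at this

theorem dyG_smul {n Q : ℕ} {C : ℝ} {g : G2} {X : Op (Fin (Q + 1))} (h : DyG n Q C g X) (r : ℝ) :
    DyG n Q (|r| * C) g ((r : ℂ) • X) := by
  unfold DyG at h ⊢
  rw [cj_smul]
  exact dy_smul h r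

theorem dyG_eq_zero {n Q : ℕ} {C : ℝ} {g : G2} {X : Op (Fin (Q + 1))} (h : DyG n Q C g X)
    (hC : C ≤ 0) : X = 0 := by
  have h1 : cj (star (g : Matrix (Fin 2) (Fin 2) ℂ)) X = 0 := by
    have h2 := h.2.norm_le
    exact norm_le_zero_iff.1 (h2.trans hC)
  have h3 : cj (g : Matrix (Fin 2) (Fin 2) ℂ) (cj (star (g : Matrix (Fin 2) (Fin 2) ℂ)) X) = X := by
    rw [cj_cj, Matrix.mem_unitaryGroup_iff.1 g.2, cj_id]
  rw [h1, cj_zero] at h3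
  exact h3.symm

theorem dy_eq_zero {n Q : ℕ} {C : ℝ} {X : Op (Fin (Q + 1))} (h : Dy n Q C X) (hC : C ≤ 0) :
    X = 0 := norm_le_zero_iff.1 (h.2.norm_le.trans hC)

/-- scaling of the off-diagonal pairing -/
theorem norm_pair_smul {Q : ℕ} (Z : Submodule ℂ (Fk (Fin (Q + 1)))) (v : Fk (Fin (Q + 1)))
    (X : Op (Fin (Q + 1))) (r : ℝ) (φ : Fk (Fin (Q + 1))) :
    ‖⟪v, off Z (((r : ℂ) • X) φ)⟫_ℂ‖ = |r| * ‖⟪v, off Z (X φ)⟫_ℂ‖ := by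
  rw [smul_ap, map_smul, inner_smul_right, norm_mul, Complex.norm_real, Real.norm_eq_abs]

theorem rz_scaled {nW : ℕ} {KZ : ℝ} (hRZ : RZ nW KZ) {Q : ℕ} (hQ : 1 ≤ Q) {t : Fin 3 → ℝ}
    (ht : Adm t) (n : ℕ) {C : ℝ} {g : G2} {T : Op (Fin (Q + 1))} (hT : DyG nW Q C g T)
    {ψ : Fk (Fin (Q + 1))} (hψ : ψ ∈ Zn (nuT t Q) Q n) {p : ℕ} (hp : p < Q - 1) :
    ‖⟪off (Zn (nuT t Q) Q n) (TT Q (kink (p + 1)) ψ), off (Zn (nuT t Q) Q n) (T ψ)⟫_ℂ‖ ≤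
      C * (KZ * Real.sqrt (PSD716.dd Q p) * (1 + Dr Q p (Q * tt g)) ^ (-(8 : ℝ)) *
        (‖ψ‖ * ‖ψ‖)) := by
  have hC0 : 0 ≤ C := hT.2.nonneg
  rcases hC0.eq_or_lt with h | h
  · have h1 := dyG_eq_zero hT h.ge
    rw [h1, zero_ap, map_zero, inner_zero_right, norm_zero, ← h, zero_mul]
  · have h1 : DyG nW Q 1 g (((C⁻¹ : ℝ) : ℂ) • T) := by
      have h2 := dyG_smul hT C⁻¹
      rwa [abs_of_pos (inv_pos.2 h), inv_mul_cancel₀ h.ne'] at h2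
    have h3 := hRZ.2 Q hQ t ht n g _ h1 ψ hψ ψ hψ p hp
    rw [norm_pair_smul, abs_of_pos (inv_pos.2 h), inv_mul_le_iff₀ h] at h3
    exact h3

theorem rx_scaled {nW : ℕ} {KX : ℝ} (hRX : RX nW KX) {Q : ℕ} (hQ : 1 ≤ Q) {t : Fin 3 → ℝ}
    (ht : Adm t) (n : ℕ) {C : ℝ} {Y : Op (Fin (Q + 1))} (hY : Dy nW Q C Y)
    {ψ : Fk (Fin (Q + 1))} (hψ : ψ ∈ Zn (nuT t Q) Q n) {p : ℕ} (hp : p < Q - 1) :
    ‖⟪off (Zn (nuT t Q) Q n) (TT Q (kink (p + 1)) ψ), off (Zn (nuT t Q) Q n) (Y ψ)⟫_ℂ‖ ≤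
      C * (KX * (((p : ℝ) + 1) ^ 2)⁻¹ * (‖ψ‖ * ‖ψ‖)) := by
  have hC0 : 0 ≤ C := hY.2.nonneg
  rcases hC0.eq_or_lt with h | h
  · have h1 := dy_eq_zero hY h.ge
    rw [h1, zero_ap, map_zero, inner_zero_right, norm_zero, ← h, zero_mul]
  · have h1 : Dy nW Q 1 (((C⁻¹ : ℝ) : ℂ) • Y) := by
      have h2 := dy_smul hY C⁻¹
      rwa [abs_of_pos (inv_pos.2 h), inv_mul_cancel₀ h.ne'] at h2
    have h3 := hRX.2 Q hQ t ht n _ h1 ψ hψ ψ hψ p hp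
    rw [norm_pair_smul, abs_of_pos (inv_pos.2 h), inv_mul_le_iff₀ h] at h3
    exact h3

/-! ### the averaged operator -/

theorem pair_off {Q : ℕ} (Z : Submodule ℂ (Fk (Fin (Q + 1)))) (x y : Fk (Fin (Q + 1))) :
    ⟪off Z x, off Z y⟫_ℂ = ⟪off Z x, y⟫_ℂ := by
  rw [← inner_conj_symm, inner_off_off, inner_conj_symm]

theorem ring_avg {nW : ℕ} {KZ : ℝ} (hRZ : RZ nW KZ) {Q : ℕ} (hQ : 1 ≤ Q) {t : Fin 3 → ℝ}
    (ht : Adm t) (n : ℕ) {S A K : ℝ} (hS : 1 ≤ S) (hA0 : 0 ≤ A) (hA2 : A ≤ 2) (hK : 0 ≤ K)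
    {T : G2 → Op (Fin (Q + 1))} (hTc : Continuous T)
    (hT : ∀ g, DyG nW Q (K / ((Q : ℝ) + 1) ^ 2 * (1 + Q * tt g / S) ^ (-A)) g (T g))
    {ψ : Fk (Fin (Q + 1))} (hψ : ψ ∈ Zn (nuT t Q) Q n) {p : ℕ} (hp : p < Q - 1) :
    ‖⟪off (Zn (nuT t Q) Q n) (TT Q (kink (p + 1)) ψ),
        off (Zn (nuT t Q) Q n) ((((Q : ℝ) + 1) • ∫ g, T g ∂hm) ψ)⟫_ℂ‖ ≤
      7 * KZ * K / ((Q : ℝ) + 1) ^ 2 * (PSD716.dd Q p * (1 + p / S) ^ (-A)) * ‖ψ‖ ^ 2 := by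
  set Z := Zn (nuT t Q) Q n with hZ
  set v := off Z (TT Q (kink (p + 1)) ψ) with hv
  have hQ1 : (1 : ℝ) ≤ Q := by exact_mod_cast hQ
  have hS0 : 0 < S := by linarith
  have hd := PSD716.one_le_dd (Q := Q) (p := p) (by omega)
  have hd0 : 0 ≤ PSD716.dd Q p := by linarith
  have hr : 0 < Real.sqrt (PSD716.dd Q p) := Real.sqrt_pos.2 (by linarith)
  have hKZ := hRZ.1
  -- pairing and integral
  have hint : Integrable T hm := Crest.Agent.R124.Haar.integrable_of_cont hTc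
  have e1 : ⟪v, off Z ((((Q : ℝ) + 1) • ∫ g, T g ∂hm) ψ)⟫_ℂ =
      (((Q : ℝ) + 1 : ℝ) : ℂ) * ∫ g, ⟪v, T g ψ⟫_ℂ ∂hm := by
    rw [hv, pair_off]
    have e2 : (((Q : ℝ) + 1) • ∫ g, T g ∂hm) ψ =
        (((Q : ℝ) + 1 : ℝ) : ℂ) • (∫ g, T g ∂hm) ψ := rfl
    rw [e2, inner_smul_right, Avg814.inner_integral_ap hint]
  -- pointwise bound
  have hpt : ∀ g : G2, ‖⟪v, T g ψ⟫_ℂ‖ ≤
      (KZ * K / ((Q : ℝ) + 1) ^ 2 * Real.sqrt (PSD716.dd Q p) * (1 + p / S) ^ (-A) * ‖ψ‖ ^ 2) *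
        (1 + ((Q * tt g - p) / Real.sqrt (PSD716.dd Q p)) ^ 2)⁻¹ := by
    intro g
    have h1 := rz_scaled hRZ hQ ht n (hT g) hψ hp
    rw [← hZ, ← hv] at h1
    rw [hv, pair_off, ← hv] at h1
    refine h1.trans ?_
    have hj0 : 0 ≤ (Q : ℝ) * tt g := mul_nonneg (by linarith) (Avg814.tt_nonneg g)
    have hjQ : (Q : ℝ) * tt g ≤ Q := mul_le_of_le_one_right (by linarith) (Avg814.tt_le_one g)
    have h2 := weight_le (p := p) (by omega) hj0 hjQ hS hA0 hA2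
    rw [Dr_eq_Dj]
    calc K / ((Q : ℝ) + 1) ^ 2 * (1 + Q * tt g / S) ^ (-A) *
          (KZ * Real.sqrt (PSD716.dd Q p) * (1 + Dj Q p (Q * tt g)) ^ (-(8 : ℝ)) * (‖ψ‖ * ‖ψ‖))
        = (KZ * K / ((Q : ℝ) + 1) ^ 2 * Real.sqrt (PSD716.dd Q p) * ‖ψ‖ ^ 2) *
          ((1 + Q * tt g / S) ^ (-A) * (1 + Dj Q p (Q * tt g)) ^ (-(8 : ℝ))) := by ring
      _ ≤ (KZ * K / ((Q : ℝ) + 1) ^ 2 * Real.sqrt (PSD716.dd Q p) * ‖ψ‖ ^ 2) *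
          ((1 + p / S) ^ (-A) *
            (1 + ((Q * tt g - p) / Real.sqrt (PSD716.dd Q p)) ^ 2)⁻¹) := by
          apply mul_le_mul_of_nonneg_left h2 (by positivity)
      _ = _ := by ring
  have hcont : Continuous fun g : G2 =>
      (1 + ((Q * tt g - p) / Real.sqrt (PSD716.dd Q p)) ^ 2)⁻¹ := by
    have hc : Continuous fun x : ℝ =>
        (1 + (((Q : ℝ) * x - p) / Real.sqrt (PSD716.dd Q p)) ^ 2)⁻¹ := by
      apply Continuous.inv₀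
      · fun_prop
      · intro x; positivity
    exact hc.comp Avg814.continuous_tt
  set M := KZ * K / ((Q : ℝ) + 1) ^ 2 * Real.sqrt (PSD716.dd Q p) * (1 + p / S) ^ (-A) * ‖ψ‖ ^ 2
    with hM
  have hM0 : 0 ≤ M := by positivity
  have h5 : ‖∫ g, ⟪v, T g ψ⟫_ℂ ∂hm‖ ≤
      M * ∫ g : G2, (1 + ((Q * tt g - p) / Real.sqrt (PSD716.dd Q p)) ^ 2)⁻¹ ∂hm := by
    rw [← integral_const_mul]
    exact norm_integral_le_of_norm_le (Crest.Agent.R124.Haar.integrable_of_cont (continuous_const.mul hcont))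
      (Filter.Eventually.of_forall hpt)
  rw [e1, norm_mul, Complex.norm_real, Real.norm_eq_abs, abs_of_nonneg (by linarith)]
  calc ((Q : ℝ) + 1) * ‖∫ g, ⟪v, T g ψ⟫_ℂ ∂hm‖
      ≤ ((Q : ℝ) + 1) * (M * ∫ g : G2,
          (1 + ((Q * tt g - p) / Real.sqrt (PSD716.dd Q p)) ^ 2)⁻¹ ∂hm) := by
        apply mul_le_mul_of_nonneg_left h5 (by linarith)
    _ = M * (((Q : ℝ) + 1) * ∫ g : G2,
          (1 + ((Q * tt g - p) / Real.sqrt (PSD716.dd Q p)) ^ 2)⁻¹ ∂hm) := by ring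
    _ ≤ M * (7 * Real.sqrt (PSD716.dd Q p)) := by
        apply mul_le_mul_of_nonneg_left (int_lorentz hQ p hr) hM0
    _ = 7 * KZ * K / ((Q : ℝ) + 1) ^ 2 *
          ((Real.sqrt (PSD716.dd Q p) * Real.sqrt (PSD716.dd Q p)) * (1 + p / S) ^ (-A)) *
            ‖ψ‖ ^ 2 := by rw [hM]; ring
    _ = _ := by rw [Real.mul_self_sqrt hd0]

/-- expansion of `v(gm 3 Q)` in rings -/
theorem crs_le_sum {Q n : ℕ} {ν : ℕ → ℝ} (X : Fk (Fin (Q + 1)) →L[ℂ] Fk (Fin (Q + 1)))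
    {ψ : Fk (Fin (Q + 1))} (hψ : ψ ∈ Zn ν Q n) {B : ℕ → ℝ}
    (hB : ∀ p < Q - 1, ‖⟪off (Zn ν Q n) (TT Q (kink (p + 1)) ψ), off (Zn ν Q n) (X ψ)⟫_ℂ‖ ≤ B p) :
    |crs (TT Q (gm 3 Q)) (Zn ν Q n) X ψ| ≤
      ∑ p ∈ range (Q - 1), Scal725.dd (gm 3 Q) p * B p := by
  have hT : ∀ f g : ℕ → ℝ, (∀ j ≤ Q, f j = g j) → TT Q f = TT Q g := fun f g h => TT_congr h
  unfold crs
  rw [off_eq_sum (TT Q) hT (Zn ν Q n) (TT_one_mem_Zn hψ) (TT_lin_mem_Zn hψ) (gm 3 Q), sum_inner,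
    Complex.re_sum]
  refine (abs_sum_le_sum_abs _ _).trans (sum_le_sum fun p hp => ?_)
  have hp' := mem_range.1 hp
  rw [inner_smul_left, Complex.conj_ofReal, Complex.re_ofReal_mul, abs_mul,
    abs_of_nonneg (dd_gm_nonneg hp')]
  apply mul_le_mul_of_nonneg_left _ (dd_gm_nonneg hp')
  exact (Complex.abs_re_le_norm _).trans (hB p hp')

/-- **(b) eY**: the crude bound of `crs` for the averaged local operator of (TZ). -/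
theorem crs_T_le {nW : ℕ} {KZ : ℝ} (hRZ : RZ nW KZ) {Q : ℕ} (hQ : 1 ≤ Q) {t : Fin 3 → ℝ}
    (ht : Adm t) (n : ℕ) {S A K : ℝ} (hS : 1 ≤ S) (hA0 : 0 ≤ A) (hA2 : A ≤ 3 / 2) (hK : 0 ≤ K)
    {T : G2 → Op (Fin (Q + 1))} (hTc : Continuous T)
    (hT : ∀ g, DyG nW Q (K / ((Q : ℝ) + 1) ^ 2 * (1 + Q * tt g / S) ^ (-A)) g (T g))
    {ψ : Fk (Fin (Q + 1))} (hψ : ψ ∈ Zn (nuT t Q) Q n) :
    |crs (TT Q (gm 3 Q)) (Zn (nuT t Q) Q n) (((Q : ℝ) + 1) • ∫ g, T g ∂hm : Op _).ap ψ| ≤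
      560 * KZ * K * S ^ A * (Q : ℝ) ^ (-(A + 3 / 2)) * ‖ψ‖ ^ 2 := by
  have hQ1 : (1 : ℝ) ≤ Q := by exact_mod_cast hQ
  have hQ0 : (0 : ℝ) < Q := by linarith
  have hS0 : 0 < S := by linarith
  have hKZ := hRZ.1
  have h1 := crs_le_sum (((Q : ℝ) + 1) • ∫ g, T g ∂hm : Op _).ap hψ
    (fun p hp => ring_avg hRZ hQ ht n hS hA0 (by linarith) hK hTc hT hψ hp)
  refine h1.trans ?_
  have e1 : ∑ p ∈ range (Q - 1), Scal725.dd (gm 3 Q) p *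
      (7 * KZ * K / ((Q : ℝ) + 1) ^ 2 * (PSD716.dd Q p * (1 + p / S) ^ (-A)) * ‖ψ‖ ^ 2) =
      7 * KZ * K / ((Q : ℝ) + 1) ^ 2 * ‖ψ‖ ^ 2 *
        ∑ p ∈ range (Q - 1), Scal725.dd (gm 3 Q) p * (PSD716.dd Q p * (1 + p / S) ^ (-A)) := by
    rw [mul_sum]
    exact sum_congr rfl fun p _ => by ring
  rw [e1]
  have h2 := sum_gm_prof hQ hS hA0 hA2
  have e2 : (Q : ℝ) ^ (-(A + 3 / 2)) = (Q : ℝ) ^ (1 / 2 - A) / Q ^ 2 := by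
    rw [← Real.rpow_natCast, ← Real.rpow_sub hQ0]
    congr 1
    push_cast
    ring
  calc 7 * KZ * K / ((Q : ℝ) + 1) ^ 2 * ‖ψ‖ ^ 2 *
        ∑ p ∈ range (Q - 1), Scal725.dd (gm 3 Q) p * (PSD716.dd Q p * (1 + p / S) ^ (-A))
      ≤ 7 * KZ * K / (Q : ℝ) ^ 2 * ‖ψ‖ ^ 2 * (80 * S ^ A * (Q : ℝ) ^ (1 / 2 - A)) := by
        apply mul_le_mul _ h2 _ (by positivity)
        · gcongr
          linarith
        · exact sum_nonneg fun p hp => mul_nonneg (dd_gm_nonneg (mem_range.1 hp)) (by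
            have := PSD716.one_le_dd (Q := Q) (p := p) (by have := mem_range.1 hp; omega)
            have : 0 ≤ PSD716.dd Q p := by linarith
            positivity)
    _ = 560 * KZ * K * S ^ A * ((Q : ℝ) ^ (1 / 2 - A) / Q ^ 2) * ‖ψ‖ ^ 2 := by ring
    _ = _ := by rw [e2]

/-- the crude bound of `crs` for an operator of the class about the north pole. -/
theorem crs_Y_le {nW : ℕ} {KX : ℝ} (hRX : RX nW KX) {Q : ℕ} (hQ : 1 ≤ Q) {t : Fin 3 → ℝ}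
    (ht : Adm t) (n : ℕ) {C : ℝ} {Y : Op (Fin (Q + 1))} (hY : Dy nW Q C Y)
    {ψ : Fk (Fin (Q + 1))} (hψ : ψ ∈ Zn (nuT t Q) Q n) :
    |crs (TT Q (gm 3 Q)) (Zn (nuT t Q) Q n) Y.ap ψ| ≤ 48 * KX * C / (Q : ℝ) ^ 2 * ‖ψ‖ ^ 2 := by
  have hKX := hRX.1
  have hC0 : 0 ≤ C := hY.2.nonneg
  have h1 := crs_le_sum Y.ap hψ (fun p hp => rx_scaled hRX hQ ht n hY hψ hp)
  refine h1.trans ?_
  have e1 : ∑ p ∈ range (Q - 1), Scal725.dd (gm 3 Q) p *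
      (C * (KX * (((p : ℝ) + 1) ^ 2)⁻¹ * (‖ψ‖ * ‖ψ‖))) =
      C * KX * ‖ψ‖ ^ 2 *
        ∑ p ∈ range (Q - 1), Scal725.dd (gm 3 Q) p * (((p : ℝ) + 1) ^ 2)⁻¹ := by
    rw [mul_sum]
    exact sum_congr rfl fun p _ => by ring
  rw [e1]
  have h2 := sum_X 3 Q
  calc C * KX * ‖ψ‖ ^ 2 * ∑ p ∈ range (Q - 1), Scal725.dd (gm 3 Q) p * (((p : ℝ) + 1) ^ 2)⁻¹
      ≤ C * KX * ‖ψ‖ ^ 2 * (16 * (3 : ℕ) / (Q : ℝ) ^ 2) := by gcongr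
    _ = 48 * KX * C / (Q : ℝ) ^ 2 * ‖ψ‖ ^ 2 := by push_cast; ring

end Crest.Agent.R340.CrsY874
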