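import Crest.Agent.R340.DLi_482
import Crest.Agent.R340.GG_467
import Crest.Agent.R340.U4_856
import Crest.Agent.R340.Avg_814
import Crest.Agent.R340.FI1_331

/-!
ROT identity and the instance of 856's structure `Jump` on Fock space: group `U2`, measure
`(2Q-1) Haar`, fields `a k g = an (uf Q k g)` (331), sectors of 320, channel of 674, profile of 385.
-/

set_option autoImplicit false
set_option linter.unusedSectionVars false

namespace Crest.Agent.R340.DLi482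

open MeasureTheory Finset
open Crest.Agent.R340.Fock649 Crest.Agent.R340.Br320 Crest.Agent.R340.JumpH674
open Crest.Agent.R340.Rot303 (Rg Bg Bg_eq star_Bg_eq Bg_zero det_mul_star)
open Crest.Agent.R340.Rot303 (D2 continuous_D2)
open Crest.Agent.R340.U856 (Rep cint cmem Jump pB)
open Crest.Agent.R340.Prof482 (hnU prof_form)
open Crest.Agent.R340.Prof385 (sP sP_nonneg sP_le_one)
open Crest.Agent.R340.CS809 (U2 U2_ct_mul U2_mul_ct sp)
open scoped InnerProductSpace Matrix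

/-! ### the rotation identity -/

theorem expand_B {Q : ℕ} (p : Fin (2 * Q - 1)) (X : Op (Fin (Q + 1)))
    {g : Matrix (Fin 2) (Fin 2) ℂ} (hg : g * gᴴ = 1) :
    star (Bg Q g p) * X * Bg Q g p =
      ∑ q, ∑ r, (D2 Q g q p * star (D2 Q g r p)) • (star (Bp Q q) * X * Bp Q r) := by
  rw [star_Bg_eq hg, Bg_eq hg, smul_mul_assoc, smul_mul_assoc, mul_smul_comm, smul_smul,
    det_mul_star hg, one_smul, Finset.sum_mul, Finset.sum_mul]
  refine Finset.sum_congr rfl fun q _ => ?_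
  rw [Finset.mul_sum]
  refine Finset.sum_congr rfl fun r _ => ?_
  rw [smul_mul_assoc, smul_mul_assoc, mul_smul_comm, smul_smul]

/-- **(ROT)** -/
theorem rot {Q : ℕ} (hQ : 1 ≤ Q) : ROT Q hQ := by
  intro X
  have hpos : (0 : ℝ) < 2 * (Q : ℝ) - 1 := by
    have : (1 : ℝ) ≤ Q := by exact_mod_cast hQ
    linarith
  have e1 : ∀ g : U2, star (B0 Q hQ g) * X * B0 Q hQ g =
      ∑ q, ∑ r, (D2 Q (g : Matrix (Fin 2) (Fin 2) ℂ) q ⟨0, by omega⟩ *
        star (D2 Q (g : Matrix (Fin 2) (Fin 2) ℂ) r ⟨0, by omega⟩)) •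
          (star (Bp Q q) * X * Bp Q r) := fun g => expand_B _ X (U2_mul_ct g)
  have hc : ∀ q r, Continuous fun g : U2 =>
      (D2 Q (g : Matrix (Fin 2) (Fin 2) ℂ) q ⟨0, by omega⟩ *
        star (D2 Q (g : Matrix (Fin 2) (Fin 2) ℂ) r ⟨0, by omega⟩)) := by
    intro q r
    have h1 : Continuous fun g : U2 => D2 Q (g : Matrix (Fin 2) (Fin 2) ℂ) :=
      (continuous_D2 Q).comp continuous_subtype_val
    have h2 : ∀ i j, Continuous fun g : U2 => D2 Q (g : Matrix (Fin 2) (Fin 2) ℂ) i j :=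
      fun i j => (continuous_apply j).comp ((continuous_apply i).comp h1)
    exact (h2 _ _).mul (h2 _ _).star
  have hi : ∀ q r, Integrable (fun g : U2 =>
      (D2 Q (g : Matrix (Fin 2) (Fin 2) ℂ) q ⟨0, by omega⟩ *
        star (D2 Q (g : Matrix (Fin 2) (Fin 2) ℂ) r ⟨0, by omega⟩)) •
          (star (Bp Q q) * X * Bp Q r)) (Crest.Agent.R124.Haar.haar (Fin 2)) := fun q r =>
    cint ((hc q r).smul continuous_const)
  unfold nuQ
  rw [integral_smul_measure, ENNReal.toReal_ofReal hpos.le]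
  simp only [e1]
  rw [integral_finsetSum _ (fun q _ => integrable_finsetSum _ fun r _ => hi q r)]
  have e2 : ∀ q, ∫ g : U2, ∑ r, (D2 Q (g : Matrix (Fin 2) (Fin 2) ℂ) q ⟨0, by omega⟩ *
        star (D2 Q (g : Matrix (Fin 2) (Fin 2) ℂ) r ⟨0, by omega⟩)) •
          (star (Bp Q q) * X * Bp Q r) ∂(Crest.Agent.R124.Haar.haar (Fin 2)) =
      (2 * (Q : ℂ) - 1)⁻¹ • (star (Bp Q q) * X * Bp Q q) := by
    intro q
    rw [integral_finsetSum _ (fun r _ => hi q r)]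
    rw [Finset.sum_eq_single q]
    · rw [integral_smul_const]
      congr 1
      have := Crest.Agent.R340.Avg814.schur_D2 Q q ⟨0, by omega⟩ q ⟨0, by omega⟩
      rw [if_pos ⟨rfl, rfl⟩] at this
      exact this
    · intro r _ hr
      rw [integral_smul_const]
      have := Crest.Agent.R340.Avg814.schur_D2 Q q ⟨0, by omega⟩ r ⟨0, by omega⟩
      rw [if_neg (fun h => hr h.1.symm)] at this
      have h0 : ∫ g : U2, (D2 Q (g : Matrix (Fin 2) (Fin 2) ℂ) q ⟨0, by omega⟩ *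
        star (D2 Q (g : Matrix (Fin 2) (Fin 2) ℂ) r ⟨0, by omega⟩))
          ∂(Crest.Agent.R124.Haar.haar (Fin 2)) = 0 := this
      rw [h0, zero_smul]
    · intro h
      exact absurd (Finset.mem_univ q) h
  rw [Finset.sum_congr rfl fun q _ => e2 q, ← Finset.smul_sum]
  have e3 : (2 * (Q : ℝ) - 1) • ((2 * (Q : ℂ) - 1)⁻¹ • ∑ q, star (Bp Q q) * X * Bp Q q) =
      ∑ q, star (Bp Q q) * X * Bp Q q := by
    rw [← Complex.coe_smul, smul_smul]
    have : ((2 * (Q : ℝ) - 1 : ℝ) : ℂ) * (2 * (Q : ℂ) - 1)⁻¹ = 1 := by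
      push_cast
      apply mul_inv_cancel₀
      have h : ((2 * (Q : ℝ) - 1 : ℝ) : ℂ) ≠ 0 := by exact_mod_cast hpos.ne'
      push_cast at h
      exact h
    rw [this, one_smul]
  exact e3

/-! ### the instance of `Jump` -/

/-- the local fields `a_k(g)`, `k = 0, 1` -/
noncomputable def aG (Q : ℕ) (k : Fin 2) (g : U2) : Op (Fin (Q + 1)) := an (FI331.uf Q k g)

theorem pB_aG {Q : ℕ} (hQ : 1 ≤ Q) (g : U2) : pB (aG Q) g = B0 Q hQ g := by
  unfold pB aG B0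
  rw [Bg_zero hQ (U2_mul_ct g)]
  have h1 : FI331.idx Q 1 = ⟨1, by omega⟩ := Fin.ext (FI331.idx_val hQ 1)
  have h0 : FI331.idx Q 0 = 0 := Fin.ext (FI331.idx_val hQ 0)
  unfold FI331.uf FI331.vec
  rw [h1, h0]

/-- quadratic form `Re ⟨φ, A φ⟩` of an operator on Fock space -/
noncomputable def qq {ι : Type*} [Fintype ι] (A : Op ι) (φ : Fk ι) : ℝ := (⟪φ, A φ⟫_ℂ).re

/-- PROF hypothesis at flux `Q` (from `Prof482.prof_form`). -/
def PROF (Q pw P1 : ℕ) (η : ℝ) : Prop :=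
  ∀ U : Op (Fin (Q + 1)), star U * U = 1 → U * star U = 1 →
      U * HH Q * star U = HH Q → ∀ v : Fk (Fin (Q + 1)),
      (⟪v, Phi U (fun j : Fin (Q + 1) => sP P1 j) (HH Q) v⟫_ℂ).re ≤
        (⟪v, HH Q v⟫_ℂ).re - (⟪v, hnU Q pw U v⟫_ℂ).re + η * ‖v‖ ^ 2

/-- the loss channel about `g` with profile `sP P1` -/
noncomputable def Phg (Q P1 : ℕ) (g : U2) (A : Op (Fin (Q + 1))) : Op (Fin (Q + 1)) :=
  Phi (Rg Q g) (fun j : Fin (Q + 1) => sP P1 j) A

/-- `P` = projection on the zero modes. -/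
noncomputable abbrev PZ (Q : ℕ) : Op (Fin (Q + 1)) := Crest.Agent.R340.GG467.PK (HH Q)

theorem num_sector {Q : ℕ} {A : Op (Fin (Q + 1))} (hA : Nh * A = A * Nh) (M : ℕ)
    (w : Fk (Fin (Q + 1))) (hw : w ∈ sector (Fin (Q + 1)) M) : A w ∈ sector (Fin (Q + 1)) M := by
  rw [mem_sector_iff_Nh] at hw ⊢
  rw [← mul_ap, hA, mul_ap, hw, map_smul]

theorem Nh_comm_HH (Q : ℕ) : Nh * HH Q = HH Q * Nh := by
  refine op_ext fun S => ?_
  have h2 : HH Q (ket S) ∈ sector (Fin (Q + 1)) S.card := HH_mem_sector (ket_mem_sector S)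
  rw [mem_sector_iff_Nh] at h2
  rw [mul_ap, mul_ap, h2, Nh_ket, map_smul]

theorem star_Nh (Q : ℕ) : star (Nh : Op (Fin (Q + 1))) = Nh := by
  rw [Nh_eq, star_diag]; congr 1; funext S; simp

theorem Nh_comm_PZ (Q : ℕ) : Nh * PZ Q = PZ Q * Nh :=
  Crest.Agent.R340.GG467.commute_PK (Nh_comm_HH Q) (by rw [star_Nh]; exact Nh_comm_HH Q)

/-- **Instance of 856's structure `Jump`.** -/
theorem jump {Q : ℕ} (hQ : 1 ≤ Q) {pw P1 : ℕ} {γ η γ₀ : ℝ} (hn : NEAR Q hQ pw γ)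
    (hp : PROF Q pw P1 η) (hγ₀ : 0 < γ₀)
    (hgap : ∀ φ : Fk (Fin (Q + 1)), PZ Q φ = 0 → γ₀ * ‖φ‖ ^ 2 ≤ qq (HH Q) φ) :
    Jump (opRep (ι := Fin (Q + 1))) (nuQ Q) (aG Q) (Nh : Op (Fin (Q + 1))) (HH Q)
      (fun N => sector (Fin (Q + 1)) N) (PZ Q).ap (Phg Q P1) γ₀ (γ - η) (4 * ((P1 : ℝ) + 1)) where
  H_sa := star_HH Q
  H_num := Nh_comm_HH Q
  hH φ χ := by
    have h := rot_one (rot hQ) φ χ
    rw [opRep_apply, ← h]
    refine integral_congr_ae (Filter.Eventually.of_forall fun g => ?_)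
    simp only [pB_aG hQ, opRep_apply]
  P_symm φ χ := by
    have := inner_star_left (PZ Q) φ χ
    rw [Crest.Agent.R340.GG467.star_PK] at this
    exact this
  P_idem φ := congrArg (fun A : Op (Fin (Q + 1)) => A φ)
    (Crest.Agent.R340.GG467.PK_mul_self (HH Q))
  HP φ := congrArg (fun A : Op (Fin (Q + 1)) => A φ) (Crest.Agent.R340.GG467.mul_PK (HH Q))
  P_sec := num_sector (Nh_comm_PZ Q)
  sec_num A hA := num_sector hA
  B_sec g N φ hφ := by
    rw [pB_aG hQ, opRep_apply]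
    exact B0_mem hQ hφ g
  B_zero g N hN φ hφ := by
    rw [pB_aG hQ, opRep_apply]
    exact B0_zero_of_lt hQ hN hφ g
  gap_pos := hγ₀
  gap := hgap
  Φ_add g A B := Phi_add (star_RgU_mul Q g) (RgU_mul_star Q g) _ A B
  Φ_smul g r A := by
    have h := Phi_smul (star_RgU_mul Q g) (RgU_mul_star Q g)
      (fun j : Fin (Q + 1) => sP P1 j) (r : ℂ) A
    rw [Complex.coe_smul, Complex.coe_smul] at h
    exact h
  Φ_cont A := continuous_PhiG _ A
  m₁_nonneg := by positivity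
  J1 ψ := by
    have h := J1c (rot hQ) hn hp ψ
    refine le_trans (le_of_eq ?_) h
    refine integral_congr_ae (Filter.Eventually.of_forall fun g => ?_)
    simp only [pB_aG hQ]
    rfl
  J2 A c K M hc hA g n hn φ hφ := by
    have hs : ∀ j : Fin (Q + 1), (fun j : Fin (Q + 1) => sP P1 j) j ^ 2 ≤ 1 := by
      intro j
      have h0 := sP_nonneg P1 (j : ℕ)
      have h1 := sP_le_one P1 (j : ℕ)
      show sP P1 j ^ 2 ≤ 1
      nlinarith
    have h := J2 (star_RgU_mul Q g) (RgU_mul_star Q g) (Nh_Rg Q g) hs (a := c) (b := 0) (K := K)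
      hc (A := A) (M := M)
      (fun n hn φ hφ => by
        have := hA n hn φ ((sector_eq_secN n φ).mpr hφ)
        have e : - c * (K - n) - 0 = - (c * (K - n)) := by ring
        rw [e]; exact this) hn ((sector_eq_secN n φ).mp hφ)
    have hm := mLoss_le Q P1
    have h2 : - (c * (K + 4 * ((P1 : ℝ) + 1) - n)) * ‖φ‖ ^ 2 ≤
        (- c * (K + ∑ j : Fin (Q + 1), (1 - sP P1 j ^ 2) - n) - 0) * ‖φ‖ ^ 2 := by
      apply mul_le_mul_of_nonneg_right _ (sq_nonneg _)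
      have : c * mLoss Q P1 ≤ c * (4 * ((P1 : ℝ) + 1)) := mul_le_mul_of_nonneg_left hm hc
      unfold mLoss at this
      nlinarith
    exact h2.trans h

/-- **The jump data exist uniformly in `Q`**, from NEAR and the gap. -/
theorem exists_jump {γ γ₀ : ℝ} (hγ : 0 < γ) (hγ₀ : 0 < γ₀) (pw Q₀ : ℕ)
    (hn : ∀ Q, Q₀ ≤ Q → ∀ hQ : 1 ≤ Q, NEAR Q hQ pw γ)
    (hgap : ∀ Q, Q₀ ≤ Q → ∀ φ : Fk (Fin (Q + 1)), PZ Q φ = 0 → γ₀ * ‖φ‖ ^ 2 ≤ qq (HH Q) φ) :
    ∃ P1 : ℕ, ∀ Q, Q₀ ≤ Q → 1 ≤ Q →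
      Jump (opRep (ι := Fin (Q + 1))) (nuQ Q) (aG Q) (Nh : Op (Fin (Q + 1))) (HH Q)
        (fun N => sector (Fin (Q + 1)) N) (PZ Q).ap (Phg Q P1) γ₀ (γ / 2)
        (4 * ((P1 : ℝ) + 1)) := by
  obtain ⟨P1, _, h⟩ := prof_form (half_pos hγ) pw
  refine ⟨P1, fun Q hQ0 hQ => ?_⟩
  have hj := jump hQ (P1 := P1) (η := γ / 2) (hn Q hQ0 hQ) (fun U hU hU' hH v => h P1 le_rfl Q hQ U hU hU' hH v)
    hγ₀ (hgap Q hQ0)
  have e : γ - γ / 2 = γ / 2 := by ring
  rw [e] at hj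
  exact hj

end Crest.Agent.R340.DLi482
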