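import Crest.Agent.R340.DLk_482
import Crest.Agent.R340.Near3_515
import Crest.Agent.R340.GG_467
import Crest.Agent.R340.Fin_249

/-!
# The jump data from the planar certificate (helper482)

`NEAR` of `DLi_482` from helper515's `near_form` (which consumes the conclusion of helper249's `near`),
the gap above the zero modes from `γ H ≤ H²`, and `exists_jump` with the literal certificate
hypotheses.
-/

set_option autoImplicit false
set_option linter.unusedSectionVars false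

open scoped InnerProductSpace Matrix
open MeasureTheory Finset
open Crest.Agent.R340.Fock649 Crest.Agent.R340.Br320
open Crest.Agent.R340.CS809 Crest.Agent.R340.Rot303
open Crest.Agent.R340.Prof482 Crest.Agent.R340.GG467
open Crest.Agent.R340.Kn249
open Crest.Agent.R340.U856 (Jump)

namespace Crest.Agent.R340.DLi482

/-- `hnU` as a sum of squares -/
theorem hnU_form {Q : ℕ} (pw : ℕ) (hpw : pw ≤ 2 * Q - 1) (g : U2) (φ : Fk (Fin (Q + 1))) :
    (⟪φ, hnU Q pw (Rg Q g) φ⟫_ℂ).re = ∑ p : Fin pw, ‖Bg Q g (Fin.castLE hpw p) φ‖ ^ 2 := by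
  have h1 : hnU Q pw (Rg Q g) =
      ∑ p : Fin pw, star (Bg Q g (Fin.castLE hpw p)) * Bg Q g (Fin.castLE hpw p) := by
    unfold hnU
    refine (Finset.sum_bij (fun (p : Fin pw) _ => Fin.castLE hpw p) ?_ ?_ ?_ ?_).symm
    · intro p _
      simp only [mem_filter, mem_univ, true_and, Fin.val_castLE]
      exact p.2
    · intro a _ b _ h
      exact Fin.castLE_injective hpw h
    · intro b hb
      simp only [mem_filter, mem_univ, true_and] at hb
      exact ⟨⟨(b : ℕ), hb⟩, mem_univ _, by ext; rfl⟩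
    · intro p _
      rfl
  rw [h1]
  change RCLike.re (⟪φ, (∑ p : Fin pw, star (Bg Q (g : Matrix (Fin 2) (Fin 2) ℂ) (Fin.castLE hpw p)) * Bg Q g (Fin.castLE hpw p)) φ⟫_ℂ) = _
  rw [sum_ap, inner_sum, map_sum]
  refine Finset.sum_congr rfl fun p _ => ?_
  rw [mul_ap, inner_star_right, inner_self_eq_norm_sq]

/-- (NEAR) from helper249's / helper515's near inequality -/
theorem NEAR_of_near {Q : ℕ} (hQ : 1 ≤ Q) (pw : ℕ) (hpw : pw ≤ 2 * Q - 1) (γ : ℝ)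
    (hnear : ∀ t : Kn249.Inv Q, γ * t.a ≤ t.N pw) : NEAR Q hQ pw γ := by
  intro ψ
  have h := Near515.near_form hQ pw hpw γ hnear ψ
  refine h.trans (le_of_eq ?_)
  have h1 : (⟪ψ, JJ Q (HH Q) ψ⟫_ℂ).re =
      ∑ q, (⟪Bp Q q ψ, HH Q (Bp Q q ψ)⟫_ℂ).re := by
    unfold JJ
    change RCLike.re (⟪ψ, (∑ p, star (Bp Q p) * HH Q * Bp Q p) ψ⟫_ℂ) = _
    rw [sum_ap, inner_sum, map_sum]
    refine Finset.sum_congr rfl fun p _ => ?_
    rw [mul_ap, mul_ap, inner_star_right]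
    rfl
  have h2 : ∫ g, (⟪B0 Q hQ g ψ, hnU Q pw (Rg Q g) (B0 Q hQ g ψ)⟫_ℂ).re ∂(nuQ Q) =
      (2 * (Q : ℝ) - 1) * ∫ g : Avg814.G2, ∑ p : Fin pw,
        ‖Bg Q (g : Matrix (Fin 2) (Fin 2) ℂ) (Fin.castLE hpw p)
          (Bg Q g ⟨0, by omega⟩ ψ)‖ ^ 2 ∂Avg814.hm := by
    unfold nuQ
    rw [integral_smul_measure, ENNReal.toReal_ofReal (by
      have : (1 : ℝ) ≤ Q := by exact_mod_cast hQ
      linarith)]
    rw [smul_eq_mul]
    congr 1
    refine integral_congr_ae (Filter.Eventually.of_forall fun g => ?_)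
    exact hnU_form pw hpw g _
  rw [h1, h2]

theorem inner_HH_nonneg (Q : ℕ) (v : Fk (Fin (Q + 1))) : 0 ≤ (⟪v, HH Q v⟫_ℂ).re := by
  have h1 : (⟪v, HH Q v⟫_ℂ).re = ∑ p, ‖Bp Q p v‖ ^ 2 := by
    unfold HH
    change RCLike.re (⟪v, (∑ p, star (Bp Q p) * Bp Q p) v⟫_ℂ) = _
    rw [sum_ap, inner_sum, map_sum]
    refine Finset.sum_congr rfl fun p _ => ?_
    rw [mul_ap, inner_star_right, inner_self_eq_norm_sq]
  rw [h1]
  exact Finset.sum_nonneg fun p _ => sq_nonneg _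

/-- the gap above the zero modes from `γ H ≤ H²` -/
theorem gap_of_near {Q : ℕ} (hQ : 1 ≤ Q) (pw : ℕ) (hpw : pw ≤ 2 * Q - 1) (γ : ℝ)
    (hnear : ∀ t : Kn249.Inv Q, γ * t.a ≤ t.N pw) (φ : Fk (Fin (Q + 1))) (hφ : PZ Q φ = 0) :
    γ * ‖φ‖ ^ 2 ≤ qq (HH Q) φ := by
  have h := gap_of_sq (A := HH Q) (star_HH Q) (γ := γ) (inner_HH_nonneg Q)
    (fun v => by
      have h1 := sq_ge_of_near (Lad978.ladQ Q) hQ pw hpw γ hnear v
      rw [HN_eq_HH] at h1
      refine h1.trans (le_of_eq ?_)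
      have h2 : ⟪v, HH Q (HH Q v)⟫_ℂ = ⟪HH Q v, HH Q v⟫_ℂ := by
        have := inner_star_right (HH Q) v (HH Q v)
        rw [star_HH] at this
        exact this
      rw [h2]
      exact inner_self_eq_norm_sq (𝕜 := ℂ) (HH Q v)) φ
  have h3 : φ - PK (HH Q) φ = φ := by
    have : PK (HH Q) φ = 0 := hφ
    rw [this, sub_zero]
  rw [h3] at h
  exact h

/-- **The jump data from the near inequality.** -/
theorem exists_jump_of_near {γ : ℝ} (hγ : 0 < γ) (pw Q₀ : ℕ) (h0 : pw + 2 ≤ Q₀)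
    (hn : ∀ Q, Q₀ ≤ Q → ∀ t : Kn249.Inv Q, γ * t.a ≤ t.N pw) :
    ∃ P1 : ℕ, ∀ Q, Q₀ ≤ Q → 1 ≤ Q →
      Jump (opRep (ι := Fin (Q + 1))) (nuQ Q) (aG Q) (Nh : Op (Fin (Q + 1))) (HH Q)
        (fun N => sector (Fin (Q + 1)) N) (PZ Q).ap (Phg Q P1) γ (γ / 2)
        (4 * ((P1 : ℝ) + 1)) :=
  exists_jump hγ hγ pw Q₀
    (fun Q h hQ => NEAR_of_near hQ pw (by omega) γ (hn Q h))
    (fun Q h φ hφ => gap_of_near (by omega) pw (by omega) γ (hn Q h) φ hφ)

/-- **The jump data from the certificate** (same hypotheses as `Kn249.s0533_of_cert50`),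
for every `γ < 479/10000` (in particular `γ = 46/1000`). -/
theorem exists_jump_of_cert (hC : ∀ Q : ℕ, 2 ≤ Q → Comm0 Q) (C : CertN) (hLoc : LocPosN C)
    (hLin : LinCertN C 50 50 (489 / 10000)) {γ : ℝ} (hγ : 0 < γ) (hγ' : γ < 479 / 10000) :
    ∃ Q₀ : ℕ, ∃ P1 : ℕ, ∀ Q, Q₀ ≤ Q →
      Jump (opRep (ι := Fin (Q + 1))) (nuQ Q) (aG Q) (Nh : Op (Fin (Q + 1))) (HH Q)
        (fun N => sector (Fin (Q + 1)) N) (PZ Q).ap (Phg Q P1) γ (γ / 2)
        (4 * ((P1 : ℝ) + 1)) := by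
  obtain ⟨Q0, h⟩ := near (facts hC) C hLoc 50 50 (489 / 10000) (1 / 1000) γ hLin
    (fun n => (bT_sum 50 n).trans (by norm_num)) (by norm_num; linarith)
  obtain ⟨P1, hP⟩ := exists_jump_of_near hγ 50 (max Q0 52) (by omega)
    (fun Q hQ => h Q (le_trans (le_max_left _ _) hQ))
  exact ⟨max Q0 52, P1, fun Q hQ => hP Q hQ (by
    have := le_trans (le_max_right Q0 52) hQ
    omega)⟩

end Crest.Agent.R340.DLi482
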