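import Crest.Agent.R340.U5_856
import Crest.Agent.R340.DLk_482

/-!
R340, block (U) (helper856), part 5: literal inputs (Props with constants uniform in the flux) and the
final glue `U_of : ... → UP m`.
-/

set_option autoImplicit false
set_option linter.unusedSectionVars false
set_option linter.unusedVariables false

namespace Crest.Agent.R340.U856

open MeasureTheory Crest.Agent.R340.Fock649 Crest.Agent.R340.CS809 Crest.Agent.R340.Rot303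
  Crest.Agent.R340.FI331 Crest.Agent.R340.GG467 Crest.Agent.R340.Br320
  Crest.Agent.R340.Gam303 Crest.MathPhysics.Laughlin
open Crest.Agent.R340.DLi482 (nuQ opRep Phg)
open scoped InnerProductSpace ComplexConjugate Matrix

/-- smeared operator `∫ s(x) X(x) dν(x)`, `ν = (2Q-1) Haar` -/
noncomputable def sm (Q : ℕ) (s : U2 → ℝ) (X : U2 → Op (Fin (Q + 1))) : Op (Fin (Q + 1)) :=
  ∫ x, (s x : ℂ) • X x ∂(nuQ Q)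

/-- the profile class on `Fin (Q+1)` -/
def FamQ (Q m : ℕ) (C : ℝ) (X : U2 → Op (Fin (Q + 1))) : Prop :=
  Fam (aG Q) (dQ Q) (Nh : Op (Fin (Q + 1))) m C X

/-- (FRAME) -/
def FrameP (m : ℕ) : Prop :=
  ∃ (Q₀ : ℕ) (S₁ S₂ Ck : ℝ) (kap : ∀ Q : ℕ, U2 → U2 → ℝ), ∀ Q, Q₀ ≤ Q →
    Frame (nuQ Q) (aG Q) (dQ Q) (kap Q) (Nh : Op (Fin (Q + 1))) m S₁ S₂ Ck

/-- (JUMP) -/
def JumpP (P1 : ℕ) (γ₀ γ₂ : ℝ) : Prop :=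
  ∃ Q₀ : ℕ, ∀ Q, Q₀ ≤ Q →
    Jump (opRep (ι := Fin (Q + 1))) (nuQ Q) (aG Q) (Nh : Op (Fin (Q + 1))) (HH Q)
      (fun N => sector (Fin (Q + 1)) N) (PZ Q).ap (Phg Q P1) γ₀ γ₂ (4 * ((P1 : ℝ) + 1))

/-- (J3) -/
def J3P (m P1 : ℕ) : Prop :=
  ∃ (Q₀ : ℕ) (CE : ℝ), 0 ≤ CE ∧ ∀ Q, Q₀ ≤ Q → ∀ W : U2 → Op (Fin (Q + 1)), FamQ Q m 1 W →
    ∀ s : U2 → ℝ, Measurable s → (∀ x, |s x| ≤ 1) → ∀ (g : U2) (φ : Fk (Fin (Q + 1))),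
      |opRep.q φ (sm Q s W - Phg Q P1 g (sm Q s W))| ≤ CE * ‖φ‖ ^ 2

/-- (J4) -/
def J4P (m : ℕ) : Prop :=
  ∃ (Q₀ : ℕ) (CR : ℝ), 0 ≤ CR ∧ ∀ Q, Q₀ ≤ Q → ∀ W : U2 → Op (Fin (Q + 1)), FamQ Q m 1 W →
    (∀ x φ, W x (PZ Q φ) = PZ Q (W x φ)) →
    ∀ s : U2 → ℝ, Measurable s → (∀ x, |s x| ≤ 1) → ∀ ψ : Fk (Fin (Q + 1)),
      ∫ g, ‖(opRep.π (pB (aG Q) g) * opRep.π (sm Q s W) -
        opRep.π (sm Q s W) * opRep.π (pB (aG Q) g)) ψ‖ ^ 2 ∂(nuQ Q) ≤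
        CR ^ 2 * (⟪ψ, HH Q ψ⟫_ℂ).re

/-- (F1) -/
def F1P (m : ℕ) : Prop :=
  ∃ (Q₀ : ℕ) (CF : ℝ), 0 ≤ CF ∧ ∀ N₀ : ℕ, ∀ Q : ℕ, Q = 3 * (N₀ - 1) → Q₀ ≤ Q →
    ∀ Ψ ∈ sector (Fin (Q + 1)) N₀, HH Q Ψ = 0 → Ψ ≠ 0 →
    ∀ W : U2 → Op (Fin (Q + 1)), FamQ Q m 1 W →
    (∀ x φ, W x (PZ Q φ) = PZ Q (W x φ)) → (∀ x, W x Ψ = 0) →
    ∀ s : U2 → ℝ, Measurable s → (∀ x, |s x| ≤ 1) →
    ∀ N ≤ N₀, ∀ φ ∈ sector (Fin (Q + 1)) N, PZ Q φ = φ →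
      |opRep.q φ (sm Q s W)| ≤ CF * ((N₀ : ℝ) - N) * ‖φ‖ ^ 2

/-- (FILT) -/
def FiltP (m : ℕ) : Prop :=
  ∃ (Q₀ : ℕ) (Cw : ℝ), 0 < Cw ∧ ∀ Q, Q₀ ≤ Q → ∀ Ψ : Fk (Fin (Q + 1)), HH Q Ψ = 0 →
    ∀ X : U2 → Op (Fin (Q + 1)), FamQ Q m 1 X → (∀ x, X x Ψ = 0) →
      ∃ Xt S : U2 → Op (Fin (Q + 1)), FamQ Q m Cw Xt ∧ FamQ Q m Cw S ∧
        (∀ x, X x - Xt x = Complex.I • (HH Q * S x - S x * HH Q)) ∧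
        (∀ x, Xt x Ψ = 0) ∧ (∀ x, S x Ψ = 0) ∧
        (∀ x φ, Xt x (PZ Q φ) = PZ Q (Xt x φ))

/-- theorem (U), final form: the quadratic form of a smeared family of quasi-local operators killing
the Laughlin state is bounded by the Hamiltonian, uniformly in the flux. -/
def UP (m : ℕ) : Prop :=
  ∃ (Q₀ : ℕ) (C : ℝ), 0 ≤ C ∧ ∀ N₀ : ℕ, ∀ Q : ℕ, Q = 3 * (N₀ - 1) → Q₀ ≤ Q →
    ∀ Ψ ∈ sector (Fin (Q + 1)) N₀, HH Q Ψ = 0 → Ψ ≠ 0 →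
    ∀ X : U2 → Op (Fin (Q + 1)), FamQ Q m 1 X → (∀ x, X x Ψ = 0) →
    ∀ s : U2 → ℝ, Measurable s → (∀ x, |s x| ≤ 1) →
    ∀ φ ∈ sector (Fin (Q + 1)) N₀,
      |(⟪φ, (sm Q s X) φ⟫_ℂ).re| ≤ C * (⟪φ, HH Q φ⟫_ℂ).re

/-- **Theorem (U)** from its inputs. -/
theorem U_of {m P1 : ℕ} {γ₀ γ₂ : ℝ} (hγ₂ : 0 < γ₂) (hFrame : FrameP m) (hJump : JumpP P1 γ₀ γ₂)
    (hJ3 : J3P m P1) (hJ4 : J4P m) (hF1 : F1P m) (hFilt : FiltP m) : UP m := by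
  obtain ⟨q1, S₁, S₂, Ck, kap, hFrame⟩ := hFrame
  obtain ⟨q2, hJump⟩ := hJump
  obtain ⟨q3, CE, hCE, hJ3⟩ := hJ3
  obtain ⟨q4, CR, hCR, hJ4⟩ := hJ4
  obtain ⟨q5, CF, hCF, hF1⟩ := hF1
  obtain ⟨q6, Cw, hCw, hFilt⟩ := hFilt
  refine ⟨q1 + q2 + q3 + q4 + q5 + q6 + 1,
    |CU CF CE CR γ₂ (4 * ((P1 : ℝ) + 1)) Cw Ck S₁ S₂|, abs_nonneg _, ?_⟩
  intro N₀ Q hQN hQ Ψ hΨ hΨ0 hne X hX hXΨ s hs hs1 φ hφ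
  have hQ1 : 1 ≤ Q := by omega
  have J := hJump Q (by omega)
  have F := hFrame Q (by omega)
  have hpos : 0 ≤ (⟪φ, HH Q φ⟫_ℂ).re := by
    rw [inner_HH, Complex.re_sum]
    refine Finset.sum_nonneg fun p _ => ?_
    exact inner_self_nonneg (𝕜 := ℂ)
  have key := U_all (R := opRep (ι := Fin (Q + 1))) J F (Ψ := Ψ) (N₀ := N₀) hγ₂ hCE hCR hCF hCw
    (fun g => pB_zero_mode hQ1 hΨ0 g)
    (by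
      subst hQN
      exact uniq_PZ hΨ hΨ0 hne)
    (fun W hW s hs hs1 g φ => hJ3 Q (by omega) W hW s hs hs1 g φ)
    (fun W hW hWP s hs hs1 ψ => hJ4 Q (by omega) W hW hWP s hs hs1 ψ)
    (fun W hW hWP hWΨ s hs hs1 N hN φ hφ hPφ =>
      hF1 N₀ Q hQN (by omega) Ψ hΨ hΨ0 hne W hW hWP hWΨ s hs hs1 N hN φ hφ hPφ)
    (fun X hX hXΨ => hFilt Q (by omega) Ψ hΨ0 X hX hXΨ)
    X hX hXΨ s hs hs1 φ hφ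
  calc |(⟪φ, (sm Q s X) φ⟫_ℂ).re| ≤ CU CF CE CR γ₂ (4 * ((P1 : ℝ) + 1)) Cw Ck S₁ S₂ *
        (⟪φ, HH Q φ⟫_ℂ).re := key
    _ ≤ _ := mul_le_mul_of_nonneg_right (le_abs_self _) hpos

/-! ### adapters -/

/-- the profile class is decreasing in the exponent -/
theorem FamQ.mono_exp {Q m m' : ℕ} (h : m' ≤ m) {C : ℝ} (hC : 0 ≤ C) {X : U2 → Op (Fin (Q + 1))}
    (hX : FamQ Q m C X) : FamQ Q m' C X := by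
  refine ⟨hX.cont, hX.sa, hX.num, hX.norm_le, fun x k w => (hX.com x k w).trans ?_⟩
  have h1 : 1 ≤ 1 + dQ Q x w := by
    have := dQ_nonneg Q x w
    linarith
  exact div_le_div_of_nonneg_left hC (by positivity) (pow_le_pow_right₀ h1 h)

theorem J3P.mono {m m' P1 : ℕ} (h : m' ≤ m) (hJ : J3P m' P1) : J3P m P1 := by
  obtain ⟨q, CE, h0, hJ⟩ := hJ
  exact ⟨q, CE, h0, fun Q hQ W hW => hJ Q hQ W (hW.mono_exp h zero_le_one)⟩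

theorem J4P.mono {m m' : ℕ} (h : m' ≤ m) (hJ : J4P m') : J4P m := by
  obtain ⟨q, CE, h0, hJ⟩ := hJ
  exact ⟨q, CE, h0, fun Q hQ W hW => hJ Q hQ W (hW.mono_exp h zero_le_one)⟩

theorem F1P.mono {m m' : ℕ} (h : m' ≤ m) (hJ : F1P m') : F1P m := by
  obtain ⟨q, CE, h0, hJ⟩ := hJ
  exact ⟨q, CE, h0, fun N₀ Q hQN hQ Ψ hΨ hΨ0 hne W hW =>
    hJ N₀ Q hQN hQ Ψ hΨ hΨ0 hne W (hW.mono_exp h zero_le_one)⟩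

theorem UP.mono {m m' : ℕ} (h : m' ≤ m) (hJ : UP m') : UP m := by
  obtain ⟨q, CE, h0, hJ⟩ := hJ
  exact ⟨q, CE, h0, fun N₀ Q hQN hQ Ψ hΨ hΨ0 hne W hW =>
    hJ N₀ Q hQN hQ Ψ hΨ hΨ0 hne W (hW.mono_exp h zero_le_one)⟩

/-- (JUMP) from 482's `exists_jump` -/
theorem exists_JumpP {γ γ₀ : ℝ} (hγ : 0 < γ) (hγ₀ : 0 < γ₀) (pw Q₀ : ℕ)
    (hn : ∀ Q, Q₀ ≤ Q → ∀ hQ : 1 ≤ Q, DLi482.NEAR Q hQ pw γ)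
    (hgap : ∀ Q, Q₀ ≤ Q → ∀ φ : Fk (Fin (Q + 1)), PZ Q φ = 0 →
      γ₀ * ‖φ‖ ^ 2 ≤ (⟪φ, HH Q φ⟫_ℂ).re) :
    ∃ P1 : ℕ, JumpP P1 γ₀ (γ / 2) := by
  obtain ⟨P1, h⟩ := DLi482.exists_jump hγ hγ₀ pw Q₀ hn hgap
  exact ⟨P1, Q₀ + 1, fun Q hQ => h Q (by omega) (by omega)⟩

end Crest.Agent.R340.U856
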