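import Crest.Agent.R340.DLn_482
import Crest.Agent.R340.U6_856
import Crest.Agent.R340.Tr2_132
import Crest.Agent.R340.Lin3_120
import Crest.Agent.R340.Fac_978

/-!
# (JUMP) of `U6_856` from `psd8` only (helper482)
-/

set_option autoImplicit false

open Crest.Agent.R340.Kn249 Crest.Agent.R340.U856 Crest.Agent.R340.Fock649
open Crest.Agent.R340.Br320 Crest.Agent.R340.DLi482

namespace Crest.Agent.R340.DLi482

/-- the near inequality from the certificate: only `psd8` is left -/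
theorem near_of_psd8 (h : Cert132.PSD 8 Cert132.G8 Cert132.B8 Cert132.A8) {γ : ℝ} (hγ : γ < 479 / 10000) :
    ∃ Q0 : ℕ, ∀ Q : ℕ, Q0 ≤ Q → ∀ t : Kn249.Inv Q, γ * t.a ≤ t.N 50 :=
  near (facts fun Q hQ => Fac978.comm0 Q hQ) Lin120.cert8 (Tr132.locPosN_cert8 h) 50 50
    (489 / 10000) (1 / 1000) γ Lin120.lin8 (fun n => (bT_sum 50 n).trans (by norm_num))
    (by norm_num; linarith)

/-- **(JUMP) of `U_of`** from `psd8`, for every `0 < γ < 479/10000`. -/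
theorem JumpP_of_psd8 (h : Cert132.PSD 8 Cert132.G8 Cert132.B8 Cert132.A8) {γ : ℝ} (hγ : 0 < γ)
    (hγ' : γ < 479 / 10000) : ∃ P1 : ℕ, JumpP P1 γ (γ / 2) := by
  obtain ⟨Q0, P1, hP⟩ := exists_jump_of_cert (fun Q hQ => Fac978.comm0 Q hQ) Lin120.cert8
    (Tr132.locPosN_cert8 h) Lin120.lin8 hγ hγ'
  exact ⟨P1, Q0, hP⟩

/-- the gap `γ H ≤ H²` on the Fock space of every large flux -/
theorem gap_of_psd8 (h : Cert132.PSD 8 Cert132.G8 Cert132.B8 Cert132.A8) {γ : ℝ}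
    (hγ' : γ < 479 / 10000) : ∃ Q0 : ℕ, ∀ Q : ℕ, Q0 ≤ Q → ∀ φ : Fk (Fin (Q + 1)),
      PZ Q φ = 0 → γ * ‖φ‖ ^ 2 ≤ qq (HH Q) φ := by
  obtain ⟨Q0, hP⟩ := near_of_psd8 h hγ'
  refine ⟨max Q0 52, fun Q hQ φ hφ => gap_of_near ?_ 50 ?_ γ (hP Q ?_) φ hφ⟩
  · have := le_trans (le_max_right Q0 52) hQ; omega
  · have := le_trans (le_max_right Q0 52) hQ; omega
  · exact le_trans (le_max_left _ _) hQ

end Crest.Agent.R340.DLi482
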