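import Crest.Agent.R340.PathStep4_880
import Crest.Agent.R340.PeelX_596
import Crest.Agent.R340.FX1_963
import Crest.Agent.R340.Avg2_814

/-!
# R340, PLAN-F1 (helper150): the literal interfaces of block E

* `Dy n Q C X`, `DyG n Q C g X`: the flux-independent class (963's `DY`) about the pole / about `g`;
* inputs `RC` (ring clustering), `RX`, `RZ` (rings against local operators), `GZ` (density of the last
  orbital), `TZ` (local decomposition of the cross term), `TX` (the `X` term as a local operator);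
* outputs `WP` (weak pass) and `SP` (strong pass).

All constants are quantified first, uniformly in the flux `Q`, the metric and the particle number.
-/

set_option autoImplicit false

open Finset MeasureTheory
open scoped InnerProductSpace

namespace Crest.Agent.R340.Defs150

open Crest.Agent.R340.Fock649 Crest.Agent.R340.Emb596 Crest.Agent.R340.Geo986
  Crest.Agent.R340.Peel596 Crest.Agent.R340.Step596 Crest.Agent.R340.PathStep880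
open Crest.Agent.R340.PeelX596 (RC2 RX2)
open Crest.Agent.R340.FX963 (DY)
open Crest.Agent.R340.Scal725 (prof cs dd)
open Crest.Agent.R340.PV341 (Adm)
open Crest.Agent.R340.Rot303 (cj)
open Crest.Agent.R340.Avg814 (G2 hm tt)

/-! ### 1. the class -/

/-- **the class about the north pole**: self-adjoint and in 963's flux-independent dyadic class -/
def Dy (n Q : ℕ) (C : ℝ) (X : Op (Fin (Q + 1))) : Prop := IsSelfAdjoint X ∧ DY Q n C X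

/-- the class about the centre `g` -/
def DyG (n Q : ℕ) (C : ℝ) (g : G2) (X : Op (Fin (Q + 1))) : Prop :=
  Dy n Q C (cj (star (g : Matrix (Fin 2) (Fin 2) ℂ)) X)

theorem Dy.cmp {n Q Q' : ℕ} {C : ℝ} {X : Op (Fin (Q + 1))} (h : Dy n Q C X) (hQ : Q' ≤ Q) :
    Dy n Q' C (cmp (ee hQ) X) := by
  refine ⟨?_, h.2.cmp hQ⟩
  have h1 := h.1
  rw [IsSelfAdjoint] at h1 ⊢
  rw [← cmp_star, h1]

/-! ### 2. the inputs -/

/-- distance of the ring `p` and the ring coordinate `j` (real), both poles -/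
noncomputable def Dr (Q p : ℕ) (j : ℝ) : ℝ :=
  |Real.sqrt ((p : ℝ) + 1) - Real.sqrt (j + 1)| +
    |Real.sqrt ((Q : ℝ) - p + 1) - Real.sqrt ((Q : ℝ) - j + 1)|

/-- **(RC)** ring clustering in all geometries (596's two-state form). -/
def RC (K : ℝ) : Prop := 0 ≤ K ∧ ∀ Q : ℕ, 1 ≤ Q → ∀ t : Fin 3 → ℝ, Adm t → ∀ n : ℕ,
  RC2 Q (Zn (nuT t Q) Q n) K 20

/-- **(RX)** clustering of the rings against the class about the north pole. -/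
def RX (nW : ℕ) (K : ℝ) : Prop := 0 ≤ K ∧ ∀ Q : ℕ, 1 ≤ Q → ∀ t : Fin 3 → ℝ, Adm t → ∀ n : ℕ,
  ∀ X : Op (Fin (Q + 1)), Dy nW Q 1 X → RX2 Q (Zn (nuT t Q) Q n) X K

/-- **(RZ)** clustering of the rings against the class about `g`. -/
def RZ (nW : ℕ) (K : ℝ) : Prop := 0 ≤ K ∧ ∀ Q : ℕ, 1 ≤ Q → ∀ t : Fin 3 → ℝ, Adm t → ∀ n : ℕ,
  ∀ (g : G2) (T : Op (Fin (Q + 1))), DyG nW Q 1 g T →
    ∀ ψ ∈ Zn (nuT t Q) Q n, ∀ φ ∈ Zn (nuT t Q) Q n, ∀ p < Q - 1,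
      ‖⟪off (Zn (nuT t Q) Q n) (TT Q (kink (p + 1)) ψ), off (Zn (nuT t Q) Q n) (T φ)⟫_ℂ‖ ≤
        K * Real.sqrt (PSD716.dd Q p) * (1 + Dr Q p (Q * tt g)) ^ (-(8 : ℝ)) * (‖ψ‖ * ‖φ‖)

/-- **(GZ)** the density of the last orbital is bounded below off the zero modes not occupying it
(986's `G0_sector`). -/
def GZ (κ : ℝ) : Prop := 0 < κ ∧ ∀ t : Fin 3 → ℝ, Adm t → t 2 = 0 → ∀ Q n : ℕ,
  ∀ ψ ∈ Zn (nuT t (Q + 1)) (Q + 1) n,
    (∀ φ ∈ Zn (nuT t (Q + 1)) (Q + 1) n, c (Fin.last (Q + 1)) φ = 0 → ⟪φ, ψ⟫_ℂ = 0) →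
      κ * ‖ψ‖ ^ 2 ≤ ‖c (Fin.last (Q + 1)) ψ‖ ^ 2

/-- **(TZ)** the cross term of `prof A S` is the integral of local operators (877). `K` depends on the
exponents `nW`, `A` only. -/
def TZ (nW : ℕ) (A K : ℝ) : Prop := 0 ≤ K ∧ ∀ Q : ℕ, 1 ≤ Q → ∀ θ ∈ Set.Icc (0 : ℝ) 1,
  ∀ S : ℝ, 2 ≤ S →
    ∃ T : G2 → Op (Fin (Q + 1)), Continuous T ∧
      (∀ g, DyG nW Q (K / ((Q : ℝ) + 1) ^ 2 * (1 + Q * tt g / S) ^ (-A)) g (T g)) ∧
      ∀ n : ℕ, ∀ ψ ∈ Zn (nuT (tA θ) Q) Q n,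
        (⟪off (Zn (nuT (tA θ) Q) Q n) (TT Q (gm 3 Q) ψ),
          off (Zn (nuT (tA θ) Q) Q n) (TT Q (prof A S) ψ)⟫_ℂ).re =
        (⟪ψ, (((Q : ℝ) + 1) • ∫ g, T g ∂hm) ψ⟫_ℂ).re

/-- **(TX)** the `X` term of the path derivative is a local operator of size `Q⁻²`. -/
def TX (nS nW : ℕ) (K : ℝ) : Prop := 0 ≤ K ∧ ∀ Q : ℕ, 1 ≤ Q → ∀ θ ∈ Set.Icc (0 : ℝ) 1,
  ∀ X : Op (Fin (Q + 1)), Dy nS Q 1 X → ∃ Y : Op (Fin (Q + 1)),
    Dy nW Q (K / ((Q : ℝ) + 1) ^ 2) Y ∧ ∀ n : ℕ, ∀ ψ ∈ Zn (nuT (tA θ) Q) Q n,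
      (⟪off (Zn (nuT (tA θ) Q) Q n) (TT Q (gm 3 Q) ψ), off (Zn (nuT (tA θ) Q) Q n) (X ψ)⟫_ℂ).re =
        (⟪ψ, Y ψ⟫_ℂ).re

/-! ### 3. the outputs -/

/-- unit vector of the (one-dimensional) space of zero modes with `K = 0`, `3 ∣ Q` -/
def IsVac (Q : ℕ) (Ω : Fk (Fin (Q + 1))) : Prop := Ω ∈ Zn (nu0 Q) Q (Q / 3 + 1) ∧ ‖Ω‖ = 1

/-- **(W)**: output of the weak pass with exponent `a`, for every scale `S ≥ R0` with the same
`CW`. -/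
def WP (nW : ℕ) (a R0 CW θ : ℝ) : Prop :=
  ∀ S : ℝ, R0 ≤ S → ∀ (Q n : ℕ) (X : Op (Fin (Q + 1))) (Ω : Fk (Fin (Q + 1))), 3 ∣ Q → 3 * n ≤ Q →
    Dy nW Q 1 X → IsVac Q Ω →
      LB (nu0 Q) Q n
        (Dop Q (3 * CW * cs (prof a S) Q + (⟪Ω, X Ω⟫_ℂ).re) (3 * CW) (prof a S) X)
        (θ * CW * (Q + 3 - 3 * n) * prof a S Q)

/-- **(S)**: output of the strong pass (`1 < A`, so that the profile is summable). -/
def SP (nS : ℕ) (A S CS : ℝ) : Prop :=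
  ∀ (Q n : ℕ) (X : Op (Fin (Q + 1))) (Ω : Fk (Fin (Q + 1))), 3 ∣ Q → 3 * n ≤ Q + 3 →
    Dy nS Q 1 X → IsVac Q Ω →
      LB (nu0 Q) Q n
        (Dop Q (3 * CS * cs (prof A S) Q + (⟪Ω, X Ω⟫_ℂ).re) (3 * CS) (prof A S) X) 0

end Crest.Agent.R340.Defs150
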