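import Crest.Agent.R340.AvgG_725
import Crest.Agent.R340.ZsBp_725
import Crest.Agent.R340.DLk_482

/-!
R340 (S0532), F5 of PLAN-F1 (helper725): the final form of (F1) from (S).

`F1_core`: from the strong pass at the centre (for an arbitrary class `Cl` of local operators,
closed under the rescaled recentred family) to the integrated bound with respect to `nuQ Q`.
-/

set_option autoImplicit false

open Matrix Finset MeasureTheory

namespace Crest.Agent.R340.F5725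

open Crest.Agent.R340.Fock649 Crest.Agent.R340.Gam303 Crest.Agent.R340.Rot303
open Crest.Agent.R340.Avg814 Crest.Agent.R340.CS809 Crest.Agent.R124.Haar
open Crest.Agent.R340.DomF735 Crest.Agent.R340.Scal725 Crest.Agent.R340.AvgG725
open Crest.Agent.R340.ZsBp725 Crest.Agent.R340.Geo986 Crest.Agent.R340.Peel596
open Crest.Agent.R340.Br320 Crest.Agent.R340.DLi482 Crest.Agent.R340.GG467

noncomputable section

variable {Q : ℕ}

/-- rotations preserve the zero modes of a sector -/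
theorem star_Rg_mem_Zn (n : ℕ) (g : G2) {ψ : Fk (Fin (Q + 1))} (h : ψ ∈ Zn (nu0 Q) Q n) :
    star (Rg Q (g : Matrix (Fin 2) (Fin 2) ℂ)) ψ ∈ Zn (nu0 Q) Q n := by
  rw [mem_Zn_nu0_iff] at h ⊢
  have hg' : (g : Matrix (Fin 2) (Fin 2) ℂ)ᴴ * ((g : Matrix (Fin 2) (Fin 2) ℂ)ᴴ)ᴴ = 1 := by
    rw [conjTranspose_conjTranspose]; exact g2_ct_mul g
  rw [star_Rg]
  refine ⟨Bp_Rg_eq_zero hg' h.1, ?_⟩
  have e : (Nh : Op (Fin (Q + 1))) * Rg Q ((g : Matrix (Fin 2) (Fin 2) ℂ)ᴴ) =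
      Rg Q ((g : Matrix (Fin 2) (Fin 2) ℂ)ᴴ) * Nh := (Gam_mul_Nh _).symm
  rw [← mul_ap, e, mul_ap, h.2, map_smul]

theorem Rg_mem_Zn (n : ℕ) (g : G2) {ψ : Fk (Fin (Q + 1))} (h : ψ ∈ Zn (nu0 Q) Q n) :
    Rg Q (g : Matrix (Fin 2) (Fin 2) ℂ) ψ ∈ Zn (nu0 Q) Q n := by
  have h1 := star_Rg_mem_Zn n (star g) h
  rw [star_Rg] at h1
  have e : ((star g : G2) : Matrix (Fin 2) (Fin 2) ℂ)ᴴ = (g : Matrix (Fin 2) (Fin 2) ℂ) := by
    change ((g : Matrix (Fin 2) (Fin 2) ℂ)ᴴ)ᴴ = _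
    rw [conjTranspose_conjTranspose]
  rwa [e] at h1

/-- the form of `Dop` -/
theorem re_inner_Dop (s CS : ℝ) (f : ℕ → ℝ) (X : Op (Fin (Q + 1))) (φ : Fk (Fin (Q + 1))) :
    (inner ℂ φ (Dop Q s (3 * CS) f X φ) : ℂ).re =
      s * ‖φ‖ ^ 2 - 3 * CS * (inner ℂ φ (dGf f Q φ) : ℂ).re - (inner ℂ φ (X φ) : ℂ).re := by
  have e : dG (Matrix.diagonal fun j : Fin (Q + 1) => ((f j : ℝ) : ℂ)) = dGf f Q := rfl
  have h2 : ((RCLike.ofReal ‖φ‖ : ℂ) ^ 2).re = ‖φ‖ ^ 2 := by norm_cast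
  unfold Dop
  rw [e, sub_ap, sub_ap, smul_ap, smul_ap, one_ap, inner_sub_right, inner_sub_right,
    inner_smul_right, inner_smul_right, Complex.sub_re, Complex.sub_re, Complex.re_ofReal_mul,
    Complex.re_ofReal_mul, inner_self_eq_norm_sq_to_K, h2]

theorem isSelfAdjoint_cj {X : Op (Fin (Q + 1))} (hX : IsSelfAdjoint X)
    (g : Matrix (Fin 2) (Fin 2) ℂ) : IsSelfAdjoint (cj g X) := by
  unfold IsSelfAdjoint
  rw [cj_star, hX.star_eq]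

/-- **(F1) from (S).** `Cl` is the class of local operators about the north pole for which the
strong pass is known (norm bound 1); `κ` the norm of the recentred family in this class. -/
theorem F1_core {N₀ n : ℕ} (hQN : Q + 3 = 3 * N₀) (hn : n ≤ N₀) {CS κ : ℝ} (hCS : 0 ≤ CS)
    (hκ : 0 < κ) {f : ℕ → ℝ} (hf0 : ∀ j, 0 ≤ f j) {Cl : Op (Fin (Q + 1)) → Prop}
    {Om Ψ : Fk (Fin (Q + 1))} (hOm : Om ∈ Zn (nu0 Q) Q N₀)
    (huniq : ∀ φ ∈ Zn (nu0 Q) Q N₀, ∃ z : ℂ, φ = z • Ψ)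
    (hSP : ∀ X : Op (Fin (Q + 1)), IsSelfAdjoint X → Cl X →
      LB (nu0 Q) Q n (Dop Q (3 * CS * cs f Q + (inner ℂ Om (X Om) : ℂ).re) (3 * CS) f X) 0)
    {W : G2 → Op (Fin (Q + 1))} (hWc : Continuous W) (hWs : ∀ g, IsSelfAdjoint (W g))
    (hCl : ∀ g : G2, Cl (((κ⁻¹ : ℝ) : ℂ) • cj (g : Matrix (Fin 2) (Fin 2) ℂ)ᴴ (W g)))
    (hCl' : ∀ g : G2, Cl (-(((κ⁻¹ : ℝ) : ℂ) • cj (g : Matrix (Fin 2) (Fin 2) ℂ)ᴴ (W g))))
    (hWΨ : ∀ g, W g Ψ = 0) {s : G2 → ℝ} (hs : Measurable s) (hs1 : ∀ g, |s g| ≤ 1)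
    {φ : Fk (Fin (Q + 1))} (hφ : φ ∈ Zn (nu0 Q) Q n) :
    |(inner ℂ φ ((∫ g, (s g : ℂ) • W g ∂(nuQ Q)) φ) : ℂ).re| ≤
      (6 * κ * CS * ∑ j ∈ range (Q + 1), f j) * ((N₀ : ℝ) - n) * ‖φ‖ ^ 2 := by
  -- vacuum expectation
  have hvac : ∀ g : G2, cj (g : Matrix (Fin 2) (Fin 2) ℂ)ᴴ (W g) Om = 0 := by
    intro g
    obtain ⟨z, hz⟩ := huniq _ (Rg_mem_Zn N₀ g hOm)
    unfold cj
    rw [mul_ap, mul_ap, star_Rg, conjTranspose_conjTranspose, hz, map_smul, hWΨ, smul_zero,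
      map_zero]
  have hW : ∀ g : G2, ∀ χ ∈ Zn (nu0 Q) Q n,
      |(inner ℂ χ (cj (g : Matrix (Fin 2) (Fin 2) ℂ)ᴴ (W g) χ) : ℂ).re - (0 : ℝ) * ‖χ‖ ^ 2| ≤
        (κ * CS) * hf f Q χ := by
    intro g χ hχ
    set X := cj (g : Matrix (Fin 2) (Fin 2) ℂ)ᴴ (W g) with hX
    have hXs : IsSelfAdjoint X := isSelfAdjoint_cj (hWs g) _
    have hXs' : IsSelfAdjoint (((κ⁻¹ : ℝ) : ℂ) • X) := by
      unfold IsSelfAdjoint
      rw [star_smul, hXs.star_eq, Complex.star_def, Complex.conj_ofReal]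
    have h1 := hSP _ hXs' (hCl g) χ hχ
    have h2 := hSP _ hXs'.neg (hCl' g) χ hχ
    have hO : X Om = 0 := hvac g
    have hO1 : (((κ⁻¹ : ℝ) : ℂ) • X) Om = 0 := by rw [smul_ap, hO, smul_zero]
    have hO2 : (-(((κ⁻¹ : ℝ) : ℂ) • X)) Om = 0 := by rw [neg_ap, hO1, neg_zero]
    rw [re_inner_Dop, hO1, inner_zero_right, Complex.zero_re, add_zero] at h1
    rw [re_inner_Dop, hO2, inner_zero_right, Complex.zero_re, add_zero] at h2
    rw [smul_ap, inner_smul_right, Complex.re_ofReal_mul] at h1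
    rw [neg_ap, smul_ap, inner_neg_right, inner_smul_right, Complex.neg_re,
      Complex.re_ofReal_mul] at h2
    have h3 : CS * hf f Q χ = 3 * CS * cs f Q * ‖χ‖ ^ 2 -
        3 * CS * (inner ℂ χ (dGf f Q χ) : ℂ).re := by unfold hf; ring
    have h4 : |κ⁻¹ * (inner ℂ χ (X χ) : ℂ).re| ≤ CS * hf f Q χ := by
      rw [abs_le, h3]
      constructor
      · linarith
      · linarith
    rw [abs_mul, abs_of_pos (inv_pos.2 hκ), inv_mul_le_iff₀ hκ] at h4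
    rw [zero_mul, sub_zero, mul_assoc]
    exact h4
  have hZn : ∀ ψ ∈ Zn (nu0 Q) Q n, (Nh : Op (Fin (Q + 1))) ψ = (n : ℂ) • ψ := fun ψ h => h.2
  have h := f1_final (fun g ψ hψ => star_Rg_mem_Zn n g hψ) hZn hWc (t := fun _ => (0 : ℝ)) hW
    hs.aestronglyMeasurable hs1 (by simp) hφ
  simp only [mul_zero, integral_zero, zero_mul, sub_zero] at h
  -- pass to `nuQ`
  have e1 : (∫ g, (s g : ℂ) • W g ∂(nuQ Q)) =
      (((ENNReal.ofReal (2 * (Q : ℝ) - 1)).toReal : ℝ) : ℂ) • ∫ g, (s g : ℂ) • W g ∂hm := by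
    unfold nuQ
    rw [integral_smul_measure]
    exact (Complex.coe_smul _ _).symm
  rw [e1, smul_ap, inner_smul_right, Complex.re_ofReal_mul, abs_mul]
  set r : ℝ := (ENNReal.ofReal (2 * (Q : ℝ) - 1)).toReal with hr
  have hr0 : 0 ≤ r := ENNReal.toReal_nonneg
  have hr1 : r ≤ 2 * ((Q : ℝ) + 1) := by
    rw [hr, ENNReal.toReal_ofReal']
    have : (0 : ℝ) ≤ Q := Nat.cast_nonneg Q
    exact max_le (by linarith) (by linarith)
  rw [abs_of_nonneg hr0]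
  have hK : ((Q : ℝ) + 3 - 3 * n) = 3 * ((N₀ : ℝ) - n) := by
    have : ((Q : ℝ) + 3) = 3 * N₀ := by exact_mod_cast hQN
    linarith
  have hK0 : 0 ≤ (N₀ : ℝ) - n := by
    have : (n : ℝ) ≤ N₀ := by exact_mod_cast hn
    linarith
  have hS : 0 ≤ ∑ j ∈ range (Q + 1), f j := sum_nonneg fun j _ => hf0 j
  have hB : 0 ≤ κ * CS * ((∑ j ∈ range (Q + 1), f j) / (Q + 1) * ((Q : ℝ) + 3 - 3 * n)) *
      ‖φ‖ ^ 2 := by
    rw [hK]; positivity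
  calc r * |(inner ℂ φ ((∫ g, (s g : ℂ) • W g ∂hm) φ) : ℂ).re| ≤
      (2 * ((Q : ℝ) + 1)) * (κ * CS * ((∑ j ∈ range (Q + 1), f j) / (Q + 1) *
        ((Q : ℝ) + 3 - 3 * n)) * ‖φ‖ ^ 2) :=
        mul_le_mul hr1 h (abs_nonneg _) (by positivity)
    _ = (6 * κ * CS * ∑ j ∈ range (Q + 1), f j) * ((N₀ : ℝ) - n) * ‖φ‖ ^ 2 := by
        rw [hK]; field_simp; ring

end

end Crest.Agent.R340.F5725
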