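import Crest.Agent.R340.F5_725
import Crest.Agent.R340.Defs_150
import Crest.Agent.R340.FX2_963
import Crest.Agent.R340.U6_856

/-!
R340 (S0532), F5 of PLAN-F1 (helper725), part 2: `F1P_of_SP`, the literal (F1) of `U6_856.lean` from
the literal strong pass `Defs150.SP`.
-/

set_option autoImplicit false

open Matrix Finset MeasureTheory

namespace Crest.Agent.R340.F5725

open Crest.Agent.R340.Fock649 Crest.Agent.R340.Gam303 Crest.Agent.R340.Rot303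
open Crest.Agent.R340.Avg814 Crest.Agent.R340.CS809
open Crest.Agent.R340.DomF735 Crest.Agent.R340.Scal725
open Crest.Agent.R340.ZsBp725 Crest.Agent.R340.Geo986 Crest.Agent.R340.Peel596
open Crest.Agent.R340.Br320 Crest.Agent.R340.GG467 Crest.Agent.R340.FX963
open Crest.Agent.R340.QL331 Crest.Agent.R340.FI331 Crest.Agent.R340.DC867
open Crest.Agent.R340.Defs150 Crest.MathPhysics.Laughlin

noncomputable section

variable {Q : ℕ}

/-- a profile family (856) is a profile about each centre (331) -/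
theorem pc_of_FamQ {m : ℕ} {C : ℝ} {W : U2 → Op (Fin (Q + 1))} (hW : U856.FamQ Q m C W) (g : U2) :
    PC (Rq Q) (uf Q) (dQ Q) m C (W g) g := by
  refine ⟨hW.norm_le g, fun k w => ?_⟩
  obtain ⟨k, b⟩ := k
  rw [dQ_comm]
  cases b
  · rw [gen_false, fcar_an, Ring.lie_def]
    exact hW.com g k w
  · rw [gen_true, fcar_cr, Ring.lie_def]
    have := hW.com_star g k w
    rwa [U856.aG, star_an] at this

theorem comm_of_FamQ {m : ℕ} {C : ℝ} {W : U2 → Op (Fin (Q + 1))} (hW : U856.FamQ Q m C W) (g : U2) :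
    Commute (W g) (Nh : Op (Fin (Q + 1))) := (hW.num g).symm

/-- the recentred, rescaled family is in the class of the strong pass -/
theorem Dy_of_FamQ {k : ℕ} {W : U2 → Op (Fin (Q + 1))} (hW : U856.FamQ Q (k + 5) 1 W) (g : U2) :
    DY Q (k + 1) 1 ((((KB k)⁻¹ : ℝ) : ℂ) • cj (g : Matrix (Fin 2) (Fin 2) ℂ)ᴴ (W g)) := by
  have h := (DY.of_pc_rot (comm_of_FamQ hW g) (pc_of_FamQ hW g)).smul (((KB k)⁻¹ : ℝ) : ℂ)
  have hK := KB_pos k
  rw [Complex.norm_real, Real.norm_of_nonneg (inv_nonneg.2 hK.le), mul_one,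
    inv_mul_cancel₀ hK.ne'] at h
  exact h

/-- **(F1) of `U6_856` from the strong pass.** -/
theorem F1P_of_SP {k : ℕ} {A S CS : ℝ} (hA : 1 < A) (hAS : A < S + 1) (hCS : 0 ≤ CS)
    (hSP : SP (k + 1) A S CS) : U856.F1P (k + 5) := by
  have hS : 0 < S := by linarith
  refine ⟨1, 6 * KB k * CS * (S / (A - 1)), ?_, ?_⟩
  · have := KB_pos k
    have h1 : 0 < A - 1 := by linarith
    positivity
  intro N₀ Q hQN hQ1 Ψ hΨ hΨ0 hne W hW _ hWΨ s hs hs1 N hN φ hφ hPφ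
  have hN₀ : 2 ≤ N₀ := by omega
  have hQN' : Q + 3 = 3 * N₀ := by omega
  have hΨZ : Ψ ∈ Zn (nu0 Q) Q N₀ := ⟨mem_Zs_nu0_iff_HH.2 hΨ0, mem_sector_iff_Nh.1 hΨ⟩
  have hφZ : φ ∈ Zn (nu0 Q) Q N := by
    refine ⟨mem_Zs_nu0_iff_HH.2 ?_, mem_sector_iff_Nh.1 hφ⟩
    rw [← hPφ]
    exact U856.PZ_HH φ
  have huniq : ∀ v ∈ Zn (nu0 Q) Q N₀, ∃ z : ℂ, v = z • Ψ := by
    intro v hv
    have hv1 : HH Q v = 0 := mem_Zs_nu0_iff_HH.1 hv.1
    have hv2 : v ∈ sector (Fin (Q + 1)) N₀ := mem_sector_iff_Nh.2 hv.2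
    subst hQN
    exact U856.uniq_of hΨ hΨ0 hne hv2 hv1
  set Om : Fk (Fin (Q + 1)) := ((‖Ψ‖⁻¹ : ℝ) : ℂ) • Ψ with hOmdef
  have hΨn : 0 < ‖Ψ‖ := norm_pos_iff.2 hne
  have hOm : Om ∈ Zn (nu0 Q) Q N₀ := Submodule.smul_mem _ _ hΨZ
  have hOm1 : ‖Om‖ = 1 := by
    rw [hOmdef, norm_smul, Complex.norm_real, Real.norm_of_nonneg (inv_nonneg.2 hΨn.le),
      inv_mul_cancel₀ hΨn.ne']
  have hvac : IsVac Q Om := by
    refine ⟨?_, hOm1⟩
    have e : Q / 3 + 1 = N₀ := by omega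
    rw [e]; exact hOm
  have key := F1_core (Q := Q) (N₀ := N₀) (n := N) hQN' hN hCS (KB_pos k)
    (f := prof A S) (fun j => (prof_pos hS.le hAS j).le) (Cl := fun X => DY Q (k + 1) 1 X) (Om := Om)
    (Ψ := Ψ) hOm huniq
    (fun X hX hXD => hSP Q N X Om (by omega) (by omega) ⟨hX, hXD⟩ hvac)
    (W := W) hW.cont hW.sa (fun g => Dy_of_FamQ hW g) (fun g => (Dy_of_FamQ hW g).neg)
    hWΨ hs hs1 hφZ
  refine (show |(inner ℂ φ ((∫ g, (s g : ℂ) • W g ∂(DLi482.nuQ Q)) φ) : ℂ).re| ≤ _ from key).trans ?_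
  have h1 : ∑ j ∈ range (Q + 1), prof A S j ≤ S / (A - 1) :=
    sum_prof_le_of_one_lt hS.le hA hAS _
  have h2 : (0 : ℝ) ≤ (N₀ : ℝ) - N := by
    have : (N : ℝ) ≤ N₀ := by exact_mod_cast hN
    linarith
  have hK := KB_pos k
  gcongr

end

end Crest.Agent.R340.F5725
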