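import Crest.Agent.R340.FI1_331
import Crest.Agent.R340.Avg2_814
import Crest.Agent.R340.U3_856

/-!
Frame instance (helper331), part 2: Schur integrals for the frame on `U2`, uniformly in `Q ≥ 1`,
for every measure `c • hm` with `c ≤ 2 Q` (so for `(2Q-1) Haar` and for `(Q+1) Haar`).
-/

set_option autoImplicit false
set_option linter.unusedSectionVars false

namespace Crest.Agent.R340.FI331

open Matrix MeasureTheory Crest.Agent.R340.CS809 Crest.Agent.R340.Fock649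
  Crest.Agent.R340.Gam303 Crest.Agent.R340.Rot303 Crest.Agent.R340.QL331
  Crest.Agent.R340.Avg814
open scoped ENNReal NNReal

theorem ov_eq (g h : U2) : 1 - ov g h = tt (g⁻¹ * h) := by
  have h1 := norm_00 (g⁻¹ * h)
  have h2 : ov g h = ‖((g⁻¹ * h : U2) : Matrix (Fin 2) (Fin 2) ℂ) 0 0‖ ^ 2 := rfl
  rw [h2, h1]
  ring

theorem dQ_tt (Q : ℕ) (g h : U2) : dQ Q g h = Real.sqrt (4 * (Q * tt (g⁻¹ * h))) := by
  rw [dQ_eq, ov_eq]

theorem lint_dQ_eq (Q : ℕ) {F : ℝ → ℝ≥0∞} (hF : Measurable F) (g : U2) :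
    ∫⁻ h, F (dQ Q g h) ∂hm = ∫⁻ x in Set.Icc (0 : ℝ) 1, F (Real.sqrt (4 * (Q * x))) := by
  have h1 : ∀ h : U2, F (dQ Q g h) = (fun k : U2 => F (Real.sqrt (4 * (Q * tt k)))) (g⁻¹ * h) := by
    intro h; rw [dQ_tt]
  simp only [h1]
  rw [lintegral_mul_left_eq_self (μ := hm) (fun k : U2 => F (Real.sqrt (4 * (Q * tt k)))) g⁻¹]
  exact lintegral_tt (F := fun x => F (Real.sqrt (4 * (Q * x)))) (by fun_prop)

/-- hat-box in the distance variable -/
theorem lint_dQ_le {Q : ℕ} (hQ : 1 ≤ Q) {F : ℝ → ℝ≥0∞} (hF : Measurable F) (g : U2) :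
    ∫⁻ h, F (dQ Q g h) ∂hm ≤ ∫⁻ r in Set.Ioi (0 : ℝ), ENNReal.ofReal (r / (2 * Q)) * F r := by
  have hQ' : (0 : ℝ) < Q := by exact_mod_cast hQ
  rw [lint_dQ_eq Q hF g]
  have h1 : ∫⁻ x in Set.Icc (0 : ℝ) 1, F (Real.sqrt (4 * (Q * x))) =
      ∫⁻ x in Set.Ioc (0 : ℝ) 1, F (Real.sqrt (4 * (Q * x))) :=
    setLIntegral_congr Ioc_ae_eq_Icc.symm
  rw [h1]
  have hsub : Set.Ioc (0 : ℝ) 1 ⊆ (fun r : ℝ => r ^ 2 / (4 * Q)) '' Set.Ioi 0 := by
    intro x hx
    refine ⟨Real.sqrt (4 * Q * x), Real.sqrt_pos.2 (by have := hx.1; positivity), ?_⟩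
    simp only
    rw [Real.sq_sqrt (by have := hx.1; positivity)]
    field_simp
  refine (lintegral_mono_set hsub).trans ?_
  rw [lintegral_image_eq_lintegral_abs_deriv_mul (f := fun r : ℝ => r ^ 2 / (4 * Q))
    (f' := fun r => r / (2 * Q)) measurableSet_Ioi ?_ ?_]
  · refine setLIntegral_mono_ae' measurableSet_Ioi (Filter.Eventually.of_forall fun r hr => ?_)
    have hr' : (0 : ℝ) < r := hr
    have e1 : 4 * ((Q : ℝ) * (r ^ 2 / (4 * Q))) = r ^ 2 := by field_simp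
    rw [e1, Real.sqrt_sq hr'.le, abs_of_nonneg (by positivity)]
  · intro r hr
    have h2 : HasDerivAt (fun r : ℝ => r ^ 2 / (4 * Q)) ((2 : ℕ) * r ^ (2 - 1) / (4 * Q)) r :=
      (hasDerivAt_pow 2 r).div_const _
    have h3 : ((2 : ℕ) : ℝ) * r ^ (2 - 1) / (4 * Q) = r / (2 * Q) := by
      push_cast
      field_simp
      ring
    rw [h3] at h2
    exact h2.hasDerivWithinAt
  · intro r hr s hs hrs
    have hr' : (0 : ℝ) < r := hr
    have hs' : (0 : ℝ) < s := hs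
    have h4 : r ^ 2 = s ^ 2 := by
      simp only at hrs
      field_simp at hrs
      exact hrs
    exact (pow_left_inj₀ hr'.le hs'.le two_ne_zero).1 h4

/-- `∫⁻ F(d(g,h)) d(c • haar)(h) ≤ ∫⁻_{r>0} r F(r) dr` for `c ≤ 2Q` -/
theorem lint_nu_le {Q : ℕ} (hQ : 1 ≤ Q) {c : ℝ≥0} (hc : (c : ℝ) ≤ 2 * Q) {F : ℝ → ℝ≥0∞}
    (hF : Measurable F) (g : U2) :
    ∫⁻ h, F (dQ Q g h) ∂(c • hm) ≤ ∫⁻ r in Set.Ioi (0 : ℝ), ENNReal.ofReal r * F r := by
  have hQ' : (0 : ℝ) < Q := by exact_mod_cast hQ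
  rw [lintegral_smul_measure]
  have h1 : (c : ℝ≥0) • ∫⁻ h, F (dQ Q g h) ∂hm = (c : ℝ≥0∞) * ∫⁻ h, F (dQ Q g h) ∂hm := rfl
  rw [h1]
  refine (mul_le_mul_right (lint_dQ_le hQ hF g) (c : ℝ≥0∞)).trans ?_
  rw [← lintegral_const_mul _ (by fun_prop)]
  refine setLIntegral_mono_ae' measurableSet_Ioi (Filter.Eventually.of_forall fun r hr => ?_)
  have hr' : (0 : ℝ) < r := hr
  rw [← mul_assoc, show (c : ℝ≥0∞) = ENNReal.ofReal (c : ℝ) from (ENNReal.ofReal_coe_nnreal).symm,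
    ← ENNReal.ofReal_mul (by positivity)]
  gcongr
  calc (c : ℝ) * (r / (2 * Q)) ≤ (2 * Q) * (r / (2 * Q)) := by gcongr
    _ = r := by field_simp

theorem lint_inv_sq : ∫⁻ r in Set.Ioi (0 : ℝ), ENNReal.ofReal (1 / (1 + r) ^ 2) = 1 := by
  have hder : ∀ x ∈ Set.Ici (0 : ℝ), HasDerivAt (fun r : ℝ => -(1 + r)⁻¹) (1 / (1 + x) ^ 2) x := by
    intro x hx
    have hx' : (0 : ℝ) ≤ x := hx
    have h1 : HasDerivAt (fun r : ℝ => 1 + r) 1 x := by
      simpa using (hasDerivAt_id x).const_add 1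
    have h2 := (h1.inv (by positivity)).neg
    have h3 : -(-1 / (1 + x) ^ 2) = 1 / (1 + x) ^ 2 := by rw [neg_div, neg_neg]
    rw [h3] at h2
    exact h2
  have hlim : Filter.Tendsto (fun r : ℝ => -(1 + r)⁻¹) Filter.atTop (nhds 0) := by
    have : Filter.Tendsto (fun r : ℝ => (1 + r)⁻¹) Filter.atTop (nhds 0) :=
      tendsto_inv_atTop_zero.comp (Filter.tendsto_atTop_add_const_left _ _ Filter.tendsto_id)
    simpa using this.neg
  have hint := integrableOn_Ioi_deriv_of_nonneg' hder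
    (fun x hx => by have : (0 : ℝ) < x := hx; positivity) hlim
  have hval := integral_Ioi_of_hasDerivAt_of_nonneg' hder
    (fun x hx => by have : (0 : ℝ) < x := hx; positivity) hlim
  rw [← ofReal_integral_eq_lintegral_ofReal hint
    ((ae_restrict_mem measurableSet_Ioi).mono fun x hx => by
      have : (0 : ℝ) < x := hx
      positivity), hval]
  norm_num

/-- **the Schur integral**: `∫⁻ (1+d)^{-3} ≤ 1` -/
theorem lint3 {Q : ℕ} (hQ : 1 ≤ Q) {c : ℝ≥0} (hc : (c : ℝ) ≤ 2 * Q) (g : U2) :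
    ∫⁻ h, ENNReal.ofReal (1 / (1 + dQ Q g h) ^ 3) ∂(c • hm) ≤ 1 := by
  refine (lint_nu_le hQ hc (F := fun r => ENNReal.ofReal (1 / (1 + r) ^ 3)) (by fun_prop) g).trans ?_
  rw [← lint_inv_sq]
  refine setLIntegral_mono_ae' measurableSet_Ioi (Filter.Eventually.of_forall fun r hr => ?_)
  have hr' : (0 : ℝ) < r := hr
  rw [← ENNReal.ofReal_mul hr'.le]
  apply ENNReal.ofReal_le_ofReal
  rw [mul_one_div, div_le_div_iff₀ (by positivity) (by positivity)]
  nlinarith [pow_pos (show (0:ℝ) < 1 + r by positivity) 2]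

/-- comparison form: `F ≤ K (1+r)^{-3}` on `r ≥ 0` -/
theorem lint_le_of {Q : ℕ} (hQ : 1 ≤ Q) {c : ℝ≥0} (hc : (c : ℝ) ≤ 2 * Q) (g : U2)
    {F : U2 → ℝ≥0∞} {K : ℝ} (hK : 0 ≤ K)
    (hF : ∀ h, F h ≤ ENNReal.ofReal (K / (1 + dQ Q g h) ^ 3)) :
    ∫⁻ h, F h ∂(c • hm) ≤ ENNReal.ofReal K := by
  calc ∫⁻ h, F h ∂(c • hm)
      ≤ ∫⁻ h, ENNReal.ofReal K * ENNReal.ofReal (1 / (1 + dQ Q g h) ^ 3) ∂(c • hm) := by
        refine lintegral_mono fun h => (hF h).trans (le_of_eq ?_)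
        rw [← ENNReal.ofReal_mul hK, mul_one_div]
    _ = ENNReal.ofReal K * ∫⁻ h, ENNReal.ofReal (1 / (1 + dQ Q g h) ^ 3) ∂(c • hm) := by
        rw [lintegral_const_mul' _ _ ENNReal.ofReal_ne_top]
    _ ≤ ENNReal.ofReal K * 1 := by gcongr; exact lint3 hQ hc g
    _ = _ := mul_one _

theorem continuous_dQ_right (Q : ℕ) (g : U2) : Continuous fun h : U2 => dQ Q g h :=
  Continuous.comp (g := fun p : U2 × U2 => dQ Q p.1 p.2) (f := fun h : U2 => ((g, h) : U2 × U2))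
    (continuous_dQ Q) (Continuous.prodMk_right g)

theorem one_add_dQ_pos (Q : ℕ) (g h : U2) : 0 < 1 + dQ Q g h := by
  linarith [dQ_nonneg Q g h]

theorem continuous_inv_pow (Q n : ℕ) (g : U2) :
    Continuous fun h : U2 => 1 / (1 + dQ Q g h) ^ n := by
  refine Continuous.div continuous_const ((continuous_const.add (continuous_dQ_right Q g)).pow n) ?_
  intro h
  exact (pow_pos (one_add_dQ_pos Q g h) n).ne'

instance (c : ℝ≥0) : IsFiniteMeasure (c • hm) := inferInstance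

theorem integrable_nu {E : Type*} [NormedAddCommGroup E] (c : ℝ≥0) {F : U2 → E}
    (hF : Continuous F) [SecondCountableTopology E] : Integrable F (c • hm) := by
  refine Integrable.smul_measure ?_ (by simp)
  exact hF.integrable_of_hasCompactSupport (HasCompactSupport.of_compactSpace F)

/-- real comparison form -/
theorem int_le_of {Q : ℕ} (hQ : 1 ≤ Q) {c : ℝ≥0} (hc : (c : ℝ) ≤ 2 * Q) (g : U2)
    {F : U2 → ℝ} {K : ℝ} (hK : 0 ≤ K) (hF0 : ∀ h, 0 ≤ F h)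
    (hF : ∀ h, F h ≤ K / (1 + dQ Q g h) ^ 3) :
    ∫ h, F h ∂(c • hm) ≤ K := by
  by_cases hi : Integrable F (c • hm)
  · have h1 := ofReal_integral_eq_lintegral_ofReal hi (Filter.Eventually.of_forall hF0)
    have h2 := lint_le_of hQ hc g (F := fun h => ENNReal.ofReal (F h)) hK
      (fun h => ENNReal.ofReal_le_ofReal (hF h))
    rw [← h1] at h2
    exact (ENNReal.ofReal_le_ofReal_iff hK).1 h2
  · rw [integral_undef hi]
    exact hK

/-- constant `K_a`: `48 e^{-t²/16} ≤ K_a (1+t)^{-a}` -/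
noncomputable def Kg (a : ℕ) : ℝ := gauss_poly a |>.choose

theorem Kg_nonneg (a : ℕ) : 0 ≤ Kg a := (gauss_poly a).choose_spec.1

theorem Kg_le (a : ℕ) {t : ℝ} (ht : 0 ≤ t) : 48 * Real.exp (-(t ^ 2 / 16)) ≤ Kg a / (1 + t) ^ a :=
  (gauss_poly a).choose_spec.2 t ht

/-- the Schur structure of `QL4_331` -/
theorem schur_inst {Q : ℕ} (hQ : 1 ≤ Q) {c : ℝ≥0} (hc : (c : ℝ) ≤ 2 * Q) :
    QL331.Schur (c • hm) (uf Q) (dQ Q) 1 Kg where
  u_le k z := (norm_uf Q k z).le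
  d_nonneg := dQ_nonneg Q
  d_symm := dQ_comm Q
  d_tri := dQ_triangle Q
  Cs_nonneg := zero_le_one
  K_nonneg := Kg_nonneg
  int3 x := ⟨integrable_nu c (continuous_inv_pow Q 3 x),
    int_le_of hQ hc x zero_le_one (fun h => by have := one_add_dQ_pos Q x h; positivity)
      fun h => le_rfl⟩
  kp_le a y w := (kp_uf_le hQ y w).trans (Kg_le a (dQ_nonneg Q y w))

/-- kernel bound function for 856's `Frame` -/
noncomputable def kpf (Q : ℕ) (g w : U2) : ℝ := 12 * Real.exp (-(dQ Q g w ^ 2 / 16))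

theorem kpf_nonneg (Q : ℕ) (g w : U2) : 0 ≤ kpf Q g w := by unfold kpf; positivity

theorem kpf_le (Q a : ℕ) (g w : U2) : kpf Q g w ≤ Kg a / (1 + dQ Q g w) ^ a := by
  refine le_trans ?_ (Kg_le a (dQ_nonneg Q g w))
  unfold kpf
  gcongr
  norm_num

theorem kpf_cont (Q : ℕ) : Continuous fun p : U2 × U2 => kpf Q p.1 p.2 := by
  unfold kpf
  exact continuous_const.mul (Real.continuous_exp.comp
    ((((continuous_dQ Q).pow 2).div_const 16).neg))

theorem one_add_dQ_mul (Q : ℕ) (x y z : U2) :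
    1 + dQ Q x z ≤ (1 + dQ Q x y) * (1 + dQ Q y z) := by
  nlinarith [dQ_triangle Q x y z, dQ_nonneg Q x y, dQ_nonneg Q y z,
    mul_nonneg (dQ_nonneg Q x y) (dQ_nonneg Q y z)]

theorem continuous_an {ι : Type*} [Fintype ι] [LinearOrder ι] :
    Continuous (an : L ι → Op ι) := by
  refine continuous_iff_continuousAt.2 fun v => ?_
  rw [ContinuousAt, tendsto_iff_norm_sub_tendsto_zero]
  have h : ∀ w : L ι, ‖an w - an v‖ = ‖w - v‖ := fun w => by rw [← an_sub, norm_an]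
  simp only [h]
  exact tendsto_iff_norm_sub_tendsto_zero.1 Filter.tendsto_id

/-- **instance of 856's `Frame`**, for every `m ≥ 6`, `Q ≥ 1`, constants independent of `Q` -/
theorem frame_inst {Q m : ℕ} (hQ : 1 ≤ Q) (hm6 : 6 ≤ m) {c : ℝ≥0} (hc : (c : ℝ) ≤ 2 * Q) :
    U856.Frame (c • hm) (fun k g => an (uf Q k g)) (dQ Q) (kpf Q) (Nh : Op (Fin (Q + 1))) m
      1 (Kg m) 1 where
  acont k := continuous_an.comp (continuous_uf Q k)
  norm_a k g := by rw [norm_an, norm_uf]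
  anti k l g w := eq_neg_of_add_eq_zero_left (an_an _ _)
  car k l g w := ⟨inner ℂ (uf Q k g) (uf Q l w), norm_inner_uf_le hQ k l g w, by
    rw [star_an]; exact an_cr _ _⟩
  num k g := by
    have h := Nh_comm_an (uf Q k g)
    rw [sub_eq_iff_eq_add] at h
    rw [h]; abel
  Nh_sa := by
    show star _ = _
    unfold Nh
    rw [star_dG, Matrix.conjTranspose_one]
  d_cont := continuous_dQ Q
  d_nonneg := dQ_nonneg Q
  kap_cont := kpf_cont Q
  schur1 x := by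
    refine int_le_of hQ hc x zero_le_one (fun h => ?_) (fun h => ?_)
    · have := one_add_dQ_pos Q x h
      positivity
    · have h0 := one_add_dQ_pos Q x h
      have h1 : (1 : ℝ) ≤ 1 + dQ Q x h := by linarith [dQ_nonneg Q x h]
      rw [div_le_div_iff₀ (by positivity) (by positivity), one_mul, ← pow_add]
      exact pow_le_pow_right₀ h1 (by omega)
  schur2 x w := by
    have hxw := one_add_dQ_pos Q x w
    refine int_le_of hQ hc x (div_nonneg (Kg_nonneg m) (by positivity)) (fun h => ?_)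
      (fun h => ?_)
    · have := one_add_dQ_pos Q x h
      have := kpf_nonneg Q h w
      positivity
    · have h0 := one_add_dQ_pos Q x h
      have h0' := one_add_dQ_pos Q h w
      have h1 : (1 : ℝ) ≤ 1 + dQ Q x h := by linarith [dQ_nonneg Q x h]
      have h2 := kpf_le Q m h w
      have h3 : (1 + dQ Q x w) ^ m ≤ (1 + dQ Q x h) ^ m * (1 + dQ Q h w) ^ m := by
        rw [← mul_pow]
        exact pow_le_pow_left₀ hxw.le (one_add_dQ_mul Q x h w) m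
      have h4 : (1 + dQ Q x h) ^ 3 * (1 + dQ Q x h) ^ 3 ≤ (1 + dQ Q x h) ^ m := by
        rw [← pow_add]
        exact pow_le_pow_right₀ h1 (by omega)
      have h5 : 0 ≤ Kg m := Kg_nonneg m
      rw [div_div, div_le_div_iff₀ (by positivity) (by positivity)]
      have h6 : kpf Q h w * (1 + dQ Q h w) ^ m ≤ Kg m := by
        rwa [le_div_iff₀ (by positivity)] at h2
      calc kpf Q h w * (1 + dQ Q x h) ^ 3 * ((1 + dQ Q x w) ^ m * (1 + dQ Q x h) ^ 3)
          ≤ kpf Q h w * (1 + dQ Q x h) ^ 3 *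
            (((1 + dQ Q x h) ^ m * (1 + dQ Q h w) ^ m) * (1 + dQ Q x h) ^ 3) := by
            have := kpf_nonneg Q h w
            gcongr
        _ = (kpf Q h w * (1 + dQ Q h w) ^ m) * (1 + dQ Q x h) ^ m *
            ((1 + dQ Q x h) ^ 3 * (1 + dQ Q x h) ^ 3) := by ring
        _ ≤ Kg m * (1 + dQ Q x h) ^ m * (1 + dQ Q x h) ^ m := by
            have := kpf_nonneg Q h w
            gcongr
        _ = Kg m * (1 + dQ Q x h) ^ (2 * m) := by rw [two_mul, pow_add]; ring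
  schur3 g := by
    refine int_le_of hQ hc g zero_le_one (fun h => ?_) (fun h => ?_)
    · have := one_add_dQ_pos Q h g
      positivity
    · rw [dQ_comm Q h g, one_div]

/-- Gaussian against exponential and polynomial -/
theorem gauss_exp_poly {α : ℝ} (hα : 0 < α) (μ : ℝ) (a : ℕ) : ∃ K : ℝ, 0 ≤ K ∧ ∀ t : ℝ, 0 ≤ t →
    Real.exp (-(α * t ^ 2)) * Real.exp (μ * t) ≤ K / (1 + t) ^ a := by
  refine ⟨Real.exp ((μ + 1) ^ 2 / (4 * α) + 1) * (a.factorial : ℝ), by positivity,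
    fun t ht => ?_⟩
  rw [le_div_iff₀ (by positivity)]
  have h2 : (1 + t) ^ a ≤ Real.exp (1 + t) * (a.factorial : ℝ) := by
    have h1 := Real.pow_div_factorial_le_exp (1 + t) (by positivity) a
    rwa [div_le_iff₀ (by positivity)] at h1
  have h3 : -(α * t ^ 2) + μ * t + (1 + t) ≤ (μ + 1) ^ 2 / (4 * α) + 1 := by
    have h4 : (μ + 1) * t ≤ α * t ^ 2 + (μ + 1) ^ 2 / (4 * α) := by
      rw [← sub_nonneg]
      have h5 : α * t ^ 2 + (μ + 1) ^ 2 / (4 * α) - (μ + 1) * t =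
          (2 * α * t - (μ + 1)) ^ 2 / (4 * α) := by
        field_simp
        ring
      rw [h5]
      positivity
    linarith
  calc Real.exp (-(α * t ^ 2)) * Real.exp (μ * t) * (1 + t) ^ a
      ≤ Real.exp (-(α * t ^ 2)) * Real.exp (μ * t) * (Real.exp (1 + t) * (a.factorial : ℝ)) := by
        gcongr
    _ = Real.exp (-(α * t ^ 2) + μ * t + (1 + t)) * (a.factorial : ℝ) := by
        rw [← mul_assoc, ← Real.exp_add, ← Real.exp_add]
    _ ≤ _ := by gcongr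

/-- exponential against polynomial -/
theorem exp_poly {μ : ℝ} (hμ : 0 < μ) (a : ℕ) : ∃ K : ℝ, 0 ≤ K ∧ ∀ t : ℝ, 0 ≤ t →
    Real.exp (-(μ * t)) ≤ K / (1 + t) ^ a := by
  refine ⟨Real.exp μ * (a.factorial : ℝ) / μ ^ a, by positivity, fun t ht => ?_⟩
  rw [le_div_iff₀ (by positivity), le_div_iff₀ (by positivity)]
  have h2 : (μ * (1 + t)) ^ a ≤ Real.exp (μ * (1 + t)) * (a.factorial : ℝ) := by
    have h1 := Real.pow_div_factorial_le_exp (μ * (1 + t)) (by positivity) a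
    rwa [div_le_iff₀ (by positivity)] at h1
  calc Real.exp (-(μ * t)) * (1 + t) ^ a * μ ^ a
      = Real.exp (-(μ * t)) * (μ * (1 + t)) ^ a := by rw [mul_pow]; ring
    _ ≤ Real.exp (-(μ * t)) * (Real.exp (μ * (1 + t)) * (a.factorial : ℝ)) := by gcongr
    _ = Real.exp (-(μ * t) + μ * (1 + t)) * (a.factorial : ℝ) := by
        rw [← mul_assoc, ← Real.exp_add]
    _ = _ := by ring_nf

/-- Gaussian kernel with exponential weight, lintegral form (Lieb–Robinson hypothesis) -/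
theorem exists_lint_gauss {α : ℝ} (hα : 0 < α) (μ : ℝ) {B : ℝ} (hB : 0 ≤ B) :
    ∃ v : ℝ, 0 ≤ v ∧ ∀ {Q : ℕ}, 1 ≤ Q → ∀ {c : ℝ≥0}, (c : ℝ) ≤ 2 * Q → ∀ w : U2,
      ∫⁻ z, ENNReal.ofReal (B * Real.exp (-(α * dQ Q w z ^ 2))) *
        ENNReal.ofReal (Real.exp (μ * dQ Q w z)) ∂(c • hm) ≤ ENNReal.ofReal v := by
  obtain ⟨K, hK, h⟩ := gauss_exp_poly hα μ 3
  refine ⟨B * K, by positivity, fun {Q} hQ {c} hc w => ?_⟩
  refine lint_le_of hQ hc w (by positivity) fun z => ?_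
  rw [← ENNReal.ofReal_mul (by positivity)]
  apply ENNReal.ofReal_le_ofReal
  calc B * Real.exp (-(α * dQ Q w z ^ 2)) * Real.exp (μ * dQ Q w z)
      = B * (Real.exp (-(α * dQ Q w z ^ 2)) * Real.exp (μ * dQ Q w z)) := by ring
    _ ≤ B * (K / (1 + dQ Q w z) ^ 3) := by gcongr; exact h _ (dQ_nonneg Q w z)
    _ = _ := by ring

/-- `∫⁻ e^{-μ d} ≤ v` -/
theorem exists_lint_exp {μ : ℝ} (hμ : 0 < μ) {B : ℝ} (hB : 0 ≤ B) :
    ∃ v : ℝ, 0 ≤ v ∧ ∀ {Q : ℕ}, 1 ≤ Q → ∀ {c : ℝ≥0}, (c : ℝ) ≤ 2 * Q → ∀ w : U2,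
      ∫⁻ z, ENNReal.ofReal (B * Real.exp (-(μ * dQ Q w z))) ∂(c • hm) ≤ ENNReal.ofReal v := by
  obtain ⟨K, hK, h⟩ := exp_poly hμ 3
  refine ⟨B * K, by positivity, fun {Q} hQ {c} hc w => ?_⟩
  refine lint_le_of hQ hc w (by positivity) fun z => ?_
  apply ENNReal.ofReal_le_ofReal
  calc B * Real.exp (-(μ * dQ Q w z)) ≤ B * (K / (1 + dQ Q w z) ^ 3) := by
        gcongr; exact h _ (dQ_nonneg Q w z)
    _ = _ := by ring

/-- exponential overlap bound (867's `hov`) with any rate -/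
theorem norm_inner_uf_exp {Q : ℕ} (hQ : 1 ≤ Q) (μ : ℝ) (k l : Fin 2) (g h : U2) :
    ‖(inner ℂ (uf Q k g) (uf Q l h) : ℂ)‖ ≤
      (12 * Real.exp (4 * μ ^ 2)) * Real.exp (-μ * dQ Q h g) := by
  refine (norm_inner_uf_le hQ k l g h).trans ?_
  rw [mul_assoc, ← Real.exp_add, dQ_comm Q h g]
  gcongr
  nlinarith [sq_nonneg (dQ Q g h / 4 - 2 * μ)]

/-- the distance is bounded -/
theorem dQ_le (Q : ℕ) (g h : U2) : dQ Q g h ≤ 2 * Real.sqrt Q := by
  rw [dQ_tt]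
  have h1 := tt_le_one (g⁻¹ * h)
  have h2 : (4 * (Q * tt (g⁻¹ * h)) : ℝ) ≤ 2 ^ 2 * Q := by
    have : (0 : ℝ) ≤ Q := Nat.cast_nonneg _
    nlinarith
  calc Real.sqrt (4 * (Q * tt (g⁻¹ * h))) ≤ Real.sqrt (2 ^ 2 * Q) := Real.sqrt_le_sqrt h2
    _ = 2 * Real.sqrt Q := by rw [Real.sqrt_mul (by positivity), Real.sqrt_sq (by norm_num)]

end Crest.Agent.R340.FI331
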