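import Crest.Agent.R340.FI2_331
import Crest.Agent.R340.DLk_482

/-!
Frame instance (helper331), part 3: the instances for helper482's measure `nuQ Q` and frame `aG Q`.
-/

set_option autoImplicit false
set_option linter.unusedSectionVars false

namespace Crest.Agent.R340.FI331

open Matrix MeasureTheory Crest.Agent.R340.CS809 Crest.Agent.R340.Fock649
  Crest.Agent.R340.Gam303 Crest.Agent.R340.Rot303 Crest.Agent.R340.QL331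
  Crest.Agent.R340.Avg814 Crest.Agent.R340.DLi482
open scoped ENNReal NNReal

theorem nuQ_eq (Q : ℕ) : nuQ Q = (Real.toNNReal (2 * Q - 1)) • hm := rfl

theorem toNNReal_le (Q : ℕ) : ((Real.toNNReal (2 * Q - 1) : ℝ≥0) : ℝ) ≤ 2 * Q := by
  rw [Real.coe_toNNReal']
  refine max_le (by linarith) (by positivity)

/-- **856's `Frame` for `nuQ Q`, `aG Q`**, all `m ≥ 6`, all `Q ≥ 1` -/
theorem frame_nuQ {Q m : ℕ} (hQ : 1 ≤ Q) (hm6 : 6 ≤ m) :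
    U856.Frame (nuQ Q) (aG Q) (dQ Q) (kpf Q) (Nh : Op (Fin (Q + 1))) m 1 (Kg m) 1 := by
  rw [nuQ_eq]
  exact frame_inst hQ hm6 (toNNReal_le Q)

/-- `QL4_331.Schur` for `nuQ Q` -/
theorem schur_nuQ {Q : ℕ} (hQ : 1 ≤ Q) : QL331.Schur (nuQ Q) (uf Q) (dQ Q) 1 Kg := by
  rw [nuQ_eq]
  exact schur_inst hQ (toNNReal_le Q)

theorem lint3_nuQ {Q : ℕ} (hQ : 1 ≤ Q) (g : U2) :
    ∫⁻ h, ENNReal.ofReal (1 / (1 + dQ Q g h) ^ 3) ∂(nuQ Q) ≤ 1 := by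
  rw [nuQ_eq]; exact lint3 hQ (toNNReal_le Q) g

theorem lint_le_nuQ {Q : ℕ} (hQ : 1 ≤ Q) (g : U2) {F : U2 → ℝ≥0∞} {K : ℝ} (hK : 0 ≤ K)
    (hF : ∀ h, F h ≤ ENNReal.ofReal (K / (1 + dQ Q g h) ^ 3)) :
    ∫⁻ h, F h ∂(nuQ Q) ≤ ENNReal.ofReal K := by
  rw [nuQ_eq]; exact lint_le_of hQ (toNNReal_le Q) g hK hF

theorem int_le_nuQ {Q : ℕ} (hQ : 1 ≤ Q) (g : U2) {F : U2 → ℝ} {K : ℝ} (hK : 0 ≤ K)
    (hF0 : ∀ h, 0 ≤ F h) (hF : ∀ h, F h ≤ K / (1 + dQ Q g h) ^ 3) :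
    ∫ h, F h ∂(nuQ Q) ≤ K := by
  rw [nuQ_eq]; exact int_le_of hQ (toNNReal_le Q) g hK hF0 hF

theorem exists_lint_gauss_nuQ {α : ℝ} (hα : 0 < α) (μ : ℝ) {B : ℝ} (hB : 0 ≤ B) :
    ∃ v : ℝ, 0 ≤ v ∧ ∀ {Q : ℕ}, 1 ≤ Q → ∀ w : U2,
      ∫⁻ z, ENNReal.ofReal (B * Real.exp (-(α * dQ Q w z ^ 2))) *
        ENNReal.ofReal (Real.exp (μ * dQ Q w z)) ∂(nuQ Q) ≤ ENNReal.ofReal v := by
  obtain ⟨v, hv, h⟩ := exists_lint_gauss hα μ hB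
  refine ⟨v, hv, fun {Q} hQ w => ?_⟩
  rw [nuQ_eq]
  exact h hQ (toNNReal_le Q) w

theorem exists_lint_exp_nuQ {μ : ℝ} (hμ : 0 < μ) {B : ℝ} (hB : 0 ≤ B) :
    ∃ v : ℝ, 0 ≤ v ∧ ∀ {Q : ℕ}, 1 ≤ Q → ∀ w : U2,
      ∫⁻ z, ENNReal.ofReal (B * Real.exp (-(μ * dQ Q w z))) ∂(nuQ Q) ≤ ENNReal.ofReal v := by
  obtain ⟨v, hv, h⟩ := exists_lint_exp hμ hB
  refine ⟨v, hv, fun {Q} hQ w => ?_⟩
  rw [nuQ_eq]
  exact h hQ (toNNReal_le Q) w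

end Crest.Agent.R340.FI331
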