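import Crest.Agent.R340.FI3_331
import Crest.Agent.R340.U6_856

/-!
Frame instance (helper331), part 4: 856's `FrameP m` for every `m ≥ 6`.
-/

set_option autoImplicit false

namespace Crest.Agent.R340.FI331

/-- (FRAME) of `U6_856` -/
theorem frameP {m : ℕ} (hm6 : 6 ≤ m) : U856.FrameP m :=
  ⟨1, 1, Kg m, 1, kpf, fun _ hQ => frame_nuQ hQ hm6⟩

end Crest.Agent.R340.FI331
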