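import Crest.Agent.R340.FX2_963

/-!
R340 (helper963), FX part 3: number conserving / self-adjoint approximants, products, dyadic sums.
-/

set_option autoImplicit false
set_option linter.unusedSectionVars false

namespace Crest.Agent.R340.FX963

open Matrix Crest.Agent.R340.Fock649 Crest.Agent.R340.Emb596 Crest.Agent.R340.Peel596
  Crest.Agent.R340.QL331 Crest.Agent.R340.FI331 Crest.Agent.R340.CS809 Crest.Agent.R340.PD757
  Crest.Agent.R340.Rot303 Crest.Agent.R340.DC867 Crest.Agent.R340.Gam303 Complex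

noncomputable section

/-! ### the conditional expectations preserve number conservation -/

section

variable {ι : Type*} [LinearOrder ι] [Fintype ι]

theorem Nh_comm_maj (v : L ι) :
    (Nh : Op ι) * (fcar : Car (Op ι) (L ι)).maj v - (fcar : Car (Op ι) (L ι)).maj v * Nh =
      (-I) • (fcar : Car (Op ι) (L ι)).maj (I • v) := by
  have h1 : (fcar : Car (Op ι) (L ι)).maj v = an v + cr v := by
    unfold Car.maj; rw [fcar_an, star_an]
  have h2 := (fcar : Car (Op ι) (L ι)).maj_I v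
  rw [fcar_an, fcar_cr] at h2
  rw [h1, h2, smul_add, smul_smul, smul_smul]
  have e1 : (-I) * (-I) = -1 := by rw [neg_mul_neg, I_mul_I]
  have e2 : (-I) * I = 1 := by rw [neg_mul, I_mul_I, neg_neg]
  rw [e1, e2, one_smul, neg_one_smul, ← Nh_comm_an, mul_add, add_mul]
  have h3 := Nh_comm_cr (ι := ι) v
  calc (Nh : Op ι) * an v + Nh * cr v - (an v * Nh + cr v * Nh)
      = (Nh * an v - an v * Nh) + (Nh * cr v - cr v * Nh) := by abel
    _ = _ := by rw [h3]

theorem Nh_comm_majI (v : L ι) :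
    (Nh : Op ι) * (fcar : Car (Op ι) (L ι)).maj (I • v) -
      (fcar : Car (Op ι) (L ι)).maj (I • v) * Nh = I • (fcar : Car (Op ι) (L ι)).maj v := by
  have h := Nh_comm_maj (I • v)
  rw [h, smul_smul, I_mul_I, neg_one_smul]
  have h2 : (fcar : Car (Op ι) (L ι)).maj (-v) = -(fcar : Car (Op ι) (L ι)).maj v := by
    unfold Car.maj; rw [Car.an_neg, star_neg, neg_add]
  rw [h2, smul_neg, neg_smul, neg_neg]

/-- the conditional expectation removing one mode commutes with the number grading -/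
theorem ex1_commute_Nh {v : L ι} (hv : ‖v‖ = 1) {X : Op ι} (h : Commute X (Nh : Op ι)) :
    Commute ((fcar : Car (Op ι) (L ι)).ex1 v X) (Nh : Op ι) := by
  set R : Car (Op ι) (L ι) := fcar with hR
  set m1 := R.maj v with hm1
  set m2 := R.maj (I • v) with hm2
  have d1 : (Nh : Op ι) * m1 = m1 * Nh + (-I) • m2 := by
    rw [← Nh_comm_maj v]; abel
  have d2 : (Nh : Op ι) * m2 = m2 * Nh + I • m1 := by
    rw [← Nh_comm_majI v]; abel
  have s1 : m1 * m1 = 1 := R.maj_sq_one hv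
  have s2 : m2 * m2 = 1 := R.maj_sq_one (by rw [Car.norm_I_smul, hv])
  have hX : (Nh : Op ι) * X = X * Nh := h.symm
  have e : R.ex1 v X = (4 : ℂ)⁻¹ • (X + m1 * X * m1 + m2 * X * m2 + (m1 * m2) * X * (m2 * m1)) := by
    unfold Car.ex1 Car.tw
    rw [← hm1, ← hm2, mul_smul_comm, smul_mul_assoc, ← smul_add, smul_smul]
    congr 1
    · norm_num
    · noncomm_ring
  have a1 : (Nh : Op ι) * (m1 * X * m1 + m2 * X * m2) = (m1 * X * m1 + m2 * X * m2) * Nh := by
    have f1 : (Nh : Op ι) * (m1 * X * m1) = m1 * X * m1 * Nh + (-I) • (m2 * X * m1) +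
        (-I) • (m1 * X * m2) := by
      calc (Nh : Op ι) * (m1 * X * m1) = ((Nh : Op ι) * m1) * X * m1 := by noncomm_ring
        _ = (m1 * Nh + (-I) • m2) * X * m1 := by rw [d1]
        _ = m1 * (Nh * X) * m1 + ((-I) • m2) * X * m1 := by noncomm_ring
        _ = m1 * X * (Nh * m1) + ((-I) • m2) * X * m1 := by rw [hX]; noncomm_ring
        _ = _ := by
            rw [d1]
            simp only [mul_add, mul_smul_comm, smul_mul_assoc, ← mul_assoc]
            abel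
    have f2 : (Nh : Op ι) * (m2 * X * m2) = m2 * X * m2 * Nh + I • (m1 * X * m2) +
        I • (m2 * X * m1) := by
      calc (Nh : Op ι) * (m2 * X * m2) = ((Nh : Op ι) * m2) * X * m2 := by noncomm_ring
        _ = (m2 * Nh + I • m1) * X * m2 := by rw [d2]
        _ = m2 * (Nh * X) * m2 + (I • m1) * X * m2 := by noncomm_ring
        _ = m2 * X * (Nh * m2) + (I • m1) * X * m2 := by rw [hX]; noncomm_ring
        _ = _ := by
            rw [d2]
            simp only [mul_add, mul_smul_comm, smul_mul_assoc, ← mul_assoc]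
            abel
    rw [mul_add, f1, f2, add_mul]
    simp only [neg_smul]
    abel
  have a2 : (Nh : Op ι) * (m1 * m2) = (m1 * m2) * Nh := by
    calc (Nh : Op ι) * (m1 * m2) = ((Nh : Op ι) * m1) * m2 := by noncomm_ring
      _ = m1 * (Nh * m2) + ((-I) • m2) * m2 := by rw [d1]; noncomm_ring
      _ = m1 * (m2 * Nh) + I • (m1 * m1) + (-I) • (m2 * m2) := by
          rw [d2]; simp only [mul_add, mul_smul_comm, smul_mul_assoc]
      _ = _ := by rw [s1, s2, neg_smul]; noncomm_ring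
  have a3 : (Nh : Op ι) * (m2 * m1) = (m2 * m1) * Nh := by
    calc (Nh : Op ι) * (m2 * m1) = ((Nh : Op ι) * m2) * m1 := by noncomm_ring
      _ = m2 * (Nh * m1) + (I • m1) * m1 := by rw [d2]; noncomm_ring
      _ = m2 * (m1 * Nh) + (-I) • (m2 * m2) + I • (m1 * m1) := by
          rw [d1]; simp only [mul_add, mul_smul_comm, smul_mul_assoc]
      _ = _ := by rw [s1, s2, neg_smul]; noncomm_ring
  have a4 : (Nh : Op ι) * ((m1 * m2) * X * (m2 * m1)) = ((m1 * m2) * X * (m2 * m1)) * Nh := by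
    calc (Nh : Op ι) * ((m1 * m2) * X * (m2 * m1)) = ((Nh : Op ι) * (m1 * m2)) * X * (m2 * m1) := by
          noncomm_ring
      _ = (m1 * m2) * (Nh * X) * (m2 * m1) := by rw [a2]; noncomm_ring
      _ = (m1 * m2) * X * (Nh * (m2 * m1)) := by rw [hX]; noncomm_ring
      _ = _ := by rw [a3]; noncomm_ring
  rw [e]
  refine Commute.smul_left ?_ _
  show (X + m1 * X * m1 + m2 * X * m2 + (m1 * m2) * X * (m2 * m1)) * (Nh : Op ι) =
    Nh * (X + m1 * X * m1 + m2 * X * m2 + (m1 * m2) * X * (m2 * m1))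
  have e2 : X + m1 * X * m1 + m2 * X * m2 + (m1 * m2) * X * (m2 * m1) =
      X + (m1 * X * m1 + m2 * X * m2) + (m1 * m2) * X * (m2 * m1) := by abel
  rw [e2, mul_add, mul_add, hX, a1, a4, add_mul, add_mul]

theorem ex_commute_Nh {l : List (L ι)} (hl : ∀ v ∈ l, ‖v‖ = 1) {X : Op ι}
    (h : Commute X (Nh : Op ι)) : Commute ((fcar : Car (Op ι) (L ι)).ex l X) (Nh : Op ι) := by
  induction l with
  | nil => exact h
  | cons v l ih =>
    rw [Car.ex_cons]
    exact ex1_commute_Nh (hl v (by simp)) (ih fun w hw => hl w (by simp [hw]))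

theorem E_commute_Nh {N : ℕ} (b : OrthonormalBasis (Fin N) ℂ (L ι)) (M : ℕ) {X : Op ι}
    (h : Commute X (Nh : Op ι)) : Commute ((fcar : Car (Op ι) (L ι)).E b M X) (Nh : Op ι) :=
  ex_commute_Nh (QL331.far_norm b M) h

end

variable {Q n : ℕ} {C : ℝ}

/-! ### canonical approximants -/

/-- canonical truncation about the north pole -/
def Tr (Q l : ℕ) (X : Op (Fin (Q + 1))) : Op (Fin (Q + 1)) := (Rq Q).E (fb Q 1) (4 ^ l) X

theorem Tr_commute_Nh (l : ℕ) {X : Op (Fin (Q + 1))} (h : Commute X (Nh : Op (Fin (Q + 1)))) :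
    Commute (Tr Q l X) (Nh : Op (Fin (Q + 1))) := E_commute_Nh _ _ h

theorem Tr_star (l : ℕ) (X : Op (Fin (Q + 1))) : Tr Q l (star X) = star (Tr Q l X) :=
  (Rq Q).E_star _ _ _

theorem Tr_isSelfAdjoint (l : ℕ) {X : Op (Fin (Q + 1))} (h : IsSelfAdjoint X) :
    IsSelfAdjoint (Tr Q l X) := by
  have : star (Tr Q l X) = Tr Q l X := by rw [← Tr_star, h.star_eq]
  exact this

theorem norm_Tr_le (l : ℕ) (X : Op (Fin (Q + 1))) : ‖Tr Q l X‖ ≤ ‖X‖ := (Rq Q).norm_E_le _ _ _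

theorem Tr_locN (l : ℕ) {X : Op (Fin (Q + 1))} (h : Commute X (Nh : Op (Fin (Q + 1)))) :
    LocN Q (4 ^ l) (Tr Q l X) := locN_iff.2 ((Rq Q).E_loc _ _ (ev_of_comm_Nh h))

theorem Tr_add (l : ℕ) (X Y : Op (Fin (Q + 1))) : Tr Q l (X + Y) = Tr Q l X + Tr Q l Y :=
  (Rq Q).E_add _ _ _ _
theorem Tr_sub (l : ℕ) (X Y : Op (Fin (Q + 1))) : Tr Q l (X - Y) = Tr Q l X - Tr Q l Y :=
  (Rq Q).E_sub _ _ _ _
theorem Tr_smul (l : ℕ) (z : ℂ) (X : Op (Fin (Q + 1))) : Tr Q l (z • X) = z • Tr Q l X :=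
  (Rq Q).E_smul _ _ _ _

theorem Tr_fix (l : ℕ) {X : Op (Fin (Q + 1))} (h : LocN Q (4 ^ l) X) : Tr Q l X = X :=
  (Rq Q).E_fix _ (locN_iff.1 h)

theorem DY.norm_sub_Tr_le {X : Op (Fin (Q + 1))} (h : DY Q n C X) (l : ℕ) :
    ‖X - Tr Q l X‖ ≤ 2 * C * (((2:ℝ) ^ l)⁻¹) ^ n := h.sub_E_le l

/-- beyond the number of orbitals the truncation is the identity -/
theorem Tr_eq_of_le {l : ℕ} (hl : Q + 1 ≤ 4 ^ l) {X : Op (Fin (Q + 1))}
    (h : Commute X (Nh : Op (Fin (Q + 1)))) : Tr Q l X = X :=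
  Tr_fix l (LocN.of_ge (ev_of_comm_Nh h) hl)

theorem lt_four_pow_self (Q : ℕ) : Q + 1 ≤ 4 ^ (Q + 1) :=
  (Nat.lt_pow_self (by norm_num : 1 < 4)).le

/-- the dyadic pieces -/
def Pc (Q l : ℕ) (X : Op (Fin (Q + 1))) : Op (Fin (Q + 1)) :=
  if l = 0 then Tr Q 0 X else Tr Q l X - Tr Q (l - 1) X

theorem sum_Pc (M : ℕ) (X : Op (Fin (Q + 1))) :
    ∑ l ∈ Finset.range (M + 1), Pc Q l X = Tr Q M X := by
  induction M with
  | zero => simp [Pc]
  | succ M ih =>
    rw [Finset.sum_range_succ, ih]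
    unfold Pc
    rw [if_neg (Nat.succ_ne_zero M), Nat.add_sub_cancel]
    abel

/-- **dyadic decomposition** (finite sum, `Q+2` terms) -/
theorem eq_sum_Pc {X : Op (Fin (Q + 1))} (h : Commute X (Nh : Op (Fin (Q + 1)))) :
    X = ∑ l ∈ Finset.range (Q + 2), Pc Q l X := by
  rw [sum_Pc, Tr_eq_of_le (lt_four_pow_self Q) h]

theorem Pc_commute_Nh (l : ℕ) {X : Op (Fin (Q + 1))} (h : Commute X (Nh : Op (Fin (Q + 1)))) :
    Commute (Pc Q l X) (Nh : Op (Fin (Q + 1))) := by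
  unfold Pc
  split_ifs
  · exact Tr_commute_Nh 0 h
  · exact (Tr_commute_Nh l h).sub_left (Tr_commute_Nh _ h)

theorem Pc_isSelfAdjoint (l : ℕ) {X : Op (Fin (Q + 1))} (h : IsSelfAdjoint X) :
    IsSelfAdjoint (Pc Q l X) := by
  unfold Pc
  split_ifs
  · exact Tr_isSelfAdjoint 0 h
  · exact (Tr_isSelfAdjoint l h).sub (Tr_isSelfAdjoint _ h)

theorem Pc_locN (l : ℕ) {X : Op (Fin (Q + 1))} (h : Commute X (Nh : Op (Fin (Q + 1)))) :
    LocN Q (4 ^ l) (Pc Q l X) := by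
  unfold Pc
  split_ifs with h0
  · subst h0; exact Tr_locN 0 h
  · exact (Tr_locN l h).sub ((Tr_locN _ h).mono (Nat.pow_le_pow_right (by norm_num) (Nat.sub_le l 1)))

theorem DY.norm_Pc_le {X : Op (Fin (Q + 1))} (h : DY Q n C X) (l : ℕ) :
    ‖Pc Q l X‖ ≤ 4 * 2 ^ n * C * (((2:ℝ) ^ l)⁻¹) ^ n := by
  have h0 := h.nonneg
  have hn : (1:ℝ) ≤ 2 ^ n := one_le_pow₀ (by norm_num)
  unfold Pc
  split_ifs with hl
  · subst hl
    simp only [pow_zero, inv_one, one_pow, mul_one]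
    calc ‖Tr Q 0 X‖ ≤ C := (norm_Tr_le 0 X).trans h.norm_le
      _ ≤ 4 * 2 ^ n * C := le_mul_of_one_le_left h0 (by linarith)
  · obtain ⟨k, rfl⟩ : ∃ k, l = k + 1 := ⟨l - 1, by omega⟩
    rw [Nat.add_sub_cancel]
    have h1 := h.norm_sub_Tr_le k
    have h2 := h.norm_sub_Tr_le (k + 1)
    have e1 : Tr Q (k + 1) X - Tr Q k X = (X - Tr Q k X) - (X - Tr Q (k + 1) X) := by abel
    have e2 : (((2:ℝ) ^ k)⁻¹) ^ n = 2 ^ n * (((2:ℝ) ^ (k + 1))⁻¹) ^ n := by
      rw [← mul_pow]; congr 1; rw [pow_succ]; field_simp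
    rw [e1]
    have h3 : 0 ≤ (((2:ℝ) ^ (k + 1))⁻¹) ^ n := by positivity
    calc _ ≤ ‖X - Tr Q k X‖ + ‖X - Tr Q (k + 1) X‖ := norm_sub_le _ _
      _ ≤ 2 * C * (2 ^ n * (((2:ℝ) ^ (k + 1))⁻¹) ^ n) + 2 * C * (((2:ℝ) ^ (k + 1))⁻¹) ^ n := by
          rw [← e2]; exact add_le_add h1 h2
      _ ≤ 2 * C * (2 ^ n * (((2:ℝ) ^ (k + 1))⁻¹) ^ n) +
          2 * C * (2 ^ n * (((2:ℝ) ^ (k + 1))⁻¹) ^ n) := by
          have : (((2:ℝ) ^ (k + 1))⁻¹) ^ n ≤ 2 ^ n * (((2:ℝ) ^ (k + 1))⁻¹) ^ n :=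
            le_mul_of_one_le_left h3 hn
          gcongr
      _ = _ := by ring

/-- summation of dyadic pieces, any finite family -/
theorem DY.of_pieces (hn : 1 ≤ n) {M : ℕ} {Z : ℕ → Op (Fin (Q + 1))} (hC : 0 ≤ C)
    (hN : ∀ l < M, Commute (Z l) (Nh : Op (Fin (Q + 1)))) (hL : ∀ l < M, LocN Q (4 ^ l) (Z l))
    (hZ : ∀ l < M, ‖Z l‖ ≤ C * (((2:ℝ) ^ l)⁻¹) ^ n) :
    DY Q n (2 * C) (∑ l ∈ Finset.range M, Z l) := by
  have tail : ∀ (a k : ℕ), ∑ i ∈ Finset.range k, (((2:ℝ) ^ (a + i))⁻¹) ^ n ≤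
      2 * (((2:ℝ) ^ a)⁻¹) ^ n := by
    intro a k
    have h1 : ∀ i, (((2:ℝ) ^ (a + i))⁻¹) ^ n ≤ (((2:ℝ) ^ a)⁻¹) ^ n * (1 / 2) ^ i := by
      intro i
      rw [pow_add, mul_inv, mul_pow]
      refine mul_le_mul_of_nonneg_left ?_ (by positivity)
      have h2 : ((2:ℝ) ^ i)⁻¹ ≤ 1 := by
        rw [inv_le_one_iff₀]; right; exact one_le_pow₀ (by norm_num)
      calc (((2:ℝ) ^ i)⁻¹) ^ n ≤ (((2:ℝ) ^ i)⁻¹) ^ 1 := pow_le_pow_of_le_one (by positivity) h2 hn
        _ = (1 / 2) ^ i := by rw [pow_one, one_div, inv_pow]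
    calc _ ≤ ∑ i ∈ Finset.range k, (((2:ℝ) ^ a)⁻¹) ^ n * (1 / 2) ^ i :=
          Finset.sum_le_sum fun i _ => h1 i
      _ = (((2:ℝ) ^ a)⁻¹) ^ n * ∑ i ∈ Finset.range k, (1 / 2 : ℝ) ^ i := by rw [Finset.mul_sum]
      _ ≤ (((2:ℝ) ^ a)⁻¹) ^ n * 2 := by
          refine mul_le_mul_of_nonneg_left ?_ (by positivity)
          exact (sum_geometric_two_le k)
      _ = _ := by ring
  refine ⟨?_, ?_, fun l => ?_⟩
  · have : ∀ s : Finset ℕ, (∀ l ∈ s, l < M) → Commute (∑ l ∈ s, Z l) (Nh : Op (Fin (Q + 1))) :=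
      fun s hs => Commute.sum_left _ _ _ fun l hl => hN l (hs l hl)
    exact this _ fun l hl => Finset.mem_range.1 hl
  · refine (norm_sum_le _ _).trans ?_
    calc ∑ l ∈ Finset.range M, ‖Z l‖ ≤ ∑ l ∈ Finset.range M, C * (((2:ℝ) ^ (0 + l))⁻¹) ^ n :=
          Finset.sum_le_sum fun l hl => by rw [zero_add]; exact hZ l (Finset.mem_range.1 hl)
      _ = C * ∑ l ∈ Finset.range M, (((2:ℝ) ^ (0 + l))⁻¹) ^ n := by rw [Finset.mul_sum]
      _ ≤ C * (2 * (((2:ℝ) ^ 0)⁻¹) ^ n) := mul_le_mul_of_nonneg_left (tail 0 M) hC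
      _ = 2 * C := by simp; ring
  · rcases Nat.lt_or_ge l M with hl | hl
    · refine ⟨∑ i ∈ Finset.range (l + 1), Z i, ?_, ?_⟩
      · have hsum : ∀ s : Finset ℕ, (∀ i ∈ s, i < M ∧ i ≤ l) → LocN Q (4 ^ l) (∑ i ∈ s, Z i) := by
          intro s
          induction s using Finset.induction_on with
          | empty => intro _; rw [Finset.sum_empty]; rw [locN_iff]; exact Car.loc_zero _ _ _
          | insert a s ha ih =>
            intro hs
            rw [Finset.sum_insert ha]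
            have h1 := hs a (Finset.mem_insert_self _ _)
            exact ((hL a h1.1).mono (Nat.pow_le_pow_right (by norm_num) h1.2)).add
              (ih fun i hi => hs i (Finset.mem_insert_of_mem hi))
        refine hsum _ fun i hi => ?_
        have := Finset.mem_range.1 hi
        omega
      · have e1 : ∑ i ∈ Finset.range M, Z i - ∑ i ∈ Finset.range (l + 1), Z i =
            ∑ i ∈ Finset.range (M - (l + 1)), Z (l + 1 + i) := by
          rw [← Finset.sum_Ico_eq_sum_range, ← Finset.sum_range_add_sum_Ico Z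
            (show l + 1 ≤ M by omega)]
          abel
        rw [e1]
        refine (norm_sum_le _ _).trans ?_
        calc ∑ i ∈ Finset.range (M - (l + 1)), ‖Z (l + 1 + i)‖
            ≤ ∑ i ∈ Finset.range (M - (l + 1)), C * (((2:ℝ) ^ (l + 1 + i))⁻¹) ^ n :=
              Finset.sum_le_sum fun i hi => hZ _ (by have := Finset.mem_range.1 hi; omega)
          _ = C * ∑ i ∈ Finset.range (M - (l + 1)), (((2:ℝ) ^ (l + 1 + i))⁻¹) ^ n := by
              rw [Finset.mul_sum]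
          _ ≤ C * (2 * (((2:ℝ) ^ (l + 1))⁻¹) ^ n) := mul_le_mul_of_nonneg_left (tail _ _) hC
          _ ≤ C * (2 * (((2:ℝ) ^ l)⁻¹) ^ n) := by
              have : (((2:ℝ) ^ (l + 1))⁻¹) ^ n ≤ (((2:ℝ) ^ l)⁻¹) ^ n := by
                refine pow_le_pow_left₀ (by positivity) (inv_anti₀ (by positivity) ?_) _
                exact pow_le_pow_right₀ (by norm_num) (Nat.le_succ l)
              gcongr
          _ = _ := by ring
    · refine ⟨∑ i ∈ Finset.range M, Z i, ?_, ?_⟩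
      · have hsum : ∀ s : Finset ℕ, (∀ i ∈ s, i < M) → LocN Q (4 ^ l) (∑ i ∈ s, Z i) := by
          intro s
          induction s using Finset.induction_on with
          | empty => intro _; rw [Finset.sum_empty]; rw [locN_iff]; exact Car.loc_zero _ _ _
          | insert a s ha ih =>
            intro hs
            rw [Finset.sum_insert ha]
            have h1 := hs a (Finset.mem_insert_self _ _)
            exact ((hL a h1).mono (Nat.pow_le_pow_right (by norm_num) (by omega))).add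
              (ih fun i hi => hs i (Finset.mem_insert_of_mem hi))
        exact hsum _ fun i hi => Finset.mem_range.1 hi
      · rw [sub_self, norm_zero]; positivity

/-! ### products -/

theorem LocN.mul {M : ℕ} {X Y : Op (Fin (Q + 1))} (h : LocN Q M X) (h' : LocN Q M Y) :
    LocN Q M (X * Y) := by
  rw [locN_iff] at *; exact h.mul h'

theorem DY.mul {X X' : Op (Fin (Q + 1))} {C' : ℝ} (h : DY Q n C X) (h' : DY Q n C' X') :
    DY Q n (4 * (C * C')) (X * X') := by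
  have h0 := h.nonneg
  have h0' := h'.nonneg
  have hcc := mul_nonneg h0 h0'
  refine ⟨h.comm.mul_left h'.comm, ?_, fun l => ?_⟩
  · calc ‖X * X'‖ ≤ ‖X‖ * ‖X'‖ := norm_mul_le _ _
      _ ≤ C * C' := mul_le_mul h.norm_le h'.norm_le (norm_nonneg _) h0
      _ ≤ 4 * (C * C') := by linarith
  · refine ⟨Tr Q l X * Tr Q l X', (Tr_locN l h.comm).mul (Tr_locN l h'.comm), ?_⟩
    have e1 : X * X' - Tr Q l X * Tr Q l X' = (X - Tr Q l X) * X' + Tr Q l X * (X' - Tr Q l X') := by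
      rw [sub_mul, mul_sub]; abel
    rw [e1]
    have h1 := h.norm_sub_Tr_le l
    have h2 := h'.norm_sub_Tr_le l
    have h3 := (norm_Tr_le l X).trans h.norm_le
    have h4 : 0 ≤ (((2:ℝ) ^ l)⁻¹) ^ n := by positivity
    calc _ ≤ ‖X - Tr Q l X‖ * ‖X'‖ + ‖Tr Q l X‖ * ‖X' - Tr Q l X'‖ :=
          (norm_add_le _ _).trans (add_le_add (norm_mul_le _ _) (norm_mul_le _ _))
      _ ≤ (2 * C * (((2:ℝ) ^ l)⁻¹) ^ n) * C' + C * (2 * C' * (((2:ℝ) ^ l)⁻¹) ^ n) := by
          refine add_le_add (mul_le_mul h1 h'.norm_le (norm_nonneg _) (by positivity))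
            (mul_le_mul h3 h2 (norm_nonneg _) h0)
      _ = _ := by ring

/-- self-adjoint part -/
theorem DY.sa_part {X : Op (Fin (Q + 1))} (h : DY Q n C X) :
    DY Q n C ((2 : ℂ)⁻¹ • (X + Star.star X)) := by
  have h1 := (h.add h.star).smul (2 : ℂ)⁻¹
  convert h1 using 1
  rw [norm_inv, RCLike.norm_ofNat]; ring

end

end Crest.Agent.R340.FX963
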