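import Crest.Agent.R340.U4_856
import Crest.Agent.R340.Rot3_303
import Crest.Agent.R340.FI1_331
import Crest.Agent.R340.GG_467
import Crest.Agent.R340.LaughlinKer
import Crest.Agent.R340.Bridge_320
import Crest.Agent.R340.BrEq_649

/-!
R340, block (U) (helper856), part 4: the concrete data of theorem (U) on Fock space over
`Fin (Q+1)` (the frame `aG Q k g = an (uf Q k g)`, the tautological representation `repOp`),
uniqueness of the zero mode at filling 1/3, zero modes are killed by every rotated pair annihilator.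
-/

set_option autoImplicit false
set_option linter.unusedSectionVars false
set_option linter.unusedVariables false

namespace Crest.Agent.R340.U856

open MeasureTheory Crest.Agent.R340.Fock649 Crest.Agent.R340.CS809 Crest.Agent.R340.Rot303
  Crest.Agent.R340.FI331 Crest.Agent.R340.GG467 Crest.Agent.R340.Br320
  Crest.Agent.R340.Gam303 Crest.MathPhysics.Laughlin
open scoped InnerProductSpace ComplexConjugate Matrix

section rep

variable {ι : Type*} [Fintype ι]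

/-- the identity `Op ι → (Fk ι →L[ℂ] Fk ι)` as a continuous linear map -/
noncomputable def opId : Op ι →L[ℂ] (Fk ι →L[ℂ] Fk ι) :=
  (ContinuousLinearMap.id ℂ (Fk ι →L[ℂ] Fk ι) : (Fk ι →L[ℂ] Fk ι) →L[ℂ] (Fk ι →L[ℂ] Fk ι))

@[simp] theorem opId_apply (A : Op ι) : opId A = A.ap := rfl

/-- the tautological representation -/
noncomputable def repOp : Rep (Op ι) (Fk ι) where
  π := opId
  map_mul A B := rfl
  star_inner A v w := inner_star_left A v w
  norm_le A := le_of_eq rfl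

@[simp] theorem repOp_π (A : Op ι) (v : Fk ι) : (repOp (ι := ι)).π A v = A v := rfl

theorem repOp_q (A : Op ι) (v : Fk ι) : (repOp (ι := ι)).q v A = (inner ℂ v (A v) : ℂ).re := rfl

theorem repOp_qf (A : Op ι) (v : Fk ι) :
    qf ((repOp (ι := ι)).π A) v = (inner ℂ v (A v) : ℂ).re := rfl

end rep

variable {Q : ℕ}

/-- the frame operators `a_k(g)` -/
noncomputable def aG (Q : ℕ) (k : Fin 2) (g : U2) : Op (Fin (Q + 1)) := an (uf Q k g)

theorem pB_aG (hQ : 1 ≤ Q) (g : U2) :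
    pB (aG Q) g = Bg Q (g : Matrix (Fin 2) (Fin 2) ℂ) ⟨0, by omega⟩ := by
  rw [Bg_zero hQ (U2_mul_ct g)]
  have h1 : idx Q 1 = (⟨1, by omega⟩ : Fin (Q + 1)) := Fin.ext (by rw [idx_val hQ]; rfl)
  have h0 : idx Q 0 = (0 : Fin (Q + 1)) := Fin.ext (by rw [idx_val hQ]; rfl)
  unfold pB aG uf vec
  rw [h1, h0]

/-- zero modes: `HH v = 0` iff all pair annihilators kill `v` -/
theorem HH_eq_zero_iff (v : Fk (Fin (Q + 1))) : HH Q v = 0 ↔ ∀ p, Bp Q p v = 0 :=
  mem_ker_hs (B := Bp Q) (v := v)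

/-- a zero mode is killed by every rotated pair annihilator -/
theorem Bg_zero_mode {v : Fk (Fin (Q + 1))} (hv : HH Q v = 0) {g : Matrix (Fin 2) (Fin 2) ℂ}
    (hg : g * gᴴ = 1) (p : Fin (2 * Q - 1)) : Bg Q g p v = 0 := by
  have h := (HH_eq_zero_iff v).1 hv
  rw [Bg_eq hg, smul_ap, sum_ap]
  have h2 : ∑ q, (star (D2 Q g q p) • Bp Q q) v = 0 := by
    refine Finset.sum_eq_zero fun q _ => ?_
    rw [smul_ap, h, smul_zero]
  rw [h2, smul_zero]

theorem pB_zero_mode (hQ : 1 ≤ Q) {v : Fk (Fin (Q + 1))} (hv : HH Q v = 0) (g : U2) :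
    pB (aG Q) g v = 0 := by
  rw [pB_aG hQ]
  exact Bg_zero_mode hv (U2_mul_ct g) _

/-! ### the zero mode at filling one third -/

/-- the Laughlin state in Fock space -/
noncomputable def LΨ (N : ℕ) : Fk (Fin (3 * (N - 1) + 1)) := toFk (laughlin (3 * (N - 1)) N)

theorem LΨ_mem (N : ℕ) : LΨ N ∈ sector (Fin (3 * (N - 1) + 1)) N := toFk_mem _

theorem LΨ_HH (N : ℕ) : HH (3 * (N - 1)) (LΨ N) = 0 := by
  unfold LΨ
  rw [← toFk_interaction (laughlin_antisymm _ _), interaction_laughlin, toFk_zero]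

theorem LΨ_ne (N : ℕ) : LΨ N ≠ 0 := by
  intro h
  have h0 : IsAntisymmetric (0 : (Fin N → Fin (3 * (N - 1) + 1)) → ℂ) := by
    intro π m
    simp
  exact laughlin_ne_zero N (toFk_inj (laughlin_antisymm _ _) h0 (by rw [toFk_zero]; exact h))

/-- **the zero modes at filling one third are the multiples of the Laughlin state** -/
theorem ker_sector {N : ℕ} {v : Fk (Fin (3 * (N - 1) + 1))}
    (hv : v ∈ sector (Fin (3 * (N - 1) + 1)) N) (h : HH (3 * (N - 1)) v = 0) :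
    ∃ t : ℂ, v = t • LΨ N := by
  obtain ⟨ψ, hψ, rfl⟩ := exists_toFk hv
  have h1 : (star ψ ⬝ᵥ (interaction (3 * (N - 1)) N).mulVec ψ).re = 0 := by
    have h2 := inner_interaction hψ hψ
    have h3 : (star ψ ⬝ᵥ (interaction (3 * (N - 1)) N).mulVec ψ) =
        inner ℂ (toFk ψ) (HH (3 * (N - 1)) (toFk ψ)) := by
      first
        | exact h2.symm
        | exact h2
    rw [h3, h, inner_zero_right, Complex.zero_re]
  obtain ⟨t, ht⟩ := ker_eq_span hψ h1
  exact ⟨t, by rw [ht, toFk_smul]; rfl⟩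

/-- uniqueness, relative to any nonzero zero mode -/
theorem uniq_of {N : ℕ} {Ψ v : Fk (Fin (3 * (N - 1) + 1))}
    (hΨ : Ψ ∈ sector (Fin (3 * (N - 1) + 1)) N) (hΨ0 : HH (3 * (N - 1)) Ψ = 0) (hne : Ψ ≠ 0)
    (hv : v ∈ sector (Fin (3 * (N - 1) + 1)) N) (h : HH (3 * (N - 1)) v = 0) :
    ∃ z : ℂ, v = z • Ψ := by
  obtain ⟨a, ha⟩ := ker_sector hΨ hΨ0
  obtain ⟨b, hb⟩ := ker_sector hv h
  have ha0 : a ≠ 0 := by
    rintro rfl
    exact hne (by rw [ha, zero_smul])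
  refine ⟨b * a⁻¹, ?_⟩
  rw [hb, ha, smul_smul, mul_assoc, inv_mul_cancel₀ ha0, mul_one]

/-- the projection on the zero modes -/
noncomputable def PZ (Q : ℕ) : Op (Fin (Q + 1)) := PK (HH Q)

theorem PZ_HH (v : Fk (Fin (Q + 1))) : HH Q (PZ Q v) = 0 := by
  have h := mul_PK (HH Q)
  have h2 : (HH Q * PK (HH Q)) v = 0 := by rw [h, zero_ap]
  exact h2

theorem PZ_comm_Nh : PZ Q * Nh = Nh * PZ Q := by
  have h : (Nh : Op (Fin (Q + 1))) * HH Q = HH Q * Nh := Crest.Agent.R340.Bridge649.Nh_comm_HH Q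
  exact (commute_PK' (star_HH Q) h).symm

theorem PZ_mem_sector {N : ℕ} {v : Fk (Fin (Q + 1))} (hv : v ∈ sector (Fin (Q + 1)) N) :
    PZ Q v ∈ sector (Fin (Q + 1)) N := by
  rw [mem_sector_iff_Nh] at hv ⊢
  rw [← mul_ap, ← PZ_comm_Nh, mul_ap, hv, map_smul]

theorem uniq_PZ {N : ℕ} {Ψ : Fk (Fin (3 * (N - 1) + 1))}
    (hΨ : Ψ ∈ sector (Fin (3 * (N - 1) + 1)) N) (hΨ0 : HH (3 * (N - 1)) Ψ = 0) (hne : Ψ ≠ 0) :
    ∀ φ ∈ sector (Fin (3 * (N - 1) + 1)) N, ∃ z : ℂ, PZ (3 * (N - 1)) φ = z • Ψ :=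
  fun φ hφ => uniq_of hΨ hΨ0 hne (PZ_mem_sector hφ) (PZ_HH φ)

end Crest.Agent.R340.U856
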