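import Crest.Agent.R340.FiltPD_867
import Crest.Agent.R340.Rot5_303
import Crest.Agent.R340.Rot6_303
import Crest.Agent.R340.U5_856
import Crest.Agent.R340.LR7_667

/-!
The evolution theorem on the group `U(2)` (helper867): instance of `EvoHyp` for
`H = HH Q + s • dG (toeplitz Q φ)`, all constants independent of `Q`, `s`, `φ`.
-/

set_option autoImplicit false
set_option linter.unusedSectionVars false
set_option linter.unusedVariables false

open scoped ENNReal NNReal Matrix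
open MeasureTheory

namespace Crest.Agent.R340.Filt867

open Crest.Agent.R340.QL331 Crest.Agent.R340.LR667 Crest.Agent.R340.DC867 Crest.Agent.R340.PD757
  Crest.Agent.R340.Fock649 Crest.Agent.R340.CS809 Crest.Agent.R340.Rot303 Crest.Agent.R340.FI331
  Crest.Agent.R340.GG467 Crest.Agent.R340.Br320 Crest.Agent.R340.Gam303
  Crest.Agent.R340.U856 Crest.Agent.R340.Avg814 Crest.MathPhysics.Laughlin

section parity

variable {ι : Type*} [Fintype ι] [LinearOrder ι]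

/-- operators preserving the particle number are even -/
theorem commute_thF {X : Op ι} (h : Commute X Nh) : Commute X thF := by
  have h1 : ∀ S T : Finset ι, S.card ≠ T.card → X (ket S) T = 0 := by
    intro S T hST
    have h2 : (X * Nh : Op ι) (ket S) = (Nh * X : Op ι) (ket S) := by rw [h.eq]
    rw [mul_ap, mul_ap, Nh_ket, map_smul, Nh_eq] at h2
    have h3 := congrArg (fun v : Fk ι => v T) h2
    simp only [diag_apply, PiLp.smul_apply, smul_eq_mul] at h3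
    have h4 : ((S.card : ℂ) - T.card) * X (ket S) T = 0 := by linear_combination h3
    rcases mul_eq_zero.1 h4 with h5 | h5
    · exact absurd (by exact_mod_cast sub_eq_zero.1 h5) hST
    · exact h5
  refine op_ext fun S => ?_
  rw [mul_ap, mul_ap, thF_ket, map_smul]
  ext T
  unfold thF
  rw [diag_apply, PiLp.smul_apply, smul_eq_mul]
  by_cases hST : S.card = T.card
  · rw [hST]
  · rw [h1 S T hST, mul_zero, mul_zero]

theorem ev_of_commute_Nh {X : Op ι} (h : Commute X Nh) : (fcar : Car (Op ι) (L ι)).Ev X := by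
  rw [ev_iff_commute]
  exact commute_thF h

end parity

variable {Q : ℕ}

theorem fb_eq_ub (Q : ℕ) : fb Q = ub Q := by
  funext g
  refine DFunLike.ext _ _ fun j => ?_
  rw [fb_apply, ub_apply]
  ext i
  rw [vec_apply, uk_apply]

/-- helper757's frame, with helper331's names -/
theorem frmF (Q : ℕ) : PD757.Frm hm Q (fb Q) tq (dQ Q) := by
  rw [fb_eq_ub]; exact frm Q

theorem uf_zero_eq (Q : ℕ) (g : U2) : uf Q 0 g = fb Q g 0 := by
  rw [uf_eq]
  congr 1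

theorem farB (Q k : ℕ) : FarB (fcar : Car (Op (Fin (Q + 1))) _) (fb Q) (uf Q) (dQ Q) (k + 5)
    (4 * Kn (k + 3)) := farB_of_frm (frmF Q) fcar (uf_zero_eq Q) k

theorem nearB (Q m : ℕ) : NearB (fcar : Car (Op (Fin (Q + 1))) _) (fb Q) (uf Q) (dQ Q) m
    (2 * Ks m) := nearB_of_frm (frmF Q) fcar (uf_zero_eq Q) m

/-! ### the Hamiltonian as an integral -/

/-- `H_s = H + s V(φ)` on Fock space -/
noncomputable def Hs (Q : ℕ) (φ : S2 → ℝ) (s : ℝ) : Op (Fin (Q + 1)) :=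
  HH Q + s • dG (toeplitz Q φ)

theorem Hs_zero (Q : ℕ) (φ : S2 → ℝ) : Hs Q φ 0 = HH Q := by
  unfold Hs; rw [zero_smul, add_zero]

/-- the integrand of `H_s` -/
noncomputable def Fs (Q : ℕ) (φ : S2 → ℝ) (s : ℝ) (z : U2) : Op (Fin (Q + 1)) :=
  (2 * (Q : ℝ) - 1) • (star (Bz (fcar : Car (Op (Fin (Q + 1))) _) (uf Q) z) *
    Bz (fcar : Car (Op (Fin (Q + 1))) _) (uf Q) z) +
    (s * (((Q : ℝ) + 1) * φ (pt z))) • nz (fcar : Car (Op (Fin (Q + 1))) _) (uf Q) z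

theorem Bz_eq (hQ : 1 ≤ Q) (z : U2) : Bz (fcar : Car (Op (Fin (Q + 1))) _) (uf Q) z =
    Bg Q (z : Matrix (Fin 2) (Fin 2) ℂ) ⟨0, by omega⟩ := by
  rw [← pB_aG hQ]; rfl

theorem nz_eq (z : U2) : nz (fcar : Car (Op (Fin (Q + 1))) _) (uf Q) z =
    n0g Q (z : Matrix (Fin 2) (Fin 2) ℂ) := by
  have h0 : idx Q 0 = (0 : Fin (Q + 1)) := Fin.ext (by simp [idx])
  unfold nz n0g
  rw [fcar_cr, fcar_an]
  unfold uf vec
  rw [h0]

theorem integrable_n0g {φ : S2 → ℝ} (hφ : Measurable φ) {C : ℝ} (hC : ∀ x, |φ x| ≤ C) :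
    Integrable (fun z : U2 => φ (pt z) • n0g Q (z : Matrix (Fin 2) (Fin 2) ℂ)) hm := by
  have h1 : Integrable (fun z : U2 => n0g Q (z : Matrix (Fin 2) (Fin 2) ℂ)) hm :=
    Crest.Agent.R124.Haar.integrable_of_cont (N := Fin 2)
      (continuous_n0g.comp continuous_subtype_val)
  have hmeas : Measurable fun g : U2 => φ (pt g) := hφ.comp measurable_pt
  exact Integrable.bdd_smul (𝕜 := ℝ) h1 C hmeas.aestronglyMeasurable
    (Filter.Eventually.of_forall fun g => by rw [Real.norm_eq_abs]; exact hC _)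

theorem integrable_BB (hQ : 1 ≤ Q) :
    Integrable (fun z : U2 => star (Bz (fcar : Car (Op (Fin (Q + 1))) _) (uf Q) z) *
      Bz (fcar : Car (Op (Fin (Q + 1))) _) (uf Q) z) hm := by
  have h := integrable_star_Bg_mul_Bg (1 : Op (Fin (Q + 1))) ⟨0, by omega⟩ ⟨0, by omega⟩
  simp only [mul_one] at h
  simp only [Bz_eq hQ]
  exact h

theorem integrable_Fs (hQ : 1 ≤ Q) {φ : S2 → ℝ} (hφ : Measurable φ) {C : ℝ}
    (hC : ∀ x, |φ x| ≤ C) (s : ℝ) : Integrable (Fs Q φ s) hm := by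
  refine ((integrable_BB hQ).smul _).add ?_
  have h := (integrable_n0g (Q := Q) hφ hC).smul (s * ((Q : ℝ) + 1))
  refine h.congr (Filter.Eventually.of_forall fun z => ?_)
  simp only [Pi.smul_apply, nz_eq, smul_smul]
  congr 1
  ring

theorem Hs_eq (hQ : 1 ≤ Q) {φ : S2 → ℝ} (hφ : Measurable φ) {C : ℝ}
    (hC : ∀ x, |φ x| ≤ C) (s : ℝ) : Hs Q φ s = ∫ z, Fs Q φ s z ∂hm := by
  have h1 : ∫ z, Fs Q φ s z ∂hm = (2 * (Q : ℝ) - 1) • ∫ z : U2,
      (star (Bz (fcar : Car (Op (Fin (Q + 1))) _) (uf Q) z) *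
        Bz (fcar : Car (Op (Fin (Q + 1))) _) (uf Q) z) ∂hm +
      (s * ((Q : ℝ) + 1)) • ∫ z : U2, φ (pt z) • n0g Q (z : Matrix (Fin 2) (Fin 2) ℂ) ∂hm := by
    rw [← integral_smul, ← integral_smul]
    refine Eq.trans ?_ (integral_add ((integrable_BB hQ).smul (2 * (Q : ℝ) - 1))
      ((integrable_n0g (Q := Q) hφ hC).smul (s * ((Q : ℝ) + 1))))
    refine integral_congr_ae (Filter.Eventually.of_forall fun z => ?_)
    simp only [Fs, nz_eq, smul_smul]
    congr 2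
    ring
  rw [h1]
  unfold Hs
  congr 1
  · simp only [Bz_eq hQ]
    exact (smul_integral_Bg_one (Q := Q) ⟨0, by omega⟩).symm
  · rw [dG_toeplitz hφ hC, mul_smul]
    congr 1
    have h2 : ∀ Y : Op (Fin (Q + 1)), ((Q : ℝ) + 1) • Y = ((Q : ℂ) + 1) • Y := by
      intro Y
      have : ((Q : ℂ) + 1) = (((Q : ℝ) + 1 : ℝ) : ℂ) := by push_cast; ring
      rw [this]; rfl
    rw [h2]
    rfl

/-! ### kernel bounds -/

/-- the kernel of the double commutator with `H_s` -/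
noncomputable def kG (Q : ℕ) (w z : U2) : ℝ≥0∞ :=
  ENNReal.ofReal (192 * Q * Real.exp (-(dQ Q w z ^ 2 / 16)))

theorem enorm_inner_uf_le (hQ : 1 ≤ Q) (k l : Fin 2) (w z : U2) :
    ‖(inner ℂ (uf Q k w) (uf Q l z) : ℂ)‖ₑ ≤
      ENNReal.ofReal (12 * Real.exp (-(dQ Q w z ^ 2 / 16))) := by
  rw [← ofReal_norm]
  exact ENNReal.ofReal_le_ofReal (norm_inner_uf_le hQ k l w z)

theorem kap0_uf_le (hQ : 1 ≤ Q) (k : Fin 2) (w z : U2) :
    kap0 (uf Q) (uf Q k w) z ≤ ENNReal.ofReal (24 * Real.exp (-(dQ Q w z ^ 2 / 16))) := by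
  unfold kap0
  refine (add_le_add (enorm_inner_uf_le hQ k 0 w z) (enorm_inner_uf_le hQ k 1 w z)).trans ?_
  rw [← ENNReal.ofReal_add (by positivity) (by positivity)]
  exact ENNReal.ofReal_le_ofReal (by linarith [Real.exp_pos (-(dQ Q w z ^ 2 / 16))])

theorem exp_quad {d x : ℝ} (hx : 0 ≤ x) (h : d ^ 2 = 4 * x) :
    Real.exp (-(d ^ 2 / 16)) * Real.exp (1 * d) ≤ 128 * Real.exp 9 * ((1 + x) ^ 2)⁻¹ := by
  rw [← Real.exp_add, ← div_eq_mul_inv, le_div_iff₀ (by positivity)]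
  have h1 : -(d ^ 2 / 16) + 1 * d ≤ 8 - x / 8 := by nlinarith [sq_nonneg (d - 16)]
  have h2 := Real.pow_div_factorial_le_exp ((1 + x) / 8) (by positivity) 2
  have h3 : (1 + x) ^ 2 ≤ 128 * Real.exp ((1 + x) / 8) := by
    norm_num [Nat.factorial] at h2
    nlinarith
  calc Real.exp (-(d ^ 2 / 16) + 1 * d) * (1 + x) ^ 2
      ≤ Real.exp (8 - x / 8) * (128 * Real.exp ((1 + x) / 8)) := by gcongr
    _ = 128 * Real.exp (8 - x / 8 + (1 + x) / 8) := by rw [Real.exp_add]; ring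
    _ ≤ 128 * Real.exp 9 := by
      gcongr
      linarith

/-- the velocity -/
noncomputable def vG : ℝ := 192 * 128 * Real.exp 9 * 2 ^ 11

theorem vG_nonneg : 0 ≤ vG := by unfold vG; positivity

theorem dQ_sq_tq (Q : ℕ) (z w : U2) : dQ Q w z ^ 2 = 4 * ((Q : ℝ) * tq z w) := by
  rw [dQ_comm, dQ_sq]; rfl

theorem schurG (Q : ℕ) (w : U2) :
    ∫⁻ z, kG Q w z * ENNReal.ofReal (Real.exp (1 * dQ Q w z)) ∂hm ≤ ENNReal.ofReal vG := by
  have T := tau_tq w
  have hint : Integrable (fun z : U2 => 192 * (Q : ℝ) *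
      (128 * Real.exp 9 * ((1 + (Q : ℝ) * tq z w) ^ 2)⁻¹)) hm :=
    ((T.intble (Tau.cont_inv Q 2)).const_mul _).const_mul _
  calc ∫⁻ z, kG Q w z * ENNReal.ofReal (Real.exp (1 * dQ Q w z)) ∂hm
      ≤ ∫⁻ z, ENNReal.ofReal (192 * (Q : ℝ) *
        (128 * Real.exp 9 * ((1 + (Q : ℝ) * tq z w) ^ 2)⁻¹)) ∂hm := by
        refine lintegral_mono fun z => ?_
        unfold kG
        rw [← ENNReal.ofReal_mul (by positivity), mul_assoc]
        refine ENNReal.ofReal_le_ofReal ?_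
        have hx : 0 ≤ (Q : ℝ) * tq z w := mul_nonneg (Nat.cast_nonneg _) (tq_nonneg z w)
        have := exp_quad hx (dQ_sq_tq Q z w)
        gcongr
    _ = ENNReal.ofReal (∫ z, 192 * (Q : ℝ) *
        (128 * Real.exp 9 * ((1 + (Q : ℝ) * tq z w) ^ 2)⁻¹) ∂hm) := by
        rw [ofReal_integral_eq_lintegral_ofReal hint]
        exact Filter.Eventually.of_forall fun z => by positivity
    _ ≤ ENNReal.ofReal vG := by
        refine ENNReal.ofReal_le_ofReal ?_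
        rw [integral_const_mul, integral_const_mul]
        have h1 := T.K2 Q
        have h2 : 0 ≤ ∫ z, ((1 + (Q : ℝ) * tq z w) ^ 2)⁻¹ ∂hm :=
          integral_nonneg fun z => by positivity
        have h3 : (Q : ℝ) * ∫ z, ((1 + (Q : ℝ) * tq z w) ^ 2)⁻¹ ∂hm ≤ 2 ^ 11 := by
          refine le_trans ?_ h1
          nlinarith
        unfold vG
        calc _ = 192 * 128 * Real.exp 9 * ((Q : ℝ) * ∫ z, ((1 + (Q : ℝ) * tq z w) ^ 2)⁻¹ ∂hm) := by
              ring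
          _ ≤ _ := by gcongr

theorem dQ_bdd (Q : ℕ) : ∃ B, ∀ x y : U2, dQ Q x y ≤ B := by
  refine ⟨4 * Q + 1, fun x y => ?_⟩
  have h1 := dQ_sq Q x y
  have h2 := dQ_nonneg Q x y
  have h3 : (Q : ℝ) * (1 - ov x y) ≤ Q := by
    have := ov_nonneg x y
    have hq : (0 : ℝ) ≤ Q := Nat.cast_nonneg _
    nlinarith
  nlinarith [sq_nonneg (dQ Q x y - 1)]

theorem hovG (hQ : 1 ≤ Q) (k l : Fin 2) (w z : U2) :
    ‖(inner ℂ (uf Q k w) (uf Q l z) : ℂ)‖ ≤ 12 * Real.exp 4 * Real.exp (-1 * dQ Q z w) := by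
  refine (norm_inner_uf_le hQ k l w z).trans ?_
  rw [mul_assoc, ← Real.exp_add, dQ_comm Q w z]
  gcongr
  nlinarith [sq_nonneg (dQ Q z w - 8)]

/-! ### symmetry of `H_s` -/

theorem star_Fs (φ : S2 → ℝ) (s : ℝ) (z : U2) : star (Fs Q φ s z) = Fs Q φ s z := by
  simp only [Fs, star_add, star_smul, star_trivial, star_mul, star_star, star_nz]

theorem Hs_sa (hQ : 1 ≤ Q) {φ : S2 → ℝ} (hφ : Measurable φ) {C : ℝ}
    (hC : ∀ x, |φ x| ≤ C) (s : ℝ) : IsSelfAdjoint (Hs Q φ s) := by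
  show star _ = _
  rw [Hs_eq hQ hφ hC, star_integral_op]
  exact integral_congr_ae (Filter.Eventually.of_forall fun z => star_Fs φ s z)

theorem Hs_comm_Nh (φ : S2 → ℝ) (s : ℝ) : Commute (Hs Q φ s) Nh := by
  unfold Hs
  refine Commute.add_left ?_ (Commute.smul_left ?_ s)
  · exact (Crest.Agent.R340.Bridge649.Nh_comm_HH Q).symm
  · exact (Nh_comm_dG _).symm

/-! ### the double commutator -/

theorem dcG (hQ : 1 ≤ Q) {φ : S2 → ℝ} (hφ : Measurable φ) (h1 : ∀ x, |φ x| ≤ 1) {s : ℝ}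
    (hs : |s| ≤ 1) (X : Op (Fin (Q + 1))) (k : Fin 2 × Bool) (w : U2) :
    ‖⁅X, ⁅Hs Q φ s, gen fcar (uf Q) k w⁆⁆‖ₑ ≤
      ∫⁻ z, kG Q w z * prof (gen fcar (uf Q)) X z ∂hm := by
  have hQ' : (1 : ℝ) ≤ Q := by exact_mod_cast hQ
  have hb : ∀ z : U2, ‖(2 * (Q : ℝ) - 1)‖ₑ ≤ ((2 * Q : ℕ) : ℝ≥0) := by
    intro z
    rw [Real.enorm_eq_ofReal (by linarith)]
    refine ENNReal.ofReal_le_of_le_toReal ?_
    push_cast
    simp
  have hc : ∀ z : U2, ‖(s * (((Q : ℝ) + 1) * φ (pt z)))‖ₑ ≤ ((Q + 1 : ℕ) : ℝ≥0) := by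
    intro z
    rw [← ofReal_norm]
    refine ENNReal.ofReal_le_of_le_toReal ?_
    rw [Real.norm_eq_abs, abs_mul, abs_mul, abs_of_nonneg (by positivity : (0 : ℝ) ≤ (Q : ℝ) + 1)]
    have h2 := h1 (pt z)
    have h3 : |s| * (((Q : ℝ) + 1) * |φ (pt z)|) ≤ 1 * (((Q : ℝ) + 1) * 1) := by gcongr
    refine h3.trans (le_of_eq ?_)
    rw [ENNReal.coe_toReal]
    push_cast
    ring
  have h := dc fcar hm (u := uf Q) (fun k z => (norm_uf Q k z).le) (β := ((2 * Q : ℕ) : ℝ≥0))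
    (α := ((Q + 1 : ℕ) : ℝ≥0)) (c := fun z => s * (((Q : ℝ) + 1) * φ (pt z)))
    (b := fun _ => 2 * (Q : ℝ) - 1) hb hc (integrable_Fs hQ hφ h1 s) (H := Hs Q φ s)
    (Hs_eq hQ hφ h1 s) X k w
  refine h.trans (lintegral_mono fun z => ?_)
  gcongr
  unfold kG
  calc (((3 * ((2 * Q : ℕ) : ℝ≥0) + ((Q + 1 : ℕ) : ℝ≥0) : ℝ≥0) : ℝ≥0∞)) *
        kap0 (uf Q) (uf Q k.1 w) z
      ≤ ENNReal.ofReal (8 * Q) * ENNReal.ofReal (24 * Real.exp (-(dQ Q w z ^ 2 / 16))) := by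
        refine mul_le_mul' ?_ (kap0_uf_le hQ k.1 w z)
        rw [← ENNReal.ofReal_coe_nnreal]
        refine ENNReal.ofReal_le_ofReal ?_
        push_cast
        linarith
    _ = ENNReal.ofReal (192 * Q * Real.exp (-(dQ Q w z ^ 2 / 16))) := by
        rw [← ENNReal.ofReal_mul (by positivity)]
        congr 1
        ring

/-- **All hypotheses of the evolution theorem hold on the sphere, with constants independent of the
flux, of `|s| ≤ 1` and of `|φ| ≤ 1`.** -/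
theorem evoG (hQ : 1 ≤ Q) {φ : S2 → ℝ} (hφ : Measurable φ) (h1 : ∀ x, |φ x| ≤ 1) {s : ℝ}
    (hs : |s| ≤ 1) (m : ℕ) :
    EvoHyp (fcar : Car (Op (Fin (Q + 1))) _) hm (fb Q) (uf Q) (dQ Q) (Hs Q φ s) (kG Q) 1 vG
      (12 * Real.exp 4) (4 * Kn (m + 7)) (2 * Ks m) m where
  htop := alg_univ
  hH := Hs_sa hQ hφ h1 s
  hth := commute_thF (Hs_comm_Nh φ s)
  hu k z := (norm_uf Q k z).le
  hκ := dcG hQ hφ h1 hs
  hD0 := dQ_nonneg Q
  hDsymm := dQ_comm Q
  hDtri := dQ_triangle Q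
  hDb := dQ_bdd Q
  hμ := one_pos
  hv := vG_nonneg
  hC0 := by positivity
  hS := schurG Q
  hov := hovG hQ
  hCf := by have := Kn_pos (m + 7); positivity
  hCn := by have := Ks_pos m; positivity
  hfar := farB Q (m + 4)
  hnear := nearB Q m

end Crest.Agent.R340.Filt867
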