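import Crest.Agent.R340.FiltP_867

/-!
The evolution theorem for `H = HH Q + s ∫ φ n dν`, `ν = (2Q-1) Haar`, `φ` a bounded measurable
function on `U(2)` (helper867; literal form of helper644's `EvoP`).
-/

set_option autoImplicit false
set_option linter.unusedSectionVars false
set_option linter.unusedVariables false

open scoped ENNReal NNReal Matrix InnerProductSpace
open MeasureTheory

namespace Crest.Agent.R340.Filt867

open Crest.Agent.R340.QL331 Crest.Agent.R340.LR667 Crest.Agent.R340.DC867 Crest.Agent.R340.PD757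
  Crest.Agent.R340.Fock649 Crest.Agent.R340.CS809 Crest.Agent.R340.Rot303 Crest.Agent.R340.FI331
  Crest.Agent.R340.GG467 Crest.Agent.R340.Br320 Crest.Agent.R340.Gam303
  Crest.Agent.R340.U856 Crest.Agent.R340.Avg814 Crest.MathPhysics.Laughlin
open Crest.Agent.R340.DLi482 (nuQ)

variable {Q : ℕ}

/-- `V = ∫ φ n dν` -/
noncomputable def Vn (Q : ℕ) (φ : U2 → ℝ) : Op (Fin (Q + 1)) :=
  ∫ g, φ g • nz (fcar : Car (Op (Fin (Q + 1))) _) (uf Q) g ∂(nuQ Q)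

/-- the integrand -/
noncomputable def Fn (Q : ℕ) (φ : U2 → ℝ) (s : ℝ) (z : U2) : Op (Fin (Q + 1)) :=
  (1 : ℝ) • (star (Bz (fcar : Car (Op (Fin (Q + 1))) _) (uf Q) z) *
    Bz (fcar : Car (Op (Fin (Q + 1))) _) (uf Q) z) +
    (s * φ z) • nz (fcar : Car (Op (Fin (Q + 1))) _) (uf Q) z

theorem nuQ_eq (Q : ℕ) : nuQ Q = ENNReal.ofReal (2 * (Q : ℝ) - 1) • hm := rfl

theorem integrable_nuQ {E : Type*} [NormedAddCommGroup E] {f : U2 → E} (hf : Integrable f hm) :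
    Integrable f (nuQ Q) := by
  rw [nuQ_eq]
  exact hf.smul_measure ENNReal.ofReal_ne_top

theorem integrable_nz {φ : U2 → ℝ} (hφ : Measurable φ) {C : ℝ} (hC : ∀ x, |φ x| ≤ C) :
    Integrable (fun z : U2 => φ z • nz (fcar : Car (Op (Fin (Q + 1))) _) (uf Q) z) hm := by
  have h1 : Integrable (fun z : U2 => n0g Q (z : Matrix (Fin 2) (Fin 2) ℂ)) hm :=
    Crest.Agent.R124.Haar.integrable_of_cont (N := Fin 2)
      (continuous_n0g.comp continuous_subtype_val)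
  simp only [nz_eq]
  exact Integrable.bdd_smul (𝕜 := ℝ) h1 C hφ.aestronglyMeasurable
    (Filter.Eventually.of_forall fun g => by rw [Real.norm_eq_abs]; exact hC _)

theorem integrable_Fn (hQ : 1 ≤ Q) {φ : U2 → ℝ} (hφ : Measurable φ) {C : ℝ}
    (hC : ∀ x, |φ x| ≤ C) (s : ℝ) : Integrable (Fn Q φ s) (nuQ Q) := by
  refine ((integrable_nuQ (integrable_BB hQ)).smul _).add ?_
  have h := (integrable_nuQ (Q := Q) (integrable_nz (Q := Q) hφ hC)).smul s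
  refine h.congr (Filter.Eventually.of_forall fun z => ?_)
  simp only [Pi.smul_apply, smul_smul]

theorem integral_Fn (hQ : 1 ≤ Q) {φ : U2 → ℝ} (hφ : Measurable φ) {C : ℝ}
    (hC : ∀ x, |φ x| ≤ C) (s : ℝ) : HH Q + s • Vn Q φ = ∫ z, Fn Q φ s z ∂(nuQ Q) := by
  have h1 : ∫ z, Fn Q φ s z ∂(nuQ Q) = (1 : ℝ) • ∫ z : U2,
      (star (Bz (fcar : Car (Op (Fin (Q + 1))) _) (uf Q) z) *
        Bz (fcar : Car (Op (Fin (Q + 1))) _) (uf Q) z) ∂(nuQ Q) +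
      s • ∫ z : U2, φ z • nz (fcar : Car (Op (Fin (Q + 1))) _) (uf Q) z ∂(nuQ Q) := by
    rw [← integral_smul, ← integral_smul]
    refine Eq.trans ?_ (integral_add ((integrable_nuQ (integrable_BB hQ)).smul (1 : ℝ))
      ((integrable_nuQ (Q := Q) (integrable_nz (Q := Q) hφ hC)).smul s))
    refine integral_congr_ae (Filter.Eventually.of_forall fun z => ?_)
    simp only [Fn, smul_smul]
  rw [h1, one_smul]
  congr 1
  simp only [Bz_eq hQ]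
  exact (integral_Bg_measure_one (Q := Q) ⟨0, by omega⟩).symm

/-- kernel w.r.t. `nuQ` -/
noncomputable def kN (Q : ℕ) (w z : U2) : ℝ≥0∞ :=
  ENNReal.ofReal (96 * Real.exp (-(dQ Q w z ^ 2 / 16)))

theorem schurN (hQ : 1 ≤ Q) (w : U2) :
    ∫⁻ z, kN Q w z * ENNReal.ofReal (Real.exp (1 * dQ Q w z)) ∂(nuQ Q) ≤ ENNReal.ofReal vG := by
  refine le_trans ?_ (schurG Q w)
  have hQ' : (1 : ℝ) ≤ Q := by exact_mod_cast hQ
  rw [nuQ_eq, lintegral_smul_measure, smul_eq_mul, ← lintegral_const_mul' _ _ ENNReal.ofReal_ne_top]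
  refine lintegral_mono fun z => ?_
  rw [← mul_assoc]
  refine mul_le_mul' ?_ le_rfl
  unfold kN kG
  rw [← ENNReal.ofReal_mul (by linarith)]
  refine ENNReal.ofReal_le_ofReal ?_
  have h := Real.exp_pos (-(dQ Q w z ^ 2 / 16))
  nlinarith

theorem dcN (hQ : 1 ≤ Q) {φ : U2 → ℝ} (hφ : Measurable φ) (h1 : ∀ x, |φ x| ≤ 1) {s : ℝ}
    (hs : |s| ≤ 1) (X : Op (Fin (Q + 1))) (k : Fin 2 × Bool) (w : U2) :
    ‖⁅X, ⁅HH Q + s • Vn Q φ, gen fcar (uf Q) k w⁆⁆‖ₑ ≤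
      ∫⁻ z, kN Q w z * prof (gen fcar (uf Q)) X z ∂(nuQ Q) := by
  have hb : ∀ z : U2, ‖(1 : ℝ)‖ₑ ≤ ((1 : ℝ≥0) : ℝ≥0∞) := by
    intro z; simp
  have hc : ∀ z : U2, ‖(s * φ z)‖ₑ ≤ ((1 : ℝ≥0) : ℝ≥0∞) := by
    intro z
    rw [← ofReal_norm]
    refine ENNReal.ofReal_le_of_le_toReal ?_
    rw [Real.norm_eq_abs, abs_mul]
    have h2 := h1 z
    have h3 : |s| * |φ z| ≤ 1 * 1 := by gcongr
    refine h3.trans (le_of_eq ?_)
    simp
  have h := dc fcar (nuQ Q) (u := uf Q) (fun k z => (norm_uf Q k z).le) (β := 1)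
    (α := 1) (c := fun z => s * φ z)
    (b := fun _ => 1) hb hc (integrable_Fn hQ hφ h1 s) (H := HH Q + s • Vn Q φ)
    (integral_Fn hQ hφ h1 s) X k w
  refine h.trans (lintegral_mono fun z => ?_)
  gcongr
  unfold kN
  calc (((3 * 1 + 1 : ℝ≥0) : ℝ≥0∞)) * kap0 (uf Q) (uf Q k.1 w) z
      ≤ ENNReal.ofReal 4 * ENNReal.ofReal (24 * Real.exp (-(dQ Q w z ^ 2 / 16))) := by
        refine mul_le_mul' ?_ (kap0_uf_le hQ k.1 w z)
        rw [← ENNReal.ofReal_coe_nnreal]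
        refine ENNReal.ofReal_le_ofReal ?_
        push_cast
        norm_num
    _ = ENNReal.ofReal (96 * Real.exp (-(dQ Q w z ^ 2 / 16))) := by
        rw [← ENNReal.ofReal_mul (by positivity)]
        congr 1
        ring

theorem star_Fn (φ : U2 → ℝ) (s : ℝ) (z : U2) : star (Fn Q φ s z) = Fn Q φ s z := by
  simp only [Fn, star_add, star_smul, star_trivial, star_mul, star_star, star_nz]

theorem HVn_sa (hQ : 1 ≤ Q) {φ : U2 → ℝ} (hφ : Measurable φ) {C : ℝ}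
    (hC : ∀ x, |φ x| ≤ C) (s : ℝ) : IsSelfAdjoint (HH Q + s • Vn Q φ) := by
  show star _ = _
  rw [integral_Fn hQ hφ hC, star_integral_op]
  exact integral_congr_ae (Filter.Eventually.of_forall fun z => star_Fn φ s z)

theorem n0g_comm_Nh (g : Matrix (Fin 2) (Fin 2) ℂ) : Commute (n0g Q g) Nh := by
  unfold n0g
  set v := Fock649.mv (sp Q g) (e 0)
  have h1 := Nh_comm_cr (ι := Fin (Q + 1)) v
  have h2 := Nh_comm_an (ι := Fin (Q + 1)) v
  have h3 : Nh * cr v = cr v * Nh + cr v := by rw [sub_eq_iff_eq_add.1 h1]; abel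
  have h4 : Nh * an v = an v * Nh - an v := by rw [sub_eq_iff_eq_add.1 h2]; abel
  symm
  calc Nh * (cr v * an v) = (Nh * cr v) * an v := by rw [mul_assoc]
    _ = cr v * (Nh * an v) + cr v * an v := by rw [h3, add_mul, mul_assoc]
    _ = _ := by rw [h4, mul_sub, mul_assoc]; abel

theorem Vn_comm_Nh {φ : U2 → ℝ} (hφ : Measurable φ) {C : ℝ} (hC : ∀ x, |φ x| ≤ C) :
    Commute (Vn Q φ) Nh := by
  have hi := integrable_nuQ (Q := Q) (integrable_nz (Q := Q) hφ hC)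
  unfold Vn
  show (∫ g, φ g • nz (fcar : Car (Op (Fin (Q + 1))) _) (uf Q) g ∂(nuQ Q)) * Nh =
    Nh * ∫ g, φ g • nz (fcar : Car (Op (Fin (Q + 1))) _) (uf Q) g ∂(nuQ Q)
  rw [mul_integral_op hi, integral_mul_op hi]
  refine integral_congr_ae (Filter.Eventually.of_forall fun z => ?_)
  simp only [nz_eq]
  rw [smul_mul_assoc, mul_smul_comm, (n0g_comm_Nh _).eq]

theorem HVn_comm_Nh {φ : U2 → ℝ} (hφ : Measurable φ) {C : ℝ} (hC : ∀ x, |φ x| ≤ C) (s : ℝ) :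
    Commute (HH Q + s • Vn Q φ) Nh :=
  Commute.add_left (Crest.Agent.R340.Bridge649.Nh_comm_HH Q).symm ((Vn_comm_Nh hφ hC).smul_left s)

/-- **All hypotheses of the evolution theorem for `HH Q + s ∫ φ n dν`.** -/
theorem evoN (hQ : 1 ≤ Q) {φ : U2 → ℝ} (hφ : Measurable φ) (h1 : ∀ x, |φ x| ≤ 1) {s : ℝ}
    (hs : |s| ≤ 1) (m : ℕ) :
    EvoHyp (fcar : Car (Op (Fin (Q + 1))) _) (nuQ Q) (fb Q) (uf Q) (dQ Q) (HH Q + s • Vn Q φ)
      (kN Q) 1 vG (12 * Real.exp 4) (4 * Kn (m + 7)) (2 * Ks m) m where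
  htop := alg_univ
  hH := HVn_sa hQ hφ h1 s
  hth := commute_thF (HVn_comm_Nh hφ h1 s)
  hu k z := (norm_uf Q k z).le
  hκ := dcN hQ hφ h1 hs
  hD0 := dQ_nonneg Q
  hDsymm := dQ_comm Q
  hDtri := dQ_triangle Q
  hDb := dQ_bdd Q
  hμ := one_pos
  hv := vG_nonneg
  hC0 := by positivity
  hS := schurN hQ
  hov := hovG hQ
  hCf := by have := Kn_pos (m + 7); positivity
  hCn := by have := Ks_pos m; positivity
  hfar := farB Q (m + 4)
  hnear := nearB Q m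

/-- helper644's `EvoP m` -/
theorem evoP (m : ℕ) : ∃ (Q₀ : ℕ) (μ0 v C0 Cf Cn : ℝ), ∀ Q, Q₀ ≤ Q → ∀ φ : U2 → ℝ,
    Measurable φ → (∀ g, |φ g| ≤ 1) → ∀ s ∈ Set.Icc (0 : ℝ) 1, ∃ κ,
    EvoHyp (fcar : Car (Op (Fin (Q + 1))) _) (nuQ Q) (fb Q) (uf Q) (dQ Q)
      (HH Q + s • ∫ g, φ g • nz fcar (uf Q) g ∂(nuQ Q)) κ μ0 v C0 Cf Cn m :=
  ⟨1, 1, vG, 12 * Real.exp 4, 4 * Kn (m + 7), 2 * Ks m, fun Q hQ φ hφ h1 s hs =>
    ⟨kN Q, evoN hQ hφ h1 (abs_le.2 ⟨by linarith [hs.1], hs.2⟩) m⟩⟩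

end Crest.Agent.R340.Filt867
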