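import Crest.Agent.R340.Filt3_867
import Crest.Agent.R340.PD4_757
import Crest.Agent.R340.FI1_331

/-!
`FarB` and `NearB` (helper867) from a frame `Frm` of helper757.
-/

set_option autoImplicit false
set_option linter.unusedSectionVars false

open scoped ENNReal NNReal
open MeasureTheory

namespace Crest.Agent.R340.Filt867

open Crest.Agent.R340.QL331 Crest.Agent.R340.LR667 Crest.Agent.R340.DC867 Crest.Agent.R340.PD757

section frm

variable {A V Z : Type*} [CStarAlgebra A] [NormedAddCommGroup V] [InnerProductSpace ℂ V]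
  [CompleteSpace V] [MeasurableSpace Z] {μ : Measure Z} {Q : ℕ}
  {b : Z → OrthonormalBasis (Fin (Q + 1)) ℂ V} {τ D : Z → Z → ℝ}

theorem cs_eq (R : Car A V) {u : Fin 2 → Z → V} (hu0 : ∀ z, u 0 z = b z 0) (y : A) (z : Z) :
    R.cs y (b z 0) = ‖⁅y, gen R u (0, false) z⁆‖ + ‖⁅y, gen R u (0, true) z⁆‖ := by
  rw [gen_false, gen_true, hu0]
  rfl

theorem cs_le_of_prof (R : Car A V) {u : Fin 2 → Z → V} (hu0 : ∀ z, u 0 z = b z 0) {y : A} {w : Z}
    {K : ℝ} {M : ℕ} (h : ∀ k z, ‖⁅y, gen R u k z⁆‖ ≤ K / (1 + D z w) ^ M) (z : Z) :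
    R.cs y (b z 0) ≤ 2 * K * ((1 + D z w)⁻¹) ^ M := by
  rw [cs_eq R hu0 y z, inv_pow, ← div_eq_mul_inv]
  have h1 := h (0, false) z
  have h2 := h (0, true) z
  calc _ ≤ K / (1 + D z w) ^ M + K / (1 + D z w) ^ M := add_le_add h1 h2
    _ = _ := by ring

/-- `FarB` holds in every frame -/
theorem farB_of_frm (F : Frm μ Q b τ D) (R : Car A V) {u : Fin 2 → Z → V}
    (hu0 : ∀ z, u 0 z = b z 0) (k : ℕ) : FarB R b u D (k + 5) (4 * Kn (k + 3)) := by
  intro y w K hK h l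
  have h0 := cs_le_of_prof R hu0 h
  have h1 : ∀ j ∈ farS (Q + 1) (4 ^ l), R.cs y (b w j) ≤
      (Kn (k + 3) * (2 * K)) * ((sj (j:ℕ))⁻¹) ^ (k + 3) := fun j _ =>
    F.cs_near R (by positivity) (k + 3) h0 j
  refine (Finset.sum_le_sum h1).trans ?_
  rw [← Finset.mul_sum]
  have h2 := sum_far_pow (Q + 1) l k
  have h3 := Kn_pos (k + 3)
  calc Kn (k + 3) * (2 * K) * ∑ j ∈ farS (Q + 1) (4 ^ l), ((sj (j:ℕ))⁻¹) ^ (k + 3)
      ≤ Kn (k + 3) * (2 * K) * (2 * (((2:ℝ) ^ l)⁻¹) ^ (k + 1)) := by gcongr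
    _ = _ := by
      rw [show k + 5 - 4 = k + 1 by omega, inv_pow, ← pow_mul, mul_comm l (k + 1)]
      ring

/-- `NearB` holds in every frame -/
theorem nearB_of_frm (F : Frm μ Q b τ D) (R : Car A V) {u : Fin 2 → Z → V}
    (hu0 : ∀ z, u 0 z = b z 0) (m : ℕ) : NearB R b u D m (2 * Ks m) := by
  intro X x K hK h w l
  have h0 := cs_le_of_prof R hu0 h
  refine (F.sum_near_le R (by positivity) m h0 w l).trans (le_of_eq ?_)
  rw [← pow_mul, mul_comm l (m + 4), inv_pow]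
  ring

end frm

end Crest.Agent.R340.Filt867
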