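import Crest.Agent.R340.FiltG_867
import Crest.Agent.R340.U6_856
import Crest.Agent.R340.LR2_667

/-!
(FILT) of helper856's U6 (helper867): `FiltP_of_gap`.
-/

set_option autoImplicit false
set_option linter.unusedSectionVars false
set_option linter.unusedVariables false

open scoped ENNReal NNReal Matrix InnerProductSpace
open MeasureTheory

namespace Crest.Agent.R340.Filt867

open Crest.Agent.R340.QL331 Crest.Agent.R340.LR667 Crest.Agent.R340.DC867 Crest.Agent.R340.PD757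
  Crest.Agent.R340.Fock649 Crest.Agent.R340.CS809 Crest.Agent.R340.Rot303 Crest.Agent.R340.FI331
  Crest.Agent.R340.GG467 Crest.Agent.R340.Br320 Crest.Agent.R340.Gam303
  Crest.Agent.R340.U856 Crest.Agent.R340.Avg814 Crest.MathPhysics.Laughlin

theorem exists_band {γ : ℝ} (hγ : 0 < γ) : ∃ g : ℝ → ℝ, IsFilter g ∧
    ∀ l : ℝ, γ ≤ |l| → ∫ t, (g t : ℂ) * Complex.exp (((t * l : ℝ) : ℂ) * Complex.I) = 0 := by
  obtain ⟨g, hc, _, hint, h1, hb⟩ := exists_filter hγ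
  exact ⟨g, ⟨hc, hint, h1⟩, hb⟩

/-- the rank one operator `|Ψ⟩⟨Ψ|` -/
noncomputable def rk {κ : Type*} [Fintype κ] (Ψ : Fk κ) : Op κ :=
  Op.of (InnerProductSpace.rankOne ℂ Ψ Ψ)

theorem rk_ap {κ : Type*} [Fintype κ] (Ψ v : Fk κ) : rk Ψ v = (inner ℂ Ψ v : ℂ) • Ψ := rfl

theorem mul_rk {κ : Type*} [Fintype κ] {X : Op κ} {Ψ : Fk κ} (h : X Ψ = 0) : X * rk Ψ = 0 := by
  refine Op.ext fun v => ?_
  rw [mul_ap, rk_ap, map_smul, h, smul_zero, zero_ap]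

theorem kill_of_rk {κ : Type*} [Fintype κ] {X : Op κ} {Ψ : Fk κ} (h : X * rk Ψ = 0) : X Ψ = 0 := by
  by_cases hΨ : Ψ = 0
  · rw [hΨ, map_zero]
  · have h1 : (X * rk Ψ : Op κ) Ψ = 0 := by rw [h]; rfl
    rw [mul_ap, rk_ap, map_smul] at h1
    rcases smul_eq_zero.1 h1 with h2 | h2
    · exact absurd (inner_self_eq_zero.1 h2) hΨ
    · exact h2

/-- filtered operators kill the eigenvectors killed by the operator -/
theorem Fl_kill {κ : Type*} [Fintype κ] {g : ℝ → ℝ} (hg : IsFilter g) {H X : Op κ}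
    (hH : IsSelfAdjoint H) {Ψ : Fk κ} {E : ℝ} (hΨ : H Ψ = (E : ℂ) • Ψ) (hX : X Ψ = 0) :
    LR667.Fl g H X Ψ = 0 := by
  refine kill_of_rk (Fl_mul_eq_zero hg hH (E := E) ?_ (mul_rk hX))
  refine Op.ext fun v => ?_
  rw [mul_ap, rk_ap, map_smul, hΨ, smul_ap, rk_ap, smul_comm]

theorem SS_kill {κ : Type*} [Fintype κ] {g : ℝ → ℝ} (hg : IsFilter g) {H X : Op κ}
    (hH : IsSelfAdjoint H) {Ψ : Fk κ} {E : ℝ} (hΨ : H Ψ = (E : ℂ) • Ψ) (hX : X Ψ = 0) :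
    LR667.SS g H X Ψ = 0 := by
  refine kill_of_rk (SS_mul_eq_zero hg hH (E := E) ?_ (mul_rk hX))
  refine Op.ext fun v => ?_
  rw [mul_ap, rk_ap, map_smul, hΨ, smul_ap, rk_ap, smul_comm]

theorem fam_neg {𝒜 : Type*} [CStarAlgebra 𝒜] {G : Type*} [TopologicalSpace G]
    {a : Fin 2 → G → 𝒜} {d : G → G → ℝ} {Nh : 𝒜} {m : ℕ} {C : ℝ} {X : G → 𝒜}
    (h : Fam a d Nh m C X) : Fam a d Nh m C (fun x => -X x) := by
  refine ⟨h.cont.neg, fun x => (h.sa x).neg, fun x => ?_, fun x => ?_, fun x k w => ?_⟩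
  · rw [mul_neg, neg_mul, h.num x]
  · rw [norm_neg]; exact h.norm_le x
  · have e : -X x * a k w - a k w * -X x = -(X x * a k w - a k w * X x) := by noncomm_ring
    rw [e, norm_neg]
    exact h.com x k w

/-- **(FILT)** in helper856's literal form, from the gap on Fock space. -/
theorem FiltP_of_gap {γ : ℝ} (hγ : 0 < γ) (Q₀ : ℕ)
    (hgap : ∀ Q, Q₀ ≤ Q → ∀ φ : Fk (Fin (Q + 1)), PZ Q φ = 0 →
      γ * ‖φ‖ ^ 2 ≤ (⟪φ, HH Q φ⟫_ℂ).re) (m : ℕ) : U856.FiltP m := by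
  obtain ⟨g, hg, hband⟩ := exists_band hγ
  have hcn : 0 ≤ cFl g vG 1 (12 * Real.exp 4) (4 * Kn (m + 7)) (2 * Ks m) m :=
    (evoG (Q := 1) le_rfl (φ := fun _ => 0) measurable_const (by simp) (s := 0) (by simp) m
      ).cFl_nonneg g
  refine ⟨Q₀ + 1, cFl g vG 1 (12 * Real.exp 4) (4 * Kn (m + 7)) (2 * Ks m) m + 1, by positivity, ?_⟩
  intro Q hQ Ψ hΨ X hX hXΨ
  have hQ1 : 1 ≤ Q := by omega
  have hE := evoG (Q := Q) hQ1 (φ := fun _ => 0) measurable_const (by simp) (s := 0) (by simp) m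
  rw [Hs_zero] at hE
  have hNev : ∀ Y : Op (Fin (Q + 1)), Commute Y Nh → (fcar : Car (Op (Fin (Q + 1))) _).Ev Y :=
    fun Y hY => ev_of_commute_Nh hY
  have hHN : Commute (HH Q) (Nh : Op (Fin (Q + 1))) := by
    have := Hs_comm_Nh (Q := Q) (fun _ => 0) 0
    rwa [Hs_zero] at this
  have hH : IsSelfAdjoint (HH Q) := hE.hH
  have h1 := hE.fam_Fl hg hHN hNev zero_le_one hX
  have h2 := hE.fam_SS hg hHN hNev zero_le_one hX
  rw [mul_one] at h1 h2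
  have hd0 : ∀ x y : U2, 0 ≤ dQ Q x y := dQ_nonneg Q
  have hΨ' : HH Q Ψ = ((0 : ℝ) : ℂ) • Ψ := by
    rw [hΨ]; simp
  refine ⟨fun x => LR667.Fl g (HH Q) (X x), fun x => -LR667.SS g (HH Q) (X x), ?_, ?_, ?_, ?_, ?_,
    ?_⟩
  · exact Fam.mono h1 (by linarith) hd0
  · exact Fam.mono (fam_neg h2) (by linarith) hd0
  · intro x
    have h3 := eq_Fl_sub hg hH (X x)
    nth_rewrite 1 [h3]
    rw [Ring.lie_def]
    have e : LR667.Fl g (HH Q) (X x) -
        Complex.I • (HH Q * LR667.SS g (HH Q) (X x) - LR667.SS g (HH Q) (X x) * HH Q) -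
        LR667.Fl g (HH Q) (X x) =
        -(Complex.I • (HH Q * LR667.SS g (HH Q) (X x) - LR667.SS g (HH Q) (X x) * HH Q)) := by abel
    rw [e, ← smul_neg]
    congr 1
    noncomm_ring
  · intro x
    exact Fl_kill hg hH hΨ' (hXΨ x)
  · intro x
    show (-LR667.SS g (HH Q) (X x)) Ψ = 0
    rw [neg_ap, SS_kill hg hH hΨ' (hXΨ x), neg_zero]
  · intro x φ
    have hkill : ∫ t, g t • (U (HH Q) t * (1 - PK (HH Q))) = 0 :=
      filter_kill_op hg hband hH (isSelfAdjoint_pj _) (PK_mul_self _) (mul_PK _)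
        (hgap Q (by omega))
    have h4 := Fl_commute hg hH (isSelfAdjoint_pj _) (mul_PK (HH Q)) hkill (X x)
    have h5 := congrArg (fun T : Op (Fin (Q + 1)) => T φ) h4
    simp only [mul_ap] at h5
    exact h5.symm

end Crest.Agent.R340.Filt867
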