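import Crest.Agent.R340.LocT9_163
import Crest.Agent.R340.LR8_667
import Crest.Agent.R340.LR2_667
import Crest.Agent.R340.GeoM_986
import Crest.Agent.R340.Vac1_467

/-!
# R340, 877's list for (TZ), item (A) (helper421)

`P = pj (Zs (nuT t Q) Q)`: `bT t Q g * P = 0`, `HT t Q * P = 0`, commutation of `P` and `HT t Q` with
`Nh`, `Lz Q` and the affine one-body operators, the gap of `HT t Q` and the spectral filter
(`hkill_theta`).
-/

set_option autoImplicit false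
set_option linter.unusedSectionVars false

open MeasureTheory
open scoped InnerProductSpace ComplexConjugate

namespace Crest.Agent.R340.TzP421

open Crest.Agent.R340.Fock649 Crest.Agent.R340.LR667 Crest.Agent.R340.LocT163
  Crest.Agent.R340.GG467 Crest.Agent.R340.Avg814 Crest.Agent.R340.CS809
open Crest.Agent.R340.Geo986 (nu0 nuT pairs bz bcoef PosM Zs mem_pairs GapG)
open Crest.Agent.R340.Vac467 (Lz Lz_comm_bz Nh_comm_bz map_mem_Zs_of_comm pj_comm_Nh pj_comm_Lz)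
open Crest.Agent.R340.PV341 (Adm)

variable {Q : ℕ} {t : Fin 3 → ℝ}

/-! ### kernel -/

theorem bT_mul_pj' (hQ : 1 ≤ Q) (t : Fin 3 → ℝ) (g : U2) :
    an (vF t Q 1 g) * an (vF t Q 0 g) * pj (Zs (nuT t Q) Q) = 0 :=
  bT_mul_pj hQ g

theorem pj_mul_star_bT (hQ : 1 ≤ Q) (t : Fin 3 → ℝ) (g : U2) :
    pj (Zs (nuT t Q) Q) * star (bT t Q g) = 0 := by
  have h := congrArg star (bT_mul_pj (t := t) hQ g)
  rwa [star_mul, star_pj, star_zero] at h

theorem pj_mul_HT (hQ : 1 ≤ Q) (t : Fin 3 → ℝ) : pj (Zs (nuT t Q) Q) * HT t Q = 0 := by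
  have h := congrArg star (HT_mul_pj (t := t) hQ)
  rwa [star_mul, star_pj, star_zero, (isSelfAdjoint_HT t Q).star_eq] at h

theorem HT_comm_pj (hQ : 1 ≤ Q) (t : Fin 3 → ℝ) : Commute (HT t Q) (pj (Zs (nuT t Q) Q)) := by
  rw [commute_iff_eq, HT_mul_pj hQ, pj_mul_HT hQ]

/-! ### commutations -/

/-- eigen-operators of a derivation -/
theorem comm_star_mul {T B : Op (Fin (Q + 1))} (hT : star T = T) {a : ℝ}
    (h : T * B - B * T = (a : ℂ) • B) : T * (star B * B) = star B * B * T := by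
  have h2 := congrArg star h
  rw [star_sub, star_mul, star_mul, hT, star_smul, Complex.star_def, Complex.conj_ofReal] at h2
  have e : T * (star B * B) - star B * B * T =
      star B * (T * B - B * T) - (star B * T - T * star B) * B := by noncomm_ring
  rw [← sub_eq_zero, e, h, h2, mul_smul_comm, smul_mul_assoc, sub_self]

theorem comm_Bg {T : Op (Fin (Q + 1))} {a : ℝ} {ν : ℕ → ℝ} {p : ℕ}
    (h : T * bz ν Q p - bz ν Q p * T = (a : ℂ) • bz ν Q p) :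
    T * Geo986.Bg ν Q p - Geo986.Bg ν Q p * T = (a : ℂ) • Geo986.Bg ν Q p := by
  unfold Geo986.Bg
  rw [mul_smul_comm, smul_mul_assoc, ← smul_sub, h, smul_comm]

theorem HT_comm_of (hQ : 1 ≤ Q) (t : Fin 3 → ℝ) {T : Op (Fin (Q + 1))} (hT : star T = T)
    {a : ℕ → ℝ} (h : ∀ p, T * bz (nuT t Q) Q p - bz (nuT t Q) Q p * T =
      (a p : ℂ) • bz (nuT t Q) Q p) : Commute (HT t Q) T := by
  rw [commute_iff_eq, HT_eq_sum hQ, Finset.mul_sum, Finset.sum_mul]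
  refine Finset.sum_congr rfl fun p _ => ?_
  rw [mul_smul_comm, smul_mul_assoc, comm_star_mul hT (comm_Bg (h p))]

theorem HT_comm_Nh (hQ : 1 ≤ Q) (t : Fin 3 → ℝ) : Commute (HT t Q) Nh := by
  refine HT_comm_of hQ t star_Nh (a := fun _ => -2) fun p => ?_
  rw [Nh_comm_bz]
  push_cast
  rfl

theorem HT_comm_Lz (hQ : 1 ≤ Q) (t : Fin 3 → ℝ) : Commute (HT t Q) (Lz Q) := by
  refine HT_comm_of hQ t Vac467.star_Lz (a := fun p => -(p : ℝ)) fun p => ?_
  rw [Lz_comm_bz]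
  push_cast
  rfl

/-- affine one-body operators -/
theorem dG_aff (α β : ℝ) : dG (dg fun j : Fin (Q + 1) => α + β * ((j : ℕ) : ℝ)) =
    (α : ℂ) • (Nh : Op (Fin (Q + 1))) + (β : ℂ) • Lz Q := by
  have e : dg (fun j : Fin (Q + 1) => α + β * ((j : ℕ) : ℝ)) =
      (α : ℂ) • (1 : Matrix (Fin (Q + 1)) (Fin (Q + 1)) ℂ) +
        (β : ℂ) • Matrix.diagonal fun i : Fin (Q + 1) => ((i : ℕ) : ℂ) := by
    unfold dg
    ext i j
    rw [Matrix.add_apply, Matrix.smul_apply, Matrix.smul_apply, Matrix.diagonal_apply,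
      Matrix.diagonal_apply, Matrix.one_apply]
    by_cases h : i = j
    · rw [if_pos h, if_pos h, if_pos h]; push_cast; simp
    · rw [if_neg h, if_neg h, if_neg h]; simp
  rw [e, dG_add, dG_smul, dG_smul]
  rfl

theorem HT_comm_aff (hQ : 1 ≤ Q) (t : Fin 3 → ℝ) (α β : ℝ) :
    Commute (HT t Q) (dG (dg fun j : Fin (Q + 1) => α + β * ((j : ℕ) : ℝ))) := by
  rw [dG_aff]
  exact ((HT_comm_Nh hQ t).smul_right _).add_right ((HT_comm_Lz hQ t).smul_right _)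

theorem pj_comm_Nh' (ν : ℕ → ℝ) : Commute (pj (Zs ν Q)) Nh := (pj_comm_Nh ν).symm

theorem pj_comm_aff (ν : ℕ → ℝ) (α β : ℝ) :
    Commute (pj (Zs ν Q)) (dG (dg fun j : Fin (Q + 1) => α + β * ((j : ℕ) : ℝ))) := by
  rw [dG_aff]
  refine ((pj_comm_Nh' ν).smul_right _).add_right (Commute.smul_right ?_ _)
  exact (pj_comm_Lz ν).symm

/-! ### differences with affine functions (the forms of 877's `cluster_Top`) -/

theorem dG_sub_tan (f : Fin (Q + 1) → ℝ) (α β : ℝ) :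
    dG (dg f) - dG (dg fun j : Fin (Q + 1) => f j - α - β * ((j : ℕ) : ℝ)) =
      dG (dg fun j : Fin (Q + 1) => α + β * ((j : ℕ) : ℝ)) := by
  rw [← dG_sub]
  congr 1
  unfold dg
  rw [Matrix.diagonal_sub]
  congr 1
  funext j
  push_cast
  ring

theorem HT_comm_sub_tan (hQ : 1 ≤ Q) (t : Fin 3 → ℝ) (f : Fin (Q + 1) → ℝ) (α β : ℝ) :
    Commute (HT t Q)
      (dG (dg f) - dG (dg fun j : Fin (Q + 1) => f j - α - β * ((j : ℕ) : ℝ))) := by
  rw [dG_sub_tan]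
  exact HT_comm_aff hQ t α β

theorem pj_comm_sub_tan (ν : ℕ → ℝ) (f : Fin (Q + 1) → ℝ) (α β : ℝ) :
    Commute (pj (Zs ν Q))
      (dG (dg f) - dG (dg fun j : Fin (Q + 1) => f j - α - β * ((j : ℕ) : ℝ))) := by
  rw [dG_sub_tan]
  exact pj_comm_aff ν α β

/-! ### the gap and the spectral filter -/

theorem exists_band {γ : ℝ} (hγ : 0 < γ) : ∃ g : ℝ → ℝ, IsFilter g ∧
    ∀ l : ℝ, γ ≤ |l| → ∫ t, (g t : ℂ) * Complex.exp (((t * l : ℝ) : ℂ) * Complex.I) = 0 := by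
  obtain ⟨g, hc, _, hint, h1, hb⟩ := exists_filter hγ
  exact ⟨g, ⟨hc, hint, h1⟩, hb⟩

/-- **the spectral filter of the deformed geometries**: one filter for all `Q ≥ 1` and all admissible
metrics (helper667's literal form) -/
theorem hkill_theta : ∀ γ₀ : ℝ, 0 < γ₀ → (∀ Q : ℕ, GapG (nu0 Q) Q γ₀) →
    ∃ w : ℝ → ℝ, IsFilter w ∧ ∀ Q : ℕ, 1 ≤ Q → ∀ t : Fin 3 → ℝ, Adm t →
      ∫ s, w s • (U (HT t Q) s * (1 - pj (Zs (nuT t Q) Q))) = 0 := by
  intro γ₀ hγ hG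
  obtain ⟨γ', hγ', h⟩ := Geo986.gap_all_geometries hγ
  obtain ⟨c, hc, hgap⟩ := gap_HT
  obtain ⟨w, hw, hb⟩ := exists_band (mul_pos hc hγ')
  refine ⟨w, hw, fun Q hQ t ht => ?_⟩
  refine filter_kill_op hw hb (isSelfAdjoint_HT t Q) (isSelfAdjoint_pj _) (pj_mul_self _)
    (HT_mul_pj hQ) fun x hx => ?_
  have h1 := hgap t ht Q hQ γ' (h t ht Q (hG Q)) x
  rwa [hx, sub_zero] at h1

end Crest.Agent.R340.TzP421
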