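import Crest.Agent.R340.LR10_667
import Crest.Agent.R340.TzP_421

/-!
# R340 / S0532, layer 11: the locality data of all geometries; (RC), (RX), (RZ) of PLAN-F1
(helper667)

`locdata_theta` assembles 163's / 927's / 421's results; `exists_RC_RX_RZ` is the final output of
the clustering block, from the gap of the closed sphere.
-/

set_option autoImplicit false

open Matrix Finset MeasureTheory
open scoped ENNReal

namespace Crest.Agent.R340.LR667

open Crest.Agent.R340.Fock649 Crest.Agent.R340.GG467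
open Crest.Agent.R340.Geo986 (Zs nuT nu0 GapG)
open Crest.Agent.R340.PV341 (Adm)
open Crest.Agent.R340.LocT163 (bT HT)
open Crest.Agent.R340.CS809 (U2 dQ dQ_comm dQ_nonneg)
open Crest.Agent.R340.Tth927 (JJ sg)
open Crest.Agent.R340.FI331 (fb uf)

/-- **the locality data of all geometries** -/
theorem locdata_theta : LocAll Tth927.Cmo Tth927.Dt (fun M => M + 5) 2 := by
  intro Q hQ t ht
  exact {
    hH := LocT163.isSelfAdjoint_HT t Q
    hP := isSelfAdjoint_pj _
    hP1 := norm_pj_le _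
    hHP := LocT163.HT_mul_pj hQ
    commH := TzP421.HT_comm_aff hQ t
    commP := TzP421.pj_comm_aff _
    int := Tth927.integrable_bb hQ t
    H_eq := LocT163.HT_eq t Q
    bP := fun z => LocT163.bT_mul_pj hQ z
    norm_b := fun M z => (Tth927.norm_bT_le' hQ ht z).trans (Tth927.Dt_ge M)
    trunc := fun M s z => Tth927.trunc_theta hQ ht M s z
    Cm_nonneg := Tth927.Cmo_nonneg
    mom := fun m z k => Tth927.moment_le Q m z k
    one_le_σ := Tth927.one_le_sg Q
    σ_sq_le := Tth927.sg_sq_le Q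
    J_mem := Tth927.JJ_mem Q
    Cμ_nonneg := by norm_num
    push := fun F hF => Tth927.push_JJ hQ F hF }

/-- inputs of the clustering theorems from the gap of the closed sphere -/
theorem exists_inp {γ : ℝ} (hγ : 0 < γ) (hG : ∀ Q : ℕ, GapG (nu0 Q) Q γ) :
    ∃ w : ℝ → ℝ, Inp Tth927.Cmo Tth927.Dt (fun M => M + 5) 2 w := by
  obtain ⟨w, hw, hk⟩ := TzP421.hkill_theta γ hγ hG
  exact ⟨w, ⟨locdata_theta, hw, hk, Tth927.Cmo_nonneg, by norm_num⟩⟩

/-- **the clustering inputs of PLAN-F1** -/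
theorem exists_RC_RX_RZ {γ : ℝ} (hγ : 0 < γ) (hG : ∀ Q : ℕ, GapG (nu0 Q) Q γ) :
    (∃ K, Defs150.RC K) ∧ (∀ nW : ℕ, 8 ≤ nW → ∃ K, Defs150.RX nW K) ∧
      (∀ nW : ℕ, 13 ≤ nW → ∃ K, Defs150.RZ nW K) := by
  obtain ⟨w, h⟩ := exists_inp hγ hG
  exact ⟨⟨_, h.RC⟩, fun nW hn => ⟨_, h.RX hn⟩, fun nW hn => ⟨_, h.RZ hn⟩⟩

end Crest.Agent.R340.LR667
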