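import Crest.Agent.R340.PeelX_596
import Crest.Agent.R340.PathStep4_880
import Crest.Agent.R340.GeoD_986
import Crest.Agent.R340.FX1_963

/-!
# The triple peel on the Fock model (helper924, R340 block L5; docs 1283, 1315, 1331)

* `cross_gen` : the cross term of the peeling step for a general profile `F` whose second
  differences are dominated by those of `prof α R`.
* `tC`, `nuT_C`, `Zn_C` : the round metric of flux `Q` restricted to the orbitals `≤ Q - r`,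
  `r = 0, 1, 2`, is the geometry `nuT (tC r)` of flux `Q - r`.
* `triple_peel` : three nested peelings at fixed metric.
* `triple_round` : the same for the round metric, with the inputs in their final form.
-/

set_option autoImplicit false
set_option linter.unusedSectionVars false
open scoped InnerProductSpace ComplexConjugate
open Crest.Agent.R340.Fock649 Crest.Agent.R340.Emb596 Crest.Agent.R340.Geo986
  Crest.Agent.R340.Peel596 Crest.Agent.R340.PathStep880 Crest.Agent.R340.PeelX596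
  Crest.Agent.R340.Step596
open Crest.Agent.R340.Scal725 (prof dd)
open Crest.Agent.R340.PV341 (G Adm)
open Crest.Agent.R340

namespace Crest.Agent.R340.Peel3F924

open Finset

/-! ### the cross term for a general profile -/

/-- **The cross term of the peeling step**, general profile. -/
theorem cross_gen {Q : ℕ} (hQ : 2 ≤ Q) (Z : Submodule ℂ (Fk (Fin (Q + 1))))
    (hN : ∀ ψ ∈ Z, TT Q (fun _ => 1) ψ ∈ Z) (hL : ∀ ψ ∈ Z, TT Q (fun j => (j : ℝ)) ψ ∈ Z)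
    {α R : ℝ} (hα0 : 0 ≤ α) (hα2 : α ≤ 2) (hαR : α ≤ R) (s a : ℝ) (ha : 0 ≤ a)
    (F : ℕ → ℝ) {M : ℝ} (hM : 0 ≤ M) (hF : ∀ p < Q - 1, |dd F p| ≤ M * dd (prof α R) p)
    (X : Op (Fin (Q + 1))) {CG CX m : ℝ} (hCG : 0 ≤ CG) (hm : 20 ≤ m)
    (hG : RC2 Q Z CG m) (hX : RX2 Q Z X CX) :
    ∀ ψ ∈ Z, ∀ φ ∈ Z,
      ‖⟪d (Fin.last Q) (c (Fin.last Q) ψ) -
          Z.starProjection (d (Fin.last Q) (c (Fin.last Q) ψ)),
        Dop Q s a F X φ⟫_ℂ‖ ≤
      (a * (M * (CG * (59049 * dd (prof α R) Q))) + CX * (((Q : ℝ) - 1) ^ 2)⁻¹) * ‖ψ‖ * ‖φ‖ := by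
  intro ψ hψ φ hφ
  have hR : 0 ≤ R := hα0.trans hαR
  have hT : ∀ f g : ℕ → ℝ, (∀ j ≤ Q, f j = g j) → TT Q f = TT Q g := fun f g h => TT_congr h
  rw [n_last_eq (by omega) ψ, ← off_apply, inner_off_left, ← inner_conj_symm, RCLike.norm_conj]
  have hD : off Z (Dop Q s a F X φ) =
      -(((a : ℝ) : ℂ) • off Z (TT Q F φ)) - off Z (X φ) := by
    rw [PeelX596.Dop_ap, map_sub, map_sub, map_smul, map_smul, off_of_mem hφ, smul_zero, zero_sub]
  rw [hD, inner_sub_left, inner_neg_left]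
  refine (norm_sub_le _ _).trans ?_
  rw [norm_neg]
  have hkk : Q - 1 = (Q - 2) + 1 := by omega
  -- the radial part
  have h1 : ‖⟪((a : ℝ) : ℂ) • off Z (TT Q F φ), off Z (TT Q (kink (Q - 1)) ψ)⟫_ℂ‖ ≤
      a * (M * (CG * (59049 * dd (prof α R) Q))) * (‖ψ‖ * ‖φ‖) := by
    rw [inner_smul_left, norm_mul, Complex.conj_ofReal, Complex.norm_real,
      Real.norm_of_nonneg ha, mul_assoc]
    apply mul_le_mul_of_nonneg_left _ ha
    rw [off_eq_sum (TT Q) hT Z (hN φ hφ) (hL φ hφ) F, sum_inner]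
    refine (norm_sum_le _ _).trans ?_
    have h2 : ∀ p ∈ range (Q - 1), ‖⟪((dd F p : ℝ) : ℂ) •
        off Z (TT Q (kink (p + 1)) φ), off Z (TT Q (kink (Q - 1)) ψ)⟫_ℂ‖ ≤
        dd (prof α R) p * ((PSD716.dd Q p * √(PSD716.dd Q p)) *
          (1 + PSD716.DD Q p (Q - 2)) ^ (-m)) * (M * (CG * (‖ψ‖ * ‖φ‖))) := by
      intro p hp
      have hp' := mem_range.1 hp
      rw [inner_smul_left, norm_mul, Complex.conj_ofReal, Complex.norm_real, Real.norm_eq_abs]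
      have h3 := hG φ hφ ψ hψ p hp' (Q - 2) (by omega)
      rw [← hkk] at h3
      have h4 : 0 ≤ CG * (PSD716.dd Q p * √(PSD716.dd Q p)) *
            (1 + PSD716.DD Q p (Q - 2)) ^ (-m) * (‖φ‖ * ‖ψ‖) := (norm_nonneg _).trans h3
      calc |dd F p| * ‖⟪off Z (TT Q (kink (p + 1)) φ), off Z (TT Q (kink (Q - 1)) ψ)⟫_ℂ‖
          ≤ (M * dd (prof α R) p) * (CG * (PSD716.dd Q p * √(PSD716.dd Q p)) *
            (1 + PSD716.DD Q p (Q - 2)) ^ (-m) * (‖φ‖ * ‖ψ‖)) :=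
            mul_le_mul (hF p hp') h3 (norm_nonneg _) ((abs_nonneg _).trans (hF p hp'))
        _ = _ := by ring
    refine (sum_le_sum h2).trans ?_
    rw [← sum_mul]
    have h4 := sum_peel hα0 hα2 hαR hQ hm
    calc _ ≤ 59049 * dd (prof α R) Q * (M * (CG * (‖ψ‖ * ‖φ‖))) :=
          mul_le_mul_of_nonneg_right h4 (by positivity)
      _ = _ := by ring
  -- the `X` part
  have h5 : ‖⟪off Z (X φ), off Z (TT Q (kink (Q - 1)) ψ)⟫_ℂ‖ ≤
      CX * (((Q : ℝ) - 1) ^ 2)⁻¹ * (‖ψ‖ * ‖φ‖) := by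
    rw [← inner_conj_symm, RCLike.norm_conj]
    have h6 := hX ψ hψ φ hφ (Q - 2) (by omega)
    rw [← hkk] at h6
    have h7 : (((Q - 2 : ℕ) : ℝ) + 1) = (Q : ℝ) - 1 := by
      rw [Nat.cast_sub hQ]; push_cast; ring
    rw [h7] at h6
    exact h6
  calc _ ≤ a * (M * (CG * (59049 * dd (prof α R) Q))) * (‖ψ‖ * ‖φ‖) +
        CX * (((Q : ℝ) - 1) ^ 2)⁻¹ * (‖ψ‖ * ‖φ‖) := add_le_add h1 h5
    _ = _ := by ring

/-! ### the metrics of the three levels -/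

/-- exponents: `1/2` for `k < r` -/
noncomputable def tC (r : ℕ) : Fin 3 → ℝ := fun k => if (k : ℕ) < r then 1 / 2 else 0

theorem adm_tC (r : ℕ) : Adm (tC r) := fun k => by
  unfold tC
  split_ifs <;> norm_num

theorem tC_two {r : ℕ} (hr : r ≤ 2) : tC r 2 = 0 := by
  unfold tC
  rw [if_neg]
  simp
  omega

theorem shT_tC (r : ℕ) : shT (tC r) = tC (r + 1) := by
  funext k
  fin_cases k
  · simp [shT, tC]
  · simp [shT, tC]
  · by_cases h : 1 < r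
    · simp [shT, tC, h, show 2 ≤ r from h]
    · simp [shT, tC, h, show ¬ 2 ≤ r from h]

theorem tC_zero : tC 0 = fun _ => 0 := by
  funext k; simp [tC]

/-- the round metric of flux `Q + r` on the orbitals `≤ Q` -/
theorem nuT_C (Q : ℕ) : ∀ r : ℕ, r ≤ 3 → ∃ a : ℝ, 0 < a ∧
    ∀ j ≤ Q, nuT (tC r) Q j = a * nu0 (Q + r) j := by
  intro r
  induction r generalizing Q with
  | zero =>
    intro _
    refine ⟨1, one_pos, fun j _ => ?_⟩
    rw [tC_zero, Geo986.nuT_zero, one_mul, add_zero]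
  | succ r ih =>
    intro hr
    obtain ⟨a, ha, h⟩ := ih (Q + 1) (by omega)
    refine ⟨√((Q : ℝ) + 1) * a, mul_pos (Real.sqrt_pos.2 (by positivity)) ha, fun j hj => ?_⟩
    have h1 := nuT_succ (t := tC r) (tC_two (by omega)) hj
    rw [shT_tC, h j (by omega)] at h1
    have h2 : (0 : ℝ) < √((Q : ℝ) + 1) := Real.sqrt_pos.2 (by positivity)
    rw [show Q + (r + 1) = Q + 1 + r by ring, mul_assoc, h1, ← mul_assoc,
      mul_inv_cancel₀ h2.ne', one_mul]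

theorem Zn_C (Q r n : ℕ) (hr : r ≤ 3) : Zn (nuT (tC r) Q) Q n = Zn (nu0 (Q + r)) Q n := by
  obtain ⟨a, ha, h⟩ := nuT_C Q r hr
  exact Zn_smul ha.ne' h n

/-! ### restriction of a lower bound to a smaller flux -/

theorem cmp_ee_ee {Q1 Q2 Q3 : ℕ} (h12 : Q1 ≤ Q2) (h23 : Q2 ≤ Q3) (h13 : Q1 ≤ Q3)
    (X : Op (Fin (Q3 + 1))) : cmp (ee h12) (cmp (ee h23) X) = cmp (ee h13) X := by
  exact FX963.cmp_cmp _ _ X _ (fun i => rfl)

theorem LB.restrict {ν : ℕ → ℝ} {Q' Q n : ℕ} (h : Q' ≤ Q) {D : Op (Fin (Q + 1))} {lam : ℝ}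
    (H : LB ν Q n D lam) : LB ν Q' n (cmp (ee h) D) lam := by
  intro ψ hψ
  have h1 := H _ ((emb_mem_Zn_iff h ν n ψ).2 hψ)
  rw [norm_emb] at h1
  rw [inner_cmp]
  exact h1

theorem cmp_selfAdjoint {Q' Q : ℕ} (h : Q' ≤ Q) {X : Op (Fin (Q + 1))} (hX : star X = X) :
    star (cmp (ee h) X) = cmp (ee h) X := by
  rw [← cmp_star, hX]

/-! ### the triple peel -/

/-- the analytic inputs of one peeling step at flux `Q`, sector `n` -/
structure Lev (ν : ℕ → ℝ) (Q n : ℕ) (s a : ℝ) (f : ℕ → ℝ) (X : Op (Fin (Q + 1)))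
    (κ δ η : ℝ) : Prop where
  G0 : ∀ ψ ∈ Zn ν Q n, (∀ φ ∈ Zn ν Q n, c (Fin.last Q) φ = 0 → ⟪φ, ψ⟫_ℂ = 0) →
    κ * ‖ψ‖ ^ 2 ≤ ‖c (Fin.last Q) ψ‖ ^ 2
  comm : ‖c (Fin.last Q) * X - X * c (Fin.last Q)‖ ≤ η
  cross : ∀ ψ ∈ Zn ν Q n, ∀ φ ∈ Zn ν Q n,
    ‖⟪d (Fin.last Q) (c (Fin.last Q) ψ) -
        (Zn ν Q n).starProjection (d (Fin.last Q) (c (Fin.last Q) ψ)),
      Dop Q s a f X φ⟫_ℂ‖ ≤ δ * ‖ψ‖ * ‖φ‖

/-- **Triple peel** at a fixed metric `ν`. -/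
theorem triple_peel {q n : ℕ} {ν : ℕ → ℝ} (hν : PosM ν (q + 5)) (s s' a : ℝ) (ha : 0 ≤ a)
    (f : ℕ → ℝ) (hf1 : f (q + 5) ≤ f (q + 4)) (hf2 : f (q + 4) ≤ f (q + 3))
    (X : Op (Fin (q + 5 + 1))) (hX : star X = X) (κ δ η m1 m2 : ℝ) (hκ : 0 < κ) (hδ : 0 ≤ δ)
    (h0 : Lev ν (q + 5) (n + 1) s a f X κ δ η)
    (h1 : Lev ν (q + 4) (n + 1) s a f (cmp (ee (show q + 4 ≤ q + 5 by omega)) X) κ δ η)
    (h2 : Lev ν (q + 3) (n + 1) s a f (cmp (ee (show q + 3 ≤ q + 5 by omega)) X) κ δ η)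
    (hA : LB ν (q + 2) n (Dop (q + 2) s' a f (cmp (ee (show q + 2 ≤ q + 5 by omega)) X)) m1)
    (hB : LB ν (q + 2) (n + 1)
      (Dop (q + 2) s' a f (cmp (ee (show q + 2 ≤ q + 5 by omega)) X)) m2) :
    LB ν (q + 5) (n + 1) (Dop (q + 5) s a f X)
      (min (m1 + (s - a * f (q + 5) - s') - a * (f (q + 3) - f (q + 5))) (m2 + (s - s'))
        - 3 * (2 * ((δ + η) / κ))) := by
  have hη : 0 ≤ η := (norm_nonneg _).trans h0.comm
  have he : 0 ≤ 2 * ((δ + η) / κ) := by positivity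
  set E : ℝ := 2 * ((δ + η) / κ) with hE
  set A : ℝ := m1 + (s - a * f (q + 5) - s') - a * (f (q + 3) - f (q + 5)) with hAdef
  set B : ℝ := m2 + (s - s') with hBdef
  have hν4 : PosM ν (q + 4) := fun j hj => hν j (by omega)
  have hν3 : PosM ν (q + 3) := fun j hj => hν j (by omega)
  -- the occupied blocks
  have kA : ∀ Q' (hQ' : Q' ≤ q + 2) (t : ℝ), A ≤ m1 + (s - a * t - s') →
      LB ν Q' n (Dop Q' (s - a * t) a f (cmp (ee (show Q' ≤ q + 5 by omega)) X)) A := by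
    intro Q' hQ' t ht
    have h3 := LB.restrict hQ' (hA.add_const (s - a * t - s'))
    rw [show s' + (s - a * t - s') = s - a * t by ring, cmp_Dop, cmp_ee_ee hQ' _ (by omega)] at h3
    exact h3.mono ht
  have hfa1 : a * f (q + 5) ≤ a * f (q + 4) := mul_le_mul_of_nonneg_left hf1 ha
  have hfa2 : a * f (q + 4) ≤ a * f (q + 3) := mul_le_mul_of_nonneg_left hf2 ha
  -- level 2
  have hB' : LB ν (q + 2) (n + 1) (Dop (q + 2) s a f (cmp (ee (Nat.le_succ (q + 2)))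
      (cmp (ee (show q + 3 ≤ q + 5 by omega)) X))) B := by
    have h3 := hB.add_const (s - s')
    rw [show s' + (s - s') = s by ring] at h3
    rw [cmp_ee_ee _ _ (show q + 2 ≤ q + 5 by omega)]
    exact h3
  have hA2 : LB ν q n (Dop q (s - a * f (q + 3)) a f (cmp (ee (Nat.le_add_right q 3))
      (cmp (ee (show q + 3 ≤ q + 5 by omega)) X))) A := by
    rw [cmp_ee_ee _ _ (show q ≤ q + 5 by omega)]
    exact kA q (by omega) (f (q + 3)) (by rw [hAdef]; linarith)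
  have L2 := peel_step hν3 s a f _ (cmp_selfAdjoint _ hX) κ δ η _ _ hκ hδ h2.G0 h2.comm h2.cross
    hB' hA2
  -- level 1
  have hB1 : LB ν (q + 3) (n + 1) (Dop (q + 3) s a f (cmp (ee (Nat.le_succ (q + 3)))
      (cmp (ee (show q + 4 ≤ q + 5 by omega)) X))) (min A B - E) := by
    rw [cmp_ee_ee _ _ (show q + 3 ≤ q + 5 by omega)]
    exact L2
  have hA1 : LB ν (q + 1) n (Dop (q + 1) (s - a * f (q + 1 + 3)) a f
      (cmp (ee (Nat.le_add_right (q + 1) 3)) (cmp (ee (show q + 4 ≤ q + 5 by omega)) X))) A := by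
    rw [cmp_ee_ee _ _ (show q + 1 ≤ q + 5 by omega)]
    exact kA (q + 1) (by omega) (f (q + 4)) (by rw [hAdef]; linarith)
  have L1 := peel_step (Q := q + 1) hν4 s a f _ (cmp_selfAdjoint _ hX) κ δ η _ _ hκ hδ h1.G0
    h1.comm h1.cross hB1 hA1
  -- level 0
  have hA0 : LB ν (q + 2) n (Dop (q + 2) (s - a * f (q + 2 + 3)) a f
      (cmp (ee (Nat.le_add_right (q + 2) 3)) X)) A :=
    kA (q + 2) le_rfl (f (q + 5)) (by rw [hAdef]; linarith)
  have L0 := peel_step (Q := q + 2) hν s a f _ hX κ δ η _ _ hκ hδ h0.G0 h0.comm h0.cross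
    L1 hA0
  rw [← hE] at L0
  refine LB.mono L0 ?_
  have e1 : min A B ≤ A := min_le_left _ _
  have e2 : min A B - E ≤ min A (min A B - E) := le_min (by linarith) le_rfl
  have e3 : min A B - 2 * E ≤ min A (min A (min A B - E) - E) :=
    le_min (by linarith) (by linarith)
  linarith

/-! ### the triple peel of the round metric -/

theorem Lev.mono {ν : ℕ → ℝ} {Q n : ℕ} {s a : ℝ} {f : ℕ → ℝ} {X : Op (Fin (Q + 1))}
    {κ δ η δ' η' : ℝ} (h : Lev ν Q n s a f X κ δ η) (hδ : δ ≤ δ') (hη : η ≤ η') :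
    Lev ν Q n s a f X κ δ' η' where
  G0 := h.G0
  comm := h.comm.trans hη
  cross := fun ψ hψ φ hφ => (h.cross ψ hψ φ hφ).trans (by
    have := mul_le_mul_of_nonneg_right hδ (mul_nonneg (norm_nonneg ψ) (norm_nonneg φ))
    rw [← mul_assoc, ← mul_assoc] at this
    exact this)

theorem cast_last (Q : ℕ) : (((Fin.last Q : Fin (Q + 1)) : ℕ) : ℝ) = Q := by
  rw [Fin.val_last]

/-- one level: round metric of flux `Q + r` on the orbitals `≤ Q` -/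
theorem lev_C {Q r n k : ℕ} (hr : r ≤ 2) (hQ : 2 ≤ Q)
    {α R : ℝ} (hα0 : 0 ≤ α) (hα2 : α ≤ 2) (hαR : α ≤ R) (s a : ℝ) (ha : 0 ≤ a)
    (F : ℕ → ℝ) {M : ℝ} (hM : 0 ≤ M) (hF : ∀ p < Q - 1, |dd F p| ≤ M * dd (prof α R) p)
    {X : Op (Fin (Q + 1))} {CG CX m κ Cx : ℝ} (hCG : 0 ≤ CG) (hm : 20 ≤ m)
    (hDY : FX963.DY Q (2 * k) Cx X)
    (hG0 : ∀ ψ ∈ Zn (nuT (tC r) Q) Q n,
      (∀ φ ∈ Zn (nuT (tC r) Q) Q n, c (Fin.last Q) φ = 0 → ⟪φ, ψ⟫_ℂ = 0) →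
        κ * ‖ψ‖ ^ 2 ≤ ‖c (Fin.last Q) ψ‖ ^ 2)
    (hG : RC2 Q (Zn (nuT (tC r) Q) Q n) CG m) (hX : RX2 Q (Zn (nuT (tC r) Q) Q n) X CX) :
    Lev (nu0 (Q + r)) Q n s a F X κ
      (a * (M * (CG * (59049 * dd (prof α R) Q))) + CX * (((Q : ℝ) - 1) ^ 2)⁻¹)
      (2 * (4 ^ k * Cx / ((Q : ℝ) + 1) ^ k)) := by
  have e := Zn_C Q r n (by omega)
  refine ⟨?_, ?_, ?_⟩
  · rw [← e]; exact hG0
  · have h := hDY.norm_lie_c_le (Fin.last Q)
    rw [cast_last, ← norm_neg, neg_sub] at h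
    exact h
  · rw [← e]
    exact cross_gen hQ _ (fun ψ hψ => TT_one_mem_Zn hψ) (fun ψ hψ => TT_lin_mem_Zn hψ)
      hα0 hα2 hαR s a ha F hM hF X hCG hm hG hX

/-- (G0) in the geometries `nuT t`, `t 2 = 0` (output of `Geo986.G0_sector`) -/
def G0P (κ : ℝ) : Prop := ∀ t : Fin 3 → ℝ, Adm t → t 2 = 0 → ∀ Q n : ℕ,
  ∀ ψ ∈ Zn (nuT t (Q + 1)) (Q + 1) n,
    (∀ φ ∈ Zn (nuT t (Q + 1)) (Q + 1) n, c (Fin.last (Q + 1)) φ = 0 → ⟪φ, ψ⟫_ℂ = 0) →
      κ * ‖ψ‖ ^ 2 ≤ ‖c (Fin.last (Q + 1)) ψ‖ ^ 2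

theorem exists_G0P {γ : ℝ} (hγ : 0 < γ) (h : ∀ Q : ℕ, GapG (nu0 Q) Q γ) :
    ∃ κ : ℝ, 0 < κ ∧ κ ≤ 1 ∧ G0P κ := by
  obtain ⟨κ, h1, h2, h3⟩ := G0_sector hγ
  exact ⟨κ, h1, h2, h3 h⟩

theorem dd_prof_le {α R : ℝ} (hα0 : 0 ≤ α) (hαR : α ≤ R) {i j : ℕ} (h : i ≤ j) :
    dd (prof α R) j ≤ dd (prof α R) i :=
  Scal725.dd_prof_antitone (hα0.trans hαR) hα0 (by linarith) h

/-- the error of the cross terms of the triple peel at flux `Q` (base flux `Q`, top `Q + 3`) -/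
noncomputable def dlt (a M CG CX : ℝ) (g : ℕ → ℝ) (Q : ℕ) : ℝ :=
  a * (M * (CG * (59049 * dd g (Q + 1)))) + CX * ((Q : ℝ) ^ 2)⁻¹

/-- the error of the commutators of the triple peel -/
noncomputable def eta (k : ℕ) (Cx : ℝ) (Q : ℕ) : ℝ := 2 * (4 ^ k * Cx / ((Q : ℝ) + 2) ^ k)

/-- **Triple peel, round metric**, from flux `Q = q + 2` (metric of flux `Q + 3`) to the closed
sphere of flux `Q + 3 = q + 5`. The ring clustering is used at the fluxes `Q + 3 - r`, metric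
`nuT (tC r)`, `r = 0, 1, 2`. -/
theorem triple_round {q n k : ℕ} {α R : ℝ} (hα0 : 0 ≤ α) (hα2 : α ≤ 2) (hαR : α ≤ R)
    (s s' a : ℝ) (ha : 0 ≤ a) (F : ℕ → ℝ) {M : ℝ} (hM : 0 ≤ M)
    (hF : ∀ p < q + 4, |dd F p| ≤ M * dd (prof α R) p)
    (hf1 : F (q + 5) ≤ F (q + 4)) (hf2 : F (q + 4) ≤ F (q + 3))
    {X : Op (Fin (q + 5 + 1))} (hX : star X = X) {CG CX m κ Cx : ℝ} (hCG : 0 ≤ CG)
    (hCX : 0 ≤ CX) (hm : 20 ≤ m) (hDY : FX963.DY (q + 5) (2 * k) Cx X) (hκ : 0 < κ)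
    (hG0 : G0P κ)
    (hG : ∀ r ≤ 2, ∀ Q', Q' + r = q + 5 → RC2 Q' (Zn (nuT (tC r) Q') Q' (n + 1)) CG m)
    (hRX : ∀ r ≤ 2, ∀ Q' (h : Q' ≤ q + 5), Q' + r = q + 5 →
      RX2 Q' (Zn (nuT (tC r) Q') Q' (n + 1)) (cmp (ee h) X) CX)
    (m1 m2 : ℝ)
    (hA : LB (nu0 (q + 5)) (q + 2) n
      (Dop (q + 2) s' a F (cmp (ee (show q + 2 ≤ q + 5 by omega)) X)) m1)
    (hB : LB (nu0 (q + 5)) (q + 2) (n + 1)
      (Dop (q + 2) s' a F (cmp (ee (show q + 2 ≤ q + 5 by omega)) X)) m2) :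
    LB (nu0 (q + 5)) (q + 5) (n + 1) (Dop (q + 5) s a F X)
      (min (m1 + (s - a * F (q + 5) - s') - a * (F (q + 3) - F (q + 5))) (m2 + (s - s'))
        - 6 * ((dlt a M CG CX (prof α R) (q + 2) + eta k Cx (q + 2)) / κ)) := by
  have hR : 0 ≤ R := hα0.trans hαR
  have hCx : 0 ≤ Cx := hDY.nonneg
  have hdd : ∀ j, 0 ≤ dd (prof α R) j := Scal725.dd_prof_nonneg hR hα0 (by linarith)
  -- the three levels
  have lev : ∀ r ≤ 2, ∀ Q' (h : Q' ≤ q + 5), Q' + r = q + 5 →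
      Lev (nu0 (q + 5)) Q' (n + 1) s a F (cmp (ee h) X) κ
        (dlt a M CG CX (prof α R) (q + 2)) (eta k Cx (q + 2)) := by
    intro r hr Q' h hQ'
    have hQ3 : q + 3 ≤ Q' := by omega
    have hQ3r : ((q + 2 : ℕ) : ℝ) + 1 ≤ Q' := by exact_mod_cast hQ3
    obtain ⟨Q'', rfl⟩ : ∃ Q'', Q' = Q'' + 1 := ⟨Q' - 1, by omega⟩
    have h1 := lev_C (Q := Q'' + 1) (r := r) (n := n + 1) (k := k) hr (by omega) hα0 hα2 hαR s a ha
      F hM (fun p hp => hF p (by omega)) (CX := CX) (m := m) (κ := κ) hCG hm (hDY.cmp h)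
      (hG0 _ (adm_tC r) (tC_two hr) Q'' (n + 1)) (hG r hr _ hQ') (hRX r hr _ h hQ')
    rw [hQ'] at h1
    refine h1.mono ?_ ?_
    · unfold dlt
      apply add_le_add
      · apply mul_le_mul_of_nonneg_left _ ha
        apply mul_le_mul_of_nonneg_left _ hM
        apply mul_le_mul_of_nonneg_left _ hCG
        apply mul_le_mul_of_nonneg_left _ (by norm_num)
        exact dd_prof_le hα0 hαR (by omega)
      · apply mul_le_mul_of_nonneg_left _ hCX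
        have h2 : (0 : ℝ) < ((q + 2 : ℕ) : ℝ) := by positivity
        apply inv_anti₀ (by positivity)
        apply pow_le_pow_left₀ h2.le
        linarith
    · unfold eta
      apply mul_le_mul_of_nonneg_left _ (by norm_num)
      apply div_le_div_of_nonneg_left (by positivity) (by positivity)
      apply pow_le_pow_left₀ (by positivity)
      linarith
  have hδ : 0 ≤ dlt a M CG CX (prof α R) (q + 2) := by
    unfold dlt
    have := hdd (q + 2 + 1)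
    positivity
  have hXX : cmp (ee (le_refl (q + 5))) X = X := by
    refine Op.ext fun ψ => ?_
    refine ext_inner_left ℂ fun φ => ?_
    have hid : ∀ ψ : Fk (Fin (q + 5 + 1)), emb (ee (le_refl (q + 5))) ψ = ψ := by
      intro ψ
      have : (emb (ee (le_refl (q + 5))) : Fk (Fin (q + 5 + 1)) →L[ℂ] Fk (Fin (q + 5 + 1))) =
          ContinuousLinearMap.id ℂ _ := by
        refine ContinuousLinearMap.ext fun ψ => ?_
        rw [fk_eq_sum ψ, map_sum, map_sum]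
        refine Finset.sum_congr rfl fun S _ => ?_
        rw [map_smul, map_smul, emb_ket, ContinuousLinearMap.id_apply]
        congr 2
        ext i
        simp only [Finset.mem_map, RelEmbedding.coe_toEmbedding]
        constructor
        · rintro ⟨j, hj, rfl⟩
          have : (ee (le_refl (q + 5)) j : Fin (q + 5 + 1)) = j := Fin.ext rfl
          rw [this]; exact hj
        · intro hi
          exact ⟨i, hi, Fin.ext rfl⟩
      rw [this]; rfl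
    rw [inner_cmp, hid, hid]
  have h0 := lev 0 (by omega) (q + 5) le_rfl (by omega)
  rw [hXX] at h0
  have h1 := lev 1 (by omega) (q + 4) (by omega) (by omega)
  have h2 := lev 2 (by omega) (q + 3) (by omega) (by omega)
  have := triple_peel (posM_nu0 (q + 5)) s s' a ha F hf1 hf2 X hX κ _ _ m1 m2 hκ hδ h0 h1 h2 hA hB
  refine LB.mono this (le_of_eq ?_)
  ring

/-- **STEP of the strong pass** from the path moves: `hmv` is the absorption path (profile `F0` at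
the closed sphere of flux `Q = q + 2`, profile `F` at the end point), the rest is peeling.
`s = 3 cs F (Q+3) + x_{Q+3}`, `s0 = 3 cs F0 Q + x_Q`, `s' = 3 <dG F> + <X>` in the vacuum at the
end point. -/
theorem step_of_move {q n k : ℕ} {α R : ℝ} (hα0 : 0 ≤ α) (hα2 : α ≤ 2) (hαR : α ≤ R)
    (s s0 s' e : ℝ) (F F0 : ℕ → ℝ) {M : ℝ} (hM : 0 ≤ M)
    (hF : ∀ p < q + 4, |dd F p| ≤ M * dd (prof α R) p)
    (hf1 : F (q + 5) ≤ F (q + 4)) (hf2 : F (q + 4) ≤ F (q + 3))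
    {X : Op (Fin (q + 5 + 1))} (hX : star X = X) {CG CX m κ Cx : ℝ} (hCG : 0 ≤ CG)
    (hCX : 0 ≤ CX) (hm : 20 ≤ m) (hDY : FX963.DY (q + 5) (2 * k) Cx X) (hκ : 0 < κ)
    (hG0 : G0P κ)
    (hG : ∀ r ≤ 2, ∀ Q', Q' + r = q + 5 → RC2 Q' (Zn (nuT (tC r) Q') Q' (n + 1)) CG m)
    (hRX : ∀ r ≤ 2, ∀ Q' (h : Q' ≤ q + 5), Q' + r = q + 5 →
      RX2 Q' (Zn (nuT (tC r) Q') Q' (n + 1)) (cmp (ee h) X) CX)
    (hmvA : ∀ L, LB (nu0 (q + 2)) (q + 2) n
        (Dop (q + 2) s0 3 F0 (cmp (ee (show q + 2 ≤ q + 5 by omega)) X)) L →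
      LB (nuT (tA 1) (q + 2)) (q + 2) n
        (Dop (q + 2) s' 3 F (cmp (ee (show q + 2 ≤ q + 5 by omega)) X)) (L - e))
    (hmvB : ∀ L, LB (nu0 (q + 2)) (q + 2) (n + 1)
        (Dop (q + 2) s0 3 F0 (cmp (ee (show q + 2 ≤ q + 5 by omega)) X)) L →
      LB (nuT (tA 1) (q + 2)) (q + 2) (n + 1)
        (Dop (q + 2) s' 3 F (cmp (ee (show q + 2 ≤ q + 5 by omega)) X)) (L - e))
    (m1 m2 : ℝ)
    (hA : LB (nu0 (q + 2)) (q + 2) n
      (Dop (q + 2) s0 3 F0 (cmp (ee (show q + 2 ≤ q + 5 by omega)) X)) m1)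
    (hB : LB (nu0 (q + 2)) (q + 2) (n + 1)
      (Dop (q + 2) s0 3 F0 (cmp (ee (show q + 2 ≤ q + 5 by omega)) X)) m2) :
    LB (nu0 (q + 5)) (q + 5) (n + 1) (Dop (q + 5) s 3 F X)
      (min (m1 - 3 * (F (q + 3) - F (q + 5))) (m2 + 3 * F (q + 5))
        - (e + |s - 3 * F (q + 5) - s'| +
          6 * ((dlt 3 M CG CX (prof α R) (q + 2) + eta k Cx (q + 2)) / κ))) := by
  have hA' := hmvA m1 hA
  have hB' := hmvB m2 hB
  have hA2 : LB (nu0 (q + 5)) (q + 2) n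
      (Dop (q + 2) s' 3 F (cmp (ee (show q + 2 ≤ q + 5 by omega)) X)) (m1 - e) := by
    unfold LB at hA' ⊢
    rw [Zn_A] at hA'
    exact hA'
  have hB2 : LB (nu0 (q + 5)) (q + 2) (n + 1)
      (Dop (q + 2) s' 3 F (cmp (ee (show q + 2 ≤ q + 5 by omega)) X)) (m2 - e) := by
    unfold LB at hB' ⊢
    rw [Zn_A] at hB'
    exact hB'
  have h := triple_round hα0 hα2 hαR s s' 3 (by norm_num) F hM hF hf1 hf2 hX hCG hCX hm hDY hκ
    hG0 hG hRX (m1 - e) (m2 - e) hA2 hB2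
  refine LB.mono h ?_
  have h1 := neg_abs_le (s - 3 * F (q + 5) - s')
  have h2 : min (m1 - 3 * (F (q + 3) - F (q + 5))) (m2 + 3 * F (q + 5)) -
      (e + |s - 3 * F (q + 5) - s'|) ≤
      min (m1 - e + (s - 3 * F (q + 5) - s') - 3 * (F (q + 3) - F (q + 5)))
        (m2 - e + (s - s')) := by
    apply le_min
    · have := min_le_left (m1 - 3 * (F (q + 3) - F (q + 5))) (m2 + 3 * F (q + 5))
      linarith
    · have := min_le_right (m1 - 3 * (F (q + 3) - F (q + 5))) (m2 + 3 * F (q + 5))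
      linarith
  linarith

end Crest.Agent.R340.Peel3F924
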