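import Crest.Agent.R340.Tth3_927
import Crest.Agent.R340.LR7_667

set_option autoImplicit false
set_option linter.unusedSectionVars false

/-!
# Row 340: distances, Schur integrals and profile classes in geometry theta (helper927)

`DR_le_dQ` : the two-pole distance of the centres is at most `dQ`; `lint3_nuQ`;
`bT_PC`, `tau_PC`, `Fl_PC`, `SS_PC` : the profile class under the evolution by `HT t Q`.
-/

open scoped ENNReal NNReal
open MeasureTheory Matrix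

namespace Crest.Agent.R340.Tth927

open Crest.Agent.R340.CS809 Crest.Agent.R340.Fock649 Crest.Agent.R340.FI331
  Crest.Agent.R340.LR667 Crest.Agent.R340.Avg814 Crest.Agent.R340.QL331
open Crest.Agent.R340.LocT163 (nuQ muQ HT bT kT vT Bv)
open Crest.Agent.R340.PV341 (Adm)
open Crest.Agent.R340.Filt867 (EvoHyp cPoly cEvo mom)
open Crest.Agent.R340.PD757 (Kn Ks)

theorem abs_sqrt_sq_add_one_sub_le (x y : ℝ) :
    |Real.sqrt (x ^ 2 + 1) - Real.sqrt (y ^ 2 + 1)| ≤ |x - y| := by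
  have hx := Real.sq_sqrt (show (0 : ℝ) ≤ x ^ 2 + 1 by positivity)
  have hy := Real.sq_sqrt (show (0 : ℝ) ≤ y ^ 2 + 1 by positivity)
  have hx0 := Real.sqrt_nonneg (x ^ 2 + 1)
  have hy0 := Real.sqrt_nonneg (y ^ 2 + 1)
  set a := Real.sqrt (x ^ 2 + 1)
  set b := Real.sqrt (y ^ 2 + 1)
  rw [← sq_le_sq]
  have h1 : (x * y + 1) ≤ a * b := by
    have h2 : (x * y + 1) ^ 2 ≤ (a * b) ^ 2 := by
      rw [mul_pow, hx, hy]
      nlinarith [sq_nonneg (x - y)]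
    exact (abs_le_of_sq_le_sq' h2 (mul_nonneg hx0 hy0)).2
  nlinarith

theorem two_pole_aux {a b a' b' o : ℝ} (ha0 : 0 ≤ a) (hb0 : 0 ≤ b) (ha0' : 0 ≤ a') (hb0' : 0 ≤ b')
    (h1 : b ^ 2 = 1 - a ^ 2) (h2 : b' ^ 2 = 1 - a' ^ 2) (ho : o ≤ (a * a' + b * b') ^ 2) :
    (|a - a'| + |b - b'|) ^ 2 ≤ 4 * (1 - o) := by
  have hs0 : 0 ≤ a * a' + b * b' := by positivity
  have hs1 : a * a' + b * b' ≤ 1 := by nlinarith [sq_nonneg (a - a'), sq_nonneg (b - b')]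
  have h5 : o ≤ a * a' + b * b' := ho.trans (by nlinarith)
  have h6 : (|a - a'| + |b - b'|) ^ 2 ≤ 2 * ((a - a') ^ 2 + (b - b') ^ 2) := by
    have := sq_nonneg (|a - a'| - |b - b'|)
    have k1 := sq_abs (a - a')
    have k2 := sq_abs (b - b')
    nlinarith
  have h7 : (a - a') ^ 2 + (b - b') ^ 2 = 2 - 2 * (a * a' + b * b') := by
    have : (a - a') ^ 2 + (b - b') ^ 2 = a ^ 2 + b ^ 2 + (a' ^ 2 + b' ^ 2) -
        2 * (a * a' + b * b') := by ring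
    rw [this, h1, h2]; ring
  linarith

/-- **the two-pole distance of the centres** -/
theorem DR_le_dQ (Q : ℕ) (z g : U2) : DR Q (JJ Q z) (JJ Q g) ≤ dQ Q z g := by
  have hQ : (0 : ℝ) ≤ Q := Nat.cast_nonneg Q
  have hq := Real.sq_sqrt hQ
  have hq0 := Real.sqrt_nonneg (Q : ℝ)
  set q := Real.sqrt (Q : ℝ)
  set a := ‖(z : Matrix (Fin 2) (Fin 2) ℂ) 1 0‖ with ha
  set b := ‖(z : Matrix (Fin 2) (Fin 2) ℂ) 0 0‖ with hb
  set a' := ‖(g : Matrix (Fin 2) (Fin 2) ℂ) 1 0‖ with ha'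
  set b' := ‖(g : Matrix (Fin 2) (Fin 2) ℂ) 0 0‖ with hb'
  have ha0 : 0 ≤ a := norm_nonneg _
  have hb0 : 0 ≤ b := norm_nonneg _
  have ha0' : 0 ≤ a' := norm_nonneg _
  have hb0' : 0 ≤ b' := norm_nonneg _
  have h1 : b ^ 2 = 1 - a ^ 2 := norm_00 z
  have h2 : b' ^ 2 = 1 - a' ^ 2 := norm_00 g
  have e1 : JJ Q z + 1 = (q * a) ^ 2 + 1 := by
    rw [mul_pow, hq]; rfl
  have e2 : JJ Q g + 1 = (q * a') ^ 2 + 1 := by
    rw [mul_pow, hq]; rfl
  have e3 : (Q : ℝ) - JJ Q z + 1 = (q * b) ^ 2 + 1 := by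
    rw [mul_pow, hq, h1]
    show (Q : ℝ) - Q * a ^ 2 + 1 = _
    ring
  have e4 : (Q : ℝ) - JJ Q g + 1 = (q * b') ^ 2 + 1 := by
    rw [mul_pow, hq, h2]
    show (Q : ℝ) - Q * a' ^ 2 + 1 = _
    ring
  have f1 := abs_sqrt_sq_add_one_sub_le (q * a) (q * a')
  have f2 := abs_sqrt_sq_add_one_sub_le (q * b) (q * b')
  have g1 : |q * a - q * a'| = q * |a - a'| := by
    rw [← mul_sub, abs_mul, abs_of_nonneg hq0]
  have g2 : |q * b - q * b'| = q * |b - b'| := by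
    rw [← mul_sub, abs_mul, abs_of_nonneg hq0]
  have hov : ov z g ≤ (a * a' + b * b') ^ 2 := by
    have h3 : ‖((z : Matrix (Fin 2) (Fin 2) ℂ)ᴴ * (g : Matrix (Fin 2) (Fin 2) ℂ)) 0 0‖ ≤
        a * a' + b * b' := by
      rw [Matrix.mul_apply, Fin.sum_univ_two, conjTranspose_apply, conjTranspose_apply]
      refine (norm_add_le _ _).trans ?_
      rw [norm_mul, norm_mul, norm_star, norm_star]
      linarith
    unfold ov
    gcongr
  have hd := dQ_sq Q z g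
  have hd0 := dQ_nonneg Q z g
  have hmain : (q * |a - a'| + q * |b - b'|) ^ 2 ≤ dQ Q z g ^ 2 := by
    have h6 := two_pole_aux ha0 hb0 ha0' hb0' h1 h2 hov
    have e5 : (q * |a - a'| + q * |b - b'|) ^ 2 = Q * (|a - a'| + |b - b'|) ^ 2 := by
      rw [← mul_add, mul_pow, hq]
    rw [e5, hd]
    calc (Q : ℝ) * (|a - a'| + |b - b'|) ^ 2 ≤ Q * (4 * (1 - ov z g)) := by gcongr
      _ = 4 * (Q * (1 - ov z g)) := by ring
  have h8 : q * |a - a'| + q * |b - b'| ≤ dQ Q z g :=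
    (abs_le_of_sq_le_sq' hmain hd0).2
  unfold DR
  rw [e1, e2, e3, e4]
  linarith

theorem nuQ_eq_smul (Q : ℕ) : nuQ Q = (((2 * Q - 1 : ℕ) : ℝ≥0)) • hm := by
  unfold LocT163.nuQ
  ext s hs
  simp only [Measure.smul_apply, smul_eq_mul, ENNReal.smul_def]
  rfl

theorem muQ_eq_smul (Q : ℕ) : muQ Q = (((Q + 1 : ℕ) : ℝ≥0)) • hm := by
  unfold LocT163.muQ
  ext s hs
  simp only [Measure.smul_apply, smul_eq_mul, ENNReal.smul_def]
  rfl

theorem nuQ_const_le (Q : ℕ) : ((((2 * Q - 1 : ℕ) : ℝ≥0)) : ℝ) ≤ 2 * Q := by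
  have : 2 * Q - 1 ≤ 2 * Q := Nat.sub_le _ _
  exact_mod_cast this

theorem muQ_const_le {Q : ℕ} (hQ : 1 ≤ Q) : ((((Q + 1 : ℕ) : ℝ≥0)) : ℝ) ≤ 2 * Q := by
  have : Q + 1 ≤ 2 * Q := by omega
  exact_mod_cast this

/-- `∫⁻ (1+dQ)^{-3} dnuQ ≤ 1` -/
theorem lint3_nuQ {Q : ℕ} (hQ : 1 ≤ Q) (g : U2) :
    ∫⁻ h, ENNReal.ofReal (1 / (1 + dQ Q g h) ^ 3) ∂(nuQ Q) ≤ 1 := by
  rw [nuQ_eq_smul]
  exact lint3 hQ (nuQ_const_le Q) g

theorem lint3_muQ {Q : ℕ} (hQ : 1 ≤ Q) (g : U2) :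
    ∫⁻ h, ENNReal.ofReal (1 / (1 + dQ Q g h) ^ 3) ∂(muQ Q) ≤ 1 := by
  rw [muQ_eq_smul]
  exact lint3 hQ (muQ_const_le hQ) g

theorem schur_nuQ {Q : ℕ} (hQ : 1 ≤ Q) : QL331.Schur (nuQ Q) (FI331.uf Q) (dQ Q) 1 Kg := by
  rw [nuQ_eq_smul]
  exact schur_inst hQ (nuQ_const_le Q)

theorem schur_muQ {Q : ℕ} (hQ : 1 ≤ Q) : QL331.Schur (muQ Q) (FI331.uf Q) (dQ Q) 1 Kg := by
  rw [muQ_eq_smul]
  exact schur_inst hQ (muQ_const_le hQ)

/-! ### profile classes -/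

/-- constant of the polynomial profile of `bT` -/
noncomputable def Cbp (m : ℕ) : ℝ := Kb + Cb * ((m.factorial : ℝ) * Real.exp 1)

theorem Cbp_nonneg (m : ℕ) : 0 ≤ Cbp m := by
  have := Kb_pos
  have := Cb_nonneg
  unfold Cbp; positivity

theorem exp_neg_le_poly (m : ℕ) {d : ℝ} (hd : 0 ≤ d) :
    Real.exp (-1 * d) ≤ (m.factorial : ℝ) * Real.exp 1 / (1 + d) ^ m := by
  rw [le_div_iff₀ (by positivity)]
  have h := Filt867.pow_le_factorial_mul_exp m (x := 1 + d) (by linarith)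
  calc Real.exp (-1 * d) * (1 + d) ^ m ≤ Real.exp (-1 * d) * ((m.factorial : ℝ) * Real.exp (1 + d)) := by
        gcongr
    _ = (m.factorial : ℝ) * (Real.exp (-1 * d) * Real.exp (1 + d)) := by ring
    _ = (m.factorial : ℝ) * Real.exp 1 := by
        rw [← Real.exp_add]
        congr 2
        ring

/-- the local pair annihilators are in every profile class -/
theorem bT_PC {Q : ℕ} (hQ : 1 ≤ Q) {t : Fin 3 → ℝ} (ht : Adm t) (m : ℕ) (z : U2) :
    PC (fcar : Car (Op (Fin (Q + 1))) (L (Fin (Q + 1)))) (FI331.uf Q) (dQ Q) m (Cbp m)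
      (bT t Q z) z := by
  have h1 := Kb_pos
  have h2 := Cb_nonneg
  refine ⟨(norm_bT_le' hQ ht z).trans ?_, fun k w => ?_⟩
  · have : 0 ≤ Cb * ((m.factorial : ℝ) * Real.exp 1) := by positivity
    unfold Cbp; linarith
  · refine (bT_prof hQ ht z k w).trans ?_
    have hd := dQ_nonneg Q w z
    refine (mul_le_mul_of_nonneg_left (exp_neg_le_poly m hd) h2).trans ?_
    rw [← mul_div_assoc]
    apply div_le_div_of_nonneg_right _ (by positivity)
    unfold Cbp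
    linarith

variable {Q : ℕ} {t : Fin 3 → ℝ} {X : Op (Fin (Q + 1))} {x : U2} {m : ℕ} {C : ℝ}

/-- constant of the evolution in the class of exponent `m` -/
noncomputable def Ev0 (m : ℕ) : ℝ :=
  1 + cEvo (vT 1) 1 C12 (4 * Kn (m + 7)) (2 * Ks m) m

theorem cEvo_theta_nonneg (m : ℕ) : 0 ≤ cEvo (vT 1) 1 C12 (4 * Kn (m + 7)) (2 * Ks m) m :=
  Filt867.cEvo_nonneg one_pos (LocT163.vT_nonneg 1) C12_pos.le
    (by have := PD757.Kn_pos (m + 7); positivity) (by have := PD757.Ks_pos m; positivity)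

theorem Ev0_nonneg (m : ℕ) : 0 ≤ Ev0 m := by
  have := cEvo_theta_nonneg m
  unfold Ev0; linarith

/-- **evolution in the profile class, geometry theta** -/
theorem tau_PC (hQ : 1 ≤ Q) (ht : Adm t)
    (hX : (fcar : Car (Op (Fin (Q + 1))) (L (Fin (Q + 1)))).Ev X)
    (h : PC (fcar : Car (Op (Fin (Q + 1))) (L (Fin (Q + 1)))) (FI331.uf Q) (dQ Q) m C X x) (s : ℝ) :
    PC (fcar : Car (Op (Fin (Q + 1))) (L (Fin (Q + 1)))) (FI331.uf Q) (dQ Q) m
      (Ev0 m * (1 + |s|) ^ (m + 9) * C) (tau (HT t Q) s X) x := by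
  have hC : 0 ≤ C := (norm_nonneg _).trans h.1
  have hc := cEvo_theta_nonneg m
  have hs : (1 : ℝ) ≤ (1 + |s|) ^ (m + 9) := one_le_pow₀ (by linarith [abs_nonneg s])
  have h0 : 1 ≤ Ev0 m * (1 + |s|) ^ (m + 9) := by
    have : 1 ≤ Ev0 m := by unfold Ev0; linarith
    nlinarith
  refine ⟨?_, fun k w => ?_⟩
  · rw [norm_tau (LocT163.isSelfAdjoint_HT t Q)]
    exact h.1.trans (le_mul_of_one_le_left hC h0)
  · have h1 := (evoHyp_theta hQ ht m).tau hX hC h.2 s k w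
    refine h1.trans ?_
    have hd := dQ_nonneg Q w x
    apply div_le_div_of_nonneg_right _ (by positivity)
    have h2 : cEvo (vT 1) 1 C12 (4 * Kn (m + 7)) (2 * Ks m) m ≤ Ev0 m := by
      unfold Ev0; linarith
    calc _ ≤ Ev0 m * C * (1 + |s|) ^ (m + 9) := by gcongr
      _ = _ := by ring

/-- filtered operators in the profile class -/
theorem Fl_PC (hQ : 1 ≤ Q) (ht : Adm t) {g : ℝ → ℝ} (hg : IsFilter g)
    (hX : (fcar : Car (Op (Fin (Q + 1))) (L (Fin (Q + 1)))).Ev X)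
    (h : PC (fcar : Car (Op (Fin (Q + 1))) (L (Fin (Q + 1)))) (FI331.uf Q) (dQ Q) m C X x) :
    PC (fcar : Car (Op (Fin (Q + 1))) (L (Fin (Q + 1)))) (FI331.uf Q) (dQ Q) m
      (Ev0 m * mom g (m + 9) * C) (Fl g (HT t Q) X) x := by
  have hC : 0 ≤ C := (norm_nonneg _).trans h.1
  have hc := cEvo_theta_nonneg m
  have hm := Filt867.mom_nonneg g (m + 9)
  have hm0 := Filt867.mom_mono hg (Nat.zero_le (m + 9))
  have hm00 := Filt867.mom_nonneg g 0
  refine ⟨?_, fun k w => ?_⟩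
  · refine (Filt867.norm_Fl_le_mom (LocT163.isSelfAdjoint_HT t Q) X).trans ?_
    calc ‖X‖ * mom g 0 ≤ C * mom g (m + 9) := by gcongr; exact h.1
      _ ≤ Ev0 m * mom g (m + 9) * C := by
        have : 1 ≤ Ev0 m := by unfold Ev0; linarith
        nlinarith [mul_nonneg hm hC]
  · have h1 := (evoHyp_theta hQ ht m).Fl hg hX hC h.2 k w
    refine h1.trans ?_
    have hd := dQ_nonneg Q w x
    apply div_le_div_of_nonneg_right _ (by positivity)
    have h2 : cEvo (vT 1) 1 C12 (4 * Kn (m + 7)) (2 * Ks m) m ≤ Ev0 m := by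
      unfold Ev0; linarith
    gcongr

/-- `S(X)` in the profile class -/
theorem SS_PC (hQ : 1 ≤ Q) (ht : Adm t) {g : ℝ → ℝ} (hg : IsFilter g)
    (hX : (fcar : Car (Op (Fin (Q + 1))) (L (Fin (Q + 1)))).Ev X)
    (h : PC (fcar : Car (Op (Fin (Q + 1))) (L (Fin (Q + 1)))) (FI331.uf Q) (dQ Q) m C X x) :
    PC (fcar : Car (Op (Fin (Q + 1))) (L (Fin (Q + 1)))) (FI331.uf Q) (dQ Q) m
      (Ev0 m * mom g (m + 10) * C) (SS g (HT t Q) X) x := by
  have hC : 0 ≤ C := (norm_nonneg _).trans h.1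
  have hc := cEvo_theta_nonneg m
  have hm := Filt867.mom_nonneg g (m + 10)
  have hm0 := Filt867.mom_mono hg (show 1 ≤ m + 10 by omega)
  have hm00 := Filt867.mom_nonneg g 1
  refine ⟨?_, fun k w => ?_⟩
  · refine (Filt867.norm_SS_le_mom hg (LocT163.isSelfAdjoint_HT t Q) X).trans ?_
    calc ‖X‖ * mom g 1 ≤ C * mom g (m + 10) := by gcongr; exact h.1
      _ ≤ Ev0 m * mom g (m + 10) * C := by
        have : 1 ≤ Ev0 m := by unfold Ev0; linarith
        nlinarith [mul_nonneg hm hC]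
  · have h1 := (evoHyp_theta hQ ht m).SS hg hX hC h.2 k w
    refine h1.trans ?_
    have hd := dQ_nonneg Q w x
    apply div_le_div_of_nonneg_right _ (by positivity)
    have h2 : cEvo (vT 1) 1 C12 (4 * Kn (m + 7)) (2 * Ks m) m ≤ Ev0 m := by
      unfold Ev0; linarith
    gcongr

end Crest.Agent.R340.Tth927
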