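import Crest.Agent.R340.TX2_880
import Crest.Agent.R340.TzP_421
import Crest.Agent.R340.Tth4_927
import Crest.Agent.R340.LocT9_163
import Crest.Agent.R340.Defs_150

/-!
# R340, (TX) part 3 (helper880): the `X` term of the path derivative

`tx_gen`: for `X ∈ DY Q (k+q+9) 1` and every profile `F` with `|F j - (α + β j)| ≤ κ (sj j)^q` there is
`Y ∈ Dy (k+1) Q (K κ)` with `Re⟪off (TT Q F ψ), off (X ψ)⟫ = Re⟪ψ, Y ψ⟫` for the zero modes of every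
`nuT t Q`; `tx`: `Defs150.TX 40 24 K`.
-/

set_option autoImplicit false

open scoped InnerProductSpace
open MeasureTheory

namespace Crest.Agent.R340.TX880

open Finset
open Crest.Agent.R340.Fock649 Crest.Agent.R340.Geo986 Crest.Agent.R340.Step596
open Crest.Agent.R340.PV341 (Adm)
open Crest.Agent.R340.Peel596
open Crest.Agent.R340.PathStep880
open Crest.Agent.R340.PD757 (sj sj_sq sj_pos one_le_sj)
open Crest.Agent.R340.FX963 (LocN DY locN_iff KX KB)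
open Crest.Agent.R340.GG467 (pj pj_mem pj_of_mem star_pj pj_mul_self isSelfAdjoint_pj)
open Crest.Agent.R340.LR667 (IsFilter SS U)
open Crest.Agent.R340.LocT163 (HT hh HT_eq_sum hh_bounds isSelfAdjoint_HT HT_mul_pj)
open Crest.Agent.R340.Scal725 (dd)

variable {Q : ℕ}

/-! ### 1. algebra -/

/-- `P G H S P = P (∑_p hh_p ⁅G, star B_p⁆ ⁅B_p, S⁆) P` -/
theorem mul_H_mul {ν : ℕ → ℝ} {H P S : Op (Fin (Q + 1))} {hc h : ℕ → ℝ} (hPs : star P = P)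
    (hBP : ∀ p, Bg ν Q p * P = 0)
    (hH : H = ∑ p : Fin (2 * Q), ((hc p : ℝ) : ℂ) • (star (Bg ν Q p) * Bg ν Q p)) :
    P * Dh Q h * (H * S * P) = P * YY ν Q hc h S * P := by
  have hPB : ∀ p, P * star (Bg ν Q p) = 0 := by
    intro p
    have h1 := congrArg star (hBP p)
    rwa [star_mul, hPs, star_zero] at h1
  rw [hH, YY, Finset.sum_mul, Finset.sum_mul, Finset.mul_sum, Finset.mul_sum, Finset.sum_mul]
  refine Finset.sum_congr rfl fun p _ => ?_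
  rw [smul_mul_assoc, smul_mul_assoc, mul_smul_comm, mul_smul_comm, smul_mul_assoc]
  congr 1
  have e1 : P * ⁅Dh Q h, star (Bg ν Q p)⁆ = P * Dh Q h * star (Bg ν Q p) := by
    rw [Ring.lie_def, mul_sub, ← mul_assoc, ← mul_assoc, hPB, zero_mul, sub_zero]
  have e2 : ⁅Bg ν Q p, S⁆ * P = Bg ν Q p * S * P := by
    rw [Ring.lie_def, sub_mul, mul_assoc S, hBP, mul_zero, sub_zero]
  calc P * Dh Q h * (star (Bg ν Q p) * Bg ν Q p * S * P)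
      = (P * Dh Q h * star (Bg ν Q p)) * (Bg ν Q p * S * P) := by noncomm_ring
    _ = (P * ⁅Dh Q h, star (Bg ν Q p)⁆) * (⁅Bg ν Q p, S⁆ * P) := by rw [e1, e2]
    _ = _ := by noncomm_ring

theorem Bg_mul_pj (ν : ℕ → ℝ) (Q p : ℕ) : Bg ν Q p * pj (Zs ν Q) = 0 := by
  have h1 : bz ν Q p * pj (Zs ν Q) = 0 := by
    apply Op.ext
    intro ψ
    rw [mul_ap]
    exact (pj_mem (Zs ν Q) ψ) p
  unfold Bg
  rw [smul_mul_assoc, h1, smul_zero]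

/-- coefficients, zero at `p = 0` -/
noncomputable def hz (t : Fin 3 → ℝ) (Q p : ℕ) : ℝ := if p = 0 then 0 else hh t Q p

theorem HT_eq_fin (hQ : 1 ≤ Q) (t : Fin 3 → ℝ) : HT t Q = ∑ p : Fin (2 * Q),
    ((hz t Q p : ℝ) : ℂ) • (star (Bg (nuT t Q) Q p) * Bg (nuT t Q) Q p) := by
  rw [HT_eq_sum hQ, ← Fin.sum_univ_eq_sum_range (fun p => ((hh t Q p : ℝ) : ℂ) •
      (star (Bg (nuT t Q) Q p) * Bg (nuT t Q) Q p)) (2 * Q)]
  refine Finset.sum_congr rfl fun p _ => ?_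
  unfold hz
  split_ifs with h
  · rw [h, Bg_zero]; simp
  · rfl

/-! ### 2. the general theorem -/

theorem Dh_apply (h : ℕ → ℝ) (ψ : Fk (Fin (Q + 1))) : Dh Q h ψ = TT Q h ψ := rfl

theorem TT_sub_aff (F : ℕ → ℝ) (α β : ℝ) (ψ : Fk (Fin (Q + 1))) : TT Q F ψ =
    TT Q (fun j => F j - (α + β * j)) ψ + (((α : ℝ) : ℂ) • TT Q (fun _ => 1) ψ +
      ((β : ℝ) : ℂ) • TT Q (fun j => (j : ℝ)) ψ) := by
  have h1 : Dh Q F = Dh Q (fun j => F j - (α + β * j)) +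
      (((α : ℝ) : ℂ) • Dh Q (fun _ => 1) + ((β : ℝ) : ℂ) • Dh Q (fun j => (j : ℝ))) := by
    unfold Dh
    rw [← dG_smul, ← dG_smul, ← dG_add, ← dG_add]
    congr 1
    ext i j
    simp only [Matrix.add_apply, Matrix.smul_apply, Matrix.diagonal_apply, smul_eq_mul]
    split_ifs with h
    · push_cast; ring
    · simp
  exact congrArg (fun A : Op (Fin (Q + 1)) => A ψ) h1

/-- **(TX), general profile** -/
theorem tx_gen (q k : ℕ) {γ₀ : ℝ} (hγ : 0 < γ₀) (hG : ∀ Q : ℕ, GapG (nu0 Q) Q γ₀) :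
    ∃ K : ℝ, 0 ≤ K ∧ ∀ Q : ℕ, 1 ≤ Q → ∀ t : Fin 3 → ℝ, Adm t → ∀ X : Op (Fin (Q + 1)),
      ∀ C : ℝ, DY Q (k + q + 9) C X → ∀ (F : ℕ → ℝ) (α β κ : ℝ), 0 ≤ κ →
      (∀ j ≤ Q, |F j - (α + β * j)| ≤ κ * sj j ^ q) →
      ∃ Y : Op (Fin (Q + 1)), Defs150.Dy (k + 1) Q (K * (κ * C)) Y ∧ ∀ n : ℕ,
        ∀ ψ ∈ Zn (nuT t Q) Q n,
        (⟪off (Zn (nuT t Q) Q n) (TT Q F ψ), off (Zn (nuT t Q) Q n) (X ψ)⟫_ℂ).re =
          (⟪ψ, Y ψ⟫_ℂ).re := by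
  obtain ⟨w, hw, hkill⟩ := TzP421.hkill_theta γ₀ hγ hG
  obtain ⟨c0, Ch, hc0, hcC, hb⟩ := hh_bounds
  obtain ⟨K, hK1, hK⟩ := exists_dy_YY q k
  have hCh : 0 ≤ Ch := by linarith
  have hmom := Filt867.mom_nonneg w (k + q + 9 + 10)
  have hEv := Tth927.Ev0_nonneg (k + q + 9)
  have hKX := FX963.KX_pos (k + q + 9)
  have hKB := FX963.KB_pos (k + q + 4)
  set M : ℝ := KB (k + q + 4) * (Tth927.Ev0 (k + q + 9) * Filt867.mom w (k + q + 9 + 10) *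
    KX (k + q + 9)) with hM
  have hM0 : 0 ≤ M := by positivity
  refine ⟨K * (Ch * M), by positivity, fun Q hQ t ht X C hX F α β κ hκ hF => ?_⟩
  have hC := hX.nonneg
  set H := HT t Q with hHdef
  have hHs : IsSelfAdjoint H := isSelfAdjoint_HT t Q
  set P := pj (Zs (nuT t Q) Q) with hP
  have hPs : star P = P := star_pj _
  set S := SS w H X with hSdef
  -- class of `S`
  have hSN : Commute S (Nh : Op (Fin (Q + 1))) :=
    Filt867.SS_comm hw hHs (TzP421.HT_comm_Nh hQ t) hX.comm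
  have hSPC := Tth927.SS_PC hQ ht hw hX.ev hX.pc
  have hSDY : DY Q (k + q + 5) (M * C) S := by
    have h1 := FX963.DY.of_pc (k := k + q + 4) hSN hSPC
    refine h1.mono (le_of_eq ?_)
    rw [hM]; ring
  -- the operator
  set h : ℕ → ℝ := fun j => F j - (α + β * j) with hh'
  set V := YY (nuT t Q) Q (hz t Q) h S with hV
  have hzb : ∀ p < 2 * Q, |hz t Q p| ≤ Ch := by
    intro p hp
    unfold hz
    split_ifs with h0
    · rw [abs_zero]; exact hCh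
    · obtain ⟨h1, h2⟩ := hb t ht Q p (by omega) (by omega)
      rw [abs_of_nonneg (by linarith)]
      exact h2
  have hVDY : DY Q (k + 1) (K * (Ch * κ * (M * C))) V :=
    hK t ht Q (hz t Q) h Ch κ (M * C) S hκ hzb hCh hF hSDY
  set W := (-Complex.I) • V with hW
  have hWDY : DY Q (k + 1) (K * (Ch * κ * (M * C))) W := by
    have := hVDY.smul (-Complex.I)
    rwa [norm_neg, Complex.norm_I, one_mul] at this
  set Y := ((1 / 2 : ℝ) : ℂ) • (W + star W) with hY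
  have hYs : star Y = Y := by
    rw [hY, star_smul, star_add, star_star, Complex.star_def, Complex.conj_ofReal,
      add_comm (star W) W]
  have hYDY : DY Q (k + 1) (K * (Ch * M) * (κ * C)) Y := by
    have h1 := (hWDY.add hWDY.star).smul ((1 / 2 : ℝ) : ℂ)
    refine h1.mono (le_of_eq ?_)
    rw [Complex.norm_real, Real.norm_eq_abs, abs_of_pos (by norm_num)]
    ring
  refine ⟨Y, ⟨hYs, hYDY⟩, fun n ψ hψ => ?_⟩
  -- the identity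
  have hkillQ := hkill Q hQ t ht
  have hoffd : (1 - P) * X * P = -(Complex.I • (H * S * P)) :=
    LR667.offdiag_eq hw hHs (isSelfAdjoint_pj _) (HT_mul_pj hQ) hkillQ X
  have hPP : P * P = P := pj_mul_self _
  have hψZ : ψ ∈ Zs (nuT t Q) Q := hψ.1
  have hPψ : P ψ = ψ := pj_of_mem hψZ
  have hNψ : (Nh : Op (Fin (Q + 1))) ψ = (n : ℂ) • ψ := hψ.2
  set Z := Zn (nuT t Q) Q n with hZ
  have hoffF : off Z (TT Q F ψ) = off Z (TT Q h ψ) := by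
    rw [TT_sub_aff F α β ψ, map_add]
    have h1 : ((α : ℝ) : ℂ) • TT Q (fun _ => 1) ψ + ((β : ℝ) : ℂ) • TT Q (fun j => (j : ℝ)) ψ ∈ Z :=
      Z.add_mem (Z.smul_mem _ (TT_one_mem_Zn hψ)) (Z.smul_mem _ (TT_lin_mem_Zn hψ))
    have h2 : off Z (((α : ℝ) : ℂ) • TT Q (fun _ => 1) ψ +
        ((β : ℝ) : ℂ) • TT Q (fun j => (j : ℝ)) ψ) = 0 := by
      rw [off_apply, Submodule.starProjection_eq_self_iff.2 h1, sub_self]
    rw [h2, add_zero]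
  have hoffP : ∀ x : Fk (Fin (Q + 1)), (Nh : Op (Fin (Q + 1))) x = (n : ℂ) • x →
      off Z x = (1 - P) x := by
    intro x hx
    rw [hZ, off_Zn hx]
    rfl
  have hNh : (Nh : Op (Fin (Q + 1))) (TT Q h ψ) = (n : ℂ) • TT Q h ψ := by
    rw [TT_Nh, hNψ, map_smul]
  have hNX : (Nh : Op (Fin (Q + 1))) (X ψ) = (n : ℂ) • X ψ := by
    rw [← mul_ap, ← hX.comm.eq, mul_ap, hNψ, map_smul]
  rw [hoffF, hoffP _ hNh, hoffP _ hNX]
  have hI : star (1 - P) * (1 - P) = 1 - P := by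
    rw [star_sub, star_one, hPs, sub_mul, mul_sub, mul_sub, hPP]
    simp
  have e1 : ⟪(1 - P) (TT Q h ψ), (1 - P) (X ψ)⟫_ℂ = ⟪ψ, (P * Dh Q h * ((1 - P) * X * P)) ψ⟫_ℂ := by
    have a1 : ⟪(1 - P) (TT Q h ψ), (1 - P) (X ψ)⟫_ℂ = ⟪TT Q h ψ, ((1 - P) * X) ψ⟫_ℂ := by
      rw [← inner_star_right, ← mul_ap, hI, ← mul_ap]
    have a2 : ⟪TT Q h ψ, ((1 - P) * X) ψ⟫_ℂ = ⟪ψ, (Dh Q h * ((1 - P) * X)) ψ⟫_ℂ := by
      have h3 := inner_star_left (Dh Q h) ψ (((1 - P) * X) ψ)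
      rw [star_Dh] at h3
      exact h3
    rw [a1, a2]
    have a3 : ⟪ψ, (Dh Q h * ((1 - P) * X)) ψ⟫_ℂ = ⟪P ψ, (Dh Q h * ((1 - P) * X)) (P ψ)⟫_ℂ := by
      rw [hPψ]
    rw [a3, ← inner_star_right, hPs, ← mul_ap, ← mul_ap]
    congr 2
  have e2 : P * Dh Q h * ((1 - P) * X * P) = P * W * P := by
    rw [hoffd, mul_neg, mul_smul_comm,
      mul_H_mul (hc := hz t Q) hPs (Bg_mul_pj _ Q) (HT_eq_fin hQ t), hW, mul_smul_comm,
      smul_mul_assoc, neg_smul]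
  rw [e1, e2]
  have e3 : ⟪ψ, (P * W * P) ψ⟫_ℂ = ⟪ψ, W ψ⟫_ℂ := by
    rw [mul_ap, mul_ap, hPψ, ← hPs, inner_star_right, hPψ]
  rw [e3]
  have e4 : ⟪ψ, Y ψ⟫_ℂ = ((1 / 2 : ℝ) : ℂ) * (⟪ψ, W ψ⟫_ℂ + ⟪ψ, star W ψ⟫_ℂ) := by
    rw [hY, smul_ap, add_ap, inner_smul_right, inner_add_right]
  have e5 : (⟪ψ, star W ψ⟫_ℂ).re = (⟪ψ, W ψ⟫_ℂ).re := by
    rw [inner_star_right, ← inner_conj_symm, Complex.conj_re]
  rw [e4, Complex.re_ofReal_mul, Complex.add_re, e5]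
  ring

/-! ### 3. the metric profile -/

theorem gm_taylor (b : ℕ) {Q j : ℕ} (hQ : 1 ≤ Q) (hj : j ≤ Q) :
    |gm b Q j - (gm b Q 0 + (gm b Q 1 - gm b Q 0) * j)| ≤
      6 * b / ((Q : ℝ) + 1) ^ 2 * sj j ^ 6 := by
  have hQ' : (1 : ℝ) ≤ Q := by exact_mod_cast hQ
  have hb0 : (0 : ℝ) ≤ b := Nat.cast_nonneg b
  rcases Nat.eq_zero_or_pos j with rfl | h
  · have h0 := (sj_pos 0).le
    simp only [Nat.cast_zero, mul_zero, add_zero, sub_self, abs_zero]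
    positivity
  obtain ⟨i, rfl⟩ : ∃ i, j = i + 1 := ⟨j - 1, by omega⟩
  have hiQ : i + 1 ≤ Q := hj
  have hiQr : (i : ℝ) + 1 ≤ Q := by exact_mod_cast hiQ
  have hi0 : (0 : ℝ) ≤ i := Nat.cast_nonneg i
  have e1 : gm b Q (i + 1) - (gm b Q 0 + (gm b Q 1 - gm b Q 0) * ((i + 1 : ℕ) : ℝ)) =
      ∑ p ∈ range i, dd (gm b Q) p * ((i : ℝ) - p) := by
    rw [taylor (gm b Q) i]
    push_cast
    ring
  rw [e1]
  have hterm : ∀ p ∈ range i, 0 ≤ dd (gm b Q) p * ((i : ℝ) - p) ∧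
      dd (gm b Q) p * ((i : ℝ) - p) ≤ 4 / 3 * b * (i ^ 2 / (Q : ℝ) ^ 2) := by
    intro p hp
    have hp' := mem_range.1 hp
    have hpi : (p : ℝ) + 1 ≤ i := by exact_mod_cast hp'
    have hp0 : (0 : ℝ) ≤ p := Nat.cast_nonneg p
    have h1 := dd_gm_nonneg (b := b) (Q := Q) (p := p) (by omega)
    have h2 := dd_gm_le (b := b) (Q := Q) (p := p) (by omega)
    refine ⟨mul_nonneg h1 (by linarith), ?_⟩
    have hQp : 0 < (Q : ℝ) - p := by linarith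
    have h3 : ((i : ℝ) - p) * Q ≤ i * ((Q : ℝ) - p) := by nlinarith
    have h4 : ((i : ℝ) - p) * (((Q : ℝ) - p) ^ 2)⁻¹ ≤ i ^ 2 / (Q : ℝ) ^ 2 := by
      rw [← div_eq_mul_inv, div_le_div_iff₀ (by positivity) (by positivity)]
      have h5 : (((i : ℝ) - p) * Q) ^ 2 ≤ (i * ((Q : ℝ) - p)) ^ 2 := by
        have : 0 ≤ ((i : ℝ) - p) * Q := mul_nonneg (by linarith) (by linarith)
        gcongr
      have h6 : ((i : ℝ) - p) ≤ ((i : ℝ) - p) ^ 2 := by nlinarith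
      calc ((i : ℝ) - p) * (Q : ℝ) ^ 2 ≤ ((i : ℝ) - p) ^ 2 * (Q : ℝ) ^ 2 := by gcongr
        _ = (((i : ℝ) - p) * Q) ^ 2 := by ring
        _ ≤ (i * ((Q : ℝ) - p)) ^ 2 := h5
        _ = _ := by ring
    calc dd (gm b Q) p * ((i : ℝ) - p) ≤ (4 / 3 * b * (((Q : ℝ) - p) ^ 2)⁻¹) * ((i : ℝ) - p) :=
          mul_le_mul_of_nonneg_right h2 (by linarith)
      _ = 4 / 3 * b * (((i : ℝ) - p) * (((Q : ℝ) - p) ^ 2)⁻¹) := by ring
      _ ≤ _ := by gcongr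
  rw [abs_of_nonneg (sum_nonneg fun p hp => (hterm p hp).1)]
  refine (sum_le_sum fun p hp => (hterm p hp).2).trans ?_
  rw [sum_const, card_range, nsmul_eq_mul]
  have e2 : sj (i + 1) ^ 6 = ((i : ℝ) + 2) ^ 3 := by
    rw [show (6 : ℕ) = 2 * 3 from rfl, pow_mul, sj_sq]
    push_cast
    ring
  rw [e2]
  have h7 : 1 / (Q : ℝ) ^ 2 ≤ 4 / ((Q : ℝ) + 1) ^ 2 := by
    rw [div_le_div_iff₀ (by positivity) (by positivity)]
    nlinarith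
  calc (i : ℝ) * (4 / 3 * b * (i ^ 2 / (Q : ℝ) ^ 2)) = 4 / 3 * b * i ^ 3 * (1 / (Q : ℝ) ^ 2) := by ring
    _ ≤ 4 / 3 * b * ((i : ℝ) + 2) ^ 3 * (4 / ((Q : ℝ) + 1) ^ 2) := by gcongr; linarith
    _ = (16 / 3 * b) / ((Q : ℝ) + 1) ^ 2 * ((i : ℝ) + 2) ^ 3 := by ring
    _ ≤ _ := by gcongr; norm_num

/-- **(TX)**, path generator `gm b Q`, all metrics -/
theorem tx_gm (k : ℕ) {γ₀ : ℝ} (hγ : 0 < γ₀) (hG : ∀ Q : ℕ, GapG (nu0 Q) Q γ₀) :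
    ∃ K : ℝ, 0 ≤ K ∧ ∀ b Q : ℕ, 1 ≤ Q → ∀ t : Fin 3 → ℝ, Adm t → ∀ X : Op (Fin (Q + 1)),
      ∀ C : ℝ, DY Q (k + 15) C X →
      ∃ Y : Op (Fin (Q + 1)), Defs150.Dy (k + 1) Q (K * b * C / ((Q : ℝ) + 1) ^ 2) Y ∧ ∀ n : ℕ,
        ∀ ψ ∈ Zn (nuT t Q) Q n,
        (⟪off (Zn (nuT t Q) Q n) (TT Q (gm b Q) ψ), off (Zn (nuT t Q) Q n) (X ψ)⟫_ℂ).re =
          (⟪ψ, Y ψ⟫_ℂ).re := by
  obtain ⟨K, hK0, hK⟩ := tx_gen 6 k hγ hG
  refine ⟨K * 6, by positivity, fun b Q hQ t ht X C hX => ?_⟩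
  obtain ⟨Y, hY, h⟩ := hK Q hQ t ht X C hX (gm b Q) (gm b Q 0) (gm b Q 1 - gm b Q 0)
    (6 * b / ((Q : ℝ) + 1) ^ 2) (by positivity) (fun j hj => gm_taylor b hQ hj)
  refine ⟨Y, ⟨hY.1, hY.2.mono (le_of_eq ?_)⟩, h⟩
  ring

/-- **(TX)**, literal -/
theorem exists_TX (k : ℕ) {γ₀ : ℝ} (hγ : 0 < γ₀) (hG : ∀ Q : ℕ, GapG (nu0 Q) Q γ₀) :
    ∃ K : ℝ, Defs150.TX (k + 15) (k + 1) K := by
  obtain ⟨K, hK0, hK⟩ := tx_gm k hγ hG
  refine ⟨K * 3, by positivity, fun Q hQ θ hθ X hX => ?_⟩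
  obtain ⟨Y, hY, h⟩ := hK 3 Q hQ (tA θ) (adm_tA hθ) X 1 hX.2
  refine ⟨Y, ⟨hY.1, hY.2.mono (le_of_eq ?_)⟩, fun n ψ hψ => h n ψ hψ⟩
  push_cast
  ring

/-- **(TX)** with the exponents of PLAN-F1 -/
theorem exists_TX_40_24 {γ₀ : ℝ} (hγ : 0 < γ₀) (hG : ∀ Q : ℕ, GapG (nu0 Q) Q γ₀) :
    ∃ K : ℝ, Defs150.TX 40 24 K := by
  obtain ⟨K, hK0, hK⟩ := exists_TX 23 hγ hG
  exact ⟨K, hK0, fun Q hQ θ hθ X hX => hK Q hQ θ hθ X ⟨hX.1, hX.2.mono_exp (by norm_num)⟩⟩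

end Crest.Agent.R340.TX880
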