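import Crest.Agent.R340.Top2_644
import Crest.Agent.R340.FiltH_867
import Crest.Agent.R340.DLp_482

/-!
R340 (S0532), block L9d, part 3 (helper644): S0532 from theorem (U) (`UP m`) and the certificate.
-/

set_option autoImplicit false

open Crest.Agent.R340
open Crest.Agent.R340.U856 (UP)
open Crest.MathPhysics.Laughlin
open MeasureTheory

namespace Crest.Agent.R340.Top644

theorem evoP (m : ℕ) : EvoP m := Filt867.evoP m

/-- the gap above the zero modes, from the certificate -/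
theorem gapP_of_psd8 (h : Cert132.PSD 8 Cert132.G8 Cert132.B8 Cert132.A8) {γ : ℝ}
    (hγ' : γ < 479 / 10000) : GapP γ := DLi482.gap_of_psd8 h hγ'

/-- **S0532 from theorem (U)** (any one exponent `m`) and the certificate. -/
theorem s0532_of_UP {m : ℕ} (h : Cert132.PSD 8 Cert132.G8 Cert132.B8 Cert132.A8) (hU : UP m) :
    ∃ c₀ Δ : ℝ, 0 < c₀ ∧ 0 < Δ ∧ ∃ N₀ : ℕ, ∀ N : ℕ, N₀ ≤ N →
      ∀ φ : S2 → ℝ, Measurable φ → (∀ x, |φ x| ≤ 1) → ∀ c : ℝ, |c| ≤ c₀ →
        HasFermionicGap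
          (interaction (3 * (N - 1)) N +
            (c : ℂ) • oneBody N (toeplitz (3 * (N - 1)) φ)) Δ :=
  s0532_of (γ := 1 / 25) (by norm_num) hU (gapP_of_psd8 h (by norm_num)) (evoP m)
    (evoP (2 * m + 14))

end Crest.Agent.R340.Top644
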