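import Crest.Agent.R340.LocT2_163
import Crest.Agent.R340.Geo3_927
import Crest.Agent.R340.Mom_814
import Crest.Agent.R340.Avg_814
import Crest.Agent.R340.CS3_809
import Crest.Agent.R340.PD1_757
import Crest.Agent.R340.DC0_867
import Crest.Agent.R340.QL3_331

/-!
# R340 (helper163), O2 part 3: the group frame and the Lieb-Robinson hypotheses in geometry `θ`

`uF Q k g` : frame vectors (columns `k = 0, 1` of `sp Q g`), `vF t Q k g` : the normalised dilated frame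
vectors, `muQ = (Q+1) Haar`, `nuQ = (2Q-1) Haar`, `HT t Q = ∫ B_g^* B_g dnuQ`,
`bT t Q g = an (vF 1 g) * an (vF 0 g)`.
-/

set_option autoImplicit false
set_option linter.unusedSectionVars false

open MeasureTheory
open scoped ENNReal Matrix

namespace Crest.Agent.R340.LocT163

open Crest.Agent.R340.Fock649 Crest.Agent.R340.LR667 Crest.Agent.R340.CS809
open Crest.Agent.R340.Avg814 Crest.Agent.R340.Rot303
open Crest.Agent.R124.Haar (haar integrable_of_cont secondCountable integral_mul_left')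

/-! ### vectors -/

/-- the frame vectors `u_k(g)`, `k = 0, 1` -/
noncomputable def uF (Q : ℕ) (k : Fin 2) (g : U2) : L (Fin (Q + 1)) := Mom814.uL Q g (k : ℕ)

/-- the normalised dilated frame vectors `n_g D⁻¹ u_k(g)` -/
noncomputable def vF (t : Fin 3 → ℝ) (Q : ℕ) (k : Fin 2) (g : U2) : L (Fin (Q + 1)) :=
  WithLp.toLp 2 fun j => ((Geo927.nz t Q g : ℝ) : ℂ) *
    (((Geo927.Gt t ((Q : ℝ) - (j : ℕ)) : ℝ) : ℂ) * uF Q k g j)

/-- `k : Fin 2` as an orbital, for `Q ≥ 1` -/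
def kq {Q : ℕ} (hQ : 1 ≤ Q) (k : Fin 2) : Fin (Q + 1) := ⟨k, by omega⟩

theorem uF_eq {Q : ℕ} (hQ : 1 ≤ Q) (k : Fin 2) (g : U2) :
    uF Q k g = WithLp.toLp 2 (Geo927.uu Q g (kq hQ k)) :=
  Mom814.uL_eq Q g (kq hQ k)

theorem uF_apply {Q : ℕ} (hQ : 1 ≤ Q) (k : Fin 2) (g : U2) (j : Fin (Q + 1)) :
    uF Q k g j = sp Q (g : Matrix (Fin 2) (Fin 2) ℂ) j (kq hQ k) := by
  rw [uF_eq hQ]; rfl

theorem vF_eq {Q : ℕ} (hQ : 1 ≤ Q) (t : Fin 3 → ℝ) (k : Fin 2) (g : U2) :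
    vF t Q k g = WithLp.toLp 2 (Geo927.vv t Q g (kq hQ k)) := by
  unfold vF
  congr 1
  funext j
  rw [uF_apply hQ]
  rfl

theorem inner_toLp {ι : Type*} [Fintype ι] [LinearOrder ι] (v w : ι → ℂ) :
    inner ℂ (WithLp.toLp 2 v : L ι) (WithLp.toLp 2 w : L ι) = star v ⬝ᵥ w := by
  rw [inner_eq_sum]
  rfl

theorem inner_u_v {Q : ℕ} (hQ : 1 ≤ Q) (t : Fin 3 → ℝ) (k l : Fin 2) (w z : U2) :
    (inner ℂ (uF Q k w) (vF t Q l z) : ℂ) =
      star (Geo927.uu Q w (kq hQ k)) ⬝ᵥ Geo927.vv t Q z (kq hQ l) := by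
  rw [uF_eq hQ, vF_eq hQ, inner_toLp]

theorem norm_uF {Q : ℕ} (hQ : 1 ≤ Q) (k : Fin 2) (g : U2) : ‖uF Q k g‖ = 1 := by
  have h1 := sp_unitary Q (U2_ct_mul g)
  have h2 := congrFun (congrFun h1 (kq hQ k)) (kq hQ k)
  rw [Matrix.mul_apply, Matrix.one_apply_eq] at h2
  have h3 : ‖uF Q k g‖ ^ 2 = 1 := by
    rw [EuclideanSpace.norm_sq_eq]
    have h4 : ∑ j, ((‖uF Q k g j‖ ^ 2 : ℝ) : ℂ) = 1 := by
      rw [← h2]
      refine Finset.sum_congr rfl fun j _ => ?_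
      rw [uF_apply hQ, Matrix.conjTranspose_apply, ← Complex.normSq_eq_norm_sq,
        Complex.normSq_eq_conj_mul_self, Complex.star_def]
    exact_mod_cast h4
  have h5 : (0 : ℝ) ≤ ‖uF Q k g‖ := norm_nonneg _
  nlinarith

/-- uniform bound for the dilated vectors -/
noncomputable def Bv : ℝ := Real.sqrt (Geo927.KK 0 * Geo927.KG)

theorem norm_vF_le {Q : ℕ} (hQ : 1 ≤ Q) {t : Fin 3 → ℝ} (ht : ∀ k, 0 ≤ t k)
    (ht1 : ∀ k, t k ≤ 1 / 2) (k : Fin 2) (g : U2) : ‖vF t Q k g‖ ≤ Bv := by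
  have h := Geo927.norm_vv_sq_le hQ ht ht1 (U2_ct_mul g) (kq hQ k) (Nat.lt_succ_iff.1 k.2)
  apply Real.le_sqrt_of_sq_le
  rw [vF_eq hQ, EuclideanSpace.norm_sq_eq]
  exact h

theorem Bv_nonneg : 0 ≤ Bv := Real.sqrt_nonneg _

theorem continuous_uF {Q : ℕ} (hQ : 1 ≤ Q) (k : Fin 2) : Continuous (uF Q k) := by
  have h : Continuous fun g : U2 => Geo927.uu Q (g : Matrix (Fin 2) (Fin 2) ℂ) (kq hQ k) :=
    (Geo927.continuous_uu Q (kq hQ k)).comp continuous_subtype_val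
  have h2 : uF Q k = fun g : U2 => WithLp.toLp 2 (Geo927.uu Q g (kq hQ k)) := by
    funext g; exact uF_eq hQ k g
  rw [h2]
  exact (PiLp.continuous_toLp 2 _).comp h

theorem continuous_vF {Q : ℕ} (hQ : 1 ≤ Q) (t : Fin 3 → ℝ) (k : Fin 2) :
    Continuous (vF t Q k) := by
  have h : Continuous fun g : U2 => Geo927.vv t Q (g : Matrix (Fin 2) (Fin 2) ℂ) (kq hQ k) :=
    (Geo927.continuous_vv Q (kq hQ k)).comp continuous_subtype_val
  have h2 : vF t Q k = fun g : U2 => WithLp.toLp 2 (Geo927.vv t Q g (kq hQ k)) := by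
    funext g; exact vF_eq hQ t k g
  rw [h2]
  exact (PiLp.continuous_toLp 2 _).comp h

theorem sm_uF {Q : ℕ} (hQ : 1 ≤ Q) (k : Fin 2) : StronglyMeasurable (uF Q k) :=
  (continuous_uF hQ k).stronglyMeasurable

theorem sm_vF {Q : ℕ} (hQ : 1 ≤ Q) (t : Fin 3 → ℝ) (k : Fin 2) : StronglyMeasurable (vF t Q k) :=
  (continuous_vF hQ t k).stronglyMeasurable

/-! ### measures -/

/-- `(Q+1)` times the Haar probability measure -/
noncomputable def muQ (Q : ℕ) : Measure U2 := ((Q + 1 : ℕ) : ℝ≥0∞) • hm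

/-- `(2Q-1)` times the Haar probability measure -/
noncomputable def nuQ (Q : ℕ) : Measure U2 := ((2 * Q - 1 : ℕ) : ℝ≥0∞) • hm

instance (Q : ℕ) : IsFiniteMeasure (muQ Q) := by
  unfold muQ
  refine ⟨?_⟩
  rw [Measure.smul_apply, smul_eq_mul]
  exact ENNReal.mul_lt_top (ENNReal.natCast_lt_top _) (measure_lt_top _ _)

instance (Q : ℕ) : IsFiniteMeasure (nuQ Q) := by
  unfold nuQ
  refine ⟨?_⟩
  rw [Measure.smul_apply, smul_eq_mul]
  exact ENNReal.mul_lt_top (ENNReal.natCast_lt_top _) (measure_lt_top _ _)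

theorem integral_muQ {E : Type*} [NormedAddCommGroup E] [NormedSpace ℝ E] (Q : ℕ) (f : U2 → E) :
    ∫ g, f g ∂(muQ Q) = ((Q : ℝ) + 1) • ∫ g, f g ∂hm := by
  rw [muQ, integral_smul_measure, ENNReal.toReal_natCast]
  push_cast
  rfl

theorem integral_nuQ {E : Type*} [NormedAddCommGroup E] [NormedSpace ℝ E] (Q : ℕ) (f : U2 → E) :
    ∫ g, f g ∂(nuQ Q) = ((2 * Q - 1 : ℕ) : ℝ) • ∫ g, f g ∂hm := by
  rw [nuQ, integral_smul_measure, ENNReal.toReal_natCast]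

theorem lintegral_muQ (Q : ℕ) (f : U2 → ℝ≥0∞) :
    ∫⁻ g, f g ∂(muQ Q) = ((Q + 1 : ℕ) : ℝ≥0∞) * ∫⁻ g, f g ∂hm := by
  rw [muQ, lintegral_smul_measure, smul_eq_mul]

theorem lintegral_nuQ (Q : ℕ) (f : U2 → ℝ≥0∞) :
    ∫⁻ g, f g ∂(nuQ Q) = ((2 * Q - 1 : ℕ) : ℝ≥0∞) * ∫⁻ g, f g ∂hm := by
  rw [nuQ, lintegral_smul_measure, smul_eq_mul]

theorem integrable_muQ {E : Type*} [NormedAddCommGroup E] {f : U2 → E} (Q : ℕ) (h : Continuous f) :
    Integrable f (muQ Q) :=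
  (integrable_of_cont h).smul_measure (ENNReal.natCast_ne_top _)

theorem integrable_nuQ {E : Type*} [NormedAddCommGroup E] {f : U2 → E} (Q : ℕ) (h : Continuous f) :
    Integrable f (nuQ Q) :=
  (integrable_of_cont h).smul_measure (ENNReal.natCast_ne_top _)

/-! ### resolution of the identity -/

theorem continuous_inner_smul {Q : ℕ} (hQ : 1 ≤ Q) (k : Fin 2) (x : L (Fin (Q + 1))) :
    Continuous fun g : U2 => (inner ℂ (uF Q k g) x : ℂ) • uF Q k g := by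
  have h1 : Continuous fun g : U2 => (inner ℂ (uF Q k g) x : ℂ) :=
    Continuous.inner (𝕜 := ℂ) (continuous_uF hQ k) continuous_const
  exact h1.smul (continuous_uF hQ k)

theorem reso {Q : ℕ} (hQ : 1 ≤ Q) (k : Fin 2) : Reso (muQ Q) (uF Q k) where
  int x := integrable_muQ Q (continuous_inner_smul hQ k x)
  res x := by
    have hc := continuous_inner_smul hQ k x
    ext i
    have h1 := (EuclideanSpace.proj i : L (Fin (Q + 1)) →L[ℂ] ℂ).integral_comp_comm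
      (integrable_muQ Q hc)
    have h2 : (∫ g, (inner ℂ (uF Q k g) x : ℂ) • uF Q k g ∂(muQ Q)) i =
        ∫ g, ((inner ℂ (uF Q k g) x : ℂ) • uF Q k g) i ∂(muQ Q) := h1.symm
    rw [h2, integral_muQ]
    have h3 : ∀ g : U2, ((inner ℂ (uF Q k g) x : ℂ) • uF Q k g) i =
        ∑ j, x j * (sp Q (g : Matrix (Fin 2) (Fin 2) ℂ) i (kq hQ k) *
          star (sp Q (g : Matrix (Fin 2) (Fin 2) ℂ) j (kq hQ k))) := by
      intro g
      rw [PiLp.smul_apply, smul_eq_mul, inner_eq_sum, Finset.sum_mul]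
      refine Finset.sum_congr rfl fun j _ => ?_
      rw [uF_apply hQ, uF_apply hQ, Complex.star_def]
      ring
    simp only [h3]
    rw [integral_finsetSum]
    · have h4 : ∀ j : Fin (Q + 1), ∫ g : U2, x j * (sp Q (g : Matrix (Fin 2) (Fin 2) ℂ) i (kq hQ k) *
          star (sp Q (g : Matrix (Fin 2) (Fin 2) ℂ) j (kq hQ k))) ∂hm =
          if i = j then x j * ((Q : ℂ) + 1)⁻¹ else 0 := by
        intro j
        rw [integral_const_mul, schur]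
        by_cases hij : i = j <;> simp [hij]
      simp only [h4]
      rw [Finset.sum_ite_eq, if_pos (Finset.mem_univ i)]
      have h5 : (((Q : ℝ) + 1 : ℝ) : ℂ) = (Q : ℂ) + 1 := by push_cast; rfl
      have h6 : (Q : ℂ) + 1 ≠ 0 := by exact_mod_cast Nat.succ_ne_zero Q
      rw [← Complex.coe_smul, smul_eq_mul, h5]
      field_simp
    · intro j _
      exact (integrable_cf Q i (kq hQ k) j (kq hQ k)).const_mul _

/-! ### the law of the distance -/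

/-- `1 - |⟨u_0(w), u_0(z)⟩|^{2/Q}`, a quarter of the squared chordal distance -/
noncomputable def tw (w z : U2) : ℝ := 1 - ov w z

theorem bw_tw (w z : U2) {Q j : ℕ} (hj : j ≤ Q) : PD757.bw Q j (tw w z) =
    ‖sp Q ((w : Matrix (Fin 2) (Fin 2) ℂ)ᴴ * (z : Matrix (Fin 2) (Fin 2) ℂ))
      ⟨j, Nat.lt_succ_of_le hj⟩ 0‖ ^ 2 := by
  have h1 := ent_col0 (rel_unit w z)
  have h2 : tw w z =
      ‖((w : Matrix (Fin 2) (Fin 2) ℂ)ᴴ * (z : Matrix (Fin 2) (Fin 2) ℂ)) 1 0‖ ^ 2 := by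
    rw [tw, ov]; linarith
  have h3 : 1 - tw w z =
      ‖((w : Matrix (Fin 2) (Fin 2) ℂ)ᴴ * (z : Matrix (Fin 2) (Fin 2) ℂ)) 0 0‖ ^ 2 := by
    rw [h2]; linarith
  rw [PD757.bw, h3, h2, sp_j_zero]
  simp only [norm_mul, norm_pow, norm_sb, mul_pow, sb_sq]
  ring

theorem continuous_rel (w : U2) : Continuous fun z : U2 =>
    ((w : Matrix (Fin 2) (Fin 2) ℂ)ᴴ * (z : Matrix (Fin 2) (Fin 2) ℂ)) :=
  continuous_const.mul continuous_subtype_val

theorem continuous_tw (w : U2) : Continuous (tw w) := by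
  unfold tw ov
  have h : Continuous fun z : U2 =>
      ((w : Matrix (Fin 2) (Fin 2) ℂ)ᴴ * (z : Matrix (Fin 2) (Fin 2) ℂ)) 0 0 :=
    (continuous_apply_apply 0 0).comp (continuous_rel w)
  exact continuous_const.sub (h.norm.pow 2)

theorem tau_tw (w : U2) : PD757.Tau hm (tw w) where
  fin := inferInstance
  meas := (continuous_tw w).measurable
  nonneg z := by have := ov_le_one w z; rw [tw]; linarith
  le_one z := by have := ov_nonneg w z; rw [tw]; linarith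
  mom Q j hj := by
    have h1 : ∀ z : U2, PD757.bw Q j (tw w z) =
        (fun z : U2 => ‖sp Q (z : Matrix (Fin 2) (Fin 2) ℂ) ⟨j, Nat.lt_succ_of_le hj⟩ 0‖ ^ 2)
          (w⁻¹ * z) := by
      intro z
      rw [bw_tw w z hj]
      rfl
    simp only [h1]
    rw [integral_mul_left_eq_self (μ := (hm : Measure U2))
      (fun z : U2 => ‖sp Q (z : Matrix (Fin 2) (Fin 2) ℂ) ⟨j, Nat.lt_succ_of_le hj⟩ 0‖ ^ 2) w⁻¹]
    have h2 := schur Q ⟨j, Nat.lt_succ_of_le hj⟩ 0 ⟨j, Nat.lt_succ_of_le hj⟩ 0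
    rw [if_pos ⟨rfl, rfl⟩] at h2
    have h3 : ∀ z : U2, sp Q (z : Matrix (Fin 2) (Fin 2) ℂ) ⟨j, Nat.lt_succ_of_le hj⟩ 0 *
        star (sp Q (z : Matrix (Fin 2) (Fin 2) ℂ) ⟨j, Nat.lt_succ_of_le hj⟩ 0) =
        ((‖sp Q (z : Matrix (Fin 2) (Fin 2) ℂ) ⟨j, Nat.lt_succ_of_le hj⟩ 0‖ ^ 2 : ℝ) : ℂ) := by
      intro z
      rw [Complex.star_def, Complex.mul_conj, Complex.normSq_eq_norm_sq]
    simp only [h3] at h2
    have h5 : ∫ z : U2, ((‖sp Q (z : Matrix (Fin 2) (Fin 2) ℂ) ⟨j, Nat.lt_succ_of_le hj⟩ 0‖ ^ 2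
        : ℝ) : ℂ) ∂hm = ((∫ z : U2, ‖sp Q (z : Matrix (Fin 2) (Fin 2) ℂ)
          ⟨j, Nat.lt_succ_of_le hj⟩ 0‖ ^ 2 ∂hm : ℝ) : ℂ) := integral_ofReal
    have h4 : (((1 / ((Q : ℝ) + 1) : ℝ)) : ℂ) = ((Q : ℂ) + 1)⁻¹ := by push_cast; simp
    rw [h5, ← h4] at h2
    exact Complex.ofReal_injective h2

end Crest.Agent.R340.LocT163
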