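import Crest.Agent.R340.FX2_963
import Crest.Agent.R340.Defs_150
import Crest.Agent.R340.LR5_667
import Crest.Agent.R340.LocT3_163
import Crest.Agent.R340.Vac1_467

/-!
R340 (helper963): adapter (B) of (TZ).  From an operator identity
`P dG(f) (1-P) dG(F) P = ∫ P T_g P dν(g)`, `ν = (2Q-1) Haar`, to the real form of `Defs150.TZ` on
every sector, with self-adjoint `T'_g` in the class about `g`.
-/

set_option autoImplicit false
set_option linter.unusedSectionVars false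

open MeasureTheory Matrix

namespace Crest.Agent.R340.TzB963

open Crest.Agent.R340.Fock649 Crest.Agent.R340.GG467 Crest.Agent.R340.QL331
  Crest.Agent.R340.FI331 Crest.Agent.R340.CS809 Crest.Agent.R340.Rot303 Crest.Agent.R340.FX963
open Crest.Agent.R340.Geo986 (Zs)
open Crest.Agent.R340.Peel596 (Zn)
open Crest.Agent.R340.PathStep880 (off TT off_Zn TT_Nh gm)
open Crest.Agent.R340.Avg814 (G2 hm tt)
open Crest.Agent.R340.LR667 (dg)

noncomputable section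

variable {Q : ℕ}

/-- the normalised self-adjoint part -/
def Tp (κ : ℝ) (Q : ℕ) (T : U2 → Op (Fin (Q + 1))) (g : U2) : Op (Fin (Q + 1)) :=
  ((κ / ((Q : ℝ) + 1) / 2 : ℝ) : ℂ) • (T g + star (T g))

theorem continuous_Tp {κ : ℝ} {T : U2 → Op (Fin (Q + 1))} (hT : Continuous T) :
    Continuous (Tp κ Q T) := by
  have h : Continuous fun g => T g + star (T g) := hT.add (continuous_star.comp hT)
  exact h.const_smul ((κ / ((Q : ℝ) + 1) / 2 : ℝ) : ℂ)

theorem isSelfAdjoint_Tp (κ : ℝ) (T : U2 → Op (Fin (Q + 1))) (g : U2) :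
    IsSelfAdjoint (Tp κ Q T g) := by
  have h : star (Tp κ Q T g) = Tp κ Q T g := by
    unfold Tp
    rw [star_smul, star_add, star_star, RCLike.star_def, Complex.conj_ofReal,
      add_comm (star (T g)) (T g)]
  exact h

theorem commute_star_Nh {X : Op (Fin (Q + 1))} (h : Commute X (Nh : Op (Fin (Q + 1)))) :
    Commute (star X) (Nh : Op (Fin (Q + 1))) := by
  have := h.star_star
  rwa [FX963.star_Nh] at this

theorem commute_Tp {κ : ℝ} {T : U2 → Op (Fin (Q + 1))} {g : U2}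
    (h : Commute (T g) (Nh : Op (Fin (Q + 1)))) : Commute (Tp κ Q T g) (Nh : Op (Fin (Q + 1))) := by
  unfold Tp
  exact (h.add_left (commute_star_Nh h)).smul_left _

theorem pc_Tp {κ : ℝ} (hκ : 0 ≤ κ) {m : ℕ} {C : ℝ} {T : U2 → Op (Fin (Q + 1))} {g : U2}
    (h : PC (Rq Q) (uf Q) (dQ Q) m C (T g) g) :
    PC (Rq Q) (uf Q) (dQ Q) m (κ / ((Q : ℝ) + 1) * C) (Tp κ Q T g) g := by
  have h1 := (h.add h.star).smul ((κ / ((Q : ℝ) + 1) / 2 : ℝ) : ℂ)
  rw [Complex.norm_real, Real.norm_of_nonneg (by positivity)] at h1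
  unfold Tp
  convert h1 using 1
  ring

theorem re_inner_star (A : Op (Fin (Q + 1))) (ψ : Fk (Fin (Q + 1))) :
    (inner ℂ ψ ((star A) ψ)).re = (inner ℂ ψ (A ψ)).re := by
  rw [inner_star_right, ← inner_conj_symm, Complex.conj_re]

theorem re_inner_Tp (κ : ℝ) (T : U2 → Op (Fin (Q + 1))) (g : U2) (ψ : Fk (Fin (Q + 1))) :
    (inner ℂ ψ ((Tp κ Q T g) ψ)).re = κ / ((Q : ℝ) + 1) * (inner ℂ ψ ((T g) ψ)).re := by
  have e : (Tp κ Q T g) ψ = ((κ / ((Q : ℝ) + 1) / 2 : ℝ) : ℂ) • ((T g) ψ + (star (T g)) ψ) := rfl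
  rw [e, inner_smul_right, Complex.re_ofReal_mul, inner_add_right, Complex.add_re, re_inner_star]
  ring

theorem re_inner_integral {f : U2 → Op (Fin (Q + 1))} (hf : Continuous f) (r : ℝ)
    (ψ : Fk (Fin (Q + 1))) :
    (inner ℂ ψ ((r • ∫ g, f g ∂hm) ψ)).re = r * ∫ g, (inner ℂ ψ ((f g) ψ)).re ∂hm := by
  have hint : Integrable f hm := Crest.Agent.R124.Haar.integrable_of_cont (N := Fin 2) hf
  have e0 : ((r • ∫ g, f g ∂hm) : Op (Fin (Q + 1))) = ((r : ℝ) : ℂ) • ∫ g, f g ∂hm :=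
    (Complex.coe_smul r _).symm
  have e : (((r : ℝ) : ℂ) • ∫ g, f g ∂hm : Op (Fin (Q + 1))) ψ =
      ((r : ℝ) : ℂ) • ((∫ g, f g ∂hm : Op (Fin (Q + 1))) ψ) := rfl
  rw [e0, e, inner_smul_right, Complex.re_ofReal_mul]
  congr 1
  have h1 : (∫ g, f g ∂hm : Op (Fin (Q + 1))) ψ = ∫ g, (f g) ψ ∂hm :=
    Crest.Agent.R340.Avg814.integral_ap hint ψ
  have hint2 : Integrable (fun g => (f g) ψ) hm := by
    refine Crest.Agent.R124.Haar.integrable_of_cont (N := Fin 2) ?_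
    exact (Crest.Agent.R340.Avg814.evL ψ).continuous.comp hf
  have hint3 : Integrable (fun g => inner ℂ ψ ((f g) ψ)) hm := hint2.const_inner ψ
  rw [h1, ← integral_inner hint2]
  have h2 := integral_re hint3
  exact h2.symm

/-- the two forms on the sector -/
theorem adapter_form {ν : ℕ → ℝ} {f F : ℕ → ℝ} {n : ℕ} {ψ : Fk (Fin (Q + 1))}
    (hψ : ψ ∈ Zn ν Q n) :
    (inner ℂ (off (Zn ν Q n) (TT Q f ψ)) (off (Zn ν Q n) (TT Q F ψ))).re =
      (inner ℂ ψ ((pj (Zs ν Q) * dG (dg fun i : Fin (Q + 1) => f i) * (1 - pj (Zs ν Q)) *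
        dG (dg fun i : Fin (Q + 1) => F i) * pj (Zs ν Q)) ψ)).re := by
  have hN : ∀ G : ℕ → ℝ, (Nh : Op (Fin (Q + 1))) (TT Q G ψ) = (n : ℂ) • TT Q G ψ := by
    intro G
    rw [TT_Nh, hψ.2, map_smul]
  have ho : ∀ G : ℕ → ℝ, off (Zn ν Q n) (TT Q G ψ) =
      ((1 - pj (Zs ν Q)) * dG (dg fun i : Fin (Q + 1) => G i)) ψ := by
    intro G
    rw [off_Zn (hN G), mul_ap]
    rfl
  rw [ho, ho]
  have hP : star (pj (Zs ν Q)) = pj (Zs ν Q) := star_pj _
  have h1 : star (1 - pj (Zs ν Q)) = 1 - pj (Zs ν Q) := by rw [star_sub, star_one, hP]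
  have h2 : (1 - pj (Zs ν Q)) * (1 - pj (Zs ν Q)) = 1 - pj (Zs ν Q) := by
    rw [sub_mul, mul_sub, mul_sub, pj_mul_self]; simp
  have hpψ : pj (Zs ν Q) ψ = ψ := pj_of_mem hψ.1
  have hD : star (dG (dg fun i : Fin (Q + 1) => f i)) = dG (dg fun i : Fin (Q + 1) => f i) := by
    rw [star_dG]
    congr 1
    unfold dg
    rw [Matrix.diagonal_conjTranspose]
    congr 1
    funext i
    simp
  set P := pj (Zs ν Q) with hPdef
  set A := dG (dg fun i : Fin (Q + 1) => f i) with hA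
  set B := dG (dg fun i : Fin (Q + 1) => F i) with hB
  have e1 : inner ℂ (((1 - P) * A) ψ) (((1 - P) * B) ψ) =
      inner ℂ ψ ((star ((1 - P) * A) * ((1 - P) * B)) ψ) := by
    rw [mul_ap (star ((1 - P) * A)), inner_star_right]
  have e2 : star ((1 - P) * A) * ((1 - P) * B) = A * (1 - P) * B := by
    rw [star_mul, h1, hD]
    calc A * (1 - P) * ((1 - P) * B) = A * ((1 - P) * (1 - P)) * B := by noncomm_ring
      _ = A * (1 - P) * B := by rw [h2]
  have e3 : inner ℂ ψ ((P * A * (1 - P) * B * P) ψ) = inner ℂ ψ ((A * (1 - P) * B) ψ) := by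
    have e4 : (P * A * (1 - P) * B * P : Op (Fin (Q + 1))) = star P * ((A * (1 - P) * B) * P) := by
      rw [hP]; noncomm_ring
    rw [e4, mul_ap (star P), inner_star_right, hpψ, mul_ap _ P, hpψ]
  rw [e1, e2, e3]

/-- **(B) the adapter.** -/
theorem adapter {ν : ℕ → ℝ} {f F : ℕ → ℝ} {T : U2 → Op (Fin (Q + 1))} (hT : Continuous T)
    (hTN : ∀ g, Commute (T g) (Nh : Op (Fin (Q + 1))))
    (hid : pj (Zs ν Q) * dG (dg fun i : Fin (Q + 1) => f i) * (1 - pj (Zs ν Q)) *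
        dG (dg fun i : Fin (Q + 1) => F i) * pj (Zs ν Q) =
      ∫ g, pj (Zs ν Q) * T g * pj (Zs ν Q) ∂(LocT163.nuQ Q))
    {k : ℕ} {C : U2 → ℝ} (hC : ∀ g, PC (Rq Q) (uf Q) (dQ Q) (k + 5) (C g) (T g) g) :
    ∃ T' : G2 → Op (Fin (Q + 1)), Continuous T' ∧
      (∀ g, Defs150.DyG (k + 1) Q (2 * KB k * C g) g (T' g)) ∧
      ∀ n : ℕ, ∀ ψ ∈ Zn ν Q n,
        (inner ℂ (off (Zn ν Q n) (TT Q f ψ)) (off (Zn ν Q n) (TT Q F ψ))).re =
        (inner ℂ ψ ((((Q : ℝ) + 1) • ∫ g, T' g ∂hm) ψ)).re := by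
  set κ : ℝ := ((2 * Q - 1 : ℕ) : ℝ) with hκdef
  have hκ : 0 ≤ κ := Nat.cast_nonneg _
  have hκ2 : κ / ((Q : ℝ) + 1) ≤ 2 := by
    rw [div_le_iff₀ (by positivity)]
    have : ((2 * Q - 1 : ℕ) : ℝ) ≤ ((2 * Q : ℕ) : ℝ) := by exact_mod_cast Nat.sub_le _ _
    push_cast at this
    rw [hκdef]
    linarith
  refine ⟨Tp κ Q T, continuous_Tp hT, fun g => ?_, fun n ψ hψ => ?_⟩
  · have h1 := pc_Tp hκ (hC g)
    have h0 : 0 ≤ C g := (hC g).nonneg
    have h2 := DY.of_pc_rot (commute_Tp (κ := κ) (hTN g)) h1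
    refine ⟨isSelfAdjoint_cj (isSelfAdjoint_Tp κ T g), ?_⟩
    have h3 : KB k * (κ / ((Q : ℝ) + 1) * C g) ≤ 2 * KB k * C g := by
      have := KB_pos k
      calc KB k * (κ / ((Q : ℝ) + 1) * C g) ≤ KB k * (2 * C g) := by gcongr
        _ = _ := by ring
    exact h2.mono h3
  · rw [adapter_form hψ, hid, LocT163.integral_nuQ, re_inner_integral (continuous_Tp hT)]
    have hcont : Continuous fun g => pj (Zs ν Q) * T g * pj (Zs ν Q) :=
      (continuous_const.mul hT).mul continuous_const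
    have e1 := re_inner_integral hcont κ ψ
    rw [e1]
    have hpψ : pj (Zs ν Q) ψ = ψ := pj_of_mem hψ.1
    have e2 : ∀ g, (inner ℂ ψ ((pj (Zs ν Q) * T g * pj (Zs ν Q)) ψ)).re =
        (inner ℂ ψ ((T g) ψ)).re := by
      intro g
      have e4 : (pj (Zs ν Q) * T g * pj (Zs ν Q) : Op (Fin (Q + 1))) =
          star (pj (Zs ν Q)) * (T g * pj (Zs ν Q)) := by
        rw [star_pj]; noncomm_ring
      rw [e4, mul_ap (star (pj (Zs ν Q))), inner_star_right, hpψ, mul_ap _ (pj (Zs ν Q)), hpψ]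
    simp_rw [e2, re_inner_Tp]
    rw [integral_const_mul]
    field_simp

end

end Crest.Agent.R340.TzB963
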