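import Crest.Agent.R340.BBP_120
import Crest.Agent.R340.FI2_331
import Crest.Agent.R340.Tz4_877

/-!
# R340 (helper757): frame data for `T_z` (part (C) of 877's list)

`schur_muQ`, `reso_uf`, `locV_theta` : the structures `Schur`, `Reso`, `LocV` for `muQ Q`, `uf Q`,
`vF t Q k g`, with absolute constants.
-/

set_option autoImplicit false

open MeasureTheory
open scoped ENNReal NNReal

namespace Crest.Agent.R340.TzC757

open Crest.Agent.R340.Fock649 Crest.Agent.R340.CS809 Crest.Agent.R340.Avg814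
  Crest.Agent.R340.Rot303 Crest.Agent.R340.LocT163 Crest.Agent.R340.FI331
open Crest.Agent.R340.PV341 (Adm)

theorem muQ_eq (Q : ℕ) : muQ Q = ((Q + 1 : ℕ) : ℝ≥0) • hm := by
  unfold muQ
  ext s hs
  rw [Measure.smul_apply, Measure.smul_apply, ENNReal.smul_def]
  push_cast
  rfl

/-- **Schur data** for `muQ Q` -/
theorem schur_muQ {Q : ℕ} (hQ : 1 ≤ Q) : QL331.Schur (muQ Q) (uf Q) (dQ Q) 1 Kg := by
  rw [muQ_eq]
  refine schur_inst hQ ?_
  have : (1 : ℝ) ≤ Q := by exact_mod_cast hQ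
  push_cast
  linarith

/-- **resolution of the identity** by the localised vectors -/
theorem reso_uf {Q : ℕ} (hQ : 1 ≤ Q) (k : Fin 2) : Reso (muQ Q) (uf Q k) := by
  rw [BBP120.uf_eq_uF' hQ]
  exact reso hQ k

/-- constant of `locV_theta` -/
noncomputable def cV (M : ℕ) : ℝ := Kd 0 * ((M.factorial : ℝ) * Real.exp 1)

theorem cV_nonneg (M : ℕ) : 0 ≤ cV M := by
  have := Kd_nonneg 0
  unfold cV; positivity

/-- **the dilated frame vectors are localised**, uniformly in `Q ≥ 1`, `t`, `g`. -/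
theorem locV_theta {Q : ℕ} (hQ : 1 ≤ Q) {t : Fin 3 → ℝ} (ht : Adm t) (k : Fin 2) (g : U2) :
    Tz877.LocV (uf Q) (dQ Q) (vF t Q k g) g cV := by
  intro M w
  have h := inner_decay (μ := 0) le_rfl hQ ht 0 k w g
  rw [zero_mul, Real.exp_zero, mul_one] at h
  rw [BBP120.uf_eq_uF hQ]
  refine h.trans ?_
  have hd := dQ_nonneg Q w g
  have h2 := BBP120.one_add_pow_le M hd
  have hK := Kd_nonneg 0
  have hp : 0 < (1 + dQ Q w g) ^ M := by positivity
  rw [cV, mul_one_div, le_div_iff₀ hp]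
  calc Kd 0 * Real.exp (-dQ Q w g) * (1 + dQ Q w g) ^ M
      ≤ Kd 0 * Real.exp (-dQ Q w g) * ((M.factorial : ℝ) * Real.exp 1 * Real.exp (dQ Q w g)) := by
        gcongr
    _ = Kd 0 * ((M.factorial : ℝ) * Real.exp 1) * (Real.exp (-dQ Q w g) * Real.exp (dQ Q w g)) := by
        ring
    _ = _ := by rw [← Real.exp_add]; simp

/-- the undilated frame vectors are localised too -/
theorem locV_uf {Q : ℕ} (hQ : 1 ≤ Q) (k : Fin 2) (g : U2) :
    Tz877.LocV (uf Q) (dQ Q) (uf Q k g) g Kg := by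
  intro M w
  have h := norm_inner_uf_le hQ 0 k w g
  have h2 := Kg_le M (dQ_nonneg Q w g)
  have h3 : (12 : ℝ) * Real.exp (-(dQ Q w g ^ 2 / 16)) ≤ 48 * Real.exp (-(dQ Q w g ^ 2 / 16)) := by
    have := Real.exp_pos (-(dQ Q w g ^ 2 / 16))
    linarith
  rw [mul_one_div]
  exact h.trans (h3.trans h2)

/-- existence form of `locV_theta` -/
theorem exists_locV : ∃ c : ℕ → ℝ, (∀ M, 0 ≤ c M) ∧ ∀ Q : ℕ, 1 ≤ Q → ∀ t : Fin 3 → ℝ, Adm t →
    ∀ (k : Fin 2) (g : U2), Tz877.LocV (uf Q) (dQ Q) (vF t Q k g) g c :=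
  ⟨cV, cV_nonneg, fun _ hQ _ ht k g => locV_theta hQ ht k g⟩

end Crest.Agent.R340.TzC757
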