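import Crest.Agent.R340.Tz7_877
import Crest.Agent.R340.Tz4_877
import Crest.Agent.R340.TzL_757
import Crest.Agent.R340.TzC_757
import Crest.Agent.R340.TzP_421
import Crest.Agent.R340.TzB_963
import Crest.Agent.R340.Tth4_927
import Crest.Agent.R340.Defs_150

/-!
# Row 340, block O10: **(TZ)**, the local decomposition of the cross term (helper877)
-/

set_option autoImplicit false

namespace Crest.Agent.R340.Tz877

open Finset Complex MeasureTheory
open Crest.Agent.R340.Fock649 Crest.Agent.R340.FI331 Crest.Agent.R340.QL331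
open Crest.Agent.R340.LR667
open Crest.Agent.R340.CS809 (U2 dQ dQ_nonneg)
open Crest.Agent.R340.Avg814 (G2 hm tt norm_00 continuous_tt)
open Crest.Agent.R340.LocT163 (nuQ muQ HT bT vF continuous_bT HT_eq integrable_nuQ
  isSelfAdjoint_HT HT_mul_pj bT_mul_pj)
open Crest.Agent.R340.Geo986 (Zs nuT nu0 GapG)
open Crest.Agent.R340.GG467 (pj isSelfAdjoint_pj)
open Crest.Agent.R340.PV341 (Adm)
open Crest.Agent.R340.Step596 (tA)
open Crest.Agent.R340.PathStep880 (gm adm_tA)
open Crest.Agent.R340.Scal725 (prof)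

/-- `-∑_{k<3} log (i+k+1)` -/
noncomputable def G3 (i : ℕ) : ℝ := -((Real.log (i + 1) + Real.log (i + 2)) + Real.log (i + 3))

/-- its value at a real point -/
noncomputable def a3 (m : ℝ) : ℝ := -((Real.log (m + 1) + Real.log (m + 2)) + Real.log (m + 3))

/-- its slope -/
noncomputable def b3 (m : ℝ) : ℝ := -((1 / (m + 1) + 1 / (m + 2)) + 1 / (m + 3))

/-- the linearised metric profile about `z` -/
noncomputable def Xm (Q : ℕ) (z : U2) : Matrix (Fin (Q + 1)) (Fin (Q + 1)) ℂ :=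
  dg fun j : Fin (Q + 1) => G3 (Q - j) - a3 (Q * (1 - tt z)) -
    b3 (Q * (1 - tt z)) * (((Q - (j : ℕ) : ℕ) : ℝ) - Q * (1 - tt z))

/-- a linearised profile about `z` -/
noncomputable def Bm (Q : ℕ) (f : ℕ → ℝ) (α β : ℝ → ℝ) (z : U2) :
    Matrix (Fin (Q + 1)) (Fin (Q + 1)) ℂ :=
  dg fun j : Fin (Q + 1) => f j - α (Q * tt z) - β (Q * tt z) * (((j : ℕ) : ℝ) - Q * tt z)

theorem Xm_eq (Q : ℕ) (z : U2) : Xm Q z = dg fun j : Fin (Q + 1) => gm 3 Q j -
    (a3 (Q * (1 - tt z)) + b3 (Q * (1 - tt z)) * (Q - Q * (1 - tt z))) -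
      (-b3 (Q * (1 - tt z))) * ((j : ℕ) : ℝ) := by
  unfold Xm
  congr 1
  funext j
  have hj : (j : ℕ) ≤ Q := Nat.lt_succ_iff.1 j.2
  rw [gm_three Q j hj, Nat.cast_sub hj]
  unfold G3
  rw [Nat.cast_sub hj]
  ring

theorem Bm_eq (Q : ℕ) (f : ℕ → ℝ) (α β : ℝ → ℝ) (z : U2) : Bm Q f α β z =
    dg fun j : Fin (Q + 1) => f j - (α (Q * tt z) - β (Q * tt z) * (Q * tt z)) -
      β (Q * tt z) * ((j : ℕ) : ℝ) := by
  unfold Bm
  congr 1
  funext j
  ring

theorem tt_nonneg (z : U2) : 0 ≤ tt z := sq_nonneg _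

theorem tt_le_one (z : U2) : tt z ≤ 1 := by
  have := norm_00 z
  nlinarith [sq_nonneg ‖(z : Matrix (Fin 2) (Fin 2) ℂ) 0 0‖]

theorem continuous_dg {Q : ℕ} {f : U2 → Fin (Q + 1) → ℝ} (h : ∀ j, Continuous fun z => f z j) :
    Continuous fun z => dg (f z) := by
  unfold dg
  refine Continuous.matrix_diagonal (continuous_pi fun j => ?_)
  exact Complex.continuous_ofReal.comp (h j)

theorem continuous_Xm (Q : ℕ) : Continuous (Xm Q) := by
  have ht : Continuous (fun z : U2 => tt z) := continuous_tt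
  have hp : ∀ (z : U2) (k : ℝ), 0 < k → (Q : ℝ) * (1 - tt z) + k ≠ 0 := fun z k hk => by
    have h1 := sub_nonneg.2 (tt_le_one z)
    positivity
  have hl : Continuous fun z : U2 => (Q : ℝ) * (1 - tt z) :=
    continuous_const.mul (continuous_const.sub ht)
  refine continuous_dg fun j => ?_
  have ha : Continuous fun z : U2 => a3 (Q * (1 - tt z)) := by
    unfold a3
    refine (((hl.add continuous_const).log fun z => hp z 1 one_pos).add
      ((hl.add continuous_const).log fun z => hp z 2 two_pos)).add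
      ((hl.add continuous_const).log fun z => hp z 3 three_pos) |>.neg
  have hb : Continuous fun z : U2 => b3 (Q * (1 - tt z)) := by
    unfold b3
    refine (((continuous_const.div (hl.add continuous_const) fun z => hp z 1 one_pos).add
      (continuous_const.div (hl.add continuous_const) fun z => hp z 2 two_pos)).add
      (continuous_const.div (hl.add continuous_const) fun z => hp z 3 three_pos)).neg
  exact (continuous_const.sub ha).sub (hb.mul (continuous_const.sub hl))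

theorem continuous_Bm (Q : ℕ) (f : ℕ → ℝ) {α β : ℝ → ℝ} (hα : Continuous α) (hβ : Continuous β) :
    Continuous (Bm Q f α β) := by
  have ht : Continuous (fun z : U2 => tt z) := continuous_tt
  have hl : Continuous fun z : U2 => (Q : ℝ) * tt z := continuous_const.mul ht
  refine continuous_dg fun j => ?_
  exact (continuous_const.sub (hα.comp hl)).sub ((hβ.comp hl).mul (continuous_const.sub hl))

/-- the constants of the metric profile -/
noncomputable def c3 (M : ℕ) : ℝ :=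
  kC (fun p => 1826 * cLin p + 1826 * cLin p + 1826 * cLin p) (1 + 1 + 1) M

theorem c3_nonneg (M : ℕ) : 0 ≤ c3 M :=
  kC_nonneg (linD_gm 0).C_nonneg (linD_gm 0).CL_nonneg M

theorem kbd_Xm (Q : ℕ) (z : U2) : KBd (uf Q) (dQ Q) (Xm Q z) z 12
    ((1 + Q * tt z * (1 - tt z)) * (1 / (1 + Q * (1 - tt z)) ^ 2)) c3 :=
  kbd_south (linD_gm Q) z

/-! ### continuity and particle number -/

theorem continuous_Top {Q : ℕ} (hQ : 1 ≤ Q) (t : Fin 3 → ℝ) {w : ℝ → ℝ} (hw : IsFilter w)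
    {X B : U2 → Matrix (Fin (Q + 1)) (Fin (Q + 1)) ℂ} (hX : Continuous X) (hB : Continuous B) :
    Continuous fun z => Top w (HT t Q) (vF t Q 1 z) (vF t Q 0 z) (X z) (B z) := by
  have hH := isSelfAdjoint_HT t Q
  have hb : Continuous fun z => an (vF t Q 1 z) * an (vF t Q 0 z) := continuous_bT hQ t
  have hdX : Continuous fun z => dG (X z) := (Avg814.continuous_dG Q).comp hX
  have hdB : Continuous fun z => dG (B z) := (Avg814.continuous_dG Q).comp hB
  have hS : Continuous fun z => SS w (HT t Q) (dG (B z)) := by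
    have h := (Filt867.SSL hw hH).continuous.comp hdB
    exact h
  have hs : Continuous fun z => star (an (vF t Q 1 z) * an (vF t Q 0 z)) :=
    continuous_star.comp hb
  unfold Top
  simp only [Ring.lie_def]
  exact ((((hdX.mul hs).sub (hs.mul hdX)).mul ((hb.mul hS).sub (hS.mul hb))).const_smul I).neg

section shift

variable {R : Type*} [Ring R] [Algebra ℂ R] {N A B : R} {a b : ℂ}

theorem lie_shift (hA : N * A - A * N = a • A) (hB : N * B = B * N) :
    N * ⁅A, B⁆ - ⁅A, B⁆ * N = a • ⁅A, B⁆ := by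
  have e : N * (A * B - B * A) - (A * B - B * A) * N =
      (N * A - A * N) * B + A * (N * B - B * N) - (N * B - B * N) * A - B * (N * A - A * N) := by
    noncomm_ring
  rw [Ring.lie_def, e, hA, hB, sub_self, mul_zero, zero_mul, add_zero, sub_zero, smul_mul_assoc,
    mul_smul_comm, smul_sub]

theorem lie_shift' (hA : N * A - A * N = a • A) (hB : N * B = B * N) :
    N * ⁅B, A⁆ - ⁅B, A⁆ * N = a • ⁅B, A⁆ := by
  have h := lie_shift hA hB
  rw [← neg_inj, ← smul_neg, show -⁅B, A⁆ = ⁅A, B⁆ by rw [Ring.lie_def, Ring.lie_def]; abel, ← h,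
    show ⁅A, B⁆ = -⁅B, A⁆ by rw [Ring.lie_def, Ring.lie_def]; abel]
  noncomm_ring

theorem mul_shift (hA : N * A - A * N = a • A) (hB : N * B - B * N = b • B) :
    N * (A * B) - A * B * N = (a + b) • (A * B) := by
  have e : N * (A * B) - A * B * N = (N * A - A * N) * B + A * (N * B - B * N) := by noncomm_ring
  rw [e, hA, hB, smul_mul_assoc, mul_smul_comm, add_smul]

end shift

theorem commute_Top {Q : ℕ} (hQ : 1 ≤ Q) (t : Fin 3 → ℝ) {w : ℝ → ℝ} (hw : IsFilter w)
    (v1 v0 : L (Fin (Q + 1))) (X B : Matrix (Fin (Q + 1)) (Fin (Q + 1)) ℂ) :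
    Commute (Top w (HT t Q) v1 v0 X B) (Nh : Op (Fin (Q + 1))) := by
  have hS : Nh * SS w (HT t Q) (dG B) = SS w (HT t Q) (dG B) * Nh :=
    (Filt867.SS_comm hw (isSelfAdjoint_HT t Q) (TzP421.HT_comm_Nh hQ t)
      (show Commute (dG B) Nh from (Nh_comm_dG B).symm)).symm
  have h1 : ∀ v : L (Fin (Q + 1)), Nh * an v - an v * Nh = (-1 : ℂ) • an v := fun v => by
    rw [Nh_comm_an, neg_one_smul]
  have h2 : ∀ v : L (Fin (Q + 1)), Nh * cr v - cr v * Nh = (1 : ℂ) • cr v := fun v => by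
    rw [Nh_comm_cr, one_smul]
  have h3 := lie_shift (mul_shift (h1 v1) (h1 v0)) hS
  have h4 := lie_shift' (mul_shift (h2 v0) (h2 v1)) (Nh_comm_dG X)
  have h5 := mul_shift h4 h3
  rw [show (1 + 1 + (-1 + -1) : ℂ) = 0 by norm_num, zero_smul, sub_eq_zero] at h5
  unfold Top
  rw [star_pair]
  refine Commute.neg_left (Commute.smul_left ?_ _)
  exact h5.symm

/-- **(TZ)** from the gap in the round geometry -/
theorem exists_TZ {γ₀ : ℝ} (hγ : 0 < γ₀) (hG : ∀ Q : ℕ, GapG (nu0 Q) Q γ₀) (k : ℕ) {A : ℝ}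
    (hA : 1 ≤ A) (hA2 : A ≤ 2) : ∃ K, Defs150.TZ (k + 1) A K := by
  obtain ⟨w, hw, hkill⟩ := TzP421.hkill_theta γ₀ hγ hG
  obtain ⟨C, CL, hC, hprof⟩ := TzL757.exists_linD_prof hA hA2
  set c : ℕ → ℝ := fun M => c3 M + |kC C CL M| with hc
  set κ : ℝ := cTop 1 Kg 12 c TzC757.cV TzC757.cV w Tth927.Ev0 (fun m => m + 9) (k + 5) with hκ
  refine ⟨8 * FX963.KB k * |κ|, ?_, ?_⟩
  · have := FX963.KB_pos k
    positivity
  intro Q hQ θ hθ S hS
  obtain ⟨α, β, hα, hβ, hL⟩ := hprof S hS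
  have ht : Adm (tA θ) := adm_tA hθ
  set t : Fin 3 → ℝ := tA θ with htdef
  have hkC : ∀ M, 0 ≤ kC C CL M := kC_nonneg hC (hL Q).CL_nonneg
  have hH := isSelfAdjoint_HT t Q
  have hNh := TzP421.HT_comm_Nh hQ t
  set T : U2 → Op (Fin (Q + 1)) := fun z =>
    Top w (HT t Q) (vF t Q 1 z) (vF t Q 0 z) (Xm Q z) (Bm Q (prof A S) α β z) with hT
  have hTc : Continuous T :=
    continuous_Top hQ t hw (continuous_Xm Q) (continuous_Bm Q (prof A S) hα hβ)
  have hTN : ∀ g, Commute (T g) (Nh : Op (Fin (Q + 1))) := fun g =>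
    commute_Top hQ t hw _ _ _ _
  have hid : pj (Zs (nuT t Q) Q) * dG (dg fun i : Fin (Q + 1) => gm 3 Q i) *
      (1 - pj (Zs (nuT t Q) Q)) * dG (dg fun i : Fin (Q + 1) => prof A S i) *
        pj (Zs (nuT t Q) Q) =
      ∫ g, pj (Zs (nuT t Q) Q) * T g * pj (Zs (nuT t Q) Q) ∂(nuQ Q) := by
    refine cluster_Top hw hH (isSelfAdjoint_pj _) (HT_mul_pj hQ) (hkill Q hQ t ht) ?_ ?_ ?_ ?_ ?_ ?_
    · exact integrable_nuQ Q ((continuous_star.comp (continuous_bT hQ t)).mul (continuous_bT hQ t))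
    · exact HT_eq t Q
    · exact fun z => bT_mul_pj hQ z
    · intro z
      rw [Xm_eq]
      exact TzP421.pj_comm_sub_tan _ _ _ _
    · intro z
      rw [Bm_eq]
      exact TzP421.HT_comm_sub_tan hQ t _ _ _
    · intro z
      rw [Bm_eq]
      exact TzP421.pj_comm_sub_tan _ _ _ _
  have hPC : ∀ g, PC (FX963.Rq Q) (uf Q) (dQ Q) (k + 5)
      (κ * (((1 + Q * tt g * (1 - tt g)) * (1 / (1 + Q * (1 - tt g)) ^ 2)) *
        ((1 + Q * tt g * (1 - tt g)) * ((S / (S + Q * tt g)) ^ A / (S + Q * tt g) ^ 2))))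
      (T g) g := by
    intro g
    have hX : KBd (uf Q) (dQ Q) (Xm Q g) g 12
        ((1 + Q * tt g * (1 - tt g)) * (1 / (1 + Q * (1 - tt g)) ^ 2)) c :=
      (kbd_Xm Q g).mono (dQ_nonneg Q) fun M => le_add_of_nonneg_right (abs_nonneg _)
    have hB : KBd (uf Q) (dQ Q) (Bm Q (prof A S) α β g) g 12
        ((1 + Q * tt g * (1 - tt g)) * ((S / (S + Q * tt g)) ^ A / (S + Q * tt g) ^ 2)) c :=
      (kbd_north (hL Q) g).mono (dQ_nonneg Q) fun M =>
        (le_abs_self _).trans (le_add_of_nonneg_left (c3_nonneg M))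
    have hE : Evo (uf Q) (dQ Q) (HT t Q) Tth927.Ev0 (fun m => m + 9) := by
      intro m C' X x hXe hX s
      exact Tth927.tau_PC hQ ht hXe hX s
    exact PC_Top (TzC757.schur_muQ hQ) (TzC757.reso_uf hQ 0) hw hH (Tth927.HT_comm_th hQ t) Tth927.Ev0_nonneg hE
      (TzC757.locV_theta hQ ht 0 g) (TzC757.locV_theta hQ ht 1 g) hX hB (k + 5)
  obtain ⟨T', hT'c, hT'D, hT'i⟩ := TzB963.adapter hTc hTN hid hPC
  refine ⟨T', hT'c, fun g => ⟨(hT'D g).1, (hT'D g).2.mono ?_⟩, hT'i⟩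
  have hKB := FX963.KB_pos k
  have h1 := T1T2_le hQ (tt_nonneg g) (tt_le_one g) (S := S) (A := A) (by linarith)
  have h2 : 0 ≤ ((1 + Q * tt g * (1 - tt g)) * (1 / (1 + Q * (1 - tt g)) ^ 2)) *
        ((1 + Q * tt g * (1 - tt g)) * ((S / (S + Q * tt g)) ^ A / (S + Q * tt g) ^ 2)) := by
    have := tt_nonneg g
    have := sub_nonneg.2 (tt_le_one g)
    have : 0 < S := by linarith
    positivity
  calc 2 * FX963.KB k * (κ * (((1 + Q * tt g * (1 - tt g)) * (1 / (1 + Q * (1 - tt g)) ^ 2)) *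
        ((1 + Q * tt g * (1 - tt g)) * ((S / (S + Q * tt g)) ^ A / (S + Q * tt g) ^ 2))))
      ≤ 2 * FX963.KB k * (|κ| * (4 / ((Q : ℝ) + 1) ^ 2 * (1 + Q * tt g / S) ^ (-A))) := by
        gcongr
        exact le_abs_self κ
    _ = _ := by ring

end Crest.Agent.R340.Tz877
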