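import Crest.Agent.R340.J3c_421
import Crest.Agent.R340.U6_856

/-!
R340 (helper421): the inputs `J3P`, `J4P` of `U6_856.U_of`.
-/

set_option autoImplicit false
set_option linter.unusedSectionVars false

namespace Crest.Agent.R340.J3421

open MeasureTheory Finset
open Crest.Agent.R340.Fock649 Crest.Agent.R340.Br320
open Crest.Agent.R340.Rot303 (Rg Bg Bg_eq Bg_zero continuous_Bg)
open Crest.Agent.R340.U856 (Rep Fam Frame cint cmem pB qf FamQ sm J3P J4P JumpP)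
open Crest.Agent.R340.CS809 (U2 U2_ct_mul U2_mul_ct dQ)
open Crest.Agent.R340.DLi482 (nuQ opRep aG Phg PZ)
open scoped InnerProductSpace Matrix

/-- operator form of the gap -/
theorem gap_op_of {Q : ℕ} {γ : ℝ} (hgap : ∀ φ : Fk (Fin (Q + 1)), PZ Q φ = 0 →
    γ * ‖φ‖ ^ 2 ≤ (⟪φ, HH Q φ⟫_ℂ).re) : γ • (1 - PZ Q) ≤ HH Q := by
  have hsP : star (PZ Q) = PZ Q := GG467.star_PK _
  have hsa : IsSelfAdjoint (γ • (1 - PZ Q) : Op (Fin (Q + 1))) := by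
    have : star (γ • (1 - PZ Q) : Op (Fin (Q + 1))) = γ • (1 - PZ Q) := by
      rw [star_smul, star_sub, star_one, hsP]
      simp
    exact this
  rw [Op.le_iff hsa (star_HH Q)]
  intro v
  set u := v - PZ Q v with hu
  have hPP : PZ Q (PZ Q v) = PZ Q v := by rw [← mul_ap, GG467.PK_mul_self]
  have hPu : PZ Q u = 0 := by
    rw [hu, map_sub, hPP, sub_self]
  have hHP : ∀ w, HH Q (PZ Q w) = 0 := fun w => by rw [← mul_ap, GG467.mul_PK, zero_ap]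
  have hHu : HH Q v = HH Q u := by rw [hu, map_sub, hHP, sub_zero]
  have hsa2 : ∀ w w' : Fk (Fin (Q + 1)), ⟪w, HH Q w'⟫_ℂ = ⟪HH Q w, w'⟫_ℂ := fun w w' => by
    have := inner_star_right (HH Q) w w'
    rwa [star_HH] at this
  have h1 : ⟪v, HH Q v⟫_ℂ = ⟪u, HH Q u⟫_ℂ := by
    rw [hHu, hsa2, hHu, ← hsa2]
  have h2 : (⟪v, (γ • (1 - PZ Q) : Op (Fin (Q + 1))) v⟫_ℂ).re = γ * ‖u‖ ^ 2 := by
    have e1 : (γ • (1 - PZ Q) : Op (Fin (Q + 1))) v = (γ : ℂ) • u := by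
      have : (γ • (1 - PZ Q) : Op (Fin (Q + 1))) = (γ : ℂ) • (1 - PZ Q) := (Complex.coe_smul _ _).symm
      rw [this, smul_ap, sub_ap, one_ap]
    rw [e1, inner_smul_right, Complex.re_ofReal_mul]
    congr 1
    have e2 : v = u + PZ Q v := by rw [hu]; abel
    have e3 : ⟪PZ Q v, u⟫_ℂ = 0 := by
      have := inner_star_left (PZ Q) v u
      rw [hsP] at this
      rw [this, hPu, inner_zero_right]
    have e4 : ⟪v, u⟫_ℂ = ⟪u, u⟫_ℂ := by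
      conv_lhs => rw [e2]
      rw [inner_add_left, e3, add_zero]
    rw [e4, inner_self_eq_norm_sq_to_K]
    norm_cast
  rw [h1, h2]
  exact hgap u hPu

/-- `∫ ‖B_p(g) ψ‖² dν(g) = ⟨ψ, H ψ⟩` -/
theorem int_Bg {Q : ℕ} (p : Fin (2 * Q - 1)) (ψ : Fk (Fin (Q + 1))) :
    ∫ g, ‖Bg Q (g : Matrix (Fin 2) (Fin 2) ℂ) p ψ‖ ^ 2 ∂(nuQ Q) = (⟪ψ, HH Q ψ⟫_ℂ).re := by
  unfold nuQ
  rw [integral_smul_measure, ENNReal.toReal_ofReal (Rot303.two_mul_sub_one_pos p).le,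
    smul_eq_mul]
  exact Rot303.integral_norm_Bg_sq p ψ

theorem cont_Bg {Q : ℕ} (p : Fin (2 * Q - 1)) (ψ : Fk (Fin (Q + 1))) :
    Continuous fun g : U2 => Bg Q (g : Matrix (Fin 2) (Fin 2) ℂ) p ψ :=
  DLi482.continuous_ap ((continuous_Bg p).comp continuous_subtype_val) continuous_const

/-- constant of `J4` -/
noncomputable def CRc (k : ℕ) (γ : ℝ) : ℝ := Real.sqrt (Thin565.CR 2 γ (1 / 2)) * DA k

/-- **(R1-W)**: `∫ ‖[B_g, W] ψ‖² dν ≤ CRc² ⟨ψ, H ψ⟩` -/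
theorem J4c {Q k : ℕ} (hQ : 1 ≤ Q) (hk : 22 ≤ k) {γ : ℝ} (hγ : 0 < γ)
    (hgap : γ • (1 - PZ Q) ≤ HH Q) {X : U2 → Op (Fin (Q + 1))}
    (hX : Fam (aG Q) (dQ Q) Nh (k + 3) 1 X) (hP : ∀ x, X x * PZ Q = PZ Q * X x)
    {s : U2 → ℝ} (hs : Measurable s) (hs1 : ∀ x, |s x| ≤ 1) (ψ : Fk (Fin (Q + 1))) :
    ∫ g, ‖Agc Q X s g ψ‖ ^ 2 ∂(nuQ Q) ≤ CRc k γ ^ 2 * (⟪ψ, HH Q ψ⟫_ℂ).re := by
  have hCR : 0 ≤ Thin565.CR 2 γ (1 / 2) := Thin565.CR_nonneg 2 hγ (by norm_num)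
  set K : ℝ := Thin565.CR 2 γ (1 / 2) * DA k ^ 2 with hK
  have hK0 : 0 ≤ K := by positivity
  have hpt : ∀ g : U2, ‖Agc Q X s g ψ‖ ^ 2 ≤ ∑ p : Fin (2 * Q - 1),
      (K / (((p : ℕ) : ℝ) + 2) ^ 2) * ‖Bg Q (g : Matrix (Fin 2) (Fin 2) ℂ) p ψ‖ ^ 2 := by
    intro g
    have h := R1_Agc hQ hk hX hs hs1 g hγ hgap hP
    have hs1 : IsSelfAdjoint (star (Agc Q X s g) * Agc Q X s g) := IsSelfAdjoint.star_mul_self _
    have e0 : ∀ p : Fin (2 * Q - 1), IsSelfAdjoint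
        ((K / (((p : ℕ) : ℝ) + 2) ^ 2) • (star (Bg Q (g : Matrix (Fin 2) (Fin 2) ℂ) p) *
          Bg Q (g : Matrix (Fin 2) (Fin 2) ℂ) p)) := by
      intro p
      exact (IsSelfAdjoint.all (K / (((p : ℕ) : ℝ) + 2) ^ 2)).smul
        (IsSelfAdjoint.star_mul_self _)
    have hs2 : IsSelfAdjoint (∑ p : Fin (2 * Q - 1),
        (K / (((p : ℕ) : ℝ) + 2) ^ 2) • (star (Bg Q (g : Matrix (Fin 2) (Fin 2) ℂ) p) *
          Bg Q (g : Matrix (Fin 2) (Fin 2) ℂ) p)) := by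
      unfold IsSelfAdjoint
      rw [star_sum]
      exact Finset.sum_congr rfl fun p _ => e0 p
    have h1 := (Op.le_iff hs1 hs2).mp h ψ
    rw [inner_star_mul_self, sum_ap, inner_sum, Complex.re_sum] at h1
    have h2 : (((‖Agc Q X s g ψ‖ : ℝ) : ℂ) ^ 2).re = ‖Agc Q X s g ψ‖ ^ 2 := by
      rw [← Complex.ofReal_pow, Complex.ofReal_re]
    rw [h2] at h1
    refine h1.trans (le_of_eq ?_)
    refine Finset.sum_congr rfl fun p _ => ?_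
    have h3 : ((K / (((p : ℕ) : ℝ) + 2) ^ 2) • (star (Bg Q (g : Matrix (Fin 2) (Fin 2) ℂ) p) *
        Bg Q (g : Matrix (Fin 2) (Fin 2) ℂ) p) : Op (Fin (Q + 1))) =
        ((K / (((p : ℕ) : ℝ) + 2) ^ 2 : ℝ) : ℂ) • (star (Bg Q (g : Matrix (Fin 2) (Fin 2) ℂ) p) *
        Bg Q (g : Matrix (Fin 2) (Fin 2) ℂ) p) := (Complex.coe_smul _ _).symm
    rw [h3, smul_ap, inner_smul_right, inner_star_mul_self, ← Complex.ofReal_pow,
      ← Complex.ofReal_mul, Complex.ofReal_re]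
  have hc : ∀ p : Fin (2 * Q - 1), Integrable
      (fun g : U2 => ‖Bg Q (g : Matrix (Fin 2) (Fin 2) ℂ) p ψ‖ ^ 2) (nuQ Q) := fun p =>
    cint ((cont_Bg p ψ).norm.pow 2)
  have h0 : 0 ≤ (⟪ψ, HH Q ψ⟫_ℂ).re := by
    rw [inner_HH, Complex.re_sum]
    refine Finset.sum_nonneg fun p _ => ?_
    exact inner_self_nonneg (𝕜 := ℂ)
  calc ∫ g, ‖Agc Q X s g ψ‖ ^ 2 ∂(nuQ Q)
      ≤ ∫ g : U2, ∑ p : Fin (2 * Q - 1), (K / (((p : ℕ) : ℝ) + 2) ^ 2) *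
          ‖Bg Q (g : Matrix (Fin 2) (Fin 2) ℂ) p ψ‖ ^ 2 ∂(nuQ Q) :=
        integral_mono_of_nonneg (Filter.Eventually.of_forall fun g => sq_nonneg _)
          (integrable_finsetSum _ fun p _ => (hc p).const_mul _)
          (Filter.Eventually.of_forall hpt)
    _ = ∑ p : Fin (2 * Q - 1), (K / (((p : ℕ) : ℝ) + 2) ^ 2) * (⟪ψ, HH Q ψ⟫_ℂ).re := by
        rw [integral_finsetSum _ fun p _ => (hc p).const_mul _]
        refine Finset.sum_congr rfl fun p _ => ?_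
        rw [integral_const_mul, int_Bg]
    _ = K * (∑ p : Fin (2 * Q - 1), 1 / (((p : ℕ) : ℝ) + 2) ^ 2) * (⟪ψ, HH Q ψ⟫_ℂ).re := by
        rw [← Finset.sum_mul, Finset.mul_sum]
        congr 1
        exact Finset.sum_congr rfl fun p _ => by ring
    _ ≤ K * 1 * (⟪ψ, HH Q ψ⟫_ℂ).re := by
        have := sum_inv_two (2 * Q - 1)
        gcongr
    _ = CRc k γ ^ 2 * (⟪ψ, HH Q ψ⟫_ℂ).re := by
        unfold CRc
        rw [mul_pow, Real.sq_sqrt hCR, mul_one]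

/-- **`J3P`**, every `m ≥ 6`, every `P1`. -/
theorem j3P (m P1 : ℕ) (hm : 6 ≤ m) : J3P m P1 :=
  ⟨1, 76068 * ((P1 : ℝ) + 1) ^ 2, by positivity, fun Q hQ W hW s hs hs1 g φ =>
    J3c hQ hm P1 W hW s hs hs1 g φ⟩

/-- **`J4P`**, every `m ≥ 25`, from the uniform gap. -/
theorem j4P_of_gap {m : ℕ} (hm : 25 ≤ m) {γ : ℝ} (hγ : 0 < γ) (Q₀ : ℕ)
    (hgap : ∀ Q, Q₀ ≤ Q → ∀ φ : Fk (Fin (Q + 1)), PZ Q φ = 0 →
      γ * ‖φ‖ ^ 2 ≤ (⟪φ, HH Q φ⟫_ℂ).re) : J4P m := by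
  obtain ⟨k, rfl⟩ : ∃ k, m = k + 3 := ⟨m - 3, by omega⟩
  refine ⟨Q₀ + 1, CRc k γ, ?_, ?_⟩
  · unfold CRc
    have := DA_nonneg k
    positivity
  · intro Q hQ W hW hWP s hs hs1 ψ
    have hP : ∀ x, W x * PZ Q = PZ Q * W x := fun x => Op.ext fun φ => hWP x φ
    exact J4c (by omega) (by omega) hγ (gap_op_of (hgap Q (by omega))) hW hP hs hs1 ψ

/-- **`J4P`** from the jump data. -/
theorem j4P_of_jump {m P1 : ℕ} (hm : 25 ≤ m) {γ₀ γ₂ : ℝ} (hJ : JumpP P1 γ₀ γ₂) : J4P m := by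
  obtain ⟨Q₀, hJ⟩ := hJ
  exact j4P_of_gap hm (hJ Q₀ le_rfl).gap_pos Q₀ fun Q hQ φ hφ => (hJ Q hQ).gap φ hφ

end Crest.Agent.R340.J3421
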