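import Crest.Agent.R340.U6_856
import Crest.Agent.R340.FI4_331
import Crest.Agent.R340.DLp_482
import Crest.Agent.R340.J3d_421
import Crest.Agent.R340.F5b_725
import Crest.Agent.R340.FiltP_867

/-!
# Theorem (U): all inputs plugged in (helper856)

`gapU` : the uniform gap of the spherical Haldane Hamiltonian at every large flux.
`UP_of_F1P`, `UP_of_SP` : Theorem (U) with (F1), respectively (SP), as the only analytic input.
The hypothesis `h8` is `LP665.psd8`.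
-/

set_option autoImplicit false

namespace Crest.Agent.R340.U856

open MeasureTheory Crest.Agent.R340.Fock649 Crest.Agent.R340.CS809 Crest.Agent.R340.Rot303
  Crest.Agent.R340.FI331 Crest.Agent.R340.GG467 Crest.Agent.R340.Br320
  Crest.Agent.R340.Gam303 Crest.MathPhysics.Laughlin
open Crest.Agent.R340.DLi482 (nuQ opRep Phg PZ JumpP_of_psd8)
open scoped InnerProductSpace ComplexConjugate Matrix

/-- The uniform gap on the Fock space of every large flux. -/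
theorem gapU (h8 : Cert132.PSD 8 Cert132.G8 Cert132.B8 Cert132.A8) :
    ∃ (γ : ℝ) (Q₀ : ℕ), 0 < γ ∧ ∀ Q, Q₀ ≤ Q → ∀ φ : Fk (Fin (Q + 1)), PZ Q φ = 0 →
    γ * ‖φ‖ ^ 2 ≤ (⟪φ, HH Q φ⟫_ℂ).re := by
  obtain ⟨P1, Q₀, hJ⟩ := JumpP_of_psd8 h8 (γ := 4 / 100) (by norm_num) (by norm_num)
  exact ⟨4 / 100, Q₀, by norm_num, fun Q hQ φ hφ => (hJ Q hQ).gap φ hφ⟩

/-- **Theorem (U)**, (F1) being the only input. -/
theorem UP_of_F1P (h8 : Cert132.PSD 8 Cert132.G8 Cert132.B8 Cert132.A8) {m : ℕ} (hm : 25 ≤ m)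
    (hF : F1P m) : UP m := by
  obtain ⟨P1, hJ⟩ := JumpP_of_psd8 h8 (γ := 4 / 100) (by norm_num) (by norm_num)
  obtain ⟨γ, Q₀, hγ, hgap⟩ := gapU h8
  exact U_of (by norm_num) (FI331.frameP (by omega)) hJ (J3421.j3P m P1 (by omega))
    (J3421.j4P_of_jump hm hJ) hF (Filt867.FiltP_of_gap hγ Q₀ hgap m)

/-- **Theorem (U)** from (SP). -/
theorem UP_of_SP (h8 : Cert132.PSD 8 Cert132.G8 Cert132.B8 Cert132.A8) {k : ℕ} {A S CS : ℝ}
    (hk : 20 ≤ k) (hA : 1 < A) (hAS : A < S + 1) (hCS : 0 ≤ CS)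
    (hSP : Defs150.SP (k + 1) A S CS) {m : ℕ} (hm : k + 5 ≤ m) : UP m :=
  UP_of_F1P h8 (by omega) (F1P.mono hm (F5725.F1P_of_SP hA hAS hCS hSP))

end Crest.Agent.R340.U856
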