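import Crest.Agent.R340.Hstep2_596
import Crest.Agent.R340.Defs_150
import Crest.Agent.R340.Vac2_467

/-!
# (W), the weak pass, from its inputs (helper596, R340)

`WP_of` : `Defs150.WP` from `RC`, `RX`, `GZ` (clustering and density of the last orbital), `VS`
(flux dependence of the vacuum value of a local operator) and `H1` (the one-hole case).
-/

set_option autoImplicit false
set_option linter.unusedSectionVars false
open scoped InnerProductSpace ComplexConjugate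
open Crest.Agent.R340.Fock649 Crest.Agent.R340.Emb596 Crest.Agent.R340.Geo986
  Crest.Agent.R340.Peel596 Crest.Agent.R340.PathStep880 Crest.Agent.R340.Step596
  Crest.Agent.R340.PeelX596 Crest.Agent.R340.Hstep596
open Crest.Agent.R340.Scal725 (prof dd cs)
open Crest.Agent.R340.PV341 (Adm)
open Crest.Agent.R340.Weak716 (DW re_inner_le_of_norm)
open Crest.Agent.R340.FX963 (DY)
open Crest.Agent.R340.Defs150 (Dy RC RX GZ IsVac WP)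
open Crest.Agent.R340

namespace Crest.Agent.R340.WP596

open Finset

/-! ### the vacuum -/

theorem exists_isVac {Q : ℕ} (h : 3 ∣ Q) : ∃ Ω, IsVac Q Ω := by
  obtain ⟨k, rfl⟩ := h
  obtain ⟨Φ, hΦ⟩ := Vac467.exists_ref (posM_nu0 (3 * k)) (n := 3 * k / 3 + 1) (by omega)
  exact ⟨Φ, hΦ.mem_Zn, hΦ.unit⟩

theorem IsVac.isRef {Q : ℕ} (h : 3 ∣ Q) {Ω : Fk (Fin (Q + 1))} (hΩ : IsVac Q Ω) :
    Vac467.IsRef (nu0 Q) Q (Q / 3 + 1) Ω :=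
  ⟨hΩ.1.1, Vac467.sec_of_Zn (posM_nu0 Q) (by omega) hΩ.1, hΩ.2⟩

theorem vac_value_eq {Q : ℕ} (h : 3 ∣ Q) {Ω Ω' : Fk (Fin (Q + 1))} (hΩ : IsVac Q Ω)
    (hΩ' : IsVac Q Ω') (X : Op (Fin (Q + 1))) : (⟪Ω, X Ω⟫_ℂ).re = (⟪Ω', X Ω'⟫_ℂ).re := by
  have h1 := fun lam => Vac467.LB_vac_iff (posM_nu0 Q) (by omega) (IsVac.isRef h hΩ) X lam
  have h2 := fun lam => Vac467.LB_vac_iff (posM_nu0 Q) (by omega) (IsVac.isRef h hΩ') X lam
  apply le_antisymm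
  · exact (h2 _).1 ((h1 _).2 le_rfl)
  · exact (h1 _).1 ((h2 _).2 le_rfl)

open Classical in
/-- a vacuum state for every `q` divisible by `3` -/
noncomputable def vacS (q : ℕ) : Fk (Fin (q + 1)) :=
  if h : 3 ∣ q then (exists_isVac h).choose else 0

theorem vacS_isVac {q : ℕ} (h : 3 ∣ q) : IsVac q (vacS q) := by
  unfold vacS
  rw [dif_pos h]
  exact (exists_isVac h).choose_spec

/-- vacuum value at flux `q` of the compression of `X` -/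
noncomputable def vv (Qt : ℕ) (X : Op (Fin (Qt + 1))) (q : ℕ) : ℝ :=
  (⟪vacS q, fam Qt X q (vacS q)⟫_ℂ).re

/-- the scalars of the weak pass -/
noncomputable def xx (Qt : ℕ) (X : Op (Fin (Qt + 1))) (Q : ℕ) : ℝ := vv Qt X (3 * (Q / 3))

theorem abs_xx_le {Qt : ℕ} {X : Op (Fin (Qt + 1))} {B : ℝ} (hX : ‖X‖ ≤ B) (Q : ℕ) :
    |xx Qt X Q| ≤ B := by
  unfold xx vv
  have h := re_inner_le_of_norm ((norm_fam_le X (3 * (Q / 3))).trans hX) (vacS (3 * (Q / 3)))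
  rwa [(vacS_isVac (Dvd.intro _ rfl)).2, one_pow, mul_one] at h

/-! ### the inputs -/

/-- **(VS)** flux dependence of the vacuum value of a local operator -/
def VS (nW : ℕ) (K : ℝ) : Prop := 0 ≤ K ∧ ∀ Q : ℕ, 1 ≤ Q → 3 ∣ Q →
  ∀ X : Op (Fin (Q + 3 + 1)), Dy nW (Q + 3) 1 X →
    ∀ (Ω : Fk (Fin (Q + 3 + 1))) (Ω' : Fk (Fin (Q + 1))), IsVac (Q + 3) Ω → IsVac Q Ω' →
      |(⟪Ω, X Ω⟫_ℂ).re - (⟪Ω', cmp (ee (Nat.le_add_right Q 3)) X Ω'⟫_ℂ).re| ≤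
        K / ((Q + 3 : ℕ) : ℝ) ^ 2

/-- **(H1)** the one-hole case -/
def H1 (nW : ℕ) (a θ : ℝ) : Prop := ∃ R0 C0 : ℝ, ∀ S : ℝ, R0 ≤ S → ∀ C : ℝ, C0 ≤ C →
  ∀ q n : ℕ, 3 ∣ q → q + 3 = 3 * n → ∀ X : Op (Fin (q + 1 + 1)), Dy nW (q + 1) 1 X →
    ∀ Ω : Fk (Fin (q + 1)), IsVac q Ω →
      LB (nu0 (q + 1)) (q + 1) n
        (Dop (q + 1) (3 * C * cs (prof a S) (q + 1) + (⟪Ω, cmp (ee (Nat.le_succ q)) X Ω⟫_ℂ).re)
          (3 * C) (prof a S) X) (θ * C * prof a S (q + 1))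

theorem cIn_of {κ K : ℝ} (hG : RC K) (hZ : GZ κ) : CIn κ K 3 where
  κpos := hZ.1
  CGn := hG.1
  G Q hQ t ht n := hG.2 Q (by omega) t ht n
  G0 Q n := by
    have := hZ.2 (fun _ => 0) Adm_zero rfl Q n
    rwa [nuT_zero] at this

theorem vv_step {nW Qt : ℕ} {K : ℝ} (hV : VS nW K) {X : Op (Fin (Qt + 1))} (hX : Dy nW Qt 1 X)
    {q : ℕ} (hq : 3 ∣ q) (hq1 : 1 ≤ q) (hqt : q + 3 ≤ Qt) :
    |vv Qt X (q + 3) - vv Qt X q| ≤ K / ((q + 3 : ℕ) : ℝ) ^ 2 := by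
  have hq3 : 3 ∣ q + 3 := by omega
  have hD : Dy nW (q + 3) 1 (fam Qt X (q + 3)) := by
    rw [fam_of_le hqt]
    exact hX.cmp hqt
  have h := hV.2 q hq1 hq (fam Qt X (q + 3)) hD (vacS (q + 3)) (vacS q) (vacS_isVac hq3)
    (vacS_isVac hq)
  rw [fam_cmp (Nat.le_add_right q 3) hqt X] at h
  exact h

theorem xx_step {nW Qt : ℕ} {K : ℝ} (hV : VS nW K) {X : Op (Fin (Qt + 1))} (hX : Dy nW Qt 1 X)
    {Q Q' : ℕ} (hQ : 3 ≤ Q) (hQt : Q + 3 ≤ Qt) (hQ' : Q ≤ Q') (hQ'' : Q' ≤ Q + 3) :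
    |xx Qt X (Q + 3) - xx Qt X Q'| ≤ 4 * K / ((Q + 3 : ℕ) : ℝ) ^ 2 := by
  have hK := hV.1
  unfold xx
  have hcases : 3 * (Q' / 3) = 3 * ((Q + 3) / 3) ∨ 3 * ((Q + 3) / 3) = 3 * (Q' / 3) + 3 := by omega
  rcases hcases with h | h
  · rw [h, sub_self, abs_zero]
    positivity
  · rw [h]
    have h1 := vv_step hV hX (q := 3 * (Q' / 3)) (Dvd.intro _ rfl) (by omega) (by omega)
    refine h1.trans ?_
    have h2 : ((Q + 3 : ℕ) : ℝ) ≤ 2 * ((3 * (Q' / 3) + 3 : ℕ) : ℝ) := by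
      exact_mod_cast (by omega : Q + 3 ≤ 2 * (3 * (Q' / 3) + 3))
    have h3 : (0 : ℝ) < ((Q + 3 : ℕ) : ℝ) := by positivity
    rw [div_le_div_iff₀ (by positivity) (by positivity)]
    have h4 : ((Q + 3 : ℕ) : ℝ) ^ 2 ≤ 4 * ((3 * (Q' / 3) + 3 : ℕ) : ℝ) ^ 2 := by
      nlinarith
    calc K * ((Q + 3 : ℕ) : ℝ) ^ 2 ≤ K * (4 * ((3 * (Q' / 3) + 3 : ℕ) : ℝ) ^ 2) :=
          mul_le_mul_of_nonneg_left h4 hK
      _ = _ := by ring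

theorem fIn_of {nW Qt : ℕ} (hn : 4 ≤ nW) {K2 K3 : ℝ} (hRX : RX nW K2) (hV : VS nW K3)
    {X : Op (Fin (Qt + 1))} (hX : Dy nW Qt 1 X) :
    FIn Qt (fam Qt X) (xx Qt X) K2 (4 * K3) 32 3 := by
  refine fIn_DY hn (by norm_num) hRX.1 (by have := hV.1; positivity) ?_ hX.1 hX.2 ?_ ?_
  · intro Q hQ t ht Y hY hD n
    exact hRX.2 Q (by omega) t ht n Y ⟨hY, hD⟩
  · intro Q hQ hQt
    exact xx_step hV hX hQ hQt le_rfl (by omega)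
  · intro Q hQ hQt
    exact xx_step hV hX hQ hQt (by omega) (by omega)

/-- **(W)**, general form: for all sectors with `K ≥ 1`, all fluxes and all large `C`. -/
theorem WP_all {nW : ℕ} (hn : 4 ≤ nW) {κ K1 K2 K3 : ℝ} (hRC : RC K1) (hRX : RX nW K2) (hGZ : GZ κ)
    (hVS : VS nW K3) {a : ℝ} (ha0 : 0 < a) (ha1 : a ≤ 1 / 100) {θ : ℝ} (hθ0 : 4 / 5 ≤ θ)
    (hθ1 : θ ≤ 9 / 10) (hH1 : H1 nW a θ) :
    ∃ R0 C0 : ℝ, 43 ≤ R0 ∧ 40 ≤ C0 ∧ ∀ S : ℝ, R0 ≤ S → ∀ C : ℝ, C0 ≤ C →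
      ∀ (Q n : ℕ) (X : Op (Fin (Q + 1))), 3 * n ≤ Q + 2 → Dy nW Q 1 X →
        LB (nu0 Q) Q n (Dop Q (3 * C * cs (prof a S) Q + xx Q X Q) (3 * C) (prof a S) X)
          (θ * C * (Q + 3 - 3 * n) * prof a S Q) := by
  obtain ⟨R1, hR1, _, hW⟩ := weak_fam (cIn_of hRC hGZ) K2 (4 * K3) 32 ha0 ha1
  obtain ⟨R2, C2, hone⟩ := hH1
  refine ⟨max R1 R2, max 40 C2, le_max_of_le_left hR1, le_max_left _ _,
    fun S hS C hC Q n X hQn hX => ?_⟩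
  have hS1 : R1 ≤ S := (le_max_left _ _).trans hS
  have hS2 : R2 ≤ S := (le_max_right _ _).trans hS
  have hC1 : 40 ≤ C := (le_max_left _ _).trans hC
  have hC2 : C2 ≤ C := (le_max_right _ _).trans hC
  have hXn : ‖X‖ ≤ 1 := hX.2.norm_le
  have h := hW S hS1 1 C θ (by linarith) (by linarith) hθ0 hθ1 Q (fam Q X) (xx Q X)
    (fIn_of hn hRX hVS hX) (fun q _ => (norm_fam_le X q).trans hXn) (fun q _ => abs_xx_le hXn q) ?_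
    Q n le_rfl hQn
  · rw [fam_top] at h
    exact h
  · intro m q' hq' hm
    obtain ⟨q, rfl⟩ : ∃ q, q' = q + 1 := ⟨q' - 1, by omega⟩
    have h3 : 3 ∣ q := by omega
    have hD : Dy nW (q + 1) 1 (fam Q X (q + 1)) := by
      rw [fam_of_le hq']
      exact hX.cmp hq'
    have h5 := hone S hS2 C hC2 q m h3 (by omega) (fam Q X (q + 1)) hD (vacS q) (vacS_isVac h3)
    rw [fam_cmp (Nat.le_succ q) hq' X] at h5
    have h6 : xx Q X (q + 1) = (⟪vacS q, fam Q X q (vacS q)⟫_ℂ).re := by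
      have : 3 * ((q + 1) / 3) = q := by omega
      unfold xx
      rw [this]
      rfl
    unfold DW
    rw [h6]
    exact h5

/-- **(W)** in the form of `Defs150.WP`, for all large `C`. -/
theorem WP_of {nW : ℕ} (hn : 4 ≤ nW) {κ K1 K2 K3 : ℝ} (hRC : RC K1) (hRX : RX nW K2) (hGZ : GZ κ)
    (hVS : VS nW K3) {a : ℝ} (ha0 : 0 < a) (ha1 : a ≤ 1 / 100) {θ : ℝ} (hθ0 : 4 / 5 ≤ θ)
    (hθ1 : θ ≤ 9 / 10) (hH1 : H1 nW a θ) :
    ∃ R0 C0 : ℝ, 43 ≤ R0 ∧ 40 ≤ C0 ∧ ∀ C : ℝ, C0 ≤ C → WP nW a R0 C θ := by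
  obtain ⟨R0, C0, hR0, hC0, h⟩ := WP_all hn hRC hRX hGZ hVS ha0 ha1 hθ0 hθ1 hH1
  refine ⟨R0, C0, hR0, hC0, fun C hC S hS Q n X Ω h3 hQn hX hΩ => ?_⟩
  have h1 := h S hS C hC Q n X (by omega) hX
  have h2 : xx Q X Q = (⟪Ω, X Ω⟫_ℂ).re := by
    have h4 : 3 * (Q / 3) = Q := by omega
    unfold xx
    rw [h4]
    unfold vv
    rw [fam_top]
    exact vac_value_eq h3 (vacS_isVac h3) hΩ X
  rw [h2] at h1
  exact h1

end Crest.Agent.R340.WP596
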