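import Crest.Agent.R340.K1dec_716
import Crest.Agent.R340.WP_596

/-!
# R340 / S0532: the one-hole sector, the operator `X` (helper716)

STEP 1 of the one-hole sector as an operator inequality: on `Zn (nu0 (3m+1)) (3m+1) (m+1)`
`XX - x ≤ Gw`, `Gw` = the function `w_m(k) = K (2/(k+1) - 1/(m+2))` of the line index `k`
(a function of `L_z`).
-/

set_option autoImplicit false
set_option linter.unusedSectionVars false
open scoped InnerProductSpace ComplexConjugate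

namespace Crest.Agent.R340.K1W716

open Finset
open Crest.Agent.R340.Fock649 Crest.Agent.R340.Emb596 Crest.Agent.R340.Geo986
  Crest.Agent.R340.Peel596 Crest.Agent.R340.Step596 Crest.Agent.R340.PathStep880
  Crest.Agent.R340.PeelX596 Crest.Agent.R340.Hstep596
open Crest.Agent.R340.Scal725 (prof cs)
open Crest.Agent.R340.PV341 (Adm)
open Crest.Agent.R340.Weak716 (re_inner_Dop re_inner_le_of_norm)
open Crest.Agent.R340.K1in788 (Sc ZS prSc prSc_apply prSc_mem prSc_mem_Zs mem_ZS ZS_le_Zn)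
open Crest.Agent.R340.K1dec716 (lmin_le_ZS Mk K1V K1B)
open Crest.Agent.R340.Rev716 (sum_apply')
open Crest.Agent.R340.Vac467 (lmin two_lmin lmin_succ)

/-! ### functions of the line index -/

section Gw
variable {Q : ℕ}

/-- function `w` of the line index `k = n + lmin n - L_z` -/
noncomputable def Gw (w : ℕ → ℝ) (n Q : ℕ) : Op (Fin (Q + 1)) :=
  diag fun S => ((w (n + lmin n - ∑ i ∈ S, (i : ℕ)) : ℝ) : ℂ)

theorem Gw_apply (w : ℕ → ℝ) (n : ℕ) (v : Fk (Fin (Q + 1))) (S : Finset (Fin (Q + 1))) :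
    Gw w n Q v S = ((w (n + lmin n - ∑ i ∈ S, (i : ℕ)) : ℝ) : ℂ) * v S := diag_apply _ _ _

theorem star_Gw (w : ℕ → ℝ) (n : ℕ) : star (Gw w n Q) = Gw w n Q := by
  unfold Gw
  rw [star_diag]
  congr 1
  funext S
  simp only [Pi.star_apply, Complex.star_def, Complex.conj_ofReal]

theorem card_of_Zn {ν : ℕ → ℝ} {n : ℕ} {ψ : Fk (Fin (Q + 1))} (hψ : ψ ∈ Zn ν Q n)
    {S : Finset (Fin (Q + 1))} (hS : ψ S ≠ 0) : S.card = n := by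
  by_contra hne
  exact hS ((GG467.mem_sector_iff (N := n) (v := ψ)).1 hψ.2 S hne)

theorem lmin_le_of_Zn {ν : ℕ → ℝ} (hν : PosM ν Q) {n : ℕ} {ψ : Fk (Fin (Q + 1))}
    (hψ : ψ ∈ Zn ν Q n) {S : Finset (Fin (Q + 1))} (hS : ψ S ≠ 0) :
    lmin n ≤ ∑ i ∈ S, (i : ℕ) := by
  have h1 := card_of_Zn hψ hS
  have h2 : prSc Q n (∑ i ∈ S, (i : ℕ)) ψ ≠ 0 := by
    intro h0
    have h3 : prSc Q n (∑ i ∈ S, (i : ℕ)) ψ S = 0 := by rw [h0]; rfl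
    rw [prSc_apply, if_pos ⟨h1, rfl⟩] at h3
    exact hS h3
  exact lmin_le_ZS hν ⟨prSc_mem_Zs hψ.1 _ _, prSc_mem _ _ _⟩ h2

theorem sum_le_mul (S : Finset (Fin (Q + 1))) : ∑ i ∈ S, (i : ℕ) ≤ S.card * Q := by
  calc ∑ i ∈ S, (i : ℕ) ≤ ∑ _i ∈ S, Q := sum_le_sum fun i _ => by omega
    _ = S.card * Q := by rw [sum_const, smul_eq_mul]

theorem Gw_mem_Zn {ν : ℕ → ℝ} {n : ℕ} (w : ℕ → ℝ) {ψ : Fk (Fin (Q + 1))} (hψ : ψ ∈ Zn ν Q n) :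
    Gw w n Q ψ ∈ Zn ν Q n := by
  have e : Gw w n Q ψ = ∑ M ∈ range (n * Q + 1),
      ((w (n + lmin n - M) : ℝ) : ℂ) • prSc Q n M ψ := by
    ext S
    rw [sum_apply', Gw_apply]
    by_cases hS : ψ S = 0
    · rw [hS, mul_zero]
      symm
      refine sum_eq_zero fun M _ => ?_
      show _ * prSc Q n M ψ S = 0
      rw [prSc_apply, hS]
      simp
    · have h1 := card_of_Zn hψ hS
      have h2 := sum_le_mul S
      rw [h1] at h2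
      rw [sum_eq_single (∑ i ∈ S, (i : ℕ))]
      · show _ = _ * prSc Q n _ ψ S
        rw [prSc_apply, if_pos ⟨h1, rfl⟩]
      · intro M _ hM
        show _ * prSc Q n M ψ S = 0
        rw [prSc_apply, if_neg (fun h => hM h.2.symm), mul_zero]
      · intro h
        exact absurd (mem_range.2 (by omega)) h
  rw [e]
  refine Submodule.sum_mem _ fun M _ => Submodule.smul_mem _ _ ?_
  exact ZS_le_Zn ⟨prSc_mem_Zs hψ.1 _ _, prSc_mem n M ψ⟩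

theorem re_inner_Gw (w : ℕ → ℝ) (n : ℕ) (ψ : Fk (Fin (Q + 1))) :
    (⟪ψ, Gw w n Q ψ⟫_ℂ).re =
      ∑ S : Finset (Fin (Q + 1)), w (n + lmin n - ∑ i ∈ S, (i : ℕ)) * ‖ψ S‖ ^ 2 := by
  rw [PiLp.inner_apply, Complex.re_sum]
  refine sum_congr rfl fun S _ => ?_
  rw [Gw_apply, RCLike.inner_apply, mul_assoc, Complex.mul_conj, Complex.normSq_eq_norm_sq,
    ← Complex.ofReal_mul, Complex.ofReal_re]

theorem norm_sq_sum' (ψ : Fk (Fin (Q + 1))) : ‖ψ‖ ^ 2 = ∑ S : Finset (Fin (Q + 1)), ‖ψ S‖ ^ 2 :=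
  EuclideanSpace.norm_sq_eq ψ

theorem Gw_mono {ν : ℕ → ℝ} (hν : PosM ν Q) {n : ℕ} {ψ : Fk (Fin (Q + 1))} (hψ : ψ ∈ Zn ν Q n)
    {v w : ℕ → ℝ} {t : ℝ} (h : ∀ j ≤ n, v j + t ≤ w j) :
    (⟪ψ, Gw v n Q ψ⟫_ℂ).re + t * ‖ψ‖ ^ 2 ≤ (⟪ψ, Gw w n Q ψ⟫_ℂ).re := by
  rw [re_inner_Gw, re_inner_Gw, norm_sq_sum', mul_sum, ← sum_add_distrib]
  refine sum_le_sum fun S _ => ?_
  by_cases hS : ψ S = 0
  · rw [hS]; simp
  · have h1 := lmin_le_of_Zn hν hψ hS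
    have h2 := h (n + lmin n - ∑ i ∈ S, (i : ℕ)) (by omega)
    rw [← add_mul]
    exact mul_le_mul_of_nonneg_right h2 (sq_nonneg _)

theorem Gw_ge {ν : ℕ → ℝ} (hν : PosM ν Q) {n : ℕ} {ψ : Fk (Fin (Q + 1))} (hψ : ψ ∈ Zn ν Q n)
    {w : ℕ → ℝ} {t : ℝ} (h : ∀ j ≤ n, t ≤ w j) :
    t * ‖ψ‖ ^ 2 ≤ (⟪ψ, Gw w n Q ψ⟫_ℂ).re := by
  have h1 := Gw_mono hν hψ (v := fun _ => 0) (w := w) (t := t) (fun j hj => by
    rw [zero_add]; exact h j hj)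
  have h2 : (⟪ψ, Gw (fun _ => 0) n Q ψ⟫_ℂ).re = 0 := by
    rw [re_inner_Gw]; simp
  linarith

theorem emb_Gw {Q' : ℕ} (h : Q' ≤ Q) (w : ℕ → ℝ) (n : ℕ) (χ : Fk (Fin (Q' + 1))) :
    Gw w n Q (emb (ee h) χ) = emb (ee h) (Gw w n Q' χ) := by
  ext S
  rw [Gw_apply]
  by_cases hm : ∃ T : Finset (Fin (Q' + 1)), T.map (ee h).toEmbedding = S
  · obtain ⟨T, rfl⟩ := hm
    rw [emb_apply_map, emb_apply_map, Gw_apply, sum_map]
    rfl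
  · have : ∀ T : Finset (Fin (Q' + 1)), T.map (ee h).toEmbedding ≠ S := fun T hT => hm ⟨T, hT⟩
    rw [emb_apply_not _ _ _ this, emb_apply_not _ _ _ this, mul_zero]

theorem cmp_Gw {Q' : ℕ} (h : Q' ≤ Q) (w : ℕ → ℝ) (n : ℕ) :
    cmp (ee h) (Gw w n Q) = Gw w n Q' := by
  refine Op.ext fun ψ => ?_
  refine ext_inner_left ℂ fun φ => ?_
  rw [inner_cmp, emb_Gw, inner_emb]

/-- the last orbital shifts the line index correctly -/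
theorem c_Gw {n : ℕ} (hQ : Q + 3 = 3 * n + 1) (w : ℕ → ℝ) (φ : Fk (Fin (Q + 3 + 1))) :
    c (Fin.last (Q + 3)) (Gw w (n + 1) (Q + 3) φ) =
      Gw w n (Q + 3) (c (Fin.last (Q + 3)) φ) := by
  ext U
  rw [c_apply, Gw_apply, Gw_apply, c_apply]
  by_cases hU : Fin.last (Q + 3) ∈ U
  · rw [if_pos hU, if_pos hU, mul_zero]
  · rw [if_neg hU, if_neg hU, sum_insert hU, Fin.val_last]
    have e : n + 1 + lmin (n + 1) - (Q + 3 + ∑ i ∈ U, (i : ℕ)) =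
        n + lmin n - ∑ i ∈ U, (i : ℕ) := by
      rw [lmin_succ]; omega
    rw [e]
    ring

/-- `s - Y` in the form of the path moves -/
noncomputable def WD (Q : ℕ) (s : ℝ) (Y : Op (Fin (Q + 1))) : Op (Fin (Q + 1)) :=
  Dop Q s (3 * 0) (prof 1 1) Y

theorem WD_ap (s : ℝ) (Y : Op (Fin (Q + 1))) (ψ : Fk (Fin (Q + 1))) :
    WD Q s Y ψ = (s : ℂ) • ψ - Y ψ := by
  unfold WD Dop
  rw [sub_ap, sub_ap, smul_ap, smul_ap, one_ap]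
  simp

theorem re_WD (s : ℝ) (Y : Op (Fin (Q + 1))) (ψ : Fk (Fin (Q + 1))) :
    (⟪ψ, WD Q s Y ψ⟫_ℂ).re = s * ‖ψ‖ ^ 2 - (⟪ψ, Y ψ⟫_ℂ).re := by
  unfold WD
  rw [re_inner_Dop]
  ring

theorem RX2_sub {ν : ℕ → ℝ} {n : ℕ} {X : Op (Fin (Q + 1))} {CX : ℝ} (w : ℕ → ℝ)
    (h : RX2 Q (Zn ν Q n) X CX) : RX2 Q (Zn ν Q n) (X - Gw w n Q) CX := by
  intro ψ hψ φ hφ p hp
  have e : off (Zn ν Q n) ((X - Gw w n Q) φ) = off (Zn ν Q n) (X φ) := by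
    rw [sub_ap, map_sub, off_of_mem (Gw_mem_Zn w hφ), sub_zero]
  rw [e]
  exact h ψ hψ φ hφ p hp

theorem star_sub_Gw {X : Op (Fin (Q + 1))} (hX : star X = X) (w : ℕ → ℝ) (n : ℕ) :
    star (X - Gw w n Q) = X - Gw w n Q := by
  rw [star_sub, hX, star_Gw]

/-- total error of one step -/
noncomputable def eW (κ CX Cx Cc : ℝ) (Q : ℕ) : ℝ :=
  (48 * CX + Cx + 2 * ((CX + Cc) / κ)) / (Q : ℝ) ^ 2

end Gw

/-! ### the step -/

theorem stepW {κ CG CX Cx Cc : ℝ} {Qc Qt : ℕ} (hc : CIn κ CG Qc)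
    {XX : ∀ Q : ℕ, Op (Fin (Q + 1))} {x : ℕ → ℝ} (hf : FIn Qt XX x CX Cx Cc Qc)
    {Q n : ℕ} (hQ : Q + 3 = 3 * n + 1) (hQc : Qc ≤ Q) (hQt : Q + 3 ≤ Qt)
    (hvac : LB (nu0 (Q + 2)) (Q + 2) (n + 1) (WD (Q + 2) (x (Q + 2)) (XX (Q + 2))) 0)
    {w w' : ℕ → ℝ} (hinc : ∀ j ≤ n, w j + eW κ CX Cx Cc Q ≤ w' j)
    (hnew : ∀ j ≤ n + 1, eW κ CX Cx Cc Q ≤ w' j)
    (h : LB (nu0 Q) Q n (WD Q (x Q) (XX Q - Gw w n Q)) 0) :
    LB (nu0 (Q + 3)) (Q + 3) (n + 1)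
      (WD (Q + 3) (x (Q + 3)) (XX (Q + 3) - Gw w' (n + 1) (Q + 3))) 0 := by
  have hQ1 : 1 ≤ Q := by omega
  have hQr : (1 : ℝ) ≤ Q := by exact_mod_cast hQ1
  have hκ := hc.κpos
  have hCX := hf.CXn
  have hCx := hf.Cxn
  have hCc := hf.Ccn
  set ℓ : Fin (Q + 3 + 1) := Fin.last (Q + 3) with hℓ
  set X := XX (Q + 3) with hX
  have hXs : star X = X := hf.sa (Q + 3) hQt
  have hRX : RX2 (Q + 3) (Zn (nu0 (Q + 3)) (Q + 3) (n + 1)) X CX := by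
    have := hf.X (Q + 3) (by omega) hQt (fun _ => 0) Adm_zero (n + 1)
    rwa [nuT_zero] at this
  -- the moves
  have hmA : Move (nu0 Q) (nuT (tA 1) Q) Q n (WD Q (x Q) (XX Q - Gw w n Q))
      (eMove 3 CG CX 0 1 1 Q) :=
    move_A (a := 1) (R := 1) (by norm_num) (by norm_num) le_rfl (x Q) 0 le_rfl _
      (star_sub_Gw (hf.sa Q (by omega)) w n) hc.CGn hCX (m := 20) le_rfl
      (fun θ hθ => ringG_of_RC2 (hc.G Q hQc (tA θ) (adm_tA ⟨hθ.1.le, hθ.2⟩) n))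
      (fun θ hθ => ringX_of_RX2 (RX2_sub w (hf.X Q hQc (by omega) (tA θ)
        (adm_tA ⟨hθ.1.le, hθ.2⟩) n)))
  have hmB : Move (nu0 (Q + 2)) (nuT (tB 1) (Q + 2)) (Q + 2) (n + 1)
      (WD (Q + 2) (x (Q + 2)) (XX (Q + 2))) (eMove 1 CG CX 0 1 1 (Q + 2)) :=
    move_B (a := 1) (R := 1) (by norm_num) (by norm_num) le_rfl (x (Q + 2)) 0 le_rfl _
      (hf.sa (Q + 2) (by omega)) hc.CGn hCX (m := 20) le_rfl
      (fun θ hθ => ringG_of_RC2 (hc.G (Q + 2) (by omega) (tB θ) (adm_tB ⟨hθ.1.le, hθ.2⟩) (n + 1)))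
      (fun θ hθ => ringX_of_RX2 (hf.X (Q + 2) (by omega) (by omega) (tB θ)
        (adm_tB ⟨hθ.1.le, hθ.2⟩) (n + 1)))
  have hA1 := hmA 0 h
  have hB1 := hmB 0 hvac
  have eA : eMove 3 CG CX 0 1 1 Q = 48 * CX / (Q : ℝ) ^ 2 := by
    unfold eMove; push_cast; ring
  have eB : eMove 1 CG CX 0 1 1 (Q + 2) = 16 * CX / ((Q + 2 : ℕ) : ℝ) ^ 2 := by
    unfold eMove; push_cast; ring
  have hx3 := hf.x3 Q hQc hQt
  have hx1 := hf.x1 Q hQc hQt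
  have hcl3 := hf.cl (Nat.le_add_right Q 3) hQt
  have hcl1 := hf.cl (Nat.le_succ (Q + 2)) hQt
  -- comparison of the denominators
  have d3 : Cx / ((Q + 3 : ℕ) : ℝ) ^ 2 ≤ Cx / (Q : ℝ) ^ 2 := by
    apply div_le_div_of_nonneg_left hCx (by positivity)
    push_cast; nlinarith
  have d2 : 16 * CX / ((Q + 2 : ℕ) : ℝ) ^ 2 ≤ 48 * CX / (Q : ℝ) ^ 2 := by
    apply div_le_div₀ (by positivity) (by linarith) (by positivity)
    push_cast; nlinarith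
  have dδ : CX * (((Q : ℝ) + 2) ^ 2)⁻¹ ≤ CX / (Q : ℝ) ^ 2 := by
    rw [div_eq_mul_inv]
    apply mul_le_mul_of_nonneg_left _ hCX
    apply inv_anti₀ (by positivity)
    nlinarith
  have dη : Cc / ((Q + 3 : ℕ) : ℝ) ^ 2 ≤ Cc / (Q : ℝ) ^ 2 := by
    apply div_le_div_of_nonneg_left hCc (by positivity)
    push_cast; nlinarith
  have hE : eW κ CX Cx Cc Q = 48 * CX / (Q : ℝ) ^ 2 + Cx / (Q : ℝ) ^ 2 +
      2 * ((CX / (Q : ℝ) ^ 2 + Cc / (Q : ℝ) ^ 2) / κ) := by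
    unfold eW
    field_simp
  set E := eW κ CX Cx Cc Q with hEdef
  set δ := CX / (Q : ℝ) ^ 2 with hδ
  set η := Cc / (Q : ℝ) ^ 2 with hη
  have hδ0 : 0 ≤ δ := by positivity
  have hη0 : 0 ≤ η := by positivity
  have hadj : ∀ y, (c ℓ).ap.adjoint y = d ℓ y := by
    intro y
    rw [← star_c]
    rfl
  -- `lamA = lamB = 2 (δ + η) / κ`
  have key := Peel924.peel (Zn (nu0 (Q + 3)) (Q + 3) (n + 1)) (c ℓ).ap
    (WD (Q + 3) (x (Q + 3)) (X - Gw w' (n + 1) (Q + 3))).ap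
    (WD (Q + 3) (x (Q + 3)) (X - Gw w' n (Q + 3))).ap ?_ κ δ η
    (2 * ((δ + η) / κ)) (2 * ((δ + η) / κ)) hκ hδ0 hη0 ?_ (hc.G0 (Q + 2) (n + 1)) ?_ ?_ ?_ ?_
  · intro ψ hψ
    have h1 := key ψ hψ
    rw [min_self, sub_self] at h1
    exact h1
  · -- self-adjoint
    intro y z
    have := inner_star_left (WD (Q + 3) (x (Q + 3)) (X - Gw w' (n + 1) (Q + 3))) y z
    rw [WD, Dop_selfAdjoint _ _ _ (star_sub_Gw hXs w' (n + 1))] at this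
    exact this
  · intro y
    have := Op.norm_ap_le (c ℓ) y
    rw [norm_c, one_mul] at this
    exact this
  · -- commutator
    intro ψ _
    have h2 : c ℓ (WD (Q + 3) (x (Q + 3)) (X - Gw w' (n + 1) (Q + 3)) ψ) -
        WD (Q + 3) (x (Q + 3)) (X - Gw w' n (Q + 3)) (c ℓ ψ) = -((c ℓ * X - X * c ℓ) ψ) := by
      rw [WD_ap, WD_ap, sub_ap, sub_ap, sub_ap, mul_ap, mul_ap, map_sub, map_smul, map_sub,
        c_Gw hQ]
      abel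
    show ‖c ℓ (WD (Q + 3) (x (Q + 3)) (X - Gw w' (n + 1) (Q + 3)) ψ) -
        WD (Q + 3) (x (Q + 3)) (X - Gw w' n (Q + 3)) (c ℓ ψ)‖ ≤ η * ‖ψ‖
    rw [h2, norm_neg]
    exact (Op.norm_ap_le _ _).trans (mul_le_mul_of_nonneg_right
      ((hf.comm (Q + 3) (by omega) hQt).trans dη) (norm_nonneg _))
  · -- cross term
    intro ψ hψ φ hφ
    rw [hadj]
    show ‖⟪d ℓ (c ℓ ψ) - (Zn (nu0 (Q + 3)) (Q + 3) (n + 1)).starProjection (d ℓ (c ℓ ψ)),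
      WD (Q + 3) (x (Q + 3)) (X - Gw w' (n + 1) (Q + 3)) φ⟫_ℂ‖ ≤ δ * ‖ψ‖ * ‖φ‖
    rw [n_last_eq (by omega) ψ, ← off_apply, inner_off_left, WD_ap, sub_ap, map_sub, map_smul,
      off_of_mem hφ, smul_zero, zero_sub, map_sub, off_of_mem (Gw_mem_Zn w' hφ), sub_zero,
      inner_neg_right, norm_neg]
    have h6 := hRX ψ hψ φ hφ (Q + 1) (by omega)
    have e1 : ((Q + 1 : ℕ) : ℝ) + 1 = (Q : ℝ) + 2 := by push_cast; ring
    rw [e1] at h6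
    calc _ ≤ CX * (((Q : ℝ) + 2) ^ 2)⁻¹ * (‖ψ‖ * ‖φ‖) := h6
      _ ≤ δ * (‖ψ‖ * ‖φ‖) := mul_le_mul_of_nonneg_right dδ (by positivity)
      _ = δ * ‖ψ‖ * ‖φ‖ := by ring
  · -- B block
    intro ψ hψ h0
    obtain ⟨χ, hχ, hχ2⟩ := Bblock hψ h0
    have hχ' : χ ∈ Zn (nuT (tB 1) (Q + 2)) (Q + 2) (n + 1) := by rw [Zn_B]; exact hχ
    have h1 := hB1 χ hχ'
    rw [re_WD] at h1
    show _ ≤ (⟪ψ, WD (Q + 3) (x (Q + 3)) (X - Gw w' (n + 1) (Q + 3)) ψ⟫_ℂ).re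
    rw [re_WD, ← hχ2, norm_emb, sub_ap, emb_Gw, inner_sub_right, inner_emb, ← inner_cmp, hcl1,
      Complex.sub_re]
    have h2 := Gw_ge (posM_nuT _ _) hχ' (w := w') (t := E) hnew
    have h3 : -(Cx / (Q : ℝ) ^ 2) * ‖χ‖ ^ 2 ≤ (x (Q + 3) - x (Q + 2)) * ‖χ‖ ^ 2 := by
      apply mul_le_mul_of_nonneg_right _ (sq_nonneg _)
      have := (abs_le.1 hx1).1
      linarith
    rw [eB] at h1
    have h4 : (0 - 48 * CX / (Q : ℝ) ^ 2) * ‖χ‖ ^ 2 ≤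
        (0 - 16 * CX / ((Q + 2 : ℕ) : ℝ) ^ 2) * ‖χ‖ ^ 2 :=
      mul_le_mul_of_nonneg_right (by linarith) (sq_nonneg _)
    rw [hE] at h2
    linarith
  · -- A block
    intro ψ hψ
    obtain ⟨χ, hχ, hχ2⟩ := Ablock (posM_nu0 (Q + 3)) hψ
    have hχ' : χ ∈ Zn (nuT (tA 1) Q) Q n := by rw [Zn_A]; exact hχ
    have h1 := hA1 χ hχ'
    rw [re_WD, sub_ap, inner_sub_right, Complex.sub_re] at h1
    show 2 * ((δ + η) / κ) * ‖c ℓ ψ‖ ^ 2 ≤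
      (⟪c ℓ ψ, WD (Q + 3) (x (Q + 3)) (X - Gw w' n (Q + 3)) (c ℓ ψ)⟫_ℂ).re
    rw [re_WD, ← hχ2, norm_emb, sub_ap, emb_Gw, inner_sub_right, inner_emb, ← inner_cmp, hcl3,
      Complex.sub_re]
    have h2 := Gw_mono (posM_nuT _ _) hχ' (v := w) (w := w') (t := E) hinc
    have h3 : -(Cx / (Q : ℝ) ^ 2) * ‖χ‖ ^ 2 ≤ (x (Q + 3) - x Q) * ‖χ‖ ^ 2 := by
      apply mul_le_mul_of_nonneg_right _ (sq_nonneg _)
      have := (abs_le.1 hx3).1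
      linarith
    rw [eA] at h1
    rw [hE] at h2
    linarith

/-! ### the induction -/

/-- the weights -/
noncomputable def wm (K : ℝ) (m j : ℕ) : ℝ := K * (2 / ((j : ℝ) + 1) - 1 / ((m : ℝ) + 2))

theorem wm_ge {K : ℝ} (hK : 0 ≤ K) {m j : ℕ} (hj : j ≤ m + 1) : K / ((m : ℝ) + 2) ≤ wm K m j := by
  unfold wm
  rw [div_eq_mul_one_div]
  apply mul_le_mul_of_nonneg_left _ hK
  have h1 : (j : ℝ) + 1 ≤ m + 2 := by
    have : (j : ℝ) ≤ ((m + 1 : ℕ) : ℝ) := by exact_mod_cast hj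
    push_cast at this
    linarith
  have h2 : 2 / ((m : ℝ) + 2) ≤ 2 / ((j : ℝ) + 1) :=
    div_le_div_of_nonneg_left (by norm_num) (by positivity) h1
  have h3 : (2 : ℝ) / ((m : ℝ) + 2) = 1 / ((m : ℝ) + 2) + 1 / ((m : ℝ) + 2) := by ring
  linarith

theorem wm_le {K : ℝ} (hK : 0 ≤ K) (m j : ℕ) : wm K m j ≤ 2 * K / ((j : ℝ) + 1) := by
  unfold wm
  have h1 : 0 ≤ K * (1 / ((m : ℝ) + 2)) := by positivity
  have h2 : K * (2 / ((j : ℝ) + 1) - 1 / ((m : ℝ) + 2)) =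
      2 * K / ((j : ℝ) + 1) - K * (1 / ((m : ℝ) + 2)) := by ring
  rw [h2]
  linarith

theorem wm_succ (K : ℝ) (m j : ℕ) :
    wm K (m + 1) j = wm K m j + K / (((m : ℝ) + 2) * (m + 3)) := by
  unfold wm
  push_cast
  have : (m : ℝ) + 2 ≠ 0 := by positivity
  have : (m : ℝ) + 3 ≠ 0 := by positivity
  have : (m : ℝ) + 1 + 2 ≠ 0 := by positivity
  field_simp
  ring

theorem eW_le {κ CX Cx Cc K : ℝ} (hκ : 0 < κ) (hCX : 0 ≤ CX) (hCx : 0 ≤ Cx) (hCc : 0 ≤ Cc)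
    (hK : 6 * (48 * CX + Cx + 2 * ((CX + Cc) / κ)) ≤ K) (m : ℕ) :
    eW κ CX Cx Cc (3 * m + 1) ≤ K / (((m : ℝ) + 2) * (m + 3)) := by
  unfold eW
  have hA : 0 ≤ 48 * CX + Cx + 2 * ((CX + Cc) / κ) := by positivity
  set A := 48 * CX + Cx + 2 * ((CX + Cc) / κ)
  have hm : (0 : ℝ) ≤ m := Nat.cast_nonneg m
  rw [div_le_div_iff₀ (by positivity) (by positivity)]
  push_cast
  have h1 : ((m : ℝ) + 2) * (m + 3) ≤ 6 * (3 * (m : ℝ) + 1) ^ 2 := by nlinarith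
  calc A * (((m : ℝ) + 2) * (m + 3)) ≤ A * (6 * (3 * (m : ℝ) + 1) ^ 2) :=
        mul_le_mul_of_nonneg_left h1 hA
    _ = 6 * A * (3 * (m : ℝ) + 1) ^ 2 := by ring
    _ ≤ K * (3 * (m : ℝ) + 1) ^ 2 := mul_le_mul_of_nonneg_right hK (by positivity)

/-- **(W1)** : `XX - x ≤ Gw` on the one-hole sectors. -/
theorem W1_LB {κ CG CX Cx Cc B K : ℝ} {Qc Qt : ℕ} (hc : CIn κ CG Qc)
    {XX : ∀ Q : ℕ, Op (Fin (Q + 1))} {x : ℕ → ℝ} (hf : FIn Qt XX x CX Cx Cc Qc) (hB : 0 ≤ B)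
    (hXB : ∀ Q ≤ Qt, ‖XX Q‖ ≤ B) (hxB : ∀ Q ≤ Qt, |x Q| ≤ B)
    (hvac : ∀ k, 3 * k ≤ Qt → LB (nu0 (3 * k)) (3 * k) (k + 1) (WD (3 * k) (x (3 * k)) (XX (3 * k))) 0)
    (hK : 6 * (48 * CX + Cx + 2 * ((CX + Cc) / κ)) ≤ K) (hK2 : 2 * B * (Qc + 3) ≤ K) :
    ∀ m, 3 * m + 1 ≤ Qt → LB (nu0 (3 * m + 1)) (3 * m + 1) (m + 1)
      (WD (3 * m + 1) (x (3 * m + 1)) (XX (3 * m + 1) - Gw (wm K m) (m + 1) (3 * m + 1))) 0 := by
  have hκ := hc.κpos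
  have hCX := hf.CXn
  have hCx := hf.Cxn
  have hCc := hf.Ccn
  have hK0 : 0 ≤ K := by
    refine le_trans ?_ hK
    positivity
  -- base
  have base : ∀ m, 3 * m + 1 ≤ Qt → 3 * m + 1 < Qc + 3 → LB (nu0 (3 * m + 1)) (3 * m + 1) (m + 1)
      (WD (3 * m + 1) (x (3 * m + 1)) (XX (3 * m + 1) - Gw (wm K m) (m + 1) (3 * m + 1))) 0 := by
    intro m hm hmQ ψ hψ
    rw [re_WD, sub_ap, inner_sub_right, Complex.sub_re, zero_mul]
    have h1 := (abs_le.1 (re_inner_le_of_norm (hXB _ hm) ψ)).2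
    have h2 := (abs_le.1 (hxB _ hm)).1
    have h3 : -B * ‖ψ‖ ^ 2 ≤ x (3 * m + 1) * ‖ψ‖ ^ 2 :=
      mul_le_mul_of_nonneg_right (by linarith) (sq_nonneg _)
    have h4 := Gw_ge (posM_nu0 (3 * m + 1)) hψ (w := wm K m) (t := 2 * B) (fun j hj => by
      refine le_trans ?_ (wm_ge hK0 hj)
      rw [le_div_iff₀ (by positivity)]
      refine le_trans ?_ hK2
      apply mul_le_mul_of_nonneg_left _ (by positivity)
      have : ((m : ℕ) : ℝ) + 2 ≤ ((Qc + 3 : ℕ) : ℝ) := by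
        exact_mod_cast (by omega : m + 2 ≤ Qc + 3)
      push_cast at this
      linarith)
    linarith
  intro m
  induction m with
  | zero =>
    intro h
    exact base 0 h (by omega)
  | succ m ih =>
    intro hm
    rcases Nat.lt_or_ge (3 * (m + 1) + 1) (Qc + 3) with hlt | hge
    · exact base (m + 1) hm hlt
    · have h1 := ih (by omega)
      have hE := eW_le hκ hCX hCx hCc hK m
      have e3 : 3 * (m + 1) + 1 = 3 * m + 1 + 3 := by ring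
      have hv := hvac (m + 1) (by omega)
      exact stepW (Q := 3 * m + 1) (n := m + 1) hc hf (by ring) (by omega) (by omega) hv
        (w := wm K m) (w' := wm K (m + 1))
        (fun j _ => by rw [wm_succ]; linarith)
        (fun j hj => by
          refine hE.trans (le_trans ?_ (wm_ge hK0 (m := m + 1) hj))
          push_cast
          apply div_le_div_of_nonneg_left hK0 (by positivity)
          have : (0 : ℝ) ≤ m := Nat.cast_nonneg m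
          nlinarith) h1

/-! ### on the lines -/

theorem Gw_Sc {Q n M : ℕ} (w : ℕ → ℝ) {v : Fk (Fin (Q + 1))} (hv : v ∈ Sc Q n M) :
    Gw w n Q v = ((w (n + lmin n - M) : ℝ) : ℂ) • v := by
  ext S
  rw [Gw_apply]
  show _ = _ * v S
  by_cases hS : v S = 0
  · rw [hS, mul_zero, mul_zero]
  · rw [(hv S hS).2]

theorem Gw_line {ψ : (n k : ℕ) → Fk (Fin (3 * n + 1 + 1))} (h : K1V ψ) (w : ℕ → ℝ) {n k : ℕ}
    (hk : k ≤ n + 1) :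
    Gw w (n + 1) (3 * n + 1) (ψ n k) = ((w k : ℝ) : ℂ) • ψ n k := by
  rw [Gw_Sc w (h n k hk).1.2]
  have : n + 1 + lmin (n + 1) - Mk n k = k := by
    unfold Mk
    omega
  rw [this]

theorem Gw_lines {ψ : (n k : ℕ) → Fk (Fin (3 * n + 1 + 1))} (h : K1V ψ) (w : ℕ → ℝ) (n : ℕ)
    (α : ℕ → ℂ) :
    (⟪∑ k ∈ range (n + 2), α k • ψ n k,
      Gw w (n + 1) (3 * n + 1) (∑ k ∈ range (n + 2), α k • ψ n k)⟫_ℂ).re =
      ∑ k ∈ range (n + 2), w k * ‖α k‖ ^ 2 := by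
  have h1 := K1dec716.form_diag (ψ := ψ) (n := n) (Gw w (n + 1) (3 * n + 1))
    (fun k hk l hl hkl => by
      rw [Gw_line h w hl, inner_smul_right, (h.toK1B).orth n k hk l hl hkl, mul_zero]) α
  rw [h1]
  refine sum_congr rfl fun k hk => ?_
  have hk' : k ≤ n + 1 := by have := mem_range.1 hk; omega
  rw [Gw_line h w hk', inner_smul_right, inner_self_eq_norm_sq_to_K, (h n k hk').2,
    Complex.re_ofReal_mul]
  norm_num

end Crest.Agent.R340.K1W716
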