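import Crest.Agent.R340.K1plug_716
import Crest.Agent.R340.K1W_716

/-!
# R340 / S0532: the one-hole case `H1` of the weak pass (helper716)

`H1_of`: `WP596.H1 nW a (9/10)` from `RC`, `RX`, `GZ`, `VS`, the lines `K1V ψ` and the radial data
`K1rad716.DataR (en ψ)`.
-/

set_option autoImplicit false
set_option linter.unusedSectionVars false
open scoped InnerProductSpace ComplexConjugate

namespace Crest.Agent.R340.H1716

open Finset
open Crest.Agent.R340.Fock649 Crest.Agent.R340.Emb596 Crest.Agent.R340.Geo986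
  Crest.Agent.R340.Peel596 Crest.Agent.R340.Step596 Crest.Agent.R340.PathStep880
  Crest.Agent.R340.PeelX596 Crest.Agent.R340.Hstep596
open Crest.Agent.R340.Scal725 (prof cs)
open Crest.Agent.R340.Weak716 (DW re_inner_Dop re_inner_le_of_norm)
open Crest.Agent.R340.Defs150 (Dy RC RX GZ IsVac WP)
open Crest.Agent.R340.K1dec716 Crest.Agent.R340.K1W716 Crest.Agent.R340.K1plug716
open Crest.Agent.R340.WP596

/-- the vacuum bound of the family -/
theorem hvac_fam {Qt : ℕ} (X : Op (Fin (Qt + 1))) (k : ℕ) :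
    LB (nu0 (3 * k)) (3 * k) (k + 1) (WD (3 * k) (xx Qt X (3 * k)) (fam Qt X (3 * k))) 0 := by
  have h3 : 3 ∣ 3 * k := Dvd.intro _ rfl
  have hr := IsVac.isRef h3 (vacS_isVac h3)
  have e : 3 * k / 3 + 1 = k + 1 := by omega
  rw [e] at hr
  rw [Vac467.LB_vac_iff (posM_nu0 (3 * k)) (by omega) hr, re_WD, hr.unit]
  have e2 : xx Qt X (3 * k) = (⟪vacS (3 * k), fam Qt X (3 * k) (vacS (3 * k))⟫_ℂ).re := by
    have : 3 * (3 * k / 3) = 3 * k := by omega
    unfold xx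
    rw [this]
    rfl
  rw [e2]
  simp

theorem H1_of {nW : ℕ} (hn : 4 ≤ nW) {κ K1 K2 K3 : ℝ} (hRC : RC K1) (hRX : RX nW K2)
    (hGZ : GZ κ) (hVS : VS nW K3) {ψ : (n k : ℕ) → Fk (Fin (3 * n + 1 + 1))} (hV : K1V ψ)
    {C1 : ℝ} {n0 : ℕ} (hC1 : 0 ≤ C1) (hD : K1rad716.DataR (en ψ) C1 n0) {a : ℝ} (ha0 : 0 < a)
    (ha1 : a ≤ 1 / 100) (haC : (90 + 102 * C1) * a ≤ 1 / 40) : H1 nW a (9 / 10) := by
  have hκ := hGZ.1
  have hK2 := hRX.1
  have hK3 := hVS.1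
  set K : ℝ := 6 * (48 * K2 + 4 * K3 + 2 * ((K2 + 32) / κ)) + 12 with hK
  have hK0 : 0 ≤ K := by positivity
  refine ⟨3 * (n0 : ℝ) + 10, 160 * (2 * K), ?_⟩
  intro S hS C hC q n hq hqn X hX Ω hΩ
  obtain ⟨m, rfl⟩ := hq
  obtain rfl : n = m + 1 := by omega
  have hn00 : (0 : ℝ) ≤ n0 := Nat.cast_nonneg _
  have hC0 : 0 ≤ C := by linarith
  have hXn : ‖X‖ ≤ 1 := hX.2.norm_le
  have hc := cIn_of hRC hGZ
  have hf := fIn_of hn hRX hVS hX
  have hW := W1_LB (B := 1) (K := K) hc hf zero_le_one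
    (fun Q _ => (norm_fam_le X Q).trans hXn) (fun Q _ => abs_xx_le hXn Q)
    (fun k _ => hvac_fam X k) (by rw [hK]; linarith) (by
      rw [hK]
      have : 0 ≤ 6 * (48 * K2 + 4 * K3 + 2 * ((K2 + 32) / κ)) := by positivity
      push_cast
      linarith) m le_rfl
  rw [fam_top] at hW
  -- the scalar
  have hx : xx (3 * m + 1) X (3 * m + 1) =
      (⟪Ω, cmp (ee (Nat.le_succ (3 * m))) X Ω⟫_ℂ).re := by
    have e1 : 3 * ((3 * m + 1) / 3) = 3 * m := by omega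
    have h3 : 3 ∣ 3 * m := Dvd.intro _ rfl
    unfold xx
    rw [e1]
    unfold vv
    rw [vac_value_eq h3 (vacS_isVac h3) hΩ, fam_of_le (Nat.le_succ (3 * m))]
  have hone := hone_of (hV.toK1B) (a := a) (R := S) (C := C) (CX := 2 * K)
    (x := xx (3 * m + 1) X (3 * m + 1)) (by linarith) ha0 ha1 m
    (fun k hk => by
      have h1 := K1rad716.K1rad' hD hC1 ha0 (by linarith) hS m k hk
      refine le_trans ?_ h1
      apply mul_le_mul_of_nonneg_right (by linarith)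
      exact (Scal725.prof_pos (by linarith) (by linarith) _).le) X (by positivity) ?_ hC0 hC
  · rw [hx] at hone
    unfold DW at hone
    have e : (9 / 10 * C * prof a S (3 * m + 1)) = 9 / 10 * C * prof a S (3 * m + 1) := rfl
    exact hone
  · intro α
    have hmem : (∑ k ∈ range (m + 2), α k • ψ m k) ∈ Zn (nu0 (3 * m + 1)) (3 * m + 1) (m + 1) :=
      Submodule.sum_mem _ fun k hk => Submodule.smul_mem _ _ ((hV.toK1B).mem m k (by
        have := mem_range.1 hk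
        omega))
    have h1 := hW _ hmem
    rw [re_WD, sub_ap, inner_sub_right, Complex.sub_re, zero_mul, Gw_lines hV,
      norm_sq_sum hV.toK1B] at h1
    have h2 : ∑ k ∈ range (m + 2), wm K m k * ‖α k‖ ^ 2 ≤
        ∑ k ∈ range (m + 2), (2 * K / ((k : ℝ) + 1)) * ‖α k‖ ^ 2 :=
      sum_le_sum fun k _ => mul_le_mul_of_nonneg_right (wm_le hK0 m k) (sq_nonneg _)
    linarith

/-- **(W)** of `Defs150` from `RC`, `RX`, `GZ`, `VS` and the one-hole data. -/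
theorem WP_final {nW : ℕ} (hn : 4 ≤ nW) {κ K1 K2 K3 : ℝ} (hRC : RC K1) (hRX : RX nW K2)
    (hGZ : GZ κ) (hVS : VS nW K3) {ψ : (n k : ℕ) → Fk (Fin (3 * n + 1 + 1))} (hV : K1V ψ)
    {C1 : ℝ} {n0 : ℕ} (hC1 : 0 ≤ C1) (hD : K1rad716.DataR (en ψ) C1 n0) :
    ∃ a0 : ℝ, 0 < a0 ∧ ∀ a : ℝ, 0 < a → a ≤ a0 →
      ∃ R0 C0 : ℝ, 43 ≤ R0 ∧ 40 ≤ C0 ∧ ∀ C : ℝ, C0 ≤ C → WP nW a R0 C (9 / 10) := by
  have hpos : 0 < 90 + 102 * C1 := by linarith
  refine ⟨min (1 / 100) (1 / (40 * (90 + 102 * C1))), lt_min (by norm_num) (by positivity),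
    fun a ha0 ha => ?_⟩
  have ha1 : a ≤ 1 / 100 := ha.trans (min_le_left _ _)
  have ha2 : a ≤ 1 / (40 * (90 + 102 * C1)) := ha.trans (min_le_right _ _)
  have ha3 : (90 + 102 * C1) * a ≤ 1 / 40 := by
    calc (90 + 102 * C1) * a ≤ (90 + 102 * C1) * (1 / (40 * (90 + 102 * C1))) :=
          mul_le_mul_of_nonneg_left ha2 hpos.le
      _ = 1 / 40 := by field_simp
  exact WP_of hn hRC hRX hGZ hVS ha0 ha1 (by norm_num) le_rfl
    (H1_of hn hRC hRX hGZ hVS hV hC1 hD ha0 ha1 ha3)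

end Crest.Agent.R340.H1716
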