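import Crest.Agent.R340.WP_596
import Crest.Agent.R340.Vac5_467

/-!
# (VS): flux dependence of the vacuum value of a local operator (helper596, R340)

Path from the round metric of flux `Q` to that of flux `Q + 3` on the one-dimensional vacuum space
(`move_A` with `C = 0`), then the exact peeling identity `Vac467.vac_scalar`.
-/

set_option autoImplicit false
set_option linter.unusedSectionVars false
open scoped InnerProductSpace ComplexConjugate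
open Crest.Agent.R340.Fock649 Crest.Agent.R340.Emb596 Crest.Agent.R340.Geo986
  Crest.Agent.R340.Peel596 Crest.Agent.R340.PathStep880 Crest.Agent.R340.Step596
  Crest.Agent.R340.PeelX596 Crest.Agent.R340.Hstep596
open Crest.Agent.R340.Scal725 (prof dd cs)
open Crest.Agent.R340.PV341 (Adm)
open Crest.Agent.R340.FX963 (DY)
open Crest.Agent.R340.Defs150 (Dy RC RX GZ IsVac WP)
open Crest.Agent.R340

namespace Crest.Agent.R340.WP596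

open Finset

/-! ### `X ↦ -X` -/

theorem RX2.neg {Q : ℕ} {Z : Submodule ℂ (Fk (Fin (Q + 1)))} {X : Op (Fin (Q + 1))} {K : ℝ}
    (h : RX2 Q Z X K) : RX2 Q Z (-X) K := by
  intro ψ hψ φ hφ p hp
  have h1 : ((-X) φ : Fk (Fin (Q + 1))) = -(X φ) := rfl
  rw [h1, map_neg, inner_neg_right, norm_neg]
  exact h ψ hψ φ hφ p hp

theorem re_inner_vac_Dop {Q : ℕ} (s : ℝ) (f : ℕ → ℝ) (X : Op (Fin (Q + 1)))
    {Φ : Fk (Fin (Q + 1))} (h1 : ‖Φ‖ = 1) :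
    (⟪Φ, Dop Q s 0 f X Φ⟫_ℂ).re = s - (⟪Φ, X Φ⟫_ℂ).re := by
  rw [Vac467.re_inner_Dop _ _ _ _ h1, zero_mul, sub_zero]

/-- one-sided bound for the change of the vacuum value along the path -/
theorem vac_move_le {Q n : ℕ} (hQ : Q = 3 * (n - 1)) {K1 K2 : ℝ} (hRC : RC K1) (hQ1 : 1 ≤ Q)
    (hK2 : 0 ≤ K2) {X : Op (Fin (Q + 1))} (hX : star X = X)
    (hRX : ∀ t : Fin 3 → ℝ, Adm t → ∀ n : ℕ, RX2 Q (Zn (nuT t Q) Q n) X K2)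
    {Φ : Fk (Fin (Q + 1))} (hΦ : Φ ∈ Zn (nu0 Q) Q n) (hΦ1 : ‖Φ‖ = 1)
    {Ω : Fk (Fin (Q + 1))} (hΩ : Ω ∈ Zn (nu0 (Q + 3)) Q n) (hΩ1 : ‖Ω‖ = 1) :
    (⟪Ω, X Ω⟫_ℂ).re ≤ (⟪Φ, X Φ⟫_ℂ).re + 48 * K2 / (Q : ℝ) ^ 2 := by
  have hm := move_A (Q := Q) (n := n) (a := 1) (R := 1) (by norm_num) (by norm_num) le_rfl 0 0
    le_rfl X hX hRC.1 hK2 (le_refl (20 : ℝ))
    (fun θ hθ => ringG_of_RC2 (hRC.2 Q hQ1 (tA θ) (adm_tA ⟨hθ.1.le, hθ.2⟩) n))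
    (fun θ hθ => ringX_of_RX2 (hRX (tA θ) (adm_tA ⟨hθ.1.le, hθ.2⟩) n))
  have hposQ : PosM (nu0 (Q + 3)) Q := fun j hj => posM_nu0 (Q + 3) j (by omega)
  have hR0 := Vac467.isRef_of_Zn (posM_nu0 Q) hQ hΦ hΦ1
  have hR1 := Vac467.isRef_of_Zn hposQ hQ hΩ hΩ1
  have h0 : LB (nu0 Q) Q n (Dop Q 0 (3 * 0) (prof 1 1) X) (-(⟪Φ, X Φ⟫_ℂ).re) := by
    rw [mul_zero, Vac467.LB_vac_iff (posM_nu0 Q) hQ hR0, re_inner_vac_Dop _ _ _ hΦ1]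
    linarith
  have h1 := hm _ h0
  have h2 : LB (nu0 (Q + 3)) Q n (Dop Q 0 (3 * 0) (prof 1 1) X)
      (-(⟪Φ, X Φ⟫_ℂ).re - eMove 3 K1 K2 0 1 1 Q) := by
    unfold LB at h1 ⊢
    rw [Zn_A] at h1
    exact h1
  rw [mul_zero, Vac467.LB_vac_iff hposQ hQ hR1, re_inner_vac_Dop _ _ _ hΩ1] at h2
  have h3 : eMove 3 K1 K2 0 1 1 Q = 48 * K2 / (Q : ℝ) ^ 2 := by
    unfold eMove
    push_cast
    ring
  rw [h3] at h2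
  linarith

theorem vac_move {Q n : ℕ} (hQ : Q = 3 * (n - 1)) {K1 K2 : ℝ} (hRC : RC K1) (hQ1 : 1 ≤ Q)
    (hK2 : 0 ≤ K2) {X : Op (Fin (Q + 1))} (hX : star X = X)
    (hRX : ∀ t : Fin 3 → ℝ, Adm t → ∀ n : ℕ, RX2 Q (Zn (nuT t Q) Q n) X K2)
    {Φ : Fk (Fin (Q + 1))} (hΦ : Φ ∈ Zn (nu0 Q) Q n) (hΦ1 : ‖Φ‖ = 1)
    {Ω : Fk (Fin (Q + 1))} (hΩ : Ω ∈ Zn (nu0 (Q + 3)) Q n) (hΩ1 : ‖Ω‖ = 1) :
    |(⟪Ω, X Ω⟫_ℂ).re - (⟪Φ, X Φ⟫_ℂ).re| ≤ 48 * K2 / (Q : ℝ) ^ 2 := by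
  have h1 := vac_move_le hQ hRC hQ1 hK2 hX hRX hΦ hΦ1 hΩ hΩ1
  have hX' : star (-X) = -X := by rw [star_neg, hX]
  have h2 := vac_move_le hQ hRC hQ1 hK2 hX' (fun t ht n => RX2.neg (hRX t ht n)) hΦ hΦ1 hΩ hΩ1
  have e : ∀ v : Fk (Fin (Q + 1)), (⟪v, (-X) v⟫_ℂ).re = -(⟪v, X v⟫_ℂ).re := by
    intro v
    have : ((-X) v : Fk (Fin (Q + 1))) = -(X v) := rfl
    rw [this, inner_neg_right, Complex.neg_re]
  rw [e, e] at h2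
  rw [abs_le]
  constructor <;> linarith

/-- **(VS)** from ring clustering. -/
theorem VS_of {nW : ℕ} (hn : 4 ≤ nW) {K1 K2 : ℝ} (hRC : RC K1) (hRX : RX nW K2) :
    VS nW (204 * K2 + 96) := by
  have hK2 := hRX.1
  refine ⟨by positivity, fun Q hQ1 h3 X hX Φ Φ' hΦ hΦ' => ?_⟩
  obtain ⟨k, hQdef⟩ := h3
  have hk : 1 ≤ k := by omega
  have hQn : Q = 3 * ((k + 1) - 1) := by omega
  have hd : Q / 3 + 1 = k + 1 := by omega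
  have hd3 : (Q + 3) / 3 + 1 = (k + 1) + 1 := by omega
  have hΦm : Φ ∈ Zn (nu0 (Q + 3)) (Q + 3) ((k + 1) + 1) := by
    have := hΦ.1
    rwa [hd3] at this
  have hΦ'm : Φ' ∈ Zn (nu0 Q) Q (k + 1) := by
    have := hΦ'.1
    rwa [hd] at this
  -- the vacuum in the restricted metric
  have hposQ : PosM (nu0 (Q + 3)) Q := fun j hj => posM_nu0 (Q + 3) j (by omega)
  obtain ⟨Ω, hΩ⟩ := Vac467.exists_ref hposQ (n := k + 1) (by omega)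
  have hΩm := hΩ.mem_Zn
  set X' := cmp (ee (Nat.le_add_right Q 3)) X with hX'def
  have hX' : Dy nW Q 1 X' := hX.cmp _
  -- peeling
  have hcomm := DY_comm_last hX.2 hn (show 1 ≤ Q + 3 by omega)
  have hRX0 : RX2 (Q + 3) (Zn (nu0 (Q + 3)) (Q + 3) ((k + 1) + 1)) X K2 := by
    have := hRX.2 (Q + 3) (by omega) (fun _ => 0) Adm_zero ((k + 1) + 1) X hX
    rwa [nuT_zero] at this
  have hRC0 : RC2 (Q + 3) (Zn (nu0 (Q + 3)) (Q + 3) ((k + 1) + 1)) K1 20 := by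
    have := hRC.2 (Q + 3) (by omega) (fun _ => 0) Adm_zero ((k + 1) + 1)
    rwa [nuT_zero] at this
  have hcross := cross_le (Q := Q + 3) (by omega) (Zn (nu0 (Q + 3)) (Q + 3) ((k + 1) + 1))
    (fun ψ hψ => TT_one_mem_Zn hψ) (fun ψ hψ => TT_lin_mem_Zn hψ) (α := 1) (R := 1) (by norm_num)
    (by norm_num) le_rfl 0 0 le_rfl X hRC.1 (le_refl (20 : ℝ)) hRC0 hRX0
  have h1 := Vac467.vac_scalar (n := k + 1) (by omega) hQn hΦm hΦ.2 hΩm hΩ.unit 0 0 (prof 1 1) X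
    hcomm hcross
  have h2 := vac_move hQn hRC hQ1 hK2 hX'.1
    (fun t ht n => hRX.2 Q hQ1 t ht n X' hX') hΦ'm hΦ'.2 hΩm hΩ.unit
  rw [← hX'def] at h1
  simp only [zero_mul, zero_add, sub_zero] at h1
  set N : ℝ := ((Q + 3 : ℕ) : ℝ) with hN
  have hNQ : N = (Q : ℝ) + 3 := by rw [hN]; push_cast; ring
  have hQr : (3 : ℝ) ≤ Q := by exact_mod_cast (by omega : 3 ≤ Q)
  have e1 : K2 * ((N - 1) ^ 2)⁻¹ ≤ 4 * K2 / N ^ 2 := by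
    rw [← div_eq_mul_inv, div_le_div_iff₀ (by nlinarith) (by nlinarith)]
    have : N ^ 2 ≤ 4 * (N - 1) ^ 2 := by nlinarith
    nlinarith
  have e2 : 48 * K2 / (Q : ℝ) ^ 2 ≤ 192 * K2 / N ^ 2 := by
    rw [div_le_div_iff₀ (by positivity) (by nlinarith)]
    have : N ^ 2 ≤ 4 * (Q : ℝ) ^ 2 := by nlinarith
    nlinarith
  have h3 : |(⟪Φ, X Φ⟫_ℂ).re - (⟪Ω, X' Ω⟫_ℂ).re| ≤ 12 * K2 / N ^ 2 + 96 / N ^ 2 := by
    refine h1.trans ?_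
    calc 3 * (K2 * ((N - 1) ^ 2)⁻¹ + 32 * 1 / N ^ 2)
        ≤ 3 * (4 * K2 / N ^ 2 + 32 * 1 / N ^ 2) := by linarith
      _ = _ := by ring
  calc |(⟪Φ, X Φ⟫_ℂ).re - (⟪Φ', X' Φ'⟫_ℂ).re|
      = |((⟪Φ, X Φ⟫_ℂ).re - (⟪Ω, X' Ω⟫_ℂ).re) + ((⟪Ω, X' Ω⟫_ℂ).re - (⟪Φ', X' Φ'⟫_ℂ).re)| := by
        congr 1; ring
    _ ≤ |(⟪Φ, X Φ⟫_ℂ).re - (⟪Ω, X' Ω⟫_ℂ).re| + |(⟪Ω, X' Ω⟫_ℂ).re - (⟪Φ', X' Φ'⟫_ℂ).re| :=
        abs_add_le _ _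
    _ ≤ (12 * K2 / N ^ 2 + 96 / N ^ 2) + 192 * K2 / N ^ 2 := add_le_add h3 (h2.trans e2)
    _ = _ := by ring

/-- **(W)** from `RC`, `RX`, `GZ` and the one-hole case `H1`. -/
theorem WP_final {nW : ℕ} (hn : 4 ≤ nW) {κ K1 K2 : ℝ} (hRC : RC K1) (hRX : RX nW K2) (hGZ : GZ κ)
    {a : ℝ} (ha0 : 0 < a) (ha1 : a ≤ 1 / 100) {θ : ℝ} (hθ0 : 4 / 5 ≤ θ) (hθ1 : θ ≤ 9 / 10)
    (hH1 : H1 nW a θ) :
    ∃ R0 C0 : ℝ, 43 ≤ R0 ∧ 40 ≤ C0 ∧ ∀ C : ℝ, C0 ≤ C → WP nW a R0 C θ :=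
  WP_of hn hRC hRX hGZ (VS_of hn hRC hRX) ha0 ha1 hθ0 hθ1 hH1

end Crest.Agent.R340.WP596
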