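import Crest.Agent.R340.K1inG_788
import Crest.Agent.R340.H1_716
import Crest.Agent.R340.VS_596

/-!
# R340: the weak pass `WP` from `RC`, `RX`, `GZ` (helper788)

Composition of `H1716.WP_final` (716), `WP596.VS_of` (596/467) and `K1in788.k1v`, `dataR_en`.
-/

set_option autoImplicit false

namespace Crest.Agent.R340.K1in788

open Crest.Agent.R340.Defs150 (RC RX GZ WP)

/-- **(W)** the weak pass of `Defs150` from the clustering inputs only. -/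
theorem WP_RC {nW : ℕ} (hn : 4 ≤ nW) {κ K1 K2 : ℝ} (hRC : RC K1) (hRX : RX nW K2) (hGZ : GZ κ) :
    ∃ a0 : ℝ, 0 < a0 ∧ ∀ a : ℝ, 0 < a → a ≤ a0 →
      ∃ R0 C0 : ℝ, 43 ≤ R0 ∧ 40 ≤ C0 ∧ ∀ C : ℝ, C0 ≤ C → WP nW a R0 C (9 / 10) :=
  H1716.WP_final hn hRC hRX hGZ (WP596.VS_of hn hRC hRX) k1v
    (C1_nonneg hGZ.1 hRC.1) (dataR_en (inp_of hRC hGZ) (n0 := 1) (by norm_num))

end Crest.Agent.R340.K1in788
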