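import Crest.Agent.R340.SP_735
import Crest.Agent.R340.Tz8_877
import Crest.Agent.R340.TX3_880
import Crest.Agent.R340.LR11_667
import Crest.Agent.R340.WPF_788
import Crest.Agent.R340.Peel3F_924
import Crest.Agent.R340.U7_856
import Crest.Agent.R340.Top3_644
import Crest.Agent.R340.Fin3_249

/-!
# R340 (S0532): final plug (helper644)

`sp_final` : (SP) from the gap; `s0532_of_psd` : S0532 from the local certificate.
-/

set_option autoImplicit false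

namespace Crest.Agent.R340.Fin644

open MeasureTheory Crest.Agent.R340.Fock649 Crest.Agent.R340.Geo986 Crest.MathPhysics.Laughlin
open Crest.Agent.R340.Defs150

theorem sp_final {γ : ℝ} (hγ : 0 < γ) (hG : ∀ Q : ℕ, GapG (nu0 Q) Q γ) :
    ∃ A S CS : ℝ, 1 < A ∧ A < S + 1 ∧ 0 ≤ CS ∧ SP 40 A S CS := by
  obtain ⟨⟨K1, hRC⟩, hRX, hRZ⟩ := LR667.exists_RC_RX_RZ hγ hG
  obtain ⟨KR, hRX⟩ := hRX 24 (by norm_num)
  obtain ⟨K3, hRZ⟩ := hRZ 24 (by norm_num)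
  obtain ⟨κ, hκ, _, hG0⟩ := Peel3F924.exists_G0P hγ hG
  have hGZ : GZ κ := ⟨hκ, hG0⟩
  obtain ⟨KX, hTX⟩ := TX880.exists_TX_40_24 hγ hG
  obtain ⟨a0, ha0, hWP⟩ := K1in788.WP_RC (nW := 24) (by norm_num) hRC hRX hGZ
  have ha : 0 < min a0 (1 / 2) := lt_min ha0 (by norm_num)
  have ha2 : min a0 (1 / 2) ≤ 1 / 2 := min_le_right _ _
  obtain ⟨R0, C0, hR0, hC0, hWP⟩ := hWP (min a0 (1 / 2)) ha (min_le_left _ _)
  obtain ⟨KT, hTZ⟩ := Tz877.exists_TZ hγ hG 23 (A := 1 + min a0 (1 / 2) / 2) (by linarith)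
    (by linarith)
  obtain ⟨S, hS, h⟩ := SP735.SP_of hRC hRX hRZ hGZ hTZ hTX (hWP C0 le_rfl) (by linarith)
    (by linarith) (by norm_num) ha (by linarith) (by linarith) (by linarith) (by linarith)
    (by norm_num) (by norm_num)
  exact ⟨_, S, 40, by linarith, hS, by norm_num, h 40 le_rfl⟩

/-- **S0532** from the local certificate. -/
theorem s0532_of_psd (h : Cert132.PSD 8 Cert132.G8 Cert132.B8 Cert132.A8) :
    ∃ c₀ Δ : ℝ, 0 < c₀ ∧ 0 < Δ ∧ ∃ N₀ : ℕ, ∀ N : ℕ, N₀ ≤ N →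
      ∀ φ : S2 → ℝ, Measurable φ → (∀ x, |φ x| ≤ 1) → ∀ c : ℝ, |c| ≤ c₀ →
        HasFermionicGap
          (interaction (3 * (N - 1)) N +
            (c : ℂ) • oneBody N (toeplitz (3 * (N - 1)) φ)) Δ := by
  obtain ⟨γ, hγ, _, _, hG, _, _⟩ := Vac467.gap_forms_of_s0533 (γ := 1 / 25) (by norm_num)
    (Kn249.s0533_of_psd h (1 / 25) (by norm_num) (by norm_num))
  obtain ⟨A, S, CS, hA, hAS, hCS, hSP⟩ := sp_final hγ hG
  exact Top644.s0532_of_UP h (U856.UP_of_SP h (k := 39) (by norm_num) hA hAS hCS hSP le_rfl)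

end Crest.Agent.R340.Fin644
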