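import Crest.Agent.R340.SPfin_735
import Crest.Agent.R340.Tz8_877

/-!
# R340 / S0532: the strong pass from the gap (helper735)
-/

set_option autoImplicit false

namespace Crest.Agent.R340.SP735

open Crest.Agent.R340.Defs150 Crest.Agent.R340.Geo986

/-- **SP** from the gap of all fluxes. -/
theorem sp_gap {γ : ℝ} (hγ : 0 < γ) (hG : ∀ Q : ℕ, GapG (nu0 Q) Q γ) :
    ∃ A : ℝ, ∃ S : ℕ, ∃ CS : ℝ, 1 < A ∧ A ≤ 3 / 2 ∧ A < (S : ℝ) + 1 ∧ 0 ≤ CS ∧ SP 40 A S CS :=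
  sp_final hγ hG fun _ h1 h2 => Tz877.exists_TZ hγ hG 23 h1 h2

end Crest.Agent.R340.SP735
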