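import Crest.Agent.R340.Hstep_596
import Crest.Agent.R340.Weak1_716
import Crest.Agent.R340.FX1_963

/-!
# The weak pass for a family of compressions (helper596, R340 block L3b/L3c)

`fam Qt X Q` is the compression to flux `Q ≤ Qt` of an operator `X` at flux `Qt`. `hstep_fam` is the
literal hypothesis `hstep` of `Weak716.weak_red`, `weak_fam` is `weak_red` with only the one-hole case
`hone` left, `weak_DY` the same for operators of the class `FX963.DY`.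
-/

set_option autoImplicit false
set_option linter.unusedSectionVars false
open scoped InnerProductSpace ComplexConjugate
open Crest.Agent.R340.Fock649 Crest.Agent.R340.Emb596 Crest.Agent.R340.Geo986
  Crest.Agent.R340.Peel596 Crest.Agent.R340.PathStep880 Crest.Agent.R340.Step596
  Crest.Agent.R340.PeelX596
open Crest.Agent.R340.Scal725 (prof dd cs)
open Crest.Agent.R340.PV341 (Adm)
open Crest.Agent.R340.Weak716 (DW)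
open Crest.Agent.R340.FX963 (DY cmp_cmp)
open Crest.Agent.R340

namespace Crest.Agent.R340.Hstep596

open Finset

/-! ### 1. families of compressions -/

/-- compression of an operator at flux `Qt` to flux `Q ≤ Qt` -/
noncomputable def fam (Qt : ℕ) (X : Op (Fin (Qt + 1))) (Q : ℕ) : Op (Fin (Q + 1)) :=
  if h : Q ≤ Qt then cmp (ee h) X else 0

theorem fam_of_le {Qt Q : ℕ} (h : Q ≤ Qt) (X : Op (Fin (Qt + 1))) :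
    fam Qt X Q = cmp (ee h) X := by
  unfold fam
  rw [dif_pos h]

theorem ee_self (Q : ℕ) (i : Fin (Q + 1)) : ee (le_refl Q) i = i := Fin.ext (ee_val _ i)

theorem cmp_ee_self {Q : ℕ} (X : Op (Fin (Q + 1))) : cmp (ee (le_refl Q)) X = X := by
  have hemb : ∀ ψ : Fk (Fin (Q + 1)), emb (ee (le_refl Q)) ψ = ψ := by
    intro ψ
    have : (emb (ee (le_refl Q)) : Fk (Fin (Q + 1)) →L[ℂ] Fk (Fin (Q + 1))) =
        ContinuousLinearMap.id ℂ _ := by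
      refine ContinuousLinearMap.ext fun ψ => ?_
      rw [fk_eq_sum ψ, map_sum, map_sum]
      refine Finset.sum_congr rfl fun S _ => ?_
      rw [map_smul, map_smul, emb_ket, ContinuousLinearMap.id_apply]
      congr 2
      ext i
      simp [ee_self]
    rw [this]; rfl
  refine Op.ext fun ψ => ?_
  refine ext_inner_left ℂ fun φ => ?_
  rw [inner_cmp, hemb, hemb]

theorem fam_top (Qt : ℕ) (X : Op (Fin (Qt + 1))) : fam Qt X Qt = X := by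
  rw [fam_of_le le_rfl, cmp_ee_self]

theorem fam_cmp {Qt Q Q' : ℕ} (h : Q' ≤ Q) (hQ : Q ≤ Qt) (X : Op (Fin (Qt + 1))) :
    cmp (ee h) (fam Qt X Q) = fam Qt X Q' := by
  rw [fam_of_le hQ, fam_of_le (h.trans hQ)]
  refine cmp_cmp (ee hQ) (ee h) X (ee (h.trans hQ)) fun i => ?_
  apply Fin.ext
  rw [ee_val, ee_val, ee_val]

theorem fam_star {Qt : ℕ} {X : Op (Fin (Qt + 1))} (hX : star X = X) (Q : ℕ) :
    star (fam Qt X Q) = fam Qt X Q := by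
  unfold fam
  split_ifs with h
  · rw [← cmp_star, hX]
  · exact star_zero _

theorem norm_fam_le {Qt : ℕ} (X : Op (Fin (Qt + 1))) (Q : ℕ) : ‖fam Qt X Q‖ ≤ ‖X‖ := by
  unfold fam
  split_ifs with h
  · exact norm_cmp_le _ _
  · rw [norm_zero]; exact norm_nonneg _

theorem fam_DY {Qt n : ℕ} {C : ℝ} {X : Op (Fin (Qt + 1))} (hX : DY Qt n C X) {Q : ℕ}
    (hQ : Q ≤ Qt) : DY Q n C (fam Qt X Q) := by
  rw [fam_of_le hQ]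
  exact hX.cmp hQ

/-! ### 2. the step for a family -/

/-- the inputs without `X`: ring clustering and (G0) -/
structure CIn (κ CG : ℝ) (Qc : ℕ) : Prop where
  κpos : 0 < κ
  CGn : 0 ≤ CG
  G : ∀ Q : ℕ, Qc ≤ Q → ∀ t : Fin 3 → ℝ, Adm t → ∀ n : ℕ, RC2 Q (Zn (nuT t Q) Q n) CG 20
  G0 : ∀ Q n : ℕ, ∀ ψ ∈ Zn (nu0 (Q + 1)) (Q + 1) n,
    (∀ φ ∈ Zn (nu0 (Q + 1)) (Q + 1) n, c (Fin.last (Q + 1)) φ = 0 → ⟪φ, ψ⟫_ℂ = 0) →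
      κ * ‖ψ‖ ^ 2 ≤ ‖c (Fin.last (Q + 1)) ψ‖ ^ 2

/-- the inputs on a family `XX Q`, `Q ≤ Qt`, with scalars `x Q` -/
structure FIn (Qt : ℕ) (XX : ∀ Q : ℕ, Op (Fin (Q + 1))) (x : ℕ → ℝ) (CX Cx Cc : ℝ) (Qc : ℕ) :
    Prop where
  CXn : 0 ≤ CX
  Cxn : 0 ≤ Cx
  Ccn : 0 ≤ Cc
  cl : ∀ {Q' Q : ℕ} (h : Q' ≤ Q), Q ≤ Qt → cmp (ee h) (XX Q) = XX Q'
  sa : ∀ Q ≤ Qt, star (XX Q) = XX Q
  X : ∀ Q : ℕ, Qc ≤ Q → Q ≤ Qt → ∀ t : Fin 3 → ℝ, Adm t → ∀ n : ℕ,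
    RX2 Q (Zn (nuT t Q) Q n) (XX Q) CX
  comm : ∀ (Q : ℕ), Qc ≤ Q → Q ≤ Qt →
    ‖c (Fin.last Q) * XX Q - XX Q * c (Fin.last Q)‖ ≤ Cc / (Q : ℝ) ^ 2
  x3 : ∀ (Q : ℕ), Qc ≤ Q → Q + 3 ≤ Qt → |x (Q + 3) - x Q| ≤ Cx / ((Q + 3 : ℕ) : ℝ) ^ 2
  x1 : ∀ (Q : ℕ), Qc ≤ Q → Q + 3 ≤ Qt → |x (Q + 3) - x (Q + 2)| ≤ Cx / ((Q + 3 : ℕ) : ℝ) ^ 2

theorem wIn_of_fam {κ CG CX Cx Cc : ℝ} {Qc Qt : ℕ} (hc : CIn κ CG Qc)
    {XX : ∀ Q : ℕ, Op (Fin (Q + 1))} {x : ℕ → ℝ} (hf : FIn Qt XX x CX Cx Cc Qc) :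
    WIn (fun Q Y => Q ≤ Qt ∧ Y = XX Q) (fun Q _ => x Q) κ CG CX Cx Cc Qc where
  κpos := hc.κpos
  CGn := hc.CGn
  CXn := hf.CXn
  Cxn := hf.Cxn
  Ccn := hf.Ccn
  cl := by
    rintro Q' Q h X ⟨hQ, rfl⟩
    exact ⟨h.trans hQ, hf.cl h hQ⟩
  sa := by
    rintro Q X ⟨hQ, rfl⟩
    exact hf.sa Q hQ
  G := hc.G
  X := by
    rintro Q hQc t ht X ⟨hQ, rfl⟩
    exact hf.X Q hQc hQ t ht
  G0 := hc.G0
  comm := by
    rintro Q hQc X ⟨hQ, rfl⟩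
    exact hf.comm Q hQc hQ
  x3 := by
    rintro Q hQc X ⟨hQ, rfl⟩
    exact hf.x3 Q hQc hQ
  x1 := by
    rintro Q hQc X ⟨hQ, rfl⟩
    exact hf.x1 Q hQc hQ

/-- literal hypothesis `hstep` of `Weak716.weak_red` -/
theorem hstep_fam {κ CG CX Cx Cc : ℝ} {Qc Qt : ℕ} (hc : CIn κ CG Qc)
    {XX : ∀ Q : ℕ, Op (Fin (Q + 1))} {x : ℕ → ℝ} (hf : FIn Qt XX x CX Cx Cc Qc) {a R C : ℝ}
    (ha0 : 0 < a) (ha2 : a ≤ 2) (haR : a ≤ R) (hC : 0 ≤ C) (hQcR : (Qc : ℝ) + 3 ≤ R) :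
    ∀ n Q : ℕ, Q + 3 ≤ Qt → R ≤ Q + 3 → 3 * n ≤ Q + 1 → ∀ L1 L2,
      LB (nu0 Q) Q n (DW C (prof a R) (x Q) Q (XX Q)) L1 →
      LB (nu0 (Q + 2)) (Q + 2) (n + 1) (DW C (prof a R) (x (Q + 2)) (Q + 2) (XX (Q + 2))) L2 →
      LB (nu0 (Q + 3)) (Q + 3) (n + 1) (DW C (prof a R) (x (Q + 3)) (Q + 3) (XX (Q + 3)))
        (min (L1 + (3 * C * (cs (prof a R) (Q + 3) - prof a R (Q + 3) - cs (prof a R) Q) -
            eN 3 κ CG CX Cx Cc C a R (Q + 3)))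
          (L2 + (3 * C * (cs (prof a R) (Q + 3) - cs (prof a R) (Q + 2)) -
            eN 1 κ CG CX Cx Cc C a R (Q + 3)))) := by
  intro n Q hQt hRQ _ L1 L2 h1 h2
  have hQc : Qc ≤ Q := by
    have : ((Qc : ℕ) : ℝ) ≤ Q := by linarith
    exact_mod_cast this
  have h := hstep (wIn_of_fam hc hf) ha0 ha2 haR hC n Q hQc L1 L2
    (by rintro X ⟨_, rfl⟩; exact h1) (by rintro X ⟨_, rfl⟩; exact h2)
  exact h (XX (Q + 3)) ⟨hQt, rfl⟩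

/-- **(W) for a family**, with only the one-hole case left. -/
theorem weak_fam {κ CG : ℝ} {Qc : ℕ} (hc : CIn κ CG Qc) (CX Cx Cc : ℝ) {a : ℝ}
    (ha0 : 0 < a) (ha1 : a ≤ 1 / 100) :
    ∃ R0 : ℝ, 43 ≤ R0 ∧ (Qc : ℝ) + 3 ≤ R0 ∧ ∀ R : ℝ, R0 ≤ R → ∀ B C θ : ℝ, 40 * B ≤ C → 1 ≤ C →
      4 / 5 ≤ θ → θ ≤ 9 / 10 → ∀ (Qt : ℕ) (XX : ∀ Q : ℕ, Op (Fin (Q + 1))) (x : ℕ → ℝ),
      FIn Qt XX x CX Cx Cc Qc → (∀ Q ≤ Qt, ‖XX Q‖ ≤ B) → (∀ Q ≤ Qt, |x Q| ≤ B) →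
      (∀ n Q, Q ≤ Qt → Q + 2 = 3 * n →
        LB (nu0 Q) Q n (DW C (prof a R) (x Q) Q (XX Q)) (θ * C * prof a R Q)) →
      ∀ Q n, Q ≤ Qt → 3 * n ≤ Q + 2 →
        LB (nu0 Q) Q n (DW C (prof a R) (x Q) Q (XX Q)) (θ * C * (Q + 3 - 3 * n) * prof a R Q) := by
  obtain ⟨R0, hR0, hR⟩ := Rec735.exists_R_weak (Mw κ CG CX Cx Cc) a ha0 ha1
  refine ⟨max R0 (Qc + 3), le_max_of_le_left hR0, le_max_right _ _,
    fun R hR1 B C θ hBC hC hθ0 hθ1 Qt XX x hf hB hxB hone => ?_⟩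
  have hRR0 : R0 ≤ R := (le_max_left _ _).trans hR1
  have hRQc : (Qc : ℝ) + 3 ≤ R := (le_max_right _ _).trans hR1
  have hR43 : 43 ≤ R := hR0.trans hRR0
  have hC0 : 0 ≤ C := by linarith
  have herr : ∀ b ≤ 3, ∀ Q : ℕ, R ≤ Q →
      eN b κ CG CX Cx Cc C a R Q ≤ C * (a * prof a R Q / (R + Q)) ∧
        eN b κ CG CX Cx Cc C a R Q ≤ C * prof a R Q / 20 := by
    intro b hb Q hQ
    have h43 : 43 ≤ Q := by
      have : (43 : ℝ) ≤ Q := hR43.trans hQ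
      exact_mod_cast this
    exact hR R hRR0 C hC0 Q hQ _ (eN_le ha0 ha1 (by linarith) h43 hb hc.κpos hc.CGn
      hf.CXn hf.Cxn hf.Ccn hC)
  exact Weak716.weak_red hR43 ha0 ha1 hBC hC0 hθ0 hθ1 Qt XX x hB hxB
    (fun Q => eN 3 κ CG CX Cx Cc C a R Q) (fun Q => eN 1 κ CG CX Cx Cc C a R Q) hone
    (hstep_fam hc hf ha0 (by linarith) (by linarith) hC0 hRQc)
    (fun Q hQ => (herr 3 le_rfl Q hQ).1) (fun Q hQ => (herr 1 (by norm_num) Q hQ).2)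

/-! ### 3. the class `DY` -/

theorem DY_comm_last {Q nW : ℕ} {C : ℝ} {X : Op (Fin (Q + 1))} (h : DY Q nW C X) (hn : 4 ≤ nW)
    (hQ : 1 ≤ Q) : ‖c (Fin.last Q) * X - X * c (Fin.last Q)‖ ≤ 32 * C / (Q : ℝ) ^ 2 := by
  have h1 := (h.mono_exp (show 2 * 2 ≤ nW by omega)).norm_lie_c_le (Fin.last Q)
  have h0 := h.nonneg
  have hQ' : (1 : ℝ) ≤ Q := by exact_mod_cast hQ
  rw [norm_sub_rev] at h1
  refine h1.trans ?_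
  rw [Fin.val_last]
  have : 4 ^ 2 * C / ((Q : ℝ) + 1) ^ 2 ≤ 4 ^ 2 * C / (Q : ℝ) ^ 2 := by
    apply div_le_div_of_nonneg_left (by positivity) (by positivity)
    nlinarith
  calc 2 * (4 ^ 2 * C / ((Q : ℝ) + 1) ^ 2) ≤ 2 * (4 ^ 2 * C / (Q : ℝ) ^ 2) := by linarith
    _ = _ := by ring

/-- `FIn` for the compressions of `X ∈ DY Qt nW 1`, from (CX) on the class and the vacuum scalars -/
theorem fIn_DY {nW Qt Qc : ℕ} (hn : 4 ≤ nW) (hQc : 1 ≤ Qc) {CX Cx : ℝ} (hCX : 0 ≤ CX)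
    (hCx : 0 ≤ Cx)
    (hcx : ∀ Q : ℕ, Qc ≤ Q → ∀ t : Fin 3 → ℝ, Adm t → ∀ X : Op (Fin (Q + 1)), star X = X →
      DY Q nW 1 X → ∀ n : ℕ, RX2 Q (Zn (nuT t Q) Q n) X CX)
    {X : Op (Fin (Qt + 1))} (hX : star X = X) (hD : DY Qt nW 1 X) {x : ℕ → ℝ}
    (hx3 : ∀ (Q : ℕ), Qc ≤ Q → Q + 3 ≤ Qt → |x (Q + 3) - x Q| ≤ Cx / ((Q + 3 : ℕ) : ℝ) ^ 2)
    (hx1 : ∀ (Q : ℕ), Qc ≤ Q → Q + 3 ≤ Qt → |x (Q + 3) - x (Q + 2)| ≤ Cx / ((Q + 3 : ℕ) : ℝ) ^ 2) :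
    FIn Qt (fam Qt X) x CX Cx 32 Qc where
  CXn := hCX
  Cxn := hCx
  Ccn := by norm_num
  cl h hQ := fam_cmp h hQ X
  sa Q _ := fam_star hX Q
  X Q hQ1 hQ2 t ht := hcx Q hQ1 t ht _ (fam_star hX Q) (fam_DY hD hQ2)
  comm Q hQ1 hQ2 := by
    have := DY_comm_last (fam_DY hD hQ2) hn (by omega)
    rwa [mul_one] at this
  x3 := hx3
  x1 := hx1

end Crest.Agent.R340.Hstep596
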