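import Crest.Agent.R340.J3a_421
import Crest.Agent.R340.PD5_757
import Crest.Agent.R340.Prof_385

/-!
R340 (helper421): LOSS-W on one-particle level: bound on all frame orbitals from the flat coherent
bound (`cs_flat`), and the sum against the loss profile.
-/

set_option autoImplicit false
set_option linter.unusedSectionVars false

namespace Crest.Agent.R340.J3421

open Finset MeasureTheory Crest.Agent.R340.QL331 Crest.Agent.R340.PD757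

/-! ### the flat bound -/

theorem tele_min (M : ℕ) (k : ℕ) :
    ∑ i ∈ range k, 4 * ((M : ℝ) + 1) ^ 2 / (((M : ℝ) + 1 + i) * ((M : ℝ) + 2 + i)) =
      4 * ((M : ℝ) + 1) ^ 2 * (1 / ((M : ℝ) + 1) - 1 / ((M : ℝ) + 1 + k)) := by
  induction k with
  | zero => simp
  | succ k ih =>
    rw [sum_range_succ, ih]
    push_cast
    have h1 : (M : ℝ) + 1 + k ≠ 0 := by positivity
    have h2 : (M : ℝ) + 2 + k ≠ 0 := by positivity
    have h3 : (M : ℝ) + 1 ≠ 0 := by positivity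
    have h4 : (M : ℝ) + 1 + (k + 1) ≠ 0 := by positivity
    field_simp
    ring

theorem sum_min_le (j Q : ℕ) :
    ∑ i ∈ range (Q + 1), min 1 (((1:ℝ) + j) ^ 2 / ((1:ℝ) + i) ^ 2) ≤ 4 * ((1:ℝ) + j) := by
  have h1 : ∀ i ∈ range (Q + 1), min 1 (((1:ℝ) + j) ^ 2 / ((1:ℝ) + i) ^ 2) ≤
      4 * ((j : ℝ) + 1) ^ 2 / (((j : ℝ) + 1 + i) * ((j : ℝ) + 2 + i)) := by
    intro i _
    have hj : (0:ℝ) ≤ j := Nat.cast_nonneg j
    have hi : (0:ℝ) ≤ i := Nat.cast_nonneg i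
    rcases Nat.lt_or_ge i j with h | h
    · refine (min_le_left _ _).trans ?_
      have hij : (i : ℝ) + 1 ≤ j := by exact_mod_cast h
      rw [le_div_iff₀ (by positivity)]
      nlinarith
    · refine (min_le_right _ _).trans ?_
      have hij : (j : ℝ) ≤ i := by exact_mod_cast h
      rw [div_le_div_iff₀ (by positivity) (by positivity)]
      have h2 : ((j : ℝ) + 1 + i) * ((j : ℝ) + 2 + i) ≤ 4 * (1 + i) ^ 2 := by nlinarith
      nlinarith [sq_nonneg ((j : ℝ) + 1)]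
  refine (sum_le_sum h1).trans ?_
  rw [tele_min]
  have h2 : (0:ℝ) < (j : ℝ) + 1 := by positivity
  have h3 : (0:ℝ) ≤ 1 / ((j : ℝ) + 1 + ((Q + 1 : ℕ) : ℝ)) := by positivity
  calc 4 * ((j : ℝ) + 1) ^ 2 * (1 / ((j : ℝ) + 1) - 1 / ((j : ℝ) + 1 + ((Q + 1 : ℕ) : ℝ)))
      ≤ 4 * ((j : ℝ) + 1) ^ 2 * (1 / ((j : ℝ) + 1)) := by
        refine mul_le_mul_of_nonneg_left (by linarith) (by positivity)
    _ = 4 * ((1:ℝ) + j) := by field_simp; ring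

section

variable {Z : Type*} [MeasurableSpace Z] {μ : Measure Z} {τ : Z → ℝ}

theorem cont_scaled (Q j : ℕ) :
    ContinuousOn (fun t : ℝ => ((1 + (Q:ℝ) * t / (1 + j)) ^ 2)⁻¹) (Set.Icc 0 1) := by
  apply ContinuousOn.inv₀ (by fun_prop)
  intro t ht
  have : 0 ≤ (Q:ℝ) * t := mul_nonneg (Nat.cast_nonneg _) ht.1
  positivity

/-- second moment with weights at scale `j` -/
theorem int_scaled (h : Tau μ τ) (Q j : ℕ) :
    ((Q : ℝ) + 1) * ∫ z, ((1 + (Q:ℝ) * τ z / (1 + j)) ^ 2)⁻¹ ∂μ ≤ 2 ^ 12 * (1 + j) := by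
  have hi : ∀ i, Integrable (fun z => bw Q i (τ z) * ((1 + (Q:ℝ) * τ z / (1 + j)) ^ 2)⁻¹) μ :=
    fun i => h.intble (f := fun t => bw Q i t * ((1 + (Q:ℝ) * t / (1 + j)) ^ 2)⁻¹)
      ((continuous_bw Q i).continuousOn.mul (cont_scaled Q j))
  have h1 : ((Q : ℝ) + 1) * ∫ z, ((1 + (Q:ℝ) * τ z / (1 + j)) ^ 2)⁻¹ ∂μ =
      ∑ i ∈ range (Q + 1), ((Q : ℝ) + 1) *
        ∫ z, bw Q i (τ z) * ((1 + (Q:ℝ) * τ z / (1 + j)) ^ 2)⁻¹ ∂μ := by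
    rw [← mul_sum, ← integral_finsetSum _ fun i _ => hi i]
    congr 1
    refine integral_congr_ae (Filter.Eventually.of_forall fun z => ?_)
    simp only
    rw [← sum_mul, sum_bw, one_mul]
  rw [h1]
  have hj0 : (0:ℝ) < 1 + j := by positivity
  have h2 : ∀ i ∈ range (Q + 1), ((Q : ℝ) + 1) *
      ∫ z, bw Q i (τ z) * ((1 + (Q:ℝ) * τ z / (1 + j)) ^ 2)⁻¹ ∂μ ≤
      2 ^ 10 * min 1 (((1:ℝ) + j) ^ 2 / ((1:ℝ) + i) ^ 2) := by
    intro i hi'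
    have hiQ : i ≤ Q := Nat.lt_succ_iff.1 (mem_range.1 hi')
    have a1 : ((Q : ℝ) + 1) * ∫ z, bw Q i (τ z) * ((1 + (Q:ℝ) * τ z / (1 + j)) ^ 2)⁻¹ ∂μ ≤ 1 := by
      have e1 : ((Q:ℝ) + 1) * ∫ z, bw Q i (τ z) ∂μ = 1 := by
        rw [h.mom Q i hiQ]
        have : (Q:ℝ) + 1 ≠ 0 := by positivity
        field_simp
      refine le_trans (mul_le_mul_of_nonneg_left (a := (Q:ℝ) + 1)
        (c := ∫ z, bw Q i (τ z) ∂μ) ?_ (by positivity)) e1.le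
      refine integral_mono (hi i) (h.intble_bw Q i) fun z => ?_
      have h0 := h.qnn Q z
      have h3 : (1:ℝ) ≤ (1 + (Q:ℝ) * τ z / (1 + j)) ^ 2 :=
        one_le_pow₀ (by have : 0 ≤ (Q:ℝ) * τ z / (1 + j) := by positivity
                        linarith)
      calc _ ≤ bw Q i (τ z) * 1 := mul_le_mul_of_nonneg_left (inv_le_one_of_one_le₀ h3)
            (bw_nonneg Q i (h.nonneg z) (h.le_one z))
        _ = _ := mul_one _
    have a2 : ((Q : ℝ) + 1) * ∫ z, bw Q i (τ z) * ((1 + (Q:ℝ) * τ z / (1 + j)) ^ 2)⁻¹ ∂μ ≤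
        2 ^ 10 * (((1:ℝ) + j) ^ 2 / ((1:ℝ) + i) ^ 2) := by
      have e2 := h.K3 2 hiQ
      have e3 : ((Q : ℝ) + 1) * ∫ z, bw Q i (τ z) * ((1 + (Q:ℝ) * τ z / (1 + j)) ^ 2)⁻¹ ∂μ ≤
          (1 + (j:ℝ)) ^ 2 * Tau.bm μ τ 2 Q i := by
        have e4 : (1 + (j:ℝ)) ^ 2 * Tau.bm μ τ 2 Q i = ((Q : ℝ) + 1) *
            ∫ z, (1 + (j:ℝ)) ^ 2 * (bw Q i (τ z) * ((1 + (Q:ℝ) * τ z) ^ 2)⁻¹) ∂μ := by
          rw [integral_const_mul]
          unfold Tau.bm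
          ring
        rw [e4]
        refine mul_le_mul_of_nonneg_left ?_ (by positivity)
        refine integral_mono (hi i) ((h.bm_intble 2 Q i).const_mul _) fun z => ?_
        have h0 := h.qnn Q z
        have hb := bw_nonneg Q i (h.nonneg z) (h.le_one z)
        have h4 : ((1 + (Q:ℝ) * τ z / (1 + j)) ^ 2)⁻¹ ≤
            (1 + (j:ℝ)) ^ 2 * ((1 + (Q:ℝ) * τ z) ^ 2)⁻¹ := by
          rw [← div_eq_mul_inv, inv_eq_one_div, div_le_div_iff₀ (by positivity) (by positivity),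
            one_mul, ← mul_pow]
          refine pow_le_pow_left₀ (by positivity) ?_ 2
          have : (1 + (j:ℝ)) * (1 + (Q:ℝ) * τ z / (1 + j)) = 1 + j + Q * τ z := by
            field_simp
          rw [this]
          have : (0:ℝ) ≤ j := Nat.cast_nonneg j
          linarith
        calc _ ≤ bw Q i (τ z) * ((1 + (j:ℝ)) ^ 2 * ((1 + (Q:ℝ) * τ z) ^ 2)⁻¹) :=
              mul_le_mul_of_nonneg_left h4 hb
          _ = _ := by ring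
      refine e3.trans ?_
      calc (1 + (j:ℝ)) ^ 2 * Tau.bm μ τ 2 Q i ≤
          (1 + (j:ℝ)) ^ 2 * (2 ^ (2 * (2 + 3)) / ((1:ℝ) + i) ^ 2) :=
            mul_le_mul_of_nonneg_left e2 (by positivity)
        _ = _ := by norm_num; ring
    rw [mul_min_of_nonneg _ _ (by norm_num : (0:ℝ) ≤ 2 ^ 10), le_min_iff]
    exact ⟨a1.trans (by norm_num), a2⟩
  refine (sum_le_sum h2).trans ?_
  rw [← mul_sum]
  have h3 := sum_min_le j Q
  calc 2 ^ 10 * ∑ i ∈ range (Q + 1), min 1 (((1:ℝ) + j) ^ 2 / ((1:ℝ) + i) ^ 2)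
      ≤ 2 ^ 10 * (4 * ((1:ℝ) + j)) := by gcongr
    _ = _ := by ring

/-- weighted orbital moment at its own scale -/
theorem int_orb_scaled (h : Tau μ τ) {Q j : ℕ} (hj : j ≤ Q) :
    ((Q : ℝ) + 1) * ∫ z, bw Q j (τ z) * (1 + (Q:ℝ) * τ z / (1 + j)) ^ 2 ∂μ ≤ 130 := by
  have e1 : ((Q:ℝ) + 1) * ∫ z, bw Q j (τ z) ∂μ = 1 := by
    rw [h.mom Q j hj]
    have : (Q:ℝ) + 1 ≠ 0 := by positivity
    field_simp
  have e2 := h.K3up 2 hj
  have hj0 : (0:ℝ) < 1 + j := by positivity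
  have hI : ∫ z, bw Q j (τ z) * (1 + (Q:ℝ) * τ z / (1 + j)) ^ 2 ∂μ ≤
      ∫ z, (2 * bw Q j (τ z) + 2 * ((1 + (j:ℝ)) ^ 2)⁻¹ *
        (bw Q j (τ z) * (1 + (Q:ℝ) * τ z) ^ 2)) ∂μ := by
    refine integral_mono
      (h.intble (f := fun t => bw Q j t * (1 + (Q:ℝ) * t / (1 + j)) ^ 2)
        ((continuous_bw Q j).continuousOn.mul (by fun_prop)))
      (((h.intble_bw Q j).const_mul 2).add ((h.bp_intble 2 Q j).const_mul _)) fun z => ?_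
    have h0 := h.qnn Q z
    have hb := bw_nonneg Q j (h.nonneg z) (h.le_one z)
    have h4 : (1 + (Q:ℝ) * τ z / (1 + j)) ^ 2 ≤
        2 + 2 * ((1 + (j:ℝ)) ^ 2)⁻¹ * (1 + (Q:ℝ) * τ z) ^ 2 := by
      have h5 : (Q:ℝ) * τ z / (1 + j) ≤ (1 + (Q:ℝ) * τ z) / (1 + j) := by gcongr; linarith
      have h6 : ((1 + (Q:ℝ) * τ z) / (1 + j)) ^ 2 =
          ((1 + (j:ℝ)) ^ 2)⁻¹ * (1 + (Q:ℝ) * τ z) ^ 2 := by
        rw [div_pow, div_eq_mul_inv, mul_comm]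
      have h7 : 0 ≤ (Q:ℝ) * τ z / (1 + j) := by positivity
      calc (1 + (Q:ℝ) * τ z / (1 + j)) ^ 2 ≤ (1 + (1 + (Q:ℝ) * τ z) / (1 + j)) ^ 2 := by gcongr
        _ ≤ 2 + 2 * ((1 + (Q:ℝ) * τ z) / (1 + j)) ^ 2 := by
            nlinarith [sq_nonneg (1 - (1 + (Q:ℝ) * τ z) / (1 + j))]
        _ = _ := by rw [h6]; ring
    calc _ ≤ bw Q j (τ z) * (2 + 2 * ((1 + (j:ℝ)) ^ 2)⁻¹ * (1 + (Q:ℝ) * τ z) ^ 2) :=
          mul_le_mul_of_nonneg_left h4 hb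
      _ = _ := by ring
  rw [integral_add ((h.intble_bw Q j).const_mul 2) ((h.bp_intble 2 Q j).const_mul _),
    integral_const_mul, integral_const_mul] at hI
  have e3 : ((1 + (j:ℝ)) ^ 2)⁻¹ * Tau.bp μ τ 2 Q j ≤ 64 := by
    rw [inv_mul_le_iff₀ (by positivity)]
    calc _ ≤ _ := e2
      _ = _ := by norm_num; ring
  calc ((Q : ℝ) + 1) * ∫ z, bw Q j (τ z) * (1 + (Q:ℝ) * τ z / (1 + j)) ^ 2 ∂μ
      ≤ ((Q : ℝ) + 1) * (2 * ∫ z, bw Q j (τ z) ∂μ + 2 * ((1 + (j:ℝ)) ^ 2)⁻¹ *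
        ∫ z, bw Q j (τ z) * (1 + (Q:ℝ) * τ z) ^ 2 ∂μ) :=
        mul_le_mul_of_nonneg_left hI (by positivity)
    _ = 2 * (((Q:ℝ) + 1) * ∫ z, bw Q j (τ z) ∂μ) +
        2 * (((1 + (j:ℝ)) ^ 2)⁻¹ * Tau.bp μ τ 2 Q j) := by unfold Tau.bp; ring
    _ ≤ 130 := by rw [e1]; linarith

end

section

variable {A V Z : Type*} [CStarAlgebra A] [NormedAddCommGroup V] [InnerProductSpace ℂ V]
  [CompleteSpace V] [MeasurableSpace Z] {μ : Measure Z} {Q : ℕ}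
  {b : Z → OrthonormalBasis (Fin (Q + 1)) ℂ V} {τ D : Z → Z → ℝ}

/-- **flat coherent bound ⇒ every orbital**, with only a factor `√(1+j)` -/
theorem cs_flat (F : Frm μ Q b τ D) (R : Car A V) {y : A} {w : Z} {c : ℝ} (hc : 0 ≤ c)
    (h : ∀ z, R.cs y (b z 0) ≤ c) (j : Fin (Q + 1)) :
    R.cs y (b w j) ≤ 4226 * c * sj j := by
  have hs := sj_pos (j : ℕ)
  set l : ℝ := sj j with hl
  have T := F.tau w
  have hj0 : (0:ℝ) < 1 + (j : ℕ) := by positivity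
  have hi1 : Integrable (fun z => bw Q j (τ z w) * (1 + (Q:ℝ) * τ z w / (1 + (j:ℕ))) ^ 2) μ :=
    T.intble (f := fun t => bw Q j t * (1 + (Q:ℝ) * t / (1 + (j:ℕ))) ^ 2)
      ((continuous_bw Q j).continuousOn.mul (by fun_prop))
  have hi2 : Integrable (fun z => ((1 + (Q:ℝ) * τ z w / (1 + (j:ℕ))) ^ 2)⁻¹) μ :=
    T.intble (f := fun t => ((1 + (Q:ℝ) * t / (1 + (j:ℕ))) ^ 2)⁻¹) (cont_scaled Q j)
  set g : Z → ℝ := fun z => c / 2 *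
    (l * (bw Q j (τ z w) * (1 + (Q:ℝ) * τ z w / (1 + (j:ℕ))) ^ 2) +
    l⁻¹ * ((1 + (Q:ℝ) * τ z w / (1 + (j:ℕ))) ^ 2)⁻¹) with hg
  have hgi : Integrable g μ := ((hi1.const_mul l).add (hi2.const_mul l⁻¹)).const_mul _
  have key := F.cs_le_int R y (b w j) hgi ?_
  · refine key.trans ?_
    have e : ((Q : ℝ) + 1) * ∫ z, g z ∂μ =
        c / 2 * (l * (((Q : ℝ) + 1) *
            ∫ z, bw Q j (τ z w) * (1 + (Q:ℝ) * τ z w / (1 + (j:ℕ))) ^ 2 ∂μ) +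
          l⁻¹ * (((Q : ℝ) + 1) * ∫ z, ((1 + (Q:ℝ) * τ z w / (1 + (j:ℕ))) ^ 2)⁻¹ ∂μ)) := by
      rw [hg, integral_const_mul, integral_add (hi1.const_mul l) (hi2.const_mul l⁻¹),
        integral_const_mul, integral_const_mul]
      ring
    rw [e]
    have h1 := int_orb_scaled T (Nat.lt_succ_iff.1 j.2)
    have h2 := int_scaled T Q (j : ℕ)
    have h3 : l⁻¹ * (2 ^ 12 * (1 + ((j : ℕ) : ℝ))) = 2 ^ 12 * l := by
      have : (1 + ((j : ℕ) : ℝ)) = l ^ 2 := by rw [hl, sj_sq]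
      rw [this]
      field_simp
    calc 2 * (c / 2 * (l * (((Q : ℝ) + 1) *
            ∫ z, bw Q j (τ z w) * (1 + (Q:ℝ) * τ z w / (1 + (j:ℕ))) ^ 2 ∂μ) +
          l⁻¹ * (((Q : ℝ) + 1) * ∫ z, ((1 + (Q:ℝ) * τ z w / (1 + (j:ℕ))) ^ 2)⁻¹ ∂μ)))
        ≤ 2 * (c / 2 * (l * 130 + l⁻¹ * (2 ^ 12 * (1 + ((j : ℕ) : ℝ))))) := by gcongr
      _ = 4226 * c * l := by rw [h3]; ring
  · intro z
    set s : ℝ := ‖(inner ℂ (b z 0) (b w j) : ℂ)‖ with hsdef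
    have hs0 : 0 ≤ s := norm_nonneg _
    have hs2 : s ^ 2 = bw Q j (τ z w) := F.ov0 z w j
    have hq := (F.tau w).qnn Q z
    set e : ℝ := 1 + (Q:ℝ) * τ z w / (1 + (j:ℕ)) with he
    have he0 : 0 < e := by
      have : 0 ≤ (Q:ℝ) * τ z w / (1 + (j:ℕ)) := by positivity
      linarith
    have h6 := young (x := s * e) (y := e⁻¹) hs
    calc s * R.cs y (b z 0) ≤ s * c := mul_le_mul_of_nonneg_left (h z) hs0
      _ = c * ((s * e) * e⁻¹) := by field_simp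
      _ ≤ c * ((sj j * (s * e) ^ 2 + (sj j)⁻¹ * e⁻¹ ^ 2) / 2) :=
          mul_le_mul_of_nonneg_left h6 hc
      _ = c / 2 * (l * (bw Q j (τ z w) * e ^ 2) + l⁻¹ * (e ^ 2)⁻¹) := by
          rw [mul_pow, hs2, inv_pow]; ring

end

/-! ### the loss profile -/

open Crest.Agent.R340.Prof385

theorem one_sub_sP_le (P1 j : ℕ) : 1 - sP P1 j ≤ (((P1 : ℝ) + 1) / ((j : ℝ) + 1)) ^ 2 := by
  rcases Nat.lt_or_ge P1 j with h | h
  · rw [sP_of_lt h]; linarith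
  · rw [sP_of_le h, sub_zero]
    have hle : (j : ℝ) ≤ P1 := by exact_mod_cast h
    refine one_le_pow₀ ?_
    rw [le_div_iff₀ (by positivity)]
    linarith

theorem sum_sj3 (Q : ℕ) : ∑ j : Fin (Q + 1), ((sj (j : ℕ))⁻¹) ^ 3 ≤ 3 := by
  have h1 := sum_far_sj (Q + 1) 0
  have h0 : sj 0 = 1 := by simp [sj]
  rw [h0] at h1
  have h2 : ∑ j : Fin (Q + 1), ((sj (j : ℕ))⁻¹) ^ 3 =
      ∑ j ∈ farS (Q + 1) 1, ((sj (j : ℕ))⁻¹) ^ 3 + 1 := by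
    rw [Fin.sum_univ_succ]
    have h3 : farS (Q + 1) 1 = Finset.univ.image (Fin.succ : Fin Q → Fin (Q + 1)) := by
      ext i
      simp only [mem_farS, mem_image, mem_univ, true_and]
      constructor
      · intro hi
        exact ⟨i.pred (by intro h; rw [h] at hi; simp at hi), by simp⟩
      · rintro ⟨k, rfl⟩
        simp
    rw [h3, Finset.sum_image (fun a _ b _ h => Fin.succ_injective _ h)]
    simp [h0]
    ring
  rw [h2]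
  linarith

theorem sum_loss (P1 Q : ℕ) :
    ∑ j : Fin (Q + 1), (1 - sP P1 j) * sj (j : ℕ) ≤ 3 * ((P1 : ℝ) + 1) ^ 2 := by
  have h1 : ∀ j : Fin (Q + 1), (1 - sP P1 j) * sj (j : ℕ) ≤
      ((P1 : ℝ) + 1) ^ 2 * ((sj (j : ℕ))⁻¹) ^ 3 := by
    intro j
    have hs := sj_pos (j : ℕ)
    have h2 := one_sub_sP_le P1 (j : ℕ)
    have h3 : ((j : ℕ) : ℝ) + 1 = sj j ^ 2 := by rw [sj_sq]; ring
    calc (1 - sP P1 j) * sj (j : ℕ) ≤ (((P1 : ℝ) + 1) / (((j : ℕ) : ℝ) + 1)) ^ 2 * sj (j : ℕ) :=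
          mul_le_mul_of_nonneg_right h2 hs.le
      _ = ((P1 : ℝ) + 1) ^ 2 * ((sj (j : ℕ))⁻¹) ^ 3 := by
          rw [h3]; field_simp
  refine (sum_le_sum fun j _ => h1 j).trans ?_
  rw [← mul_sum]
  have h2 := sum_sj3 Q
  calc ((P1 : ℝ) + 1) ^ 2 * ∑ j : Fin (Q + 1), ((sj (j : ℕ))⁻¹) ^ 3
      ≤ ((P1 : ℝ) + 1) ^ 2 * 3 := by gcongr
    _ = _ := by ring

end Crest.Agent.R340.J3421
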