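import Crest.Agent.R340.J3b_421
import Crest.Agent.R340.DLk_482
import Crest.Agent.R340.Rot6_303
import Crest.Agent.R340.FI2_331
import Crest.Agent.R340.Thin11_565

/-!
R340 (helper421): the `W`-part of the descending lemma on Fock space over `Fin (Q+1)`:
`J3c` (LOSS-W) and `J4c` ((R1) for the jump commutators `[B_g, W]`, averaged), literally the
hypotheses `J3`, `J4` of `U4_856.Jump.Uf` with 482's instance.
-/

set_option autoImplicit false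
set_option linter.unusedSectionVars false

namespace Crest.Agent.R340.J3421

open MeasureTheory Finset
open Crest.Agent.R340.Fock649 Crest.Agent.R340.Br320 Crest.Agent.R340.JumpH674
open Crest.Agent.R340.Rot303 (Rg Bg Rg_mul_star star_Rg_mul Bg_eq Bg_zero cj cj_an cj_cr)
open Crest.Agent.R340.U856 (Rep Fam Frame cint cmem pB qf TT)
open Crest.Agent.R340.Prof385 (sP sP_nonneg sP_le_one)
open Crest.Agent.R340.CS809 (U2 U2_ct_mul U2_mul_ct sp dQ dQ_nonneg dQ_comm dQ_triangle)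
open Crest.Agent.R340.QL331 (fcar fcar_an fcar_cr)
open Crest.Agent.R340.FI331 (fb fb_apply uf uf_eq vec kpf kpf_le Kg Kg_nonneg)
open Crest.Agent.R340.DLi482 (nuQ opRep aG Phg PZ B0 pB_aG)
open Crest.Agent.R340.PD757 (Frm frm_fb uf_zero sj Kn Kn_pos)
open scoped InnerProductSpace Matrix

/-- 331's frame on 482's measure -/
theorem frameQ {Q m : ℕ} (hQ : 1 ≤ Q) (hm6 : 6 ≤ m) :
    Frame (nuQ Q) (aG Q) (dQ Q) (kpf Q) (Nh : Op (Fin (Q + 1))) m 1 (Kg m) 1 := by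
  have hpos : (0:ℝ) ≤ 2 * (Q:ℝ) - 1 := by
    have : (1:ℝ) ≤ Q := by exact_mod_cast hQ
    linarith
  exact FI331.frame_inst hQ hm6 (c := Real.toNNReal (2 * (Q:ℝ) - 1))
    (by rw [Real.coe_toNNReal _ hpos]; linarith)

theorem rc_eq {Q : ℕ} (g : U2) (j : Fin (Q + 1)) :
    rc (Rg Q (g : Matrix (Fin 2) (Fin 2) ℂ)) j = an (fb Q g j) := by
  have h : Rg Q (g : Matrix (Fin 2) (Fin 2) ℂ) * c j * star (Rg Q (g : Matrix (Fin 2) (Fin 2) ℂ)) =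
      an (mv (sp Q g) (e j)) := by
    rw [← an_e j]; exact cj_an (U2_mul_ct g) (e j)
  rw [fb_apply]
  exact h

theorem cs_eq {Q : ℕ} (A : Op (Fin (Q + 1))) (v : L (Fin (Q + 1))) :
    (fcar : QL331.Car (Op (Fin (Q + 1))) (L (Fin (Q + 1)))).cs A v =
      ‖A * an v - an v * A‖ + ‖A * star (an v) - star (an v) * A‖ := by
  unfold QL331.Car.cs
  rw [fcar_an, fcar_cr, star_an]
  rfl

/-- the coherent profile of `W` is flat: `cs W (u_0(z)) ≤ 2` -/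
theorem cs_W {Q m : ℕ} (hQ : 1 ≤ Q) (hm : 6 ≤ m) {X : U2 → Op (Fin (Q + 1))}
    (hX : Fam (aG Q) (dQ Q) Nh m 1 X) {s : U2 → ℝ} (hs : Measurable s) (hs1 : ∀ x, |s x| ≤ 1)
    (z : U2) :
    (fcar : QL331.Car (Op (Fin (Q + 1))) (L (Fin (Q + 1)))).cs
      (∫ x, (s x : ℂ) • X x ∂(nuQ Q)) (fb Q z 0) ≤ 2 := by
  have F := frameQ (m := m) hQ hm
  have h1 := com_W_a F (by omega) zero_le_one hX hs hs1 0 z
  have hsa : IsSelfAdjoint (∫ x, (s x : ℂ) • X x ∂(nuQ Q)) := U856.sa_integral_fam hX hs hs1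
  rw [cs_eq, ← uf_zero]
  have h2 := norm_com_star_right hsa (an (uf Q 0 z))
  have h3 : aG Q 0 z = an (uf Q 0 z) := rfl
  rw [h3] at h1
  rw [h2]
  linarith

/-- **(LOSS-W)** in norm -/
theorem norm_sub_Phg {Q m : ℕ} (hQ : 1 ≤ Q) (hm : 6 ≤ m) (P1 : ℕ) {X : U2 → Op (Fin (Q + 1))}
    (hX : Fam (aG Q) (dQ Q) Nh m 1 X) {s : U2 → ℝ} (hs : Measurable s) (hs1 : ∀ x, |s x| ≤ 1)
    (g : U2) :
    ‖(∫ x, (s x : ℂ) • X x ∂(nuQ Q)) - Phg Q P1 g (∫ x, (s x : ℂ) • X x ∂(nuQ Q))‖ ≤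
      76068 * ((P1 : ℝ) + 1) ^ 2 := by
  set W : Op (Fin (Q + 1)) := ∫ x, (s x : ℂ) • X x ∂(nuQ Q) with hW
  have h := norm_sub_Phi (star_Rg_mul (Q := Q) (U2_mul_ct g)) (Rg_mul_star (Q := Q) (U2_mul_ct g))
    (s := fun j : Fin (Q + 1) => sP P1 j) (fun j => sP_nonneg P1 j) (fun j => sP_le_one P1 j) W
  refine h.trans ?_
  have h1 : ∀ j : Fin (Q + 1), (1 - sP P1 j) *
      (3 * ‖star (rc (Rg Q (g : Matrix (Fin 2) (Fin 2) ℂ)) j) * W -
          W * star (rc (Rg Q (g : Matrix (Fin 2) (Fin 2) ℂ)) j)‖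
        + ‖rc (Rg Q (g : Matrix (Fin 2) (Fin 2) ℂ)) j * W -
          W * rc (Rg Q (g : Matrix (Fin 2) (Fin 2) ℂ)) j‖) ≤
      25356 * ((1 - sP P1 j) * sj (j : ℕ)) := by
    intro j
    have h2 := cs_flat (frm_fb Q) (fcar : QL331.Car (Op (Fin (Q + 1))) (L (Fin (Q + 1))))
      (y := W) (w := g) (c := 2) (by norm_num) (fun z => cs_W hQ hm hX hs hs1 z) j
    rw [cs_eq] at h2
    have h3 : 0 ≤ 1 - sP P1 j := by linarith [sP_le_one P1 j]
    rw [rc_eq g j, norm_sub_rev (star (an (fb Q g j)) * W), norm_sub_rev (an (fb Q g j) * W)]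
    calc _ ≤ (1 - sP P1 j) * (3 * (4226 * 2 * sj (j : ℕ))) := by
          refine mul_le_mul_of_nonneg_left ?_ h3
          have := norm_nonneg (W * an (fb Q g j) - an (fb Q g j) * W)
          linarith
      _ = _ := by ring
  refine (sum_le_sum fun j _ => h1 j).trans ?_
  rw [← mul_sum]
  have h2 := sum_loss P1 Q
  calc 25356 * ∑ j : Fin (Q + 1), (1 - sP P1 j) * sj (j : ℕ) ≤ 25356 * (3 * ((P1 : ℝ) + 1) ^ 2) := by
        gcongr
    _ = _ := by ring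

theorem abs_q_le {𝒜 V : Type*} [CStarAlgebra 𝒜] [NormedAddCommGroup V] [InnerProductSpace ℂ V]
    (R : Rep 𝒜 V) (φ : V) (A : 𝒜) : |R.q φ A| ≤ ‖A‖ * ‖φ‖ ^ 2 := by
  rw [Rep.q_apply, qf]
  refine (Complex.abs_re_le_norm _).trans ((norm_inner_le_norm _ _).trans ?_)
  have h5 : ‖R.π A φ‖ ≤ ‖A‖ * ‖φ‖ :=
    ((R.π A).le_opNorm φ).trans (mul_le_mul_of_nonneg_right (R.norm_le A) (norm_nonneg _))
  nlinarith [norm_nonneg φ]

/-- **(LOSS-W)** = hypothesis `J3` of `U4_856.Jump.Uf`, `CE = 76068 (P1+1)²` -/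
theorem J3c {Q m : ℕ} (hQ : 1 ≤ Q) (hm : 6 ≤ m) (P1 : ℕ) :
    ∀ W, Fam (aG Q) (dQ Q) (Nh : Op (Fin (Q + 1))) m 1 W → ∀ s : U2 → ℝ, Measurable s →
      (∀ x, |s x| ≤ 1) → ∀ g φ,
      |(opRep (ι := Fin (Q + 1))).q φ ((∫ x, (s x : ℂ) • W x ∂(nuQ Q)) -
        Phg Q P1 g (∫ x, (s x : ℂ) • W x ∂(nuQ Q)))| ≤
        (76068 * ((P1 : ℝ) + 1) ^ 2) * ‖φ‖ ^ 2 := by
  intro W hW s hs hs1 g φ
  refine (abs_q_le _ φ _).trans ?_
  exact mul_le_mul_of_nonneg_right (norm_sub_Phg hQ hm P1 hW hs hs1 g) (by positivity)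

/-! ### the jump commutator `A_g = [B_g, W]` -/

/-- zero modes are annihilated by every rotated pair operator -/
theorem Bg_PZ {Q : ℕ} (g : U2) (p : Fin (2 * Q - 1)) :
    Bg Q (g : Matrix (Fin 2) (Fin 2) ℂ) p * PZ Q = 0 := by
  refine Op.ext fun v => ?_
  rw [mul_ap, zero_ap]
  set u := PZ Q v with hu
  have h0 : HH Q u = 0 := by
    rw [hu, ← mul_ap, GG467.mul_PK, zero_ap]
  have h1 := Prof482.re_inner_sum_star Finset.univ
    (fun p => Bg Q (g : Matrix (Fin 2) (Fin 2) ℂ) p) u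
  rw [Rot303.sum_star_Bg (U2_mul_ct g), h0, inner_zero_right, Complex.zero_re] at h1
  have h2 := (Finset.sum_eq_zero_iff_of_nonneg (fun p _ => sq_nonneg _)).mp h1.symm p
    (Finset.mem_univ p)
  exact norm_eq_zero.mp (pow_eq_zero_iff (two_ne_zero) |>.mp h2)

theorem sum_inv_two (n : ℕ) : ∑ p : Fin n, 1 / (((p : ℕ) : ℝ) + 2) ^ 2 ≤ 1 := by
  rw [Fin.sum_univ_eq_sum_range (fun p => 1 / ((p : ℝ) + 2) ^ 2) n]
  have h : ∀ k : ℕ, ∑ p ∈ range k, 1 / ((p : ℝ) + 2) ^ 2 ≤ 1 - 1 / ((k : ℝ) + 1) := by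
    intro k
    induction k with
    | zero => simp
    | succ k ih =>
      rw [sum_range_succ]
      have h2 : (1:ℝ) / ((k : ℝ) + 2) ^ 2 ≤ 1 / ((k : ℝ) + 1) - 1 / (((k + 1 : ℕ) : ℝ) + 1) := by
        push_cast
        rw [div_sub_div _ _ (by positivity) (by positivity),
          div_le_div_iff₀ (by positivity) (by positivity)]
        have : (0:ℝ) ≤ k := Nat.cast_nonneg k
        nlinarith
      linarith
  have h1 := h n
  have : (0:ℝ) ≤ 1 / ((n : ℝ) + 1) := by positivity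
  linarith

theorem half_pow (l : ℕ) : (((2:ℝ) ^ (l / 2))⁻¹) ^ 18 ≤ 2 ^ 9 / ((2:ℝ) ^ l) ^ 9 := by
  have h1 : l ≤ 2 * (l / 2) + 1 := by omega
  have h2 : ((2:ℝ) ^ l) ^ 9 ≤ 2 ^ 9 * ((2:ℝ) ^ (l / 2)) ^ 18 := by
    have h3 : (2:ℝ) ^ l ≤ 2 ^ (2 * (l / 2) + 1) := pow_le_pow_right₀ (by norm_num) h1
    calc ((2:ℝ) ^ l) ^ 9 ≤ (2 ^ (2 * (l / 2) + 1)) ^ 9 := pow_le_pow_left₀ (by positivity) h3 9
      _ = 2 ^ 9 * ((2:ℝ) ^ (l / 2)) ^ 18 := by
          rw [← pow_mul, ← pow_mul, ← pow_add]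
          congr 1
          ring
  rw [inv_pow, inv_eq_one_div, div_le_div_iff₀ (by positivity) (by positivity), one_mul]
  exact h2

/-- norm constant for `A_g` and its truncations -/
noncomputable def DA (k : ℕ) : ℝ := 2048 * Kn 20 * cA k (Kg k) 1 + 2

theorem cA_nonneg (k : ℕ) {Kκ Ck : ℝ} (h1 : 0 ≤ Kκ) (h2 : 0 ≤ Ck) : 0 ≤ cA k Kκ Ck := by
  unfold cA; positivity

theorem DA_nonneg (k : ℕ) : 0 ≤ DA k := by
  have h1 := cA_nonneg k (Kg_nonneg k) (zero_le_one (α := ℝ))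
  have h2 := Kn_pos 20
  unfold DA; positivity

section

variable {Q k : ℕ} (hQ : 1 ≤ Q) (hk : 22 ≤ k) {X : U2 → Op (Fin (Q + 1))}
  (hX : Fam (aG Q) (dQ Q) Nh (k + 3) 1 X) {s : U2 → ℝ} (hs : Measurable s)
  (hs1 : ∀ x, |s x| ≤ 1) (g : U2)

/-- the jump commutator -/
noncomputable def Agc (Q : ℕ) (X : U2 → Op (Fin (Q + 1))) (s : U2 → ℝ) (g : U2) :
    Op (Fin (Q + 1)) :=
  pB (aG Q) g * (∫ x, (s x : ℂ) • X x ∂(nuQ Q)) - (∫ x, (s x : ℂ) • X x ∂(nuQ Q)) * pB (aG Q) g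

include hQ hk hX hs hs1

theorem norm_Agc : ‖Agc Q X s g‖ ≤ 2 := by
  have F := frameQ (m := k + 3) hQ (by omega)
  have := norm_Ag F (by omega) zero_le_one hX hs hs1 g
  unfold Agc
  linarith

theorem cs_Agc (z : U2) :
    (fcar : QL331.Car (Op (Fin (Q + 1))) (L (Fin (Q + 1)))).cs (Agc Q X s g) (fb Q z 0) ≤
      (2 * cA k (Kg k) 1) * ((1 + dQ Q z g)⁻¹) ^ (17 + 5) := by
  have F := frameQ (m := k + 3) hQ (by omega)
  have htri : ∀ x g w : U2, dQ Q g w ≤ dQ Q x g + dQ Q x w := by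
    intro x g w
    have := dQ_triangle Q g x w
    rw [dQ_comm Q g x] at this
    exact this
  have h1 := com_Ag F rfl zero_le_one hX hs hs1 htri (Kg_nonneg k) g z 0
  have h2 := com_star_Ag F rfl zero_le_one hX hs hs1 htri g z (kpf_le Q k g z) 0
  rw [cs_eq, ← uf_zero]
  have h3 : aG Q 0 z = an (uf Q 0 z) := rfl
  rw [h3] at h1 h2
  have hd := dQ_nonneg Q g z
  have hcA := cA_nonneg k (Kg_nonneg k) (zero_le_one (α := ℝ))
  have h4 : cA k (Kg k) 1 * 1 / (1 + dQ Q g z) ^ k ≤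
      cA k (Kg k) 1 * ((1 + dQ Q z g)⁻¹) ^ (17 + 5) := by
    rw [mul_one, div_eq_mul_inv, dQ_comm Q z g, inv_pow]
    refine mul_le_mul_of_nonneg_left ?_ hcA
    exact inv_anti₀ (by positivity) (pow_le_pow_right₀ (by linarith) (by omega))
  unfold Agc
  linarith

theorem sub_App (l : ℕ) :
    ‖Agc Q X s g - (fcar : QL331.Car (Op (Fin (Q + 1))) (L (Fin (Q + 1)))).E (fb Q g)
      (4 ^ (l / 2)) (Agc Q X s g)‖ ≤ DA k / ((2:ℝ) ^ l) ^ (4 * 2 + 1) := by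
  have hcA := cA_nonneg k (Kg_nonneg k) (zero_le_one (α := ℝ))
  have hKn := Kn_pos 20
  have h := (frm_fb Q).sub_E_le (fcar : QL331.Car (Op (Fin (Q + 1))) (L (Fin (Q + 1))))
    (y := Agc Q X s g) (w := g) (c := 2 * cA k (Kg k) 1) (by positivity) 17
    (fun z => cs_Agc hQ hk hX hs hs1 g z) (l / 2)
  refine h.trans ?_
  have h1 := half_pow l
  have h2 : 2 * Kn (17 + 3) * (2 * cA k (Kg k) 1) * (((2:ℝ) ^ (l / 2))⁻¹) ^ (17 + 1) ≤
      2 * Kn (17 + 3) * (2 * cA k (Kg k) 1) * (2 ^ 9 / ((2:ℝ) ^ l) ^ 9) :=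
    mul_le_mul_of_nonneg_left h1 (by positivity)
  refine h2.trans ?_
  have h3 : 2 * Kn (17 + 3) * (2 * cA k (Kg k) 1) * (2 ^ 9 / ((2:ℝ) ^ l) ^ 9) =
      (2048 * Kn 20 * cA k (Kg k) 1) / ((2:ℝ) ^ l) ^ (4 * 2 + 1) := by
    norm_num
    ring
  rw [h3]
  unfold DA
  gcongr
  linarith

theorem Agc_mul_PZ (hP : ∀ x, X x * PZ Q = PZ Q * X x) : Agc Q X s g * PZ Q = 0 := by
  have hi : Integrable (fun x => (s x : ℂ) • X x) (nuQ Q) := isfam hX.cont hs hs1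
  have h1 := int_com hi (PZ Q)
  have h2 : ∫ x, ((s x : ℂ) • X x * PZ Q - PZ Q * (s x : ℂ) • X x) ∂(nuQ Q) = 0 := by
    have : (fun x => (s x : ℂ) • X x * PZ Q - PZ Q * (s x : ℂ) • X x) = fun _ => 0 := by
      funext x
      rw [smul_com, hP x, sub_self, smul_zero]
    rw [this]
    simp
  rw [h2, sub_eq_zero] at h1
  have h3 : pB (aG Q) g * PZ Q = 0 := by
    rw [pB_aG hQ]
    exact Bg_PZ g _
  unfold Agc
  rw [sub_mul, mul_assoc, h1, ← mul_assoc, h3, zero_mul, mul_assoc, h3, mul_zero, sub_zero]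

/-- **(R1) for the jump commutator** -/
theorem R1_Agc {γ : ℝ} (hγ : 0 < γ) (hgap : γ • (1 - PZ Q) ≤ HH Q)
    (hP : ∀ x, X x * PZ Q = PZ Q * X x) :
    star (Agc Q X s g) * Agc Q X s g ≤ ∑ p : Fin (2 * Q - 1),
      (Thin565.CR 2 γ (1 / 2) * DA k ^ 2 / ((p : ℝ) + 2) ^ 2) •
        (star (Bg Q (g : Matrix (Fin 2) (Fin 2) ℂ) p) * Bg Q (g : Matrix (Fin 2) (Fin 2) ℂ) p) := by
  have hcA := cA_nonneg k (Kg_nonneg k) (zero_le_one (α := ℝ))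
  have hKn := Kn_pos 20
  refine Thin565.R1_group Q hγ hgap 2 (U2_mul_ct g) (A := Agc Q X s g) (D := DA k)
    (Agc_mul_PZ hQ hk hX hs hs1 g hP) ?_
    (App := fun l => (fcar : QL331.Car (Op (Fin (Q + 1))) (L (Fin (Q + 1)))).E (fb Q g)
      (4 ^ (l / 2)) (Agc Q X s g)) ?_ ?_
  · refine (norm_Agc hQ hk hX hs hs1 g).trans ?_
    unfold DA
    have : 0 ≤ 2048 * Kn 20 * cA k (Kg k) 1 := by positivity
    linarith
  · intro l m hm
    have h1 : 4 ^ (l / 2) ≤ (m : ℕ) := by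
      refine le_trans ?_ hm
      calc 4 ^ (l / 2) = 2 ^ (2 * (l / 2)) := by rw [pow_mul]; norm_num
        _ ≤ 2 ^ l := Nat.pow_le_pow_right (by norm_num) (by omega)
    have h2 := (fcar : QL331.Car (Op (Fin (Q + 1))) (L (Fin (Q + 1)))).E_cm (fb Q g)
      (4 ^ (l / 2)) (Agc Q X s g) m h1
    rw [fb_apply] at h2
    exact ⟨h2.1, by have := h2.2; rw [fcar_cr] at this; exact this⟩
  · intro l
    exact sub_App hQ hk hX hs hs1 g l

end

end Crest.Agent.R340.J3421
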