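import Crest.Agent.R340.K1inE_788
import Crest.Agent.R340.K1plug_716
import Crest.Agent.R340.Defs_150
import Crest.Agent.R340.WP_596

/-!
# R340, K = 1 (helper788): the basis `psi1` and the radial bound in 716's form

* `k1v : K1V psi1`, `k1b : K1B psi1`.
* `inp_of : RC K → GZ κ → Inp κ K 1`, `dataR_en : DataR (en psi1) (C1 κ K) 1`.
* `hrad`: the radial hypothesis of `K1plug716.hone_of`.
-/

set_option autoImplicit false
open scoped InnerProductSpace

namespace Crest.Agent.R340.K1in788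

open Finset
open Crest.Agent.R340.Fock649 Crest.Agent.R340.Emb596 Crest.Agent.R340.Geo986
  Crest.Agent.R340.Peel596 Crest.Agent.R340.Step596
open Crest.Agent.R340.Scal725 Crest.Agent.R340.K1dec716
open Crest.Agent.R340.Defs150 (RC GZ)
open Crest.Agent.R340.Vac467 (lmin)

/-- canonical unit vectors of the one-hole lines -/
noncomputable def psi1 (n k : ℕ) : Fk (Fin (3 * n + 1 + 1)) := st (3 * n + 1) (n + 1) (n + 1 - k)

theorem k1v : K1V psi1 := fun n k hk =>
  ⟨st_mem (Q := 3 * n + 1) (n := n + 1) (i := n + 1 - k) (by omega) (by omega),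
    norm_st (Q := 3 * n + 1) (n := n + 1) (i := n + 1 - k) (by omega) (by omega)⟩

theorem k1b : K1B psi1 := k1v.toK1B

theorem inp_of {κ K : ℝ} (hG : RC K) (hZ : GZ κ) : Inp κ K 1 where
  κpos := hZ.1
  CGn := hG.1
  G := hG.2
  G0 Q n := (WP596.cIn_of hG hZ).G0 Q n

theorem dataR_en {κ CG : ℝ} {Qc n0 : ℕ} (h : Inp κ CG Qc) (hn : Qc ≤ 3 * n0) :
    K1rad716.DataR (en psi1) (C1 κ CG) n0 := dataR h hn

/-- **radial bound** -/
theorem hrad {κ K a R : ℝ} (hG : RC K) (hZ : GZ κ) (ha0 : 0 < a)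
    (ha : (90 + 102 * C1 κ K) * a ≤ 1 / 40) (hR : 13 ≤ R) (n k : ℕ) (hk : k ≤ n + 1) :
    (1 - 1 / 40) * prof a R (3 * k) ≤
      3 * (cs (prof a R) (3 * n + 1) - en psi1 n k (prof a R)) := by
  have hI := inp_of hG hZ
  have hC1 : 0 ≤ C1 κ K := C1_nonneg hI.κpos hI.CGn
  have ha4 : a ≤ 1 / 4 := by nlinarith
  have h1 := K1rad716.K1rad' (dataR_en hI (n0 := 1) (by norm_num)) hC1 ha0 ha4
    (R := R) (by push_cast; linarith) n k hk
  refine le_trans ?_ h1
  have hp := prof_pos (a := a) (R := R) (by linarith) (by linarith) (3 * k)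
  exact mul_le_mul_of_nonneg_right (by linarith) hp.le

/-- **radial form bound on the one-hole sector**:
`⟪φ, 3(cs f - dG f) φ⟫ ≥ (39/40) Σ f(3k) |α_k|²`. -/
theorem hf_ge {κ K a R : ℝ} (hG : RC K) (hZ : GZ κ) (ha0 : 0 < a)
    (ha : (90 + 102 * C1 κ K) * a ≤ 1 / 40) (hR : 13 ≤ R) (n : ℕ) (α : ℕ → ℂ) :
    (1 - 1 / 40) * ∑ k ∈ range (n + 2), prof a R (3 * k) * ‖α k‖ ^ 2 ≤
      DomG735.hf (prof a R) (∑ k ∈ range (n + 2), α k • psi1 n k) := by
  rw [hf_sum k1b, mul_sum]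
  refine sum_le_sum fun k hk => ?_
  rw [← mul_assoc]
  exact mul_le_mul_of_nonneg_right (hrad hG hZ ha0 ha hR n k (by have := mem_range.1 hk; omega))
    (sq_nonneg _)

end Crest.Agent.R340.K1in788
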