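import Crest.Agent.R340.Tth4_927
import Crest.Agent.R340.TzP_421

set_option autoImplicit false
set_option linter.unusedSectionVars false

/-!
# Row 340: the `LocData` instance of geometry theta (helper927)

`locData_theta` : helper667's `LocData` for `H = HT t Q`, `P = pj (Zs (nuT t Q) Q)`, `b = bT t Q`, frames
`fb Q`, positions `JJ Q`, widths `sg Q`, all constants absolute (uniform in `Q ≥ 1` and `Adm t`).
-/

open scoped ENNReal NNReal
open MeasureTheory Matrix

namespace Crest.Agent.R340.Tth927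

open Crest.Agent.R340.CS809 Crest.Agent.R340.Fock649 Crest.Agent.R340.FI331
open Crest.Agent.R340.QL331 Crest.Agent.R340.LR667 Crest.Agent.R340.Avg814 Crest.Agent.R340.Rot303
open Crest.Agent.R340.LocT163 (nuQ muQ HT bT kT vT Bv)
open Crest.Agent.R340.PV341 (Adm)
open Crest.Agent.R340.GG467 (pj isSelfAdjoint_pj norm_pj_le)
open Crest.Agent.R340.Geo986 (Zs nuT nu0)

/-- **the `LocData` instance of geometry theta** -/
theorem locData_theta {Q : ℕ} (hQ : 1 ≤ Q) {t : Fin 3 → ℝ} (ht : Adm t) :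
    LocData (nuQ Q) (HT t Q) (pj (Zs (nuT t Q) Q)) (bT t Q) (fb Q) (JJ Q) (sg Q)
      Cmo Dt (fun M => M + 5) 2 where
  hH := LocT163.isSelfAdjoint_HT t Q
  hP := isSelfAdjoint_pj _
  hP1 := norm_pj_le _
  hHP := LocT163.HT_mul_pj hQ
  commH := fun α β => TzP421.HT_comm_aff hQ t α β
  commP := fun α β => TzP421.pj_comm_aff (nuT t Q) α β
  int := integrable_bb hQ t
  H_eq := LocT163.HT_eq t Q
  bP := fun z => LocT163.bT_mul_pj hQ z
  norm_b := fun M z => (norm_bT_le' hQ ht z).trans (Dt_ge M)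
  trunc := fun M s z => trunc_theta hQ ht M s z
  Cm_nonneg := Cmo_nonneg
  mom := fun m z k => moment_le Q m z k
  one_le_σ := one_le_sg Q
  σ_sq_le := sg_sq_le Q
  J_mem := JJ_mem Q
  Cμ_nonneg := zero_le_two
  push := fun F hF => push_JJ hQ F hF

end Crest.Agent.R340.Tth927
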