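import Crest.Agent.R340.LPU_249

/-!
# Kernel check of blocks of the P = 8 certificate: 0, 1, 2, 3 particles (R340, S0533)

One theorem per attainable block `(N, M)`, so that the kernel caches stay small; the checker is
helper665's (LPA, LPB, LPC).
-/

set_option autoImplicit false
set_option Elab.async false

namespace Crest.Agent.R340.LP665

open Cert132

set_option maxRecDepth 100000 in
theorem c0m0 : chk (gl (terms G8 B8 A8)) 0 0 = true := by decide +kernel

set_option maxRecDepth 100000 in
theorem c1m0 : chk (gl (terms G8 B8 A8)) 1 0 = true := by decide +kernel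

set_option maxRecDepth 100000 in
theorem c1m1 : chk (gl (terms G8 B8 A8)) 1 1 = true := by decide +kernel

set_option maxRecDepth 100000 in
theorem c1m2 : chk (gl (terms G8 B8 A8)) 1 2 = true := by decide +kernel

set_option maxRecDepth 100000 in
theorem c1m3 : chk (gl (terms G8 B8 A8)) 1 3 = true := by decide +kernel

set_option maxRecDepth 100000 in
theorem c1m4 : chk (gl (terms G8 B8 A8)) 1 4 = true := by decide +kernel

set_option maxRecDepth 100000 in
theorem c1m5 : chk (gl (terms G8 B8 A8)) 1 5 = true := by decide +kernel

set_option maxRecDepth 100000 in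
theorem c1m6 : chk (gl (terms G8 B8 A8)) 1 6 = true := by decide +kernel

set_option maxRecDepth 100000 in
theorem c1m7 : chk (gl (terms G8 B8 A8)) 1 7 = true := by decide +kernel

set_option maxRecDepth 100000 in
theorem c1m8 : chk (gl (terms G8 B8 A8)) 1 8 = true := by decide +kernel

set_option maxRecDepth 100000 in
theorem c2m1 : chk (gl (terms G8 B8 A8)) 2 1 = true := by decide +kernel

set_option maxRecDepth 100000 in
theorem c2m2 : chk (gl (terms G8 B8 A8)) 2 2 = true := by decide +kernel

set_option maxRecDepth 100000 in
theorem c2m3 : chk (gl (terms G8 B8 A8)) 2 3 = true := by decide +kernel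

set_option maxRecDepth 100000 in
theorem c2m4 : chk (gl (terms G8 B8 A8)) 2 4 = true := by decide +kernel

set_option maxRecDepth 100000 in
theorem c2m5 : chk (gl (terms G8 B8 A8)) 2 5 = true := by decide +kernel

set_option maxRecDepth 100000 in
theorem c2m6 : chk (gl (terms G8 B8 A8)) 2 6 = true := by decide +kernel

set_option maxRecDepth 100000 in
theorem c2m7 : chk (gl (terms G8 B8 A8)) 2 7 = true := by decide +kernel

set_option maxRecDepth 100000 in
theorem c2m8 : chk (gl (terms G8 B8 A8)) 2 8 = true := by decide +kernel

set_option maxRecDepth 100000 in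
theorem c2m9 : chk (gl (terms G8 B8 A8)) 2 9 = true := by decide +kernel

set_option maxRecDepth 100000 in
theorem c2m10 : chk (gl (terms G8 B8 A8)) 2 10 = true := by decide +kernel

set_option maxRecDepth 100000 in
theorem c2m11 : chk (gl (terms G8 B8 A8)) 2 11 = true := by decide +kernel

set_option maxRecDepth 100000 in
theorem c2m12 : chk (gl (terms G8 B8 A8)) 2 12 = true := by decide +kernel

set_option maxRecDepth 100000 in
theorem c2m13 : chk (gl (terms G8 B8 A8)) 2 13 = true := by decide +kernel

set_option maxRecDepth 100000 in
theorem c2m14 : chk (gl (terms G8 B8 A8)) 2 14 = true := by decide +kernel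

set_option maxRecDepth 100000 in
theorem c2m15 : chk (gl (terms G8 B8 A8)) 2 15 = true := by decide +kernel

set_option maxRecDepth 100000 in
theorem c3m3 : chk (gl (terms G8 B8 A8)) 3 3 = true := by decide +kernel

set_option maxRecDepth 100000 in
theorem c3m4 : chk (gl (terms G8 B8 A8)) 3 4 = true := by decide +kernel

set_option maxRecDepth 100000 in
theorem c3m5 : chk (gl (terms G8 B8 A8)) 3 5 = true := by decide +kernel

set_option maxRecDepth 100000 in
theorem c3m6 : chk (gl (terms G8 B8 A8)) 3 6 = true := by decide +kernel

set_option maxRecDepth 100000 in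
theorem c3m7 : chk (gl (terms G8 B8 A8)) 3 7 = true := by decide +kernel

set_option maxRecDepth 100000 in
theorem c3m8 : chk (gl (terms G8 B8 A8)) 3 8 = true := by decide +kernel

set_option maxRecDepth 100000 in
theorem c3m9 : chk (gl (terms G8 B8 A8)) 3 9 = true := by decide +kernel

set_option maxRecDepth 100000 in
theorem c3m10 : chk (gl (terms G8 B8 A8)) 3 10 = true := by decide +kernel

set_option maxRecDepth 100000 in
theorem c3m11 : chk (gl (terms G8 B8 A8)) 3 11 = true := by decide +kernel

set_option maxRecDepth 100000 in
theorem c3m12 : chk (gl (terms G8 B8 A8)) 3 12 = true := by decide +kernel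

set_option maxRecDepth 100000 in
theorem c3m13 : chk (gl (terms G8 B8 A8)) 3 13 = true := by decide +kernel

set_option maxRecDepth 100000 in
theorem c3m14 : chk (gl (terms G8 B8 A8)) 3 14 = true := by decide +kernel

set_option maxRecDepth 100000 in
theorem c3m15 : chk (gl (terms G8 B8 A8)) 3 15 = true := by decide +kernel

set_option maxRecDepth 100000 in
theorem c3m16 : chk (gl (terms G8 B8 A8)) 3 16 = true := by decide +kernel

set_option maxRecDepth 100000 in
theorem c3m17 : chk (gl (terms G8 B8 A8)) 3 17 = true := by decide +kernel

set_option maxRecDepth 100000 in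
theorem c3m18 : chk (gl (terms G8 B8 A8)) 3 18 = true := by decide +kernel

set_option maxRecDepth 100000 in
theorem c3m19 : chk (gl (terms G8 B8 A8)) 3 19 = true := by decide +kernel

set_option maxRecDepth 100000 in
theorem c3m20 : chk (gl (terms G8 B8 A8)) 3 20 = true := by decide +kernel

set_option maxRecDepth 100000 in
theorem c3m21 : chk (gl (terms G8 B8 A8)) 3 21 = true := by decide +kernel

end Crest.Agent.R340.LP665
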