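import Crest.Agent.R340.LR8_667
import Crest.Agent.R340.Defs_150
import Crest.Agent.R340.FX2_963
import Crest.Agent.R340.BBP_120
import Crest.Agent.R340.Tth4_927

/-!
# R340 / S0532, layer 10: (RC), (RX), (RZ) of `Defs_150`  (helper667)

From the locality data of all geometries (`LocAll`) and the filter (`KillAll`).
-/

set_option autoImplicit false

open Matrix Finset MeasureTheory
open scoped ENNReal

namespace Crest.Agent.R340.LR667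

open Crest.Agent.R340.Fock649 Crest.Agent.R340.GG467
open Crest.Agent.R340.Geo986 (Zs nuT)
open Crest.Agent.R340.Peel596 (Zn)
open Crest.Agent.R340.PathStep880 (off TT off_Zn TT_Nh)
open Crest.Agent.R340.PV341 (Adm)
open Crest.Agent.R340.LocT163 (bT HT)
open Crest.Agent.R340.CS809 (U2 dQ dQ_comm dQ_nonneg)
open Crest.Agent.R340.Tth927 (JJ sg JJ_mem)
open Crest.Agent.R340.FI331 (fb uf)
open Crest.Agent.R340.FX963 (DY)
open Crest.Agent.R340.Avg814 (G2 tt)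

/-- the locality data of all geometries, constants independent of `Q ≥ 1` and `t` -/
def LocAll (Cm Dm : ℕ → ℝ) (em : ℕ → ℕ) (Cμ : ℝ) : Prop :=
  ∀ Q : ℕ, 1 ≤ Q → ∀ t : Fin 3 → ℝ, Adm t →
    LocData (LocT163.nuQ Q) (HT t Q) (pj (Zs (nuT t Q) Q)) (bT t Q) (fb Q) (JJ Q) (sg Q)
      Cm Dm em Cμ

/-- one filter kills the excited states of all geometries -/
def KillAll (w : ℝ → ℝ) : Prop :=
  ∀ Q : ℕ, 1 ≤ Q → ∀ t : Fin 3 → ℝ, Adm t →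
    ∫ s, w s • (U (HT t Q) s * (1 - pj (Zs (nuT t Q) Q))) = 0

/-- ring distance is dominated by the distance on the sphere -/
theorem dist_le (Q : ℕ) (z g : U2) : DR Q (JJ Q z) (JJ Q g) ≤ dQ Q g z := by
  rw [dQ_comm]
  exact Tth927.DR_le_dQ Q z g

/-- area bound -/
theorem area_le {Q : ℕ} (hQ : 1 ≤ Q) (g : U2) :
    ∫⁻ z, ENNReal.ofReal (((1 + dQ Q g z) ^ 3)⁻¹) ∂(LocT163.nuQ Q) ≤ ENNReal.ofReal 1 := by
  have h := Tth927.lint3_nuQ hQ g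
  simp only [one_div] at h
  rwa [ENNReal.ofReal_one]

/-- all inputs -/
structure Inp (Cm Dm : ℕ → ℝ) (em : ℕ → ℕ) (Cμ : ℝ) (w : ℝ → ℝ) : Prop where
  loc : LocAll Cm Dm em Cμ
  filt : IsFilter w
  kill : KillAll w
  Cm_nonneg : ∀ m, 0 ≤ Cm m
  Cμ_nonneg : 0 ≤ Cμ

variable {Cm Dm : ℕ → ℝ} {em : ℕ → ℕ} {Cμ : ℝ} {w : ℝ → ℝ}

/-- **(RC)** -/
theorem Inp.RC (h : Inp Cm Dm em Cμ w) : Defs150.RC (CGc w Cm Dm em Cμ 20) := by
  refine ⟨CGc_nonneg h.Cμ_nonneg 20, fun Q hQ t ht n => ?_⟩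
  have := (h.loc Q hQ t ht).RC2 h.filt (h.kill Q hQ t ht) 20 n
  exact_mod_cast this

/-- commutators of a local operator with the pair annihilators of all geometries -/
theorem norm_lie_bT_le {n r Q : ℕ} (hQ : 1 ≤ Q) {t : Fin 3 → ℝ} (ht : Adm t) {g : U2}
    {X : Op (Fin (Q + 1))} {C : ℝ} (hX : QL331.PC (FX963.Rq Q) (uf Q) (dQ Q) n C X g) (hr : r ≤ n)
    (z : U2) : ‖⁅X, bT t Q z⁆‖ ≤ (BBP120.KB n * C) * ((1 + dQ Q g z) ^ r)⁻¹ := by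
  have hC : 0 ≤ C := (norm_nonneg _).trans hX.1
  have hK := BBP120.KB_nonneg n
  have hd := dQ_nonneg Q g z
  refine ((BBP120.bbp_PC n hQ ht hX z).1).trans ?_
  rw [div_eq_mul_inv]
  apply mul_le_mul_of_nonneg_left _ (by positivity)
  apply inv_anti₀ (by positivity)
  exact pow_le_pow_right₀ (by linarith) hr

/-- constant of the profile of the class `DY n Q 1` against the pair annihilators -/
noncomputable def cDY (n : ℕ) : ℝ := BBP120.KB n * (FX963.KX n * 1)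

theorem cDY_nonneg (n : ℕ) : 0 ≤ cDY n := by
  unfold cDY
  have h1 := BBP120.KB_nonneg n
  have h2 := FX963.one_le_KX n
  have h3 : 0 ≤ FX963.KX n := by linarith
  positivity

theorem JJ_one (Q : ℕ) : JJ Q 1 = 0 := by
  unfold Tth927.JJ
  have : tt (1 : U2) = 0 := by
    unfold Avg814.tt
    simp
  rw [this, mul_zero]

/-- **(RX)** -/
theorem Inp.RX (h : Inp Cm Dm em Cμ w) {nW : ℕ} (hn : 8 ≤ nW) :
    Defs150.RX nW (CKc w Cm Dm em 4 1 1 * cDY nW) := by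
  refine ⟨mul_nonneg (CKc_nonneg h.Cm_nonneg 4 zero_le_one zero_le_one) (cDY_nonneg nW), ?_⟩
  intro Q hQ t ht n X hX
  refine (h.loc Q hQ t ht).RX2 h.filt (h.kill Q hQ t ht) n X hX.2.comm (cDY_nonneg nW)
    zero_le_one le_rfl (d0 := fun z => dQ Q 1 z) (fun z => dQ_nonneg Q 1 z) (fun z => ?_)
    (fun z => ?_) (area_le hQ 1)
  · have := dist_le Q z 1
    rw [JJ_one] at this
    rwa [one_mul]
  · exact norm_lie_bT_le hQ ht hX.2.pc hn z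

/-- shift of the index in the distance -/
theorem DR_shift {Q p : ℕ} (hp : p < Q - 1) (J : ℝ) :
    1 + DR Q (p : ℝ) J ≤ 3 * (1 + DR Q ((p + 1 : ℕ) : ℝ) J) := by
  have h1 := DR_triangle Q (p : ℝ) ((p + 1 : ℕ) : ℝ) J
  have h0 : (0 : ℝ) ≤ p := Nat.cast_nonneg p
  have hpc : (p : ℝ) + 2 ≤ Q := by
    have : p + 2 ≤ Q := by omega
    exact_mod_cast this
  have h2 : DR Q (p : ℝ) ((p + 1 : ℕ) : ℝ) ≤ 2 := by
    unfold DR
    push_cast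
    have e1 := abs_sqrt_sub_le (a := (p : ℝ) + 1) (b := (p : ℝ) + 1 + 1) (by linarith) (by linarith)
    have e2 := abs_sqrt_sub_le (a := (Q : ℝ) - p + 1) (b := (Q : ℝ) - (p + 1) + 1) (by linarith)
      (by linarith)
    have s1 : 1 ≤ Real.sqrt ((p : ℝ) + 1 + 1) := Real.one_le_sqrt.2 (by linarith)
    have s2 : 1 ≤ Real.sqrt ((Q : ℝ) - (p + 1) + 1) := Real.one_le_sqrt.2 (by linarith)
    have d1 : |(p : ℝ) + 1 - ((p : ℝ) + 1 + 1)| = 1 := by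
      rw [show (p : ℝ) + 1 - ((p : ℝ) + 1 + 1) = -1 by ring, abs_neg, abs_one]
    have d2 : |(Q : ℝ) - p + 1 - ((Q : ℝ) - (p + 1) + 1)| = 1 := by
      rw [show (Q : ℝ) - p + 1 - ((Q : ℝ) - (p + 1) + 1) = 1 by ring, abs_one]
    rw [d1] at e1
    rw [d2] at e2
    have e3 : 1 / Real.sqrt ((p : ℝ) + 1 + 1) ≤ 1 := (div_le_one (by linarith)).2 s1
    have e4 : 1 / Real.sqrt ((Q : ℝ) - (p + 1) + 1) ≤ 1 := (div_le_one (by linarith)).2 s2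
    linarith
  have h3 := DR_nonneg Q ((p + 1 : ℕ) : ℝ) J
  linarith

/-- **(RZ)** -/
theorem Inp.RZ (h : Inp Cm Dm em Cμ w) {nW : ℕ} (hn : 13 ≤ nW) :
    Defs150.RZ nW (CKc w Cm Dm em 9 1 1 * cDY nW * (2 * 3 ^ 8)) := by
  have hK0 : 0 ≤ CKc w Cm Dm em 9 1 1 * cDY nW :=
    mul_nonneg (CKc_nonneg h.Cm_nonneg 9 zero_le_one zero_le_one) (cDY_nonneg nW)
  refine ⟨by positivity, ?_⟩
  intro Q hQ t ht n g T hT ψ hψ φ hφ p hp
  have hpc : QL331.PC (FX963.Rq Q) (uf Q) (dQ Q) nW (FX963.KX nW * 1) T g := DY.pc_rot hT.2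
  have hN : Commute T Nh := (FX963.commute_cj_Nh_iff g).1 hT.2.comm
  have hJ := JJ_mem Q g
  have h1 := (h.loc Q hQ t ht).CZ h.filt (h.kill Q hQ t ht) 9 n T hN (cDY_nonneg nW)
    zero_le_one le_rfl hJ (d0 := fun z => dQ Q g z) (fun z => dQ_nonneg Q g z)
    (fun z => by rw [one_mul]; exact dist_le Q z g)
    (fun z => norm_lie_bT_le hQ ht hpc hn z) (area_le hQ g) hψ hφ (by omega : p + 1 ≤ Q)
  refine h1.trans ?_
  have hpQ : (((p + 1 : ℕ) : ℝ)) ∈ Set.Icc (0 : ℝ) Q := cast_mem (by omega)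
  have hD := DR_nonneg Q ((p + 1 : ℕ) : ℝ) (JJ Q g)
  have hD' := DR_nonneg Q (p : ℝ) (JJ Q g)
  have e1 : Real.sqrt (dr Q (JJ Q g)) ≤
      (2 * Real.sqrt (PSD716.dd Q p)) * (1 + DR Q ((p + 1 : ℕ) : ℝ) (JJ Q g)) := by
    refine (sqrt_dr_le_mul hJ hpQ).trans ?_
    rw [DR_comm Q (JJ Q g)]
    gcongr
    rw [show (2 : ℝ) * Real.sqrt (PSD716.dd Q p) = Real.sqrt (4 * PSD716.dd Q p) by
      rw [Real.sqrt_mul (by norm_num), show (4 : ℝ) = 2 ^ 2 by norm_num,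
        Real.sqrt_sq (by norm_num)]]
    apply Real.sqrt_le_sqrt
    have := dr_shift hp
    have h2 : 1 ≤ PSD716.dd Q p := PSD716.one_le_dd (by omega)
    push_cast
    linarith
  have e2 : ((1 + DR Q ((p + 1 : ℕ) : ℝ) (JJ Q g)) ^ 8)⁻¹ ≤
      3 ^ 8 * (1 + Defs150.Dr Q p (Q * tt g)) ^ (-(8 : ℝ)) := by
    have e3 : Defs150.Dr Q p (Q * tt g) = DR Q (p : ℝ) (JJ Q g) := rfl
    rw [e3, Real.rpow_neg (by linarith), show (8 : ℝ) = ((8 : ℕ) : ℝ) by norm_num,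
      Real.rpow_natCast, ← div_eq_mul_inv, le_div_iff₀ (by positivity), inv_mul_le_iff₀
      (by positivity), ← mul_pow]
    gcongr
    have := DR_shift hp (JJ Q g)
    linarith
  have hns : 0 ≤ ‖ψ‖ * ‖φ‖ := by positivity
  calc (CKc w Cm Dm em 9 1 1 * cDY nW) * Real.sqrt (dr Q (JJ Q g)) *
        ((1 + DR Q ((p + 1 : ℕ) : ℝ) (JJ Q g)) ^ 9)⁻¹ * (‖ψ‖ * ‖φ‖)
      ≤ (CKc w Cm Dm em 9 1 1 * cDY nW) *
        ((2 * Real.sqrt (PSD716.dd Q p)) * (1 + DR Q ((p + 1 : ℕ) : ℝ) (JJ Q g))) *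
        ((1 + DR Q ((p + 1 : ℕ) : ℝ) (JJ Q g)) ^ 9)⁻¹ * (‖ψ‖ * ‖φ‖) := by gcongr
    _ = (CKc w Cm Dm em 9 1 1 * cDY nW) * (2 * Real.sqrt (PSD716.dd Q p)) *
        ((1 + DR Q ((p + 1 : ℕ) : ℝ) (JJ Q g)) ^ 8)⁻¹ * (‖ψ‖ * ‖φ‖) := by
        have hne : 1 + DR Q ((p + 1 : ℕ) : ℝ) (JJ Q g) ≠ 0 := by positivity
        field_simp
    _ ≤ (CKc w Cm Dm em 9 1 1 * cDY nW) * (2 * Real.sqrt (PSD716.dd Q p)) *
        (3 ^ 8 * (1 + Defs150.Dr Q p (Q * tt g)) ^ (-(8 : ℝ))) * (‖ψ‖ * ‖φ‖) := by gcongr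
    _ = _ := by ring

end Crest.Agent.R340.LR667
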