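import Crest.Agent.R340.LocT3_163
import Crest.Agent.R340.PV3_341

/-!
# R340 (helper163), O2 part 4: Lieb-Robinson hypotheses for `HT t Q`

`dcomm_theta`, `schur_theta`: the double commutator hypothesis of `LR667.lr` for
`HT t Q = ∫ B_g^* B_g dnuQ` in the geometry `t`, with a kernel whose row sums against
`exp (μ dQ)` are bounded uniformly in `Q ≥ 1`, `t ∈ [0,1/2]³`; `lie_bT_le`: commutators with the
pair annihilators.
-/

set_option autoImplicit false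
set_option linter.unusedSectionVars false

open MeasureTheory
open scoped ENNReal Matrix

namespace Crest.Agent.R340.LocT163

open Crest.Agent.R340.Fock649 Crest.Agent.R340.LR667 Crest.Agent.R340.CS809
open Crest.Agent.R340.Avg814 Crest.Agent.R340.Rot303
open Crest.Agent.R340.QL331 (fcar fcar_an fcar_cr)
open Crest.Agent.R340.PV341 (Adm)

theorem dQ_eq_dd (Q : ℕ) (w z : U2) : dQ Q w z =
    2 * (Real.sqrt Q * Geo927.dd (z : Matrix (Fin 2) (Fin 2) ℂ) (w : Matrix (Fin 2) (Fin 2) ℂ)) := by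
  have h1 := dQ_sq Q w z
  have h2 := ent_col0 (rel_unit w z)
  have h3 : 1 - ov w z = Geo927.dd (z : Matrix (Fin 2) (Fin 2) ℂ) w ^ 2 := by
    rw [ov, Geo927.dd]; linarith
  have h4 : (0 : ℝ) ≤ Real.sqrt Q * Geo927.dd (z : Matrix (Fin 2) (Fin 2) ℂ) w :=
    mul_nonneg (Real.sqrt_nonneg _) (Geo927.dd_nonneg _ _)
  have h5 : dQ Q w z ^ 2 = (2 * (Real.sqrt Q * Geo927.dd (z : Matrix (Fin 2) (Fin 2) ℂ) w)) ^ 2 := by
    rw [h1, h3, mul_pow, mul_pow, Real.sq_sqrt (Nat.cast_nonneg _)]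
    ring
  exact (sq_eq_sq₀ (dQ_nonneg Q w z) (by linarith)).1 h5

/-- decay constant -/
noncomputable def Kd (μ : ℝ) : ℝ := Geo927.KK (2 * (μ + 1)) * Geo927.KG

theorem Kd_nonneg (μ : ℝ) : 0 ≤ Kd μ := mul_nonneg (Real.exp_pos _).le Geo927.KG_pos.le

theorem inner_decay {μ : ℝ} (hμ : 0 ≤ μ) {Q : ℕ} (hQ : 1 ≤ Q) {t : Fin 3 → ℝ} (ht : Adm t)
    (k l : Fin 2) (w z : U2) :
    ‖(inner ℂ (uF Q k w) (vF t Q l z) : ℂ)‖ * Real.exp (μ * dQ Q w z) ≤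
      Kd μ * Real.exp (-dQ Q w z) := by
  have h := Geo927.overlap_exp (μ := 2 * (μ + 1)) (by linarith) hQ (fun k => (ht k).1)
    (fun k => (ht k).2.trans (by norm_num)) (U2_ct_mul z) (U2_ct_mul w) (kq hQ k) (kq hQ l)
    (Nat.lt_succ_iff.1 k.2) (Nat.lt_succ_iff.1 l.2)
  rw [inner_u_v hQ, Kd]
  have e : Real.exp (2 * (μ + 1) * (Real.sqrt Q * Geo927.dd (z : Matrix (Fin 2) (Fin 2) ℂ) w)) =
      Real.exp (μ * dQ Q w z) * Real.exp (dQ Q w z) := by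
    rw [← Real.exp_add, dQ_eq_dd]
    congr 1
    ring
  rw [e, ← mul_assoc] at h
  rw [Real.exp_neg, ← div_eq_mul_inv, le_div_iff₀ (Real.exp_pos _)]
  exact h

/-- the exponential weight -/
noncomputable def Ew (μ : ℝ) (Q : ℕ) (w z : U2) : ℝ≥0∞ := ENNReal.ofReal (Real.exp (μ * dQ Q w z))

theorem Ew_mul {μ : ℝ} (hμ : 0 ≤ μ) (Q : ℕ) (w z y : U2) :
    Ew μ Q w y ≤ Ew μ Q w z * Ew μ Q z y := by
  unfold Ew
  rw [← ENNReal.ofReal_mul (Real.exp_pos _).le, ← Real.exp_add]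
  apply ENNReal.ofReal_le_ofReal
  apply Real.exp_le_exp.2
  rw [← mul_add]
  exact mul_le_mul_of_nonneg_left (dQ_triangle Q w z y) hμ

theorem Ew_comm (μ : ℝ) (Q : ℕ) (w z : U2) : Ew μ Q w z = Ew μ Q z w := by
  unfold Ew; rw [dQ_comm]

theorem continuous_dQ (Q : ℕ) : Continuous fun p : U2 × U2 => dQ Q p.1 p.2 := by
  have h0 : ∀ w z : U2, dQ Q w z = 2 * (Real.sqrt Q *
      ‖((w : Matrix (Fin 2) (Fin 2) ℂ)ᴴ * (z : Matrix (Fin 2) (Fin 2) ℂ)) 1 0‖) := by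
    intro w z
    rw [dQ_eq_dd]; rfl
  simp only [h0]
  have h1 : Continuous fun p : U2 × U2 => ((p.1 : Matrix (Fin 2) (Fin 2) ℂ)ᴴ *
      (p.2 : Matrix (Fin 2) (Fin 2) ℂ)) :=
    ((continuous_subtype_val.comp continuous_fst).matrix_conjTranspose).matrix_mul
      (continuous_subtype_val.comp continuous_snd)
  have h2 : Continuous fun p : U2 × U2 => ((p.1 : Matrix (Fin 2) (Fin 2) ℂ)ᴴ *
      (p.2 : Matrix (Fin 2) (Fin 2) ℂ)) 1 0 := (continuous_apply_apply 1 0).comp h1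
  exact continuous_const.mul (continuous_const.mul h2.norm)

theorem measurable_Ew (μ : ℝ) (Q : ℕ) : Measurable fun p : U2 × U2 => Ew μ Q p.1 p.2 := by
  have := Crest.Agent.R124.Haar.secondCountable (N := Fin 2)
  unfold Ew
  exact ((Real.continuous_exp.comp (continuous_const.mul (continuous_dQ Q))).measurable).ennreal_ofReal

theorem exp_neg_le {d : ℝ} (hd : 0 ≤ d) : Real.exp (-d) ≤ 4 * ((1 + d ^ 2 / 4) ^ 2)⁻¹ := by
  have h1 := Real.quadratic_le_exp_of_nonneg (x := d / 2) (by linarith)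
  have h2 : 1 + d ^ 2 / 4 ≤ 2 * Real.exp (d / 2) := by nlinarith
  have h3 : (1 + d ^ 2 / 4) ^ 2 ≤ 4 * Real.exp d := by
    calc (1 + d ^ 2 / 4) ^ 2 ≤ (2 * Real.exp (d / 2)) ^ 2 := by gcongr
      _ = 4 * Real.exp d := by
        rw [mul_pow, ← Real.exp_nat_mul]
        norm_num
        ring_nf
  rw [Real.exp_neg, ← div_eq_mul_inv, le_div_iff₀ (by positivity), inv_mul_le_iff₀ (Real.exp_pos _)]
  linarith

theorem exp_neg_dQ_le (Q : ℕ) (w z : U2) :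
    Real.exp (-dQ Q w z) ≤ 4 * ((1 + (Q : ℝ) * tw w z) ^ 2)⁻¹ := by
  have h1 := exp_neg_le (dQ_nonneg Q w z)
  have h2 : dQ Q w z ^ 2 / 4 = (Q : ℝ) * tw w z := by
    rw [dQ_sq, tw]; ring
  rwa [h2] at h1

/-- the row sum of the exponential kernel -/
theorem lintegral_exp_neg_le (Q : ℕ) (w : U2) :
    ((Q + 1 : ℕ) : ℝ≥0∞) * ∫⁻ z, ENNReal.ofReal (Real.exp (-dQ Q w z)) ∂hm ≤
      ENNReal.ofReal (2 ^ 13) := by
  have hτ := tau_tw w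
  have h1 := hτ.K2 Q
  have hi : Integrable (fun z => ((1 + (Q : ℝ) * tw w z) ^ 2)⁻¹) hm :=
    hτ.intble (f := fun t => ((1 + (Q : ℝ) * t) ^ 2)⁻¹) (PD757.Tau.cont_inv Q 2)
  have hi4 : Integrable (fun z => 4 * ((1 + (Q : ℝ) * tw w z) ^ 2)⁻¹) hm := hi.const_mul 4
  have h2 : ∫⁻ z, ENNReal.ofReal (Real.exp (-dQ Q w z)) ∂hm ≤
      ∫⁻ z, ENNReal.ofReal (4 * ((1 + (Q : ℝ) * tw w z) ^ 2)⁻¹) ∂hm :=
    lintegral_mono fun z => ENNReal.ofReal_le_ofReal (exp_neg_dQ_le Q w z)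
  have h0 : 0 ≤ᵐ[hm] fun z => 4 * ((1 + (Q : ℝ) * tw w z) ^ 2)⁻¹ :=
    Filter.Eventually.of_forall fun z => by
      change (0 : ℝ) ≤ 4 * ((1 + (Q : ℝ) * tw w z) ^ 2)⁻¹
      positivity
  have h3 : ENNReal.ofReal (∫ z, 4 * ((1 + (Q : ℝ) * tw w z) ^ 2)⁻¹ ∂hm) =
      ∫⁻ z, ENNReal.ofReal (4 * ((1 + (Q : ℝ) * tw w z) ^ 2)⁻¹) ∂hm :=
    ofReal_integral_eq_lintegral_ofReal hi4 h0
  rw [← h3, integral_const_mul] at h2
  generalize (∫ z, ((1 + (Q : ℝ) * tw w z) ^ 2)⁻¹ ∂hm) = I at h1 h2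
  generalize (∫⁻ z, ENNReal.ofReal (Real.exp (-dQ Q w z)) ∂hm) = J at h2 ⊢
  calc ((Q + 1 : ℕ) : ℝ≥0∞) * J
      ≤ ((Q + 1 : ℕ) : ℝ≥0∞) * ENNReal.ofReal (4 * I) := by gcongr
    _ = ENNReal.ofReal (((Q + 1 : ℕ) : ℝ) * (4 * I)) := by
        rw [ENNReal.ofReal_mul (p := ((Q + 1 : ℕ) : ℝ)) (by positivity), ENNReal.ofReal_natCast]
    _ ≤ ENNReal.ofReal (2 ^ 13) := by
        apply ENNReal.ofReal_le_ofReal
        push_cast
        linarith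

theorem lintegral_muQ_exp_le (Q : ℕ) (w : U2) :
    ∫⁻ z, ENNReal.ofReal (Real.exp (-dQ Q w z)) ∂(muQ Q) ≤ ENNReal.ofReal (2 ^ 13) := by
  rw [lintegral_muQ]
  exact lintegral_exp_neg_le Q w

theorem lintegral_nuQ_exp_le (Q : ℕ) (w : U2) :
    ∫⁻ z, ENNReal.ofReal (Real.exp (-dQ Q w z)) ∂(nuQ Q) ≤ ENNReal.ofReal (2 ^ 14) := by
  rw [lintegral_nuQ]
  have h := lintegral_exp_neg_le Q w
  have h2 : ((2 * Q - 1 : ℕ) : ℝ≥0∞) ≤ 2 * ((Q + 1 : ℕ) : ℝ≥0∞) := by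
    have : 2 * Q - 1 ≤ 2 * (Q + 1) := by omega
    exact_mod_cast this
  calc ((2 * Q - 1 : ℕ) : ℝ≥0∞) * ∫⁻ z, ENNReal.ofReal (Real.exp (-dQ Q w z)) ∂hm
      ≤ 2 * ((Q + 1 : ℕ) : ℝ≥0∞) * ∫⁻ z, ENNReal.ofReal (Real.exp (-dQ Q w z)) ∂hm := by gcongr
    _ = 2 * (((Q + 1 : ℕ) : ℝ≥0∞) * ∫⁻ z, ENNReal.ofReal (Real.exp (-dQ Q w z)) ∂hm) := by ring
    _ ≤ 2 * ENNReal.ofReal (2 ^ 13) := by gcongr
    _ = ENNReal.ofReal (2 ^ 14) := by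
        rw [show (2 : ℝ≥0∞) = ENNReal.ofReal 2 by simp, ← ENNReal.ofReal_mul (by norm_num)]
        norm_num

theorem enorm_inner_Ew_le {μ : ℝ} (hμ : 0 ≤ μ) {Q : ℕ} (hQ : 1 ≤ Q) {t : Fin 3 → ℝ} (ht : Adm t)
    (k l : Fin 2) (w z : U2) :
    ‖(inner ℂ (uF Q k w) (vF t Q l z) : ℂ)‖ₑ * Ew μ Q w z ≤
      ENNReal.ofReal (Kd μ) * ENNReal.ofReal (Real.exp (-dQ Q w z)) := by
  rw [Ew, ← ofReal_norm, ← ENNReal.ofReal_mul (norm_nonneg _), ← ENNReal.ofReal_mul (Kd_nonneg μ)]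
  exact ENNReal.ofReal_le_ofReal (inner_decay hμ hQ ht k l w z)

theorem KS_Ew_le {μ : ℝ} (hμ : 0 ≤ μ) {Q : ℕ} (hQ : 1 ≤ Q) {t : Fin 3 → ℝ} (ht : Adm t)
    (w z : U2) :
    KS (uF Q) (vF t Q) w z * Ew μ Q w z ≤
      4 * ENNReal.ofReal (Kd μ) * ENNReal.ofReal (Real.exp (-dQ Q w z)) := by
  have h := fun k l => enorm_inner_Ew_le hμ hQ ht k l w z
  unfold KS
  rw [Fin.sum_univ_two, Fin.sum_univ_two, Fin.sum_univ_two, add_mul, add_mul, add_mul]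
  calc _ ≤ (ENNReal.ofReal (Kd μ) * ENNReal.ofReal (Real.exp (-dQ Q w z)) +
        ENNReal.ofReal (Kd μ) * ENNReal.ofReal (Real.exp (-dQ Q w z))) +
        (ENNReal.ofReal (Kd μ) * ENNReal.ofReal (Real.exp (-dQ Q w z)) +
        ENNReal.ofReal (Kd μ) * ENNReal.ofReal (Real.exp (-dQ Q w z))) :=
        add_le_add (add_le_add (h 0 0) (h 0 1)) (add_le_add (h 1 0) (h 1 1))
    _ = _ := by ring

theorem KB_Ew_le {μ : ℝ} (hμ : 0 ≤ μ) {Q : ℕ} (hQ : 1 ≤ Q) {t : Fin 3 → ℝ} (ht : Adm t)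
    (z y : U2) :
    KB (uF Q) (vF t Q) z y * Ew μ Q z y ≤
      2 * ENNReal.ofReal (Kd μ) * ENNReal.ofReal (Real.exp (-dQ Q z y)) := by
  have h := fun l => enorm_inner_Ew_le hμ hQ ht 0 l y z
  unfold KB
  rw [Fin.sum_univ_two, add_mul, Ew_comm μ Q z y, dQ_comm Q z y]
  calc _ ≤ ENNReal.ofReal (Kd μ) * ENNReal.ofReal (Real.exp (-dQ Q y z)) +
        ENNReal.ofReal (Kd μ) * ENNReal.ofReal (Real.exp (-dQ Q y z)) := add_le_add (h 0) (h 1)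
    _ = _ := by ring

theorem lintegral_KS_le {μ : ℝ} (hμ : 0 ≤ μ) {Q : ℕ} (hQ : 1 ≤ Q) {t : Fin 3 → ℝ} (ht : Adm t)
    (w : U2) : ∫⁻ z, KS (uF Q) (vF t Q) w z * Ew μ Q w z ∂(nuQ Q) ≤
      ENNReal.ofReal (2 ^ 16 * Kd μ) := by
  refine (lintegral_mono fun z => KS_Ew_le hμ hQ ht w z).trans ?_
  rw [lintegral_const_mul' _ _ (ENNReal.mul_ne_top (by simp) ENNReal.ofReal_ne_top)]
  calc 4 * ENNReal.ofReal (Kd μ) * ∫⁻ z, ENNReal.ofReal (Real.exp (-dQ Q w z)) ∂(nuQ Q)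
      ≤ 4 * ENNReal.ofReal (Kd μ) * ENNReal.ofReal (2 ^ 14) := by
        gcongr
        exact lintegral_nuQ_exp_le Q w
    _ = ENNReal.ofReal (2 ^ 16 * Kd μ) := by
        rw [show (4 : ℝ≥0∞) = ENNReal.ofReal 4 by simp, ← ENNReal.ofReal_mul (by norm_num),
          ← ENNReal.ofReal_mul (by have := Kd_nonneg μ; positivity)]
        congr 1
        ring

theorem lintegral_KB_le {μ : ℝ} (hμ : 0 ≤ μ) {Q : ℕ} (hQ : 1 ≤ Q) {t : Fin 3 → ℝ} (ht : Adm t)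
    (z : U2) : ∫⁻ y, KB (uF Q) (vF t Q) z y * Ew μ Q z y ∂(muQ Q) ≤
      ENNReal.ofReal (2 ^ 14 * Kd μ) := by
  refine (lintegral_mono fun y => KB_Ew_le hμ hQ ht z y).trans ?_
  rw [lintegral_const_mul' _ _ (ENNReal.mul_ne_top (by simp) ENNReal.ofReal_ne_top)]
  calc 2 * ENNReal.ofReal (Kd μ) * ∫⁻ y, ENNReal.ofReal (Real.exp (-dQ Q z y)) ∂(muQ Q)
      ≤ 2 * ENNReal.ofReal (Kd μ) * ENNReal.ofReal (2 ^ 13) := by
        gcongr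
        exact lintegral_muQ_exp_le Q z
    _ = ENNReal.ofReal (2 ^ 14 * Kd μ) := by
        rw [show (2 : ℝ≥0∞) = ENNReal.ofReal 2 by simp, ← ENNReal.ofReal_mul (by norm_num),
          ← ENNReal.ofReal_mul (by have := Kd_nonneg μ; positivity)]
        congr 1
        ring

/-! ### the Hamiltonian in geometry `t` -/

/-- normalised pair annihilator `B'_g` -/
noncomputable def bT (t : Fin 3 → ℝ) (Q : ℕ) (g : U2) : Op (Fin (Q + 1)) :=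
  pb (vF t Q 1 g) (vF t Q 0 g)

/-- `HT = ∫ B'_g^* B'_g (2Q-1) dg` -/
noncomputable def HT (t : Fin 3 → ℝ) (Q : ℕ) : Op (Fin (Q + 1)) := HH (nuQ Q) (vF t Q)

/-- the double commutator kernel of `HT` -/
noncomputable def kT (t : Fin 3 → ℝ) (Q : ℕ) (w y : U2) : ℝ≥0∞ :=
  kap (nuQ Q) (uF Q) (vF t Q) (ENNReal.ofReal Bv) w y

theorem gen_eq (Q : ℕ) : DC867.gen fcar (uF Q) = gen (uF Q) := by
  funext k z
  rcases k with ⟨k, b⟩
  cases b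
  · rfl
  · exact fcar_cr _

theorem isSelfAdjoint_HT (t : Fin 3 → ℝ) (Q : ℕ) : IsSelfAdjoint (HT t Q) := isSelfAdjoint_HH _ _

/-- **double commutator bound in geometry `t`** -/
theorem dcomm_theta {Q : ℕ} (hQ : 1 ≤ Q) {t : Fin 3 → ℝ} (ht : Adm t) (X : Op (Fin (Q + 1)))
    (k : Fin 2 × Bool) (w : U2) :
    ‖⁅X, ⁅HT t Q, DC867.gen fcar (uF Q) k w⁆⁆‖ₑ ≤
      ∫⁻ y, kT t Q w y * prof (DC867.gen fcar (uF Q)) X y ∂(muQ Q) := by
  rw [gen_eq]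
  exact dcomm (sm_uF hQ) (sm_vF hQ t) (reso hQ 0)
    (fun l z => norm_vF_le hQ (fun k => (ht k).1) (fun k => (ht k).2) l z) X k w

/-- the row sum constant -/
noncomputable def vT (μ : ℝ) : ℝ := 3 * Bv ^ 2 * ((2 ^ 16 * Kd μ) * (2 ^ 14 * Kd μ))

theorem vT_nonneg (μ : ℝ) : 0 ≤ vT μ := by
  have := Kd_nonneg μ
  have := Bv_nonneg
  unfold vT
  positivity

/-- **row sums of the double commutator kernel**, uniformly in `Q`, `t`, `w` -/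
theorem schur_theta {μ : ℝ} (hμ : 0 ≤ μ) {Q : ℕ} (hQ : 1 ≤ Q) {t : Fin 3 → ℝ} (ht : Adm t)
    (w : U2) :
    ∫⁻ y, kT t Q w y * ENNReal.ofReal (Real.exp (μ * dQ Q w y)) ∂(muQ Q) ≤
      ENNReal.ofReal (vT μ) := by
  have h := lintegral_kap_le (μ := muQ Q) (ν := nuQ Q) (sm_uF hQ) (sm_vF hQ t) (ENNReal.ofReal Bv)
    (E := Ew μ Q) (measurable_Ew μ Q) (Ew_mul hμ Q) (lintegral_KS_le hμ hQ ht)
    (lintegral_KB_le hμ hQ ht) w
  refine h.trans (le_of_eq ?_)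
  have hB := Bv_nonneg
  have hK := Kd_nonneg μ
  have h3 : (3 : ℝ≥0∞) = ENNReal.ofReal 3 := by simp
  rw [vT, h3, ← ENNReal.ofReal_pow hB, ← ENNReal.ofReal_mul (by norm_num),
    ← ENNReal.ofReal_mul (by positivity), ← ENNReal.ofReal_mul (by positivity)]

/-- the kernel of the commutators with the pair annihilators -/
noncomputable def kB (t : Fin 3 → ℝ) (Q : ℕ) (z y : U2) : ℝ≥0∞ :=
  2 * ENNReal.ofReal Bv * KB (uF Q) (vF t Q) z y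

theorem lie_bT_le {Q : ℕ} (hQ : 1 ≤ Q) {t : Fin 3 → ℝ} (ht : Adm t) (X : Op (Fin (Q + 1)))
    (z : U2) :
    ‖⁅X, bT t Q z⁆‖ₑ ≤ ∫⁻ y, kB t Q z y * prof (DC867.gen fcar (uF Q)) X y ∂(muQ Q) ∧
    ‖⁅X, star (bT t Q z)⁆‖ₑ ≤
      ∫⁻ y, kB t Q z y * prof (DC867.gen fcar (uF Q)) X y ∂(muQ Q) := by
  rw [gen_eq]
  refine lie_bb_le (reso hQ 0) (fun l z => ?_) X z
  rw [← ofReal_norm]
  exact ENNReal.ofReal_le_ofReal (norm_vF_le hQ (fun k => (ht k).1) (fun k => (ht k).2) l z)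

noncomputable def vB (μ : ℝ) : ℝ := 2 * Bv * (2 ^ 14 * Kd μ)

theorem vB_nonneg (μ : ℝ) : 0 ≤ vB μ := by
  have := Kd_nonneg μ
  have := Bv_nonneg
  unfold vB
  positivity

theorem schur_kB {μ : ℝ} (hμ : 0 ≤ μ) {Q : ℕ} (hQ : 1 ≤ Q) {t : Fin 3 → ℝ} (ht : Adm t)
    (z : U2) :
    ∫⁻ y, kB t Q z y * ENNReal.ofReal (Real.exp (μ * dQ Q z y)) ∂(muQ Q) ≤
      ENNReal.ofReal (vB μ) := by
  have h := lintegral_KB_le hμ hQ ht z
  have hB := Bv_nonneg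
  have hK := Kd_nonneg μ
  unfold kB
  simp only [mul_assoc]
  rw [lintegral_const_mul' _ _ (by simp), lintegral_const_mul' _ _ ENNReal.ofReal_ne_top,
    ← mul_assoc]
  calc 2 * ENNReal.ofReal Bv * ∫⁻ y, KB (uF Q) (vF t Q) z y *
        ENNReal.ofReal (Real.exp (μ * dQ Q z y)) ∂(muQ Q)
      ≤ 2 * ENNReal.ofReal Bv * ENNReal.ofReal (2 ^ 14 * Kd μ) := by
        gcongr
        exact h
    _ = ENNReal.ofReal (vB μ) := by
        rw [vB, show (2 : ℝ≥0∞) = ENNReal.ofReal 2 by simp, ← ENNReal.ofReal_mul (by norm_num),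
          ← ENNReal.ofReal_mul (by positivity)]

theorem norm_bT_le {Q : ℕ} (hQ : 1 ≤ Q) {t : Fin 3 → ℝ} (ht : Adm t) (g : U2) :
    ‖bT t Q g‖ ≤ Bv ^ 2 := by
  rw [bT, pb, pow_two]
  refine (norm_mul_le _ _).trans ?_
  rw [norm_an, norm_an]
  have h := fun l => norm_vF_le hQ (fun k => (ht k).1) (fun k => (ht k).2) l g
  exact mul_le_mul (h 1) (h 0) (norm_nonneg _) Bv_nonneg

theorem continuous_bT {Q : ℕ} (hQ : 1 ≤ Q) (t : Fin 3 → ℝ) : Continuous (bT t Q) := by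
  have h1 := continuous_an.comp (continuous_vF hQ t 1)
  have h0 := continuous_an.comp (continuous_vF hQ t 0)
  exact h1.mul h0

theorem HT_eq (t : Fin 3 → ℝ) (Q : ℕ) : HT t Q = ∫ g, star (bT t Q g) * bT t Q g ∂(nuQ Q) := by
  unfold HT HH bT
  refine integral_congr_ae (Filter.Eventually.of_forall fun g => ?_)
  simp only [pbb]

end Crest.Agent.R340.LocT163
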