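import Crest.Agent.R340.LocT4_163
import Crest.Agent.R340.GeoM_986
import Crest.Agent.R340.Rot3_303
import Crest.Agent.R340.Prof2_385

/-!
# R340 (helper163), O2 part 5: `HT t Q` is a weighted sum of the ring Hamiltonians of geometry `t`

`Bp_eq_Bg : Bp Q q = Bg (nu0 Q) Q (q+1)`, `bT_eq` (expansion of `bT t Q g` in the ring annihilators of
the metric `nuT t Q`), `HT_eq_sum : HT t Q = ∑_{p<2Q} hh t Q p • star (Bg p) * Bg p`.
-/

set_option autoImplicit false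
set_option linter.unusedSectionVars false

open MeasureTheory
open scoped ENNReal Matrix

namespace Crest.Agent.R340.LocT163

open Crest.Agent.R340.Fock649 Crest.Agent.R340.LR667 Crest.Agent.R340.CS809
open Crest.Agent.R340.Avg814 Crest.Agent.R340.Rot303
open Crest.Agent.R340.Geo986 (nu0 nuT pairs bz bcoef res PosM Zs mem_pairs)
open Crest.Agent.R340.Br320 (Bp wM wM_apply)
open Crest.MathPhysics.Laughlin (pairVec pairNorm)
open Crest.Agent.R340.PV341 (Adm)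

/-! ### the round sphere -/

theorem nz_nu0_eq {Q : ℕ} (hQ : 1 ≤ Q) (q : ℕ) : Geo986.nz (nu0 Q) Q (q + 1) = pairNorm Q (q + 1) := by
  rw [Geo986.nz_nu0]
  have h1 := PV341.nrm_eq Q (q + 1)
  have h2 := Prof385.two_pairNorm_eq_mom Q q hQ
  linarith

/-- sum over all pairs of a symmetric function vanishing off `i + j = p` -/
theorem sum_sum_eq_two_pairs {M : Type*} [AddCommGroup M] [Module ℂ M] {Q p : ℕ}
    (f : Fin (Q + 1) → Fin (Q + 1) → M) (hs : ∀ i j, f i j = f j i)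
    (hd : ∀ i, f i i = 0) (h0 : ∀ i j : Fin (Q + 1), (i : ℕ) + j ≠ p → f i j = 0) :
    ∑ i, ∑ j, f i j = (2 : ℂ) • ∑ x ∈ pairs Q p, f x.1 x.2 := by
  have e1 : ∑ i, ∑ j, f i j = ∑ x : Fin (Q + 1) × Fin (Q + 1), f x.1 x.2 :=
    (Fintype.sum_prod_type' f).symm
  have hlt : ∑ x ∈ Finset.univ.filter (fun x : Fin (Q + 1) × Fin (Q + 1) => x.1 < x.2), f x.1 x.2 =
      ∑ x ∈ pairs Q p, f x.1 x.2 := by
    symm
    refine Finset.sum_subset (fun x hx => ?_) fun x hx hx' => ?_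
    · exact Finset.mem_filter.2 ⟨Finset.mem_univ _, (mem_pairs.1 hx).1⟩
    · apply h0
      intro hc
      exact hx' (mem_pairs.2 ⟨(Finset.mem_filter.1 hx).2, hc⟩)
  have hgt : ∑ x ∈ Finset.univ.filter (fun x : Fin (Q + 1) × Fin (Q + 1) => x.2 < x.1), f x.1 x.2 =
      ∑ x ∈ Finset.univ.filter (fun x : Fin (Q + 1) × Fin (Q + 1) => x.1 < x.2), f x.1 x.2 := by
    refine Finset.sum_bij' (fun x _ => (x.2, x.1)) (fun x _ => (x.2, x.1)) ?_ ?_ ?_ ?_ ?_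
    · intro x hx
      simpa using (Finset.mem_filter.1 hx).2
    · intro x hx
      simpa using (Finset.mem_filter.1 hx).2
    · intro x _; rfl
    · intro x _; rfl
    · intro x _; exact hs _ _
  have hsplit : ∀ x : Fin (Q + 1) × Fin (Q + 1), f x.1 x.2 =
      (if x.1 < x.2 then f x.1 x.2 else 0) + (if x.2 < x.1 then f x.1 x.2 else 0) := by
    intro x
    rcases lt_trichotomy x.1 x.2 with h | h | h
    · rw [if_pos h, if_neg (lt_asymm h), add_zero]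
    · rw [if_neg (by rw [h]; exact lt_irrefl _), if_neg (by rw [h]; exact lt_irrefl _), h, hd,
        add_zero]
    · rw [if_neg (lt_asymm h), if_pos h, zero_add]
  rw [e1, Finset.sum_congr rfl fun x _ => hsplit x, Finset.sum_add_distrib, ← Finset.sum_filter,
    ← Finset.sum_filter, hgt, hlt, two_smul]

theorem Bp_eq_Bg {Q : ℕ} (q : Fin (2 * Q - 1)) : Bp Q q = Geo986.Bg (nu0 Q) Q ((q : ℕ) + 1) := by
  have hQ : 1 ≤ Q := by have := q.2; omega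
  have hcc : ∀ i j : Fin (Q + 1), (c j * c i : Op (Fin (Q + 1))) = - (c i * c j) := fun i j =>
    eq_neg_of_add_eq_zero_left (c_c j i)
  have hanti : ∀ i j : Fin (Q + 1), pairVec Q q i j = - pairVec Q q j i := by
    intro i j
    unfold pairVec
    by_cases h : (i : ℕ) + j = q + 1
    · rw [if_pos h, if_pos (by omega), mul_comm (Nat.choose Q i : ℝ)]
      ring
    · rw [if_neg h, if_neg (by omega), neg_zero]
  have hsum := sum_sum_eq_two_pairs (Q := Q) (p := (q : ℕ) + 1)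
    (fun i j => (starRingEnd ℂ) (wM Q q i j) • (c j * c i : Op (Fin (Q + 1))))
    (by
      intro i j
      rw [wM_apply, wM_apply, hanti i j, hcc i j, Complex.conj_ofReal, Complex.conj_ofReal,
        Complex.ofReal_neg, neg_smul_neg])
    (by intro i; rw [c_mul_self, smul_zero])
    (by
      intro i j h
      rw [wM_apply, pairVec, if_neg h]
      simp)
  have hpn : 0 < pairNorm Q ((q : ℕ) + 1) := by
    rw [← nz_nu0_eq hQ]
    apply Geo986.nz_pos (Geo986.posM_nu0 Q)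
    have hq := q.2
    rcases le_or_gt ((q : ℕ) + 1) Q with h | h
    · exact ⟨(⟨0, by omega⟩, ⟨(q : ℕ) + 1, by omega⟩), mem_pairs.2 ⟨by
        rw [Fin.lt_def]; simp, by simp⟩⟩
    · exact ⟨(⟨(q : ℕ) + 1 - Q, by omega⟩, ⟨Q, by omega⟩), mem_pairs.2 ⟨by
        rw [Fin.lt_def]; simp only; omega, by simp only; omega⟩⟩
  rw [Bp, pa, hsum, Geo986.Bg, bz, nz_nu0_eq hQ, smul_smul, Finset.smul_sum, Finset.smul_sum]
  refine Finset.sum_congr rfl fun x hx => ?_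
  rw [smul_smul, smul_smul]
  congr 1
  have hx' := mem_pairs.1 hx
  rw [wM_apply, pairVec, if_pos hx'.2, bcoef, nu0, nu0, Complex.conj_ofReal]
  rw [Real.sqrt_mul (by norm_num : (0 : ℝ) ≤ 2), Real.sqrt_mul (Nat.cast_nonneg _)]
  have hs2 : (Real.sqrt 2 : ℝ) ≠ 0 := (Real.sqrt_pos.2 (by norm_num)).ne'
  have hsn : (Real.sqrt (pairNorm Q ((q : ℕ) + 1)) : ℝ) ≠ 0 := (Real.sqrt_pos.2 hpn).ne'
  have h22 : (Real.sqrt 2) * (Real.sqrt 2) = 2 := Real.mul_self_sqrt (by norm_num)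
  have e : (Real.sqrt 2)⁻¹ * 2 * (((x.2 : ℕ) : ℝ) - ((x.1 : ℕ) : ℝ)) *
      (Real.sqrt (Nat.choose Q x.1) * Real.sqrt (Nat.choose Q x.2)) /
        (Real.sqrt 2 * Real.sqrt (pairNorm Q ((q : ℕ) + 1))) =
      (Real.sqrt (pairNorm Q ((q : ℕ) + 1)))⁻¹ * ((((x.2 : ℕ) : ℝ) - ((x.1 : ℕ) : ℝ)) /
        ((Real.sqrt (Nat.choose Q x.1))⁻¹ * (Real.sqrt (Nat.choose Q x.2))⁻¹)) := by
    rw [← mul_inv, div_inv_eq_mul]
    field_simp
    rw [pow_two, h22]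
  have e' := congrArg (fun r : ℝ => (r : ℂ)) e
  push_cast at e' ⊢
  rw [← e']
  ring

/-! ### the expansion of `bT` -/

theorem Gt_eq_G (t : Fin 3 → ℝ) {Q j : ℕ} (hj : j ≤ Q) :
    Geo927.Gt t ((Q : ℝ) - j) = PV341.G t (Q - j) := by
  unfold Geo927.Gt PV341.G
  rw [Nat.cast_sub hj]

/-- the weight as a function on the orbitals -/
noncomputable def wG (t : Fin 3 → ℝ) (Q : ℕ) : ℕ → ℝ := fun j => PV341.G t (Q - j)

theorem posM_wG (t : Fin 3 → ℝ) (Q : ℕ) : PosM (wG t Q) Q := Geo986.posM_G t Q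

theorem nuT_mul_wG (t : Fin 3 → ℝ) (Q : ℕ) : nuT t Q * wG t Q = nu0 Q := by
  funext j
  have := (PV341.G_pos t (Q - j)).ne'
  simp only [nuT, wG, Pi.mul_apply, Pi.inv_apply]
  field_simp

theorem bz_nu0_mul_Gd (t : Fin 3 → ℝ) (Q p : ℕ) :
    bz (nu0 Q) Q p * Gd (res Q (wG t Q)) = Gd (res Q (wG t Q)) * bz (nuT t Q) Q p := by
  have h := Geo986.bz_mul_Gd (ν := nuT t Q) (posM_wG t Q) p
  rwa [nuT_mul_wG] at h

theorem Gd_inv_mul (t : Fin 3 → ℝ) (Q : ℕ) :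
    Gd (res Q (wG t Q)⁻¹) * Gd (res Q (wG t Q)) = (1 : Op (Fin (Q + 1))) := by
  rw [← Gd_mul, ← Gd_one]
  congr 1
  funext j
  have h : wG t Q j ≠ 0 := (PV341.G_pos t (Q - j)).ne'
  simp only [res, Pi.mul_apply, Pi.inv_apply, Pi.one_apply]
  rw [← Complex.ofReal_mul, inv_mul_cancel₀ h, Complex.ofReal_one]

/-- the weighted frame vector -/
noncomputable def wF (t : Fin 3 → ℝ) (Q : ℕ) (k : Fin 2) (g : U2) : L (Fin (Q + 1)) :=
  WithLp.toLp 2 fun j => (starRingEnd ℂ) (res Q (wG t Q) j) * uF Q k g j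

theorem vF_eq_smul (t : Fin 3 → ℝ) (Q : ℕ) (k : Fin 2) (g : U2) :
    vF t Q k g = ((Geo927.nz t Q g : ℝ) : ℂ) • wF t Q k g := by
  ext j
  have hj : (j : ℕ) ≤ Q := Nat.lt_succ_iff.1 j.2
  change ((Geo927.nz t Q g : ℝ) : ℂ) *
    (((Geo927.Gt t ((Q : ℝ) - (j : ℕ)) : ℝ) : ℂ) * uF Q k g j) =
    ((Geo927.nz t Q g : ℝ) : ℂ) * ((starRingEnd ℂ) (res Q (wG t Q) j) * uF Q k g j)
  rw [Gt_eq_G t hj, res, Complex.conj_ofReal]
  rfl

theorem an_wF (t : Fin 3 → ℝ) (Q : ℕ) (k : Fin 2) (g : U2) :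
    Gd (res Q (wG t Q)) * an (wF t Q k g) = an (uF Q k g) * Gd (res Q (wG t Q)) :=
  (an_mul_Gd _ _).symm

theorem mv_sp_e {Q : ℕ} (hQ : 1 ≤ Q) (k : Fin 2) (g : U2) :
    mv (sp Q (g : Matrix (Fin 2) (Fin 2) ℂ)) (e (kq hQ k)) = uF Q k g := by
  ext j
  rw [mv_apply, uF_apply hQ, Finset.sum_eq_single (kq hQ k)]
  · rw [e_apply, if_pos rfl, mul_one]
  · intro b _ hb
    rw [e_apply, if_neg hb, mul_zero]
  · intro h; exact absurd (Finset.mem_univ _) h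

/-- index zero of the pair multiplet -/
def p0 {Q : ℕ} (hQ : 1 ≤ Q) : Fin (2 * Q - 1) := ⟨0, by omega⟩

theorem an_an_eq {Q : ℕ} (hQ : 1 ≤ Q) (g : U2) : an (uF Q 1 g) * an (uF Q 0 g) =
    star (g : Matrix (Fin 2) (Fin 2) ℂ).det •
      ∑ q, star (D2 Q (g : Matrix (Fin 2) (Fin 2) ℂ) q (p0 hQ)) • Bp Q q := by
  have h1 := Bg_zero (Q := Q) hQ (U2_mul_ct g)
  have h2 := Bg_eq (Q := Q) (U2_mul_ct g) (p0 hQ)
  have e1 : mv (sp Q (g : Matrix (Fin 2) (Fin 2) ℂ)) (e (⟨1, by omega⟩ : Fin (Q + 1))) =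
      uF Q 1 g := mv_sp_e hQ 1 g
  have e0 : mv (sp Q (g : Matrix (Fin 2) (Fin 2) ℂ)) (e (0 : Fin (Q + 1))) = uF Q 0 g :=
    mv_sp_e hQ 0 g
  rw [e1, e0] at h1
  rw [← h1]
  exact h2

theorem Bg_eq_smul_bz (ν : ℕ → ℝ) (Q p : ℕ) :
    Geo986.Bg ν Q p = (((Real.sqrt (Geo986.nz ν Q p))⁻¹ : ℝ) : ℂ) • bz ν Q p := rfl

/-- ratio of the normalisations -/
noncomputable def rho (t : Fin 3 → ℝ) (Q p : ℕ) : ℝ :=
  Real.sqrt (Geo986.nz (nuT t Q) Q p) / Real.sqrt (Geo986.nz (nu0 Q) Q p)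

theorem Bg_nu0_mul_Gd (t : Fin 3 → ℝ) (Q p : ℕ) :
    Geo986.Bg (nu0 Q) Q p * Gd (res Q (wG t Q)) =
      Gd (res Q (wG t Q)) * (((rho t Q p : ℝ) : ℂ) • Geo986.Bg (nuT t Q) Q p) := by
  rw [Bg_eq_smul_bz (nu0 Q), smul_mul_assoc, bz_nu0_mul_Gd,
    Geo986.bz_eq_smul_Bg (Geo986.posM_nuT t Q), mul_smul_comm, mul_smul_comm, smul_smul]
  congr 1
  rw [← Complex.ofReal_mul, rho]
  congr 1
  rw [div_eq_mul_inv, mul_comm]

theorem an_wF_an_wF {Q : ℕ} (hQ : 1 ≤ Q) (t : Fin 3 → ℝ) (g : U2) :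
    an (wF t Q 1 g) * an (wF t Q 0 g) = star (g : Matrix (Fin 2) (Fin 2) ℂ).det •
      ∑ q, (star (D2 Q (g : Matrix (Fin 2) (Fin 2) ℂ) q (p0 hQ)) * ((rho t Q ((q : ℕ) + 1) : ℝ) : ℂ)) •
        Geo986.Bg (nuT t Q) Q ((q : ℕ) + 1) := by
  have h1 : Gd (res Q (wG t Q)) * (an (wF t Q 1 g) * an (wF t Q 0 g)) =
      Gd (res Q (wG t Q)) * (star (g : Matrix (Fin 2) (Fin 2) ℂ).det •
      ∑ q, (star (D2 Q (g : Matrix (Fin 2) (Fin 2) ℂ) q (p0 hQ)) * ((rho t Q ((q : ℕ) + 1) : ℝ) : ℂ)) •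
        Geo986.Bg (nuT t Q) Q ((q : ℕ) + 1)) := by
    rw [← mul_assoc, an_wF, mul_assoc, an_wF, ← mul_assoc, an_an_eq hQ, smul_mul_assoc,
      mul_smul_comm]
    congr 1
    rw [Finset.sum_mul, Finset.mul_sum]
    refine Finset.sum_congr rfl fun q _ => ?_
    rw [smul_mul_assoc, Bp_eq_Bg, Bg_nu0_mul_Gd, mul_smul_comm, mul_smul_comm, smul_smul]
  have h2 := congrArg (fun A => Gd (res Q (wG t Q)⁻¹) * A) h1
  simp only [← mul_assoc, Gd_inv_mul, one_mul] at h2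
  exact h2

/-- **expansion of the local pair annihilator in the ring annihilators of the metric `nuT t Q`** -/
theorem bT_eq {Q : ℕ} (hQ : 1 ≤ Q) (t : Fin 3 → ℝ) (g : U2) :
    bT t Q g = (((Geo927.nz t Q g : ℝ) : ℂ) ^ 2 * star (g : Matrix (Fin 2) (Fin 2) ℂ).det) •
      ∑ q, (star (D2 Q (g : Matrix (Fin 2) (Fin 2) ℂ) q (p0 hQ)) * ((rho t Q ((q : ℕ) + 1) : ℝ) : ℂ)) •
        Geo986.Bg (nuT t Q) Q ((q : ℕ) + 1) := by
  rw [bT, pb, vF_eq_smul, vF_eq_smul, an_smul, an_smul, smul_mul_smul_comm, an_wF_an_wF hQ,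
    Complex.conj_ofReal, smul_smul, pow_two]

theorem bT_mul_eq_zero {Q : ℕ} (hQ : 1 ≤ Q) (t : Fin 3 → ℝ) (g : U2) {ψ : Fk (Fin (Q + 1))}
    (hψ : ψ ∈ Zs (nuT t Q) Q) : bT t Q g ψ = 0 := by
  rw [bT_eq hQ, smul_ap, sum_ap]
  have h : ∑ q : Fin (2 * Q - 1), ((star (D2 Q (g : Matrix (Fin 2) (Fin 2) ℂ) q (p0 hQ)) *
      ((rho t Q ((q : ℕ) + 1) : ℝ) : ℂ)) • Geo986.Bg (nuT t Q) Q ((q : ℕ) + 1)) ψ = 0 := by
    refine Finset.sum_eq_zero fun q _ => ?_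
    rw [smul_ap, Geo986.Bg_apply, hψ, smul_zero, smul_zero]
  rw [h, smul_zero]

end Crest.Agent.R340.LocT163
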