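import Crest.Agent.R340.LocT5_163

/-!
# R340 (helper163), O2 part 6: `HT t Q = ∑ hh • star Bg * Bg`
-/

set_option autoImplicit false
set_option linter.unusedSectionVars false

open MeasureTheory
open scoped ENNReal Matrix

namespace Crest.Agent.R340.LocT163

open Crest.Agent.R340.Fock649 Crest.Agent.R340.LR667 Crest.Agent.R340.CS809
open Crest.Agent.R340.Avg814 Crest.Agent.R340.Rot303
open Crest.Agent.R340.Geo986 (nu0 nuT pairs bz bcoef res PosM Zs mem_pairs)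
open Crest.Agent.R340.PV341 (Adm)

/-- the scalar kernel -/
noncomputable def Fqr (t : Fin 3 → ℝ) {Q : ℕ} (hQ : 1 ≤ Q) (q r : Fin (2 * Q - 1)) (g : U2) : ℂ :=
  ((Geo927.nz t Q g : ℝ) : ℂ) ^ 4 * (D2 Q (g : Matrix (Fin 2) (Fin 2) ℂ) q (p0 hQ) *
    star (D2 Q (g : Matrix (Fin 2) (Fin 2) ℂ) r (p0 hQ)))

theorem continuous_nz' (t : Fin 3 → ℝ) (Q : ℕ) : Continuous fun g : U2 => Geo927.nz t Q g :=
  (Geo927.continuous_nz Q).comp continuous_subtype_val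

theorem continuous_Fqr (t : Fin 3 → ℝ) {Q : ℕ} (hQ : 1 ≤ Q) (q r : Fin (2 * Q - 1)) :
    Continuous (Fqr t hQ q r) := by
  have h1 : Continuous fun g : U2 => ((Geo927.nz t Q g : ℝ) : ℂ) :=
    Complex.continuous_ofReal.comp (continuous_nz' t Q)
  have h2 := continuous_D2_entry Q q (p0 hQ)
  have h3 : Continuous fun g : U2 => star (D2 Q (g : Matrix (Fin 2) (Fin 2) ℂ) r (p0 hQ)) :=
    continuous_star.comp (continuous_D2_entry Q r (p0 hQ))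
  exact (h1.pow 4).mul (h2.mul h3)

theorem star_bT_mul_bT {Q : ℕ} (hQ : 1 ≤ Q) (t : Fin 3 → ℝ) (g : U2) :
    star (bT t Q g) * bT t Q g = ∑ q : Fin (2 * Q - 1), ∑ r : Fin (2 * Q - 1),
      (Fqr t hQ q r g) • (((rho t Q ((q : ℕ) + 1) * rho t Q ((r : ℕ) + 1) : ℝ) : ℂ) •
        (star (Geo986.Bg (nuT t Q) Q ((q : ℕ) + 1)) * Geo986.Bg (nuT t Q) Q ((r : ℕ) + 1))) := by
  rw [bT_eq hQ, star_smul, smul_mul_smul_comm, star_sum, Finset.sum_mul_sum, Finset.smul_sum]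
  refine Finset.sum_congr rfl fun q _ => ?_
  rw [Finset.smul_sum]
  refine Finset.sum_congr rfl fun r _ => ?_
  rw [star_smul, smul_mul_smul_comm, smul_smul, smul_smul]
  congr 1
  have hd := det_mul_star (U2_mul_ct g)
  rw [Fqr]
  generalize (g : Matrix (Fin 2) (Fin 2) ℂ).det = D at hd ⊢
  generalize D2 Q (g : Matrix (Fin 2) (Fin 2) ℂ) q (p0 hQ) = a
  generalize D2 Q (g : Matrix (Fin 2) (Fin 2) ℂ) r (p0 hQ) = b
  have e1 : star (((Geo927.nz t Q g : ℝ) : ℂ) ^ 2 * star D) = ((Geo927.nz t Q g : ℝ) : ℂ) ^ 2 * D := by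
    rw [star_mul', star_pow, star_star, Complex.star_def, Complex.conj_ofReal]
  have e2 : star (star a * ((rho t Q ((q : ℕ) + 1) : ℝ) : ℂ)) =
      a * ((rho t Q ((q : ℕ) + 1) : ℝ) : ℂ) := by
    rw [star_mul', star_star, Complex.star_def, Complex.conj_ofReal]
  rw [e1, e2]
  push_cast
  linear_combination (((Geo927.nz t Q g : ℝ) : ℂ) ^ 4 * a * star b *
    ((rho t Q ((q : ℕ) + 1) : ℝ) : ℂ) * ((rho t Q ((r : ℕ) + 1) : ℝ) : ℂ)) * hd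

theorem tz_mul_00 (z : Circle) (g : U2) :
    ((tz z * g : U2) : Matrix (Fin 2) (Fin 2) ℂ) 0 0 = (g : Matrix (Fin 2) (Fin 2) ℂ) 0 0 := by
  rw [Avg814.coe_mul', coe_tz, Matrix.diagonal_mul]
  simp

theorem nz_tz_mul (t : Fin 3 → ℝ) (Q : ℕ) (z : Circle) (g : U2) :
    Geo927.nz t Q ((tz z * g : U2) : Matrix (Fin 2) (Fin 2) ℂ) = Geo927.nz t Q g := by
  unfold Geo927.nz
  rw [tz_mul_00]

theorem D2_tz_mul {Q : ℕ} (z : Circle) (g : U2) (q r : Fin (2 * Q - 1)) :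
    D2 Q ((tz z * g : U2) : Matrix (Fin 2) (Fin 2) ℂ) q r =
      (z : ℂ) ^ (q : ℕ) * D2 Q (g : Matrix (Fin 2) (Fin 2) ℂ) q r := by
  rw [Avg814.coe_mul', D2_mul, coe_tz, D2_diagonal, Matrix.diagonal_mul]
  simp

theorem integral_Fqr_ne (t : Fin 3 → ℝ) {Q : ℕ} (hQ : 1 ≤ Q) {q r : Fin (2 * Q - 1)} (h : q ≠ r) :
    ∫ g, Fqr t hQ q r g ∂(nuQ Q) = 0 := by
  obtain ⟨z, hz⟩ := exists_circle (m := (q : ℕ)) (n := (r : ℕ)) (fun e => h (Fin.ext e))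
  rw [integral_nuQ]
  have h1 : ∫ g, Fqr t hQ q r g ∂hm =
      ((z : ℂ) ^ (q : ℕ) * star (z : ℂ) ^ (r : ℕ)) * ∫ g, Fqr t hQ q r g ∂hm := by
    conv_lhs => rw [← Crest.Agent.R124.Haar.integral_mul_left' _ (tz z)]
    rw [← integral_const_mul]
    refine integral_congr_ae (Filter.Eventually.of_forall fun g => ?_)
    change Fqr t hQ q r (tz z * g) = _
    unfold Fqr
    rw [nz_tz_mul, D2_tz_mul, D2_tz_mul, star_mul', star_pow]
    ring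
  have h2 : ((z : ℂ) ^ (q : ℕ) * star (z : ℂ) ^ (r : ℕ) - 1) * ∫ g, Fqr t hQ q r g ∂hm = 0 := by
    rw [sub_mul, one_mul, ← h1, sub_self]
  rcases mul_eq_zero.1 h2 with h3 | h3
  · exact absurd (sub_eq_zero.1 h3) hz
  · rw [h3, smul_zero]

/-- radial average -/
noncomputable def EE (t : Fin 3 → ℝ) (Q p : ℕ) : ℝ :=
  ∫ g : U2, Geo927.nz t Q g ^ 4 *
    PD757.bw (2 * Q - 2) (2 * Q - 1 - p) (‖(g : Matrix (Fin 2) (Fin 2) ℂ) 0 0‖ ^ 2) ∂(nuQ Q)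

theorem norm_D2_sq {Q : ℕ} (hQ : 1 ≤ Q) (q : Fin (2 * Q - 1)) (g : U2) :
    ‖D2 Q (g : Matrix (Fin 2) (Fin 2) ℂ) q (p0 hQ)‖ ^ 2 =
      PD757.bw (2 * Q - 2) (2 * Q - 1 - ((q : ℕ) + 1)) (‖(g : Matrix (Fin 2) (Fin 2) ℂ) 0 0‖ ^ 2) := by
  have h1 : D2 Q (g : Matrix (Fin 2) (Fin 2) ℂ) q (p0 hQ) =
      sp (2 * Q - 2) (g : Matrix (Fin 2) (Fin 2) ℂ) (cst q) 0 := rfl
  have hc := ent_col0 (U2_ct_mul g)
  have h2 : 1 - ‖(g : Matrix (Fin 2) (Fin 2) ℂ) 0 0‖ ^ 2 = ‖(g : Matrix (Fin 2) (Fin 2) ℂ) 1 0‖ ^ 2 := by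
    linarith
  have hq := q.2
  have h3 : 2 * Q - 1 - ((q : ℕ) + 1) = 2 * Q - 2 - (q : ℕ) := by omega
  have h4 : 2 * Q - 2 - (2 * Q - 2 - (q : ℕ)) = (q : ℕ) := by omega
  rw [h1, sp_j_zero, PD757.bw, h2, h3, h4, Nat.choose_symm (by omega)]
  simp only [norm_mul, norm_pow, norm_sb, mul_pow, sb_sq, coe_cst]
  ring

theorem integral_Fqr_eq (t : Fin 3 → ℝ) {Q : ℕ} (hQ : 1 ≤ Q) (q : Fin (2 * Q - 1)) :
    ∫ g, Fqr t hQ q q g ∂(nuQ Q) = ((EE t Q ((q : ℕ) + 1) : ℝ) : ℂ) := by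
  have h1 : ∀ g : U2, Fqr t hQ q q g = ((Geo927.nz t Q g ^ 4 *
      PD757.bw (2 * Q - 2) (2 * Q - 1 - ((q : ℕ) + 1))
        (‖(g : Matrix (Fin 2) (Fin 2) ℂ) 0 0‖ ^ 2) : ℝ) : ℂ) := by
    intro g
    rw [← norm_D2_sq hQ, Fqr, Complex.star_def, Complex.mul_conj, Complex.normSq_eq_norm_sq]
    push_cast
    ring
  simp only [h1]
  exact integral_ofReal

/-- the weights -/
noncomputable def hh (t : Fin 3 → ℝ) (Q p : ℕ) : ℝ := rho t Q p ^ 2 * EE t Q p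

theorem Bg_zero_ring (ν : ℕ → ℝ) (Q : ℕ) : Geo986.Bg ν Q 0 = 0 := by
  have : pairs Q 0 = ∅ := by
    refine Finset.eq_empty_of_forall_notMem fun x hx => ?_
    obtain ⟨h1, h2⟩ := mem_pairs.mp hx
    have h3 : (x.1 : ℕ) < x.2 := h1
    omega
  rw [Bg_eq_smul_bz, Geo986.bz_eq_zero_of_empty this, smul_zero]

/-- **`HT` is a weighted sum of the ring terms of the metric `nuT t Q`.** -/
theorem HT_eq_sum {Q : ℕ} (hQ : 1 ≤ Q) (t : Fin 3 → ℝ) :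
    HT t Q = ∑ p ∈ Finset.range (2 * Q), ((hh t Q p : ℝ) : ℂ) •
      (star (Geo986.Bg (nuT t Q) Q p) * Geo986.Bg (nuT t Q) Q p) := by
  have hi : ∀ (q r : Fin (2 * Q - 1)) (A : Op (Fin (Q + 1))),
      Integrable (fun g => (Fqr t hQ q r g) • A) (nuQ Q) := fun q r A =>
    integrable_nuQ Q ((continuous_Fqr t hQ q r).smul continuous_const)
  rw [HT_eq]
  simp only [star_bT_mul_bT hQ t]
  rw [integral_finsetSum _ fun q _ => integrable_finsetSum _ fun r _ => hi q r _]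
  have h1 : ∀ q : Fin (2 * Q - 1), ∫ g, ∑ r : Fin (2 * Q - 1), (Fqr t hQ q r g) •
      (((rho t Q ((q : ℕ) + 1) * rho t Q ((r : ℕ) + 1) : ℝ) : ℂ) •
        (star (Geo986.Bg (nuT t Q) Q ((q : ℕ) + 1)) * Geo986.Bg (nuT t Q) Q ((r : ℕ) + 1)))
        ∂(nuQ Q) = ((hh t Q ((q : ℕ) + 1) : ℝ) : ℂ) •
      (star (Geo986.Bg (nuT t Q) Q ((q : ℕ) + 1)) * Geo986.Bg (nuT t Q) Q ((q : ℕ) + 1)) := by
    intro q
    rw [integral_finsetSum _ fun r _ => hi q r _, Finset.sum_eq_single q]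
    · rw [integral_smul_const, integral_Fqr_eq, smul_smul, ← Complex.ofReal_mul, hh]
      congr 2
      ring
    · intro r _ hr
      rw [integral_smul_const, integral_Fqr_ne t hQ hr.symm, zero_smul]
    · intro h; exact absurd (Finset.mem_univ _) h
  rw [Finset.sum_congr rfl fun q _ => h1 q]
  have h2 : 2 * Q = (2 * Q - 1) + 1 := by omega
  rw [h2, Finset.sum_range_succ', Bg_zero_ring, mul_zero, smul_zero, add_zero,
    Finset.sum_range]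
  rfl

end Crest.Agent.R340.LocT163
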