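import Crest.Agent.R340.LocT6_163

/-!
# R340 (helper163), O2 part 7: the weights `hh t Q p` are bounded above and below
-/

set_option autoImplicit false
set_option linter.unusedSectionVars false

open MeasureTheory
open scoped ENNReal Matrix

namespace Crest.Agent.R340.LocT163

open Crest.Agent.R340.Fock649 Crest.Agent.R340.LR667 Crest.Agent.R340.CS809
open Crest.Agent.R340.Avg814 Crest.Agent.R340.Rot303
open Crest.Agent.R340.Geo986 (nu0 nuT pairs bz bcoef res PosM Zs mem_pairs)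
open Crest.Agent.R340.PV341 (Adm G Gf half nrm aa xx beta dd)

/-! ### the radial average -/

theorem bw_compl {Q j : ℕ} (hj : j ≤ Q) (t : ℝ) : PD757.bw Q j (1 - t) = PD757.bw Q (Q - j) t := by
  unfold PD757.bw
  rw [Nat.choose_symm hj, sub_sub_cancel, Nat.sub_sub_self hj]
  ring

theorem tau_compl {Z : Type*} [MeasurableSpace Z] {μ : Measure Z} {τ : Z → ℝ} (h : PD757.Tau μ τ) :
    PD757.Tau μ (fun z => 1 - τ z) where
  fin := h.fin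
  meas := measurable_const.sub h.meas
  nonneg z := by have := h.le_one z; linarith
  le_one z := by have := h.nonneg z; linarith
  mom Q j hj := by
    simp only [bw_compl hj]
    exact h.mom Q (Q - j) (Nat.sub_le _ _)

/-- `|g₀₀|²` -/
noncomputable def t0 (g : U2) : ℝ := ‖(g : Matrix (Fin 2) (Fin 2) ℂ) 0 0‖ ^ 2

theorem tau_t0 : PD757.Tau hm t0 := by
  have h := tau_compl (tau_tw 1)
  have e : (fun z : U2 => 1 - tw 1 z) = t0 := by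
    funext z
    rw [tw, ov, t0, sub_sub_cancel]
    simp
  rwa [e] at h

section moments

variable {n j Q : ℕ}

theorem one_add_le (hnQ : (Q : ℝ) ≤ n + 1) {τ : ℝ} (h0 : 0 ≤ τ) (h1 : τ ≤ 1) :
    1 + Q * τ ≤ 2 * (1 + n * τ) := by
  have : (Q : ℝ) * τ ≤ (n + 1) * τ := mul_le_mul_of_nonneg_right hnQ h0
  nlinarith [mul_nonneg (Nat.cast_nonneg (α := ℝ) n) h0]

theorem le_two_one_add (hnQ : (n : ℝ) ≤ 2 * Q) {τ : ℝ} (h0 : 0 ≤ τ) :
    1 + n * τ ≤ 2 * (1 + Q * τ) := by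
  have : (n : ℝ) * τ ≤ (2 * Q) * τ := mul_le_mul_of_nonneg_right hnQ h0
  linarith

/-- pointwise upper bound for powers -/
theorem rpow_le_one_add {y s : ℝ} (hy : 0 < y) (hs0 : 0 ≤ s) (hs : s ≤ 6) : y ^ s ≤ 1 + y ^ 6 := by
  rcases le_or_gt y 1 with h | h
  · have := Real.rpow_le_one hy.le h hs0
    have : 0 ≤ y ^ 6 := by positivity
    linarith
  · have h1 : y ^ s ≤ y ^ (6 : ℝ) := Real.rpow_le_rpow_of_exponent_le h.le hs
    have h2 : y ^ (6 : ℝ) = y ^ 6 := by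
      rw [show (6 : ℝ) = ((6 : ℕ) : ℝ) by norm_num, Real.rpow_natCast]
    rw [h2] at h1
    linarith

/-- pointwise lower bound for powers -/
theorem le_rpow {y s M : ℝ} (hy : 0 < y) (hs0 : 0 ≤ s) (hs : s ≤ 6) (hM : 1 ≤ M) :
    (M ^ 6)⁻¹ * (1 - (M * y)⁻¹) ≤ y ^ s := by
  have hM0 : 0 < M := by linarith
  rcases le_or_gt (M * y) 1 with h | h
  · have h1 : 1 ≤ (M * y)⁻¹ := one_le_inv₀ (by positivity) |>.2 h
    have h2 : (M ^ 6)⁻¹ * (1 - (M * y)⁻¹) ≤ 0 :=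
      mul_nonpos_of_nonneg_of_nonpos (by positivity) (by linarith)
    exact h2.trans (Real.rpow_nonneg hy.le s)
  · have h1 : (M ^ 6)⁻¹ * (1 - (M * y)⁻¹) ≤ (M ^ 6)⁻¹ := by
      have : 0 ≤ (M * y)⁻¹ := by positivity
      have h3 : 0 ≤ (M ^ 6)⁻¹ := by positivity
      nlinarith
    refine h1.trans ?_
    have h2 : M⁻¹ ≤ y := by
      rw [inv_le_iff_one_le_mul₀ hM0, mul_comm]; exact h.le
    have h3 : (M⁻¹) ^ s ≤ y ^ s := Real.rpow_le_rpow (by positivity) h2 hs0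
    refine le_trans ?_ h3
    have h4 : (M⁻¹) ^ (6 : ℝ) ≤ (M⁻¹) ^ s :=
      Real.rpow_le_rpow_of_exponent_ge (by positivity) (inv_le_one_of_one_le₀ hM) hs
    have h5 : (M⁻¹) ^ (6 : ℝ) = (M ^ 6)⁻¹ := by
      rw [show (6 : ℝ) = ((6 : ℕ) : ℝ) by norm_num, Real.rpow_natCast, inv_pow]
    rwa [h5] at h4

end moments

/-- the exponent -/
noncomputable def sE (t : Fin 3 → ℝ) : ℝ := 4 * ∑ k, t k

theorem sE_nonneg {t : Fin 3 → ℝ} (ht : Adm t) : 0 ≤ sE t := by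
  unfold sE
  have : 0 ≤ ∑ k, t k := Finset.sum_nonneg fun k _ => (ht k).1
  linarith

theorem sE_le {t : Fin 3 → ℝ} (ht : Adm t) : sE t ≤ 6 := by
  unfold sE
  rw [Fin.sum_univ_three]
  have h0 := (ht 0).2
  have h1 := (ht 1).2
  have h2 := (ht 2).2
  linarith

theorem nz_pow_four (t : Fin 3 → ℝ) (Q : ℕ) (g : U2) :
    Geo927.nz t Q g ^ 4 = (1 + Q * t0 g) ^ sE t := by
  have hb : (0 : ℝ) ≤ 1 + Q * t0 g := by unfold t0; positivity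
  unfold Geo927.nz sE
  change ((1 + Q * t0 g) ^ (∑ k, t k)) ^ 4 = _
  rw [← Real.rpow_natCast, ← Real.rpow_mul hb]
  congr 1
  push_cast
  ring

theorem EE_eq (t : Fin 3 → ℝ) (Q p : ℕ) : EE t Q p = ((2 * Q - 1 : ℕ) : ℝ) *
    ∫ g : U2, (1 + Q * t0 g) ^ sE t * PD757.bw (2 * Q - 2) (2 * Q - 1 - p) (t0 g) ∂hm := by
  rw [EE, integral_nuQ, smul_eq_mul]
  simp only [nz_pow_four]
  rfl

theorem contOn_rpow (Q : ℕ) (s : ℝ) : ContinuousOn (fun t : ℝ => (1 + (Q : ℝ) * t) ^ s)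
    (Set.Icc 0 1) := by
  apply ContinuousOn.rpow_const (by fun_prop)
  intro t ht
  left
  have : 0 ≤ (Q : ℝ) * t := mul_nonneg (Nat.cast_nonneg _) ht.1
  positivity

theorem EE_upper {t : Fin 3 → ℝ} (ht : Adm t) {Q p : ℕ} (hp : 1 ≤ p) (hp2 : p ≤ 2 * Q - 1) :
    EE t Q p ≤ (1 + 2 ^ 48) * ((2 * Q - p : ℕ) : ℝ) ^ sE t := by
  have hQ : 1 ≤ Q := by omega
  obtain ⟨n, hn⟩ : ∃ n, n = 2 * Q - 2 := ⟨_, rfl⟩
  obtain ⟨j, hj⟩ : ∃ j, j = 2 * Q - 1 - p := ⟨_, rfl⟩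
  have hjn : j ≤ n := by omega
  have hα : ((2 * Q - p : ℕ) : ℝ) = 1 + j := by
    have : 2 * Q - p = 1 + j := by omega
    rw [this]; push_cast; rfl
  have hn1 : ((2 * Q - 1 : ℕ) : ℝ) = n + 1 := by
    have : 2 * Q - 1 = n + 1 := by omega
    rw [this]; push_cast; rfl
  have hQn : (Q : ℝ) ≤ n + 1 := by
    have : Q ≤ n + 1 := by omega
    exact_mod_cast this
  rw [EE_eq, ← hn, ← hj, hα, hn1]
  set s := sE t with hs
  have hs0 := sE_nonneg ht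
  have hs6 := sE_le ht
  rw [← hs] at hs0 hs6
  set α : ℝ := 1 + j with hαd
  have hα0 : 0 < α := by positivity
  have hτ := tau_t0
  have hK := hτ.K3up 6 hjn
  have hmom := hτ.mom n j hjn
  unfold PD757.Tau.bp at hK
  have hpt : ∀ g : U2, (1 + Q * t0 g) ^ s * PD757.bw n j (t0 g) ≤
      α ^ s * PD757.bw n j (t0 g) + (α ^ s * (64 * (α ^ 6)⁻¹)) *
        (PD757.bw n j (t0 g) * (1 + (n : ℝ) * t0 g) ^ 6) := by
    intro g
    have h0 := hτ.nonneg g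
    have h1 := hτ.le_one g
    have hb := PD757.bw_nonneg n j h0 h1
    have hy0 : 0 < (1 + Q * t0 g) / α := by positivity
    have h2 := rpow_le_one_add hy0 hs0 hs6
    have h3 : ((1 + Q * t0 g) / α) ^ s = (1 + Q * t0 g) ^ s / α ^ s :=
      Real.div_rpow (by positivity) hα0.le s
    have hαs : 0 < α ^ s := Real.rpow_pos_of_pos hα0 s
    rw [h3, div_le_iff₀ hαs] at h2
    have h4 : ((1 + Q * t0 g) / α) ^ 6 ≤ 64 * (α ^ 6)⁻¹ * (1 + (n : ℝ) * t0 g) ^ 6 := by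
      rw [div_pow, div_eq_mul_inv]
      have h5 : (1 + (Q : ℝ) * t0 g) ^ 6 ≤ (2 * (1 + (n : ℝ) * t0 g)) ^ 6 := by
        have := one_add_le hQn h0 h1
        gcongr
      have h6 : (2 * (1 + (n : ℝ) * t0 g)) ^ 6 = 64 * (1 + (n : ℝ) * t0 g) ^ 6 := by
        rw [mul_pow]; norm_num
      rw [h6] at h5
      calc (1 + (Q : ℝ) * t0 g) ^ 6 * (α ^ 6)⁻¹ ≤ 64 * (1 + (n : ℝ) * t0 g) ^ 6 * (α ^ 6)⁻¹ := by
            gcongr
        _ = _ := by ring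
    calc (1 + Q * t0 g) ^ s * PD757.bw n j (t0 g)
        ≤ ((1 + ((1 + Q * t0 g) / α) ^ 6) * α ^ s) * PD757.bw n j (t0 g) :=
          mul_le_mul_of_nonneg_right h2 hb
      _ ≤ ((1 + 64 * (α ^ 6)⁻¹ * (1 + (n : ℝ) * t0 g) ^ 6) * α ^ s) * PD757.bw n j (t0 g) := by
          gcongr
      _ = _ := by ring
  have i1 : Integrable (fun g => (1 + Q * t0 g) ^ s * PD757.bw n j (t0 g)) hm :=
    hτ.intble (f := fun t => (1 + (Q : ℝ) * t) ^ s * PD757.bw n j t)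
      ((contOn_rpow Q s).mul (PD757.continuous_bw n j).continuousOn)
  have i2 : Integrable (fun g => PD757.bw n j (t0 g)) hm := hτ.intble_bw n j
  have i3 := hτ.bp_intble 6 n j
  have h7 : ∫ g, (1 + Q * t0 g) ^ s * PD757.bw n j (t0 g) ∂hm ≤
      ∫ g, (α ^ s * PD757.bw n j (t0 g) + (α ^ s * (64 * (α ^ 6)⁻¹)) *
        (PD757.bw n j (t0 g) * (1 + (n : ℝ) * t0 g) ^ 6)) ∂hm :=
    integral_mono i1 ((i2.const_mul _).add (i3.const_mul _)) hpt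
  rw [integral_add (i2.const_mul _) (i3.const_mul _), integral_const_mul, integral_const_mul,
    hmom] at h7
  generalize (∫ g, (1 + Q * t0 g) ^ s * PD757.bw n j (t0 g) ∂hm) = I1 at h7 ⊢
  generalize (∫ g, PD757.bw n j (t0 g) * (1 + (n : ℝ) * t0 g) ^ 6 ∂hm) = I2 at h7 hK
  have hn0 : (0 : ℝ) < (n : ℝ) + 1 := by positivity
  have hαs : 0 < α ^ s := Real.rpow_pos_of_pos hα0 s
  calc ((n : ℝ) + 1) * I1 ≤ ((n : ℝ) + 1) * (α ^ s * (1 / ((n : ℝ) + 1)) +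
        α ^ s * (64 * (α ^ 6)⁻¹) * I2) := by gcongr
    _ = α ^ s + α ^ s * (64 * (α ^ 6)⁻¹) * (((n : ℝ) + 1) * I2) := by
        field_simp
    _ ≤ α ^ s + α ^ s * (64 * (α ^ 6)⁻¹) * (2 ^ (6 * (6 + 1)) * α ^ 6) := by gcongr
    _ = (1 + 2 ^ 48) * α ^ s := by
        have : α ^ 6 ≠ 0 := by positivity
        field_simp
        norm_num

theorem EE_lower {t : Fin 3 → ℝ} (ht : Adm t) {Q p : ℕ} (hp : 1 ≤ p) (hp2 : p ≤ 2 * Q - 1) :
    (2 ^ 37)⁻¹ * ((2 * Q - p : ℕ) : ℝ) ^ sE t ≤ EE t Q p := by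
  have hQ : 1 ≤ Q := by omega
  obtain ⟨n, hn⟩ : ∃ n, n = 2 * Q - 2 := ⟨_, rfl⟩
  obtain ⟨j, hj⟩ : ∃ j, j = 2 * Q - 1 - p := ⟨_, rfl⟩
  have hjn : j ≤ n := by omega
  have hα : ((2 * Q - p : ℕ) : ℝ) = 1 + j := by
    have : 2 * Q - p = 1 + j := by omega
    rw [this]; push_cast; rfl
  have hn1 : ((2 * Q - 1 : ℕ) : ℝ) = n + 1 := by
    have : 2 * Q - 1 = n + 1 := by omega
    rw [this]; push_cast; rfl
  have hnQ : (n : ℝ) ≤ 2 * Q := by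
    have : n ≤ 2 * Q := by omega
    exact_mod_cast this
  rw [EE_eq, ← hn, ← hj, hα, hn1]
  set s := sE t with hs
  have hs0 := sE_nonneg ht
  have hs6 := sE_le ht
  rw [← hs] at hs0 hs6
  set α : ℝ := 1 + j with hαd
  have hα0 : 0 < α := by positivity
  have hαs : 0 < α ^ s := Real.rpow_pos_of_pos hα0 s
  have hτ := tau_t0
  have hK := hτ.K3 1 hjn
  have hmom := hτ.mom n j hjn
  unfold PD757.Tau.bm at hK
  have hpt : ∀ g : U2, ((64 : ℝ) ^ 6)⁻¹ * α ^ s * PD757.bw n j (t0 g) -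
      (((64 : ℝ) ^ 6)⁻¹ * α ^ s * (32⁻¹ * α)) * (PD757.bw n j (t0 g) *
        ((1 + (n : ℝ) * t0 g) ^ 1)⁻¹) ≤ (1 + Q * t0 g) ^ s * PD757.bw n j (t0 g) := by
    intro g
    have h0 := hτ.nonneg g
    have h1 := hτ.le_one g
    have hb := PD757.bw_nonneg n j h0 h1
    have hy0 : 0 < (1 + Q * t0 g) / α := by positivity
    have h2 := le_rpow (M := 64) hy0 hs0 hs6 (by norm_num)
    have h3 : ((1 + Q * t0 g) / α) ^ s = (1 + Q * t0 g) ^ s / α ^ s :=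
      Real.div_rpow (by positivity) hα0.le s
    rw [h3, le_div_iff₀ hαs] at h2
    have h4 : (64 * ((1 + Q * t0 g) / α))⁻¹ ≤ 32⁻¹ * α * ((1 + (n : ℝ) * t0 g) ^ 1)⁻¹ := by
      have h5 := le_two_one_add hnQ h0
      have h6 : 0 < 1 + (Q : ℝ) * t0 g := by positivity
      have h7 : 0 < 1 + (n : ℝ) * t0 g := by positivity
      rw [pow_one]
      calc (64 * ((1 + (Q : ℝ) * t0 g) / α))⁻¹ = 32⁻¹ * α * (2 * (1 + (Q : ℝ) * t0 g))⁻¹ := by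
            field_simp
            norm_num
        _ ≤ 32⁻¹ * α * (1 + (n : ℝ) * t0 g)⁻¹ := by gcongr
    calc ((64 : ℝ) ^ 6)⁻¹ * α ^ s * PD757.bw n j (t0 g) -
        (((64 : ℝ) ^ 6)⁻¹ * α ^ s * (32⁻¹ * α)) * (PD757.bw n j (t0 g) *
        ((1 + (n : ℝ) * t0 g) ^ 1)⁻¹)
        = ((64 : ℝ) ^ 6)⁻¹ * (1 - 32⁻¹ * α * ((1 + (n : ℝ) * t0 g) ^ 1)⁻¹) * α ^ s *
          PD757.bw n j (t0 g) := by ring
      _ ≤ ((64 : ℝ) ^ 6)⁻¹ * (1 - (64 * ((1 + Q * t0 g) / α))⁻¹) * α ^ s *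
          PD757.bw n j (t0 g) := by gcongr
      _ ≤ (1 + Q * t0 g) ^ s * PD757.bw n j (t0 g) := mul_le_mul_of_nonneg_right h2 hb
  have i1 : Integrable (fun g => (1 + Q * t0 g) ^ s * PD757.bw n j (t0 g)) hm :=
    hτ.intble (f := fun t => (1 + (Q : ℝ) * t) ^ s * PD757.bw n j t)
      ((contOn_rpow Q s).mul (PD757.continuous_bw n j).continuousOn)
  have i2 : Integrable (fun g => PD757.bw n j (t0 g)) hm := hτ.intble_bw n j
  have i3 := hτ.bm_intble 1 n j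
  have h7 : ∫ g, (((64 : ℝ) ^ 6)⁻¹ * α ^ s * PD757.bw n j (t0 g) -
      (((64 : ℝ) ^ 6)⁻¹ * α ^ s * (32⁻¹ * α)) * (PD757.bw n j (t0 g) *
        ((1 + (n : ℝ) * t0 g) ^ 1)⁻¹)) ∂hm ≤
      ∫ g, (1 + Q * t0 g) ^ s * PD757.bw n j (t0 g) ∂hm :=
    integral_mono ((i2.const_mul _).sub (i3.const_mul _)) i1 hpt
  rw [integral_sub (i2.const_mul _) (i3.const_mul _), integral_const_mul, integral_const_mul,
    hmom] at h7
  generalize (∫ g, (1 + Q * t0 g) ^ s * PD757.bw n j (t0 g) ∂hm) = I1 at h7 ⊢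
  generalize (∫ g, PD757.bw n j (t0 g) * ((1 + (n : ℝ) * t0 g) ^ 1)⁻¹ ∂hm) = I2 at h7 hK
  have hn0 : (0 : ℝ) < (n : ℝ) + 1 := by positivity
  calc (2 ^ 37)⁻¹ * α ^ s = ((64 : ℝ) ^ 6)⁻¹ * α ^ s -
        ((64 : ℝ) ^ 6)⁻¹ * α ^ s * (32⁻¹ * α) * (2 ^ (1 * (1 + 3)) / α ^ 1) := by
        field_simp
        norm_num
    _ ≤ ((64 : ℝ) ^ 6)⁻¹ * α ^ s -
        ((64 : ℝ) ^ 6)⁻¹ * α ^ s * (32⁻¹ * α) * (((n : ℝ) + 1) * I2) := by
        gcongr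
    _ = ((n : ℝ) + 1) * (((64 : ℝ) ^ 6)⁻¹ * α ^ s * (1 / ((n : ℝ) + 1)) -
        ((64 : ℝ) ^ 6)⁻¹ * α ^ s * (32⁻¹ * α) * I2) := by
        field_simp
    _ ≤ ((n : ℝ) + 1) * I1 := by gcongr

end Crest.Agent.R340.LocT163
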