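import Crest.Agent.R340.LocT7_163

/-!
# R340 (helper163), O2 part 8: `hh_bounds : 0 < c ≤ hh t Q p ≤ C`
-/

set_option autoImplicit false
set_option linter.unusedSectionVars false

open MeasureTheory
open scoped ENNReal Matrix

namespace Crest.Agent.R340.LocT163

open Crest.Agent.R340.Fock649 Crest.Agent.R340.LR667 Crest.Agent.R340.CS809
open Crest.Agent.R340.Avg814 Crest.Agent.R340.Rot303
open Crest.Agent.R340.Geo986 (nu0 nuT pairs bz bcoef res PosM Zs mem_pairs)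
open Crest.Agent.R340.PV341 (Adm G Gf half nrm aa xx beta dd mem_half)

theorem bcoef_nuT (t : Fin 3 → ℝ) (Q i j : ℕ) :
    bcoef (nuT t Q) i j = bcoef (nu0 Q) i j * (G t (Q - i) * G t (Q - j)) := by
  have h1 := (PV341.G_pos t (Q - i)).ne'
  have h2 := (PV341.G_pos t (Q - j)).ne'
  unfold bcoef nuT
  simp only [Pi.mul_apply, Pi.inv_apply]
  rw [div_mul_eq_mul_div, mul_mul_mul_comm, ← mul_inv, ← div_div, div_inv_eq_mul,
    div_mul_eq_mul_div]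

theorem nz_nuT (t : Fin 3 → ℝ) (Q p : ℕ) : Geo986.nz (nuT t Q) Q p =
    ∑ i ∈ half Q p, aa Q p i * xx p i ^ 2 * (G t (Q - i) * G t (Q - (p - i))) ^ 2 := by
  unfold Geo986.nz
  rw [Geo986.sum_pairs Q p (fun i j => bcoef (nuT t Q) i j ^ 2)]
  refine Finset.sum_congr rfl fun i hi => ?_
  rw [bcoef_nuT, Geo986.bcoef_nu0 hi, mul_pow, mul_pow, sq_abs,
    Real.sq_sqrt (PV341.aa_nonneg _ _ _)]
  ring

theorem Gf_zero (t : Fin 3 → ℝ) (i : ℕ) : Gf t 0 i = G t i := by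
  unfold Gf
  rw [if_pos (Nat.zero_le i)]

/-- the reference scalar -/
noncomputable def SS0 (t : Fin 3 → ℝ) (P : ℕ) : ℝ := G t (P / 2) * G t (P - P / 2)

theorem SS0_eq (t : Fin 3 → ℝ) (P : ℕ) : PV341.sp t 0 P = SS0 t P := by
  rw [PV341.sp, Gf_zero, Gf_zero, SS0]

theorem SS0_pos (t : Fin 3 → ℝ) (P : ℕ) : 0 < SS0 t P := mul_pos (PV341.G_pos _ _) (PV341.G_pos _ _)

theorem half_nonempty {Q p : ℕ} (hp : 1 ≤ p) (hp2 : p ≤ 2 * Q - 1) : (half Q p).Nonempty := by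
  rcases le_or_gt p Q with h | h
  · exact ⟨0, mem_half.2 ⟨by omega, by omega⟩⟩
  · exact ⟨p - Q, mem_half.2 ⟨by omega, by omega⟩⟩

theorem nrm_pos' {Q p : ℕ} (hp : 1 ≤ p) (hp2 : p ≤ 2 * Q - 1) : 0 < nrm Q p := by
  obtain ⟨i, hi⟩ := half_nonempty hp hp2
  exact PV341.nrm_pos hi

theorem ratio_ge {t : Fin 3 → ℝ} (ht : Adm t) {r s : ℕ} (hrs : r ≤ s) :
    SS0 t (r + s) ≤ G t r * G t s := by
  have h1 := PV341.ratio_eq t 0 r s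
  have h2 := (PV341.ratio_exp ht 0 r s hrs).1
  rw [Gf_zero, Gf_zero, SS0_eq] at h1
  have h3 : 1 ≤ G t r * G t s / SS0 t (r + s) := by
    rw [h1]
    simp only [Gf_zero] at h2 ⊢
    exact Real.one_le_exp h2
  rwa [le_div_iff₀ (SS0_pos t _), one_mul] at h3

theorem xx_eq {Q p i : ℕ} (hi : i ∈ half Q p) :
    (((Q - i : ℕ) : ℝ)) - ((Q - (p - i) : ℕ) : ℝ) = xx p i := by
  have h := mem_half.1 hi
  have h1 : i ≤ Q := by omega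
  have h2 : i ≤ p := by omega
  rw [Nat.cast_sub h1, Nat.cast_sub h.2, Nat.cast_sub h2, xx]
  ring

theorem rho_sq {t : Fin 3 → ℝ} {Q p : ℕ} : rho t Q p ^ 2 =
    Geo986.nz (nuT t Q) Q p / nrm Q p := by
  rw [rho, div_pow, Real.sq_sqrt (Geo986.nz_nonneg _ _ _), Real.sq_sqrt (Geo986.nz_nonneg _ _ _),
    Geo986.nz_nu0]

theorem le_rho_sq {t : Fin 3 → ℝ} (ht : Adm t) {Q p : ℕ} (hp : 1 ≤ p) (hp2 : p ≤ 2 * Q - 1) :
    SS0 t (2 * Q - p) ^ 2 ≤ rho t Q p ^ 2 := by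
  rw [rho_sq, le_div_iff₀ (nrm_pos' hp hp2), nz_nuT, nrm, Finset.mul_sum]
  refine Finset.sum_le_sum fun i hi => ?_
  have h := mem_half.1 hi
  have e : Q - (p - i) + (Q - i) = 2 * Q - p := by omega
  have h1 := ratio_ge ht (r := Q - (p - i)) (s := Q - i) (by omega)
  rw [e, mul_comm (G t (Q - (p - i)))] at h1
  have h2 := SS0_pos t (2 * Q - p)
  have h3 : SS0 t (2 * Q - p) ^ 2 ≤ (G t (Q - i) * G t (Q - (p - i))) ^ 2 := by gcongr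
  have h4 : 0 ≤ aa Q p i * xx p i ^ 2 := mul_nonneg (PV341.aa_nonneg _ _ _) (sq_nonneg _)
  rw [mul_comm]
  exact mul_le_mul_of_nonneg_left h3 h4

theorem rho_sq_le : ∃ C : ℝ, 1 ≤ C ∧ ∀ (t : Fin 3 → ℝ), Adm t → ∀ (Q p : ℕ), 1 ≤ p →
    p ≤ 2 * Q - 1 → rho t Q p ^ 2 ≤ C * SS0 t (2 * Q - p) ^ 2 := by
  obtain ⟨C0, hC0, hr⟩ := PV341.ratio_bound
  obtain ⟨C2, hC2, h2⟩ := PV341.beta_mom 2
  obtain ⟨C8, hC8, h8⟩ := PV341.beta_mom 8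
  have hc2 := mul_nonneg (sq_nonneg C0) hC2
  have hc8 := mul_nonneg (sq_nonneg C0) hC8
  refine ⟨3 * (1 + C0 ^ 2 * C2 + C0 ^ 2 * C8), by linarith, ?_⟩
  intro t ht Q p hp hp2
  have hn := nrm_pos' hp hp2
  have hP1 : 1 ≤ 2 * Q - p := by omega
  have hP1' : (1 : ℝ) ≤ ((2 * Q - p : ℕ) : ℝ) := by exact_mod_cast hP1
  set P : ℝ := ((2 * Q - p : ℕ) : ℝ) with hP
  set S := SS0 t (2 * Q - p) with hS
  have hS0 : 0 < S := SS0_pos t _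
  have hdd : (dd Q p : ℝ) ≤ P := by
    rw [hP]
    have : dd Q p ≤ 2 * Q - p := min_le_right _ _
    exact_mod_cast this
  have hdd0 : (0 : ℝ) ≤ dd Q p := Nat.cast_nonneg _
  have hb2 := h2 Q p
  have hb8 := h8 Q p
  have hpt : ∀ i ∈ half Q p, aa Q p i * xx p i ^ 2 * (G t (Q - i) * G t (Q - (p - i))) ^ 2 ≤
      S ^ 2 * (3 * (aa Q p i * xx p i ^ 2) +
        nrm Q p * (3 * C0 ^ 2 / P ^ 4) * (beta Q p i ^ 2 * xx p i ^ (2 * 2)) +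
        nrm Q p * (3 * C0 ^ 2 / P ^ 10) * (beta Q p i ^ 2 * xx p i ^ (2 * 8))) := by
    intro i hi
    have h := mem_half.1 hi
    have e : Q - (p - i) + (Q - i) = 2 * Q - p := by omega
    have h1 := (hr t ht 0 (Q - (p - i)) (Q - i) (by omega) (by omega)).1
    rw [Gf_zero, Gf_zero, SS0_eq, e, xx_eq hi, ← hP, ← hS] at h1
    have h3 : G t (Q - (p - i)) * G t (Q - i) / S ≤
        1 + C0 * (xx p i ^ 2 / P ^ 2 + xx p i ^ 8 / P ^ 5) := by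
      have := le_abs_self (G t (Q - (p - i)) * G t (Q - i) / S - 1)
      linarith
    have h4 : 0 ≤ G t (Q - (p - i)) * G t (Q - i) / S :=
      div_nonneg (mul_nonneg (PV341.G_pos _ _).le (PV341.G_pos _ _).le) hS0.le
    have h5 : (G t (Q - (p - i)) * G t (Q - i) / S) ^ 2 ≤
        3 * (1 + C0 ^ 2 * (xx p i ^ 2 / P ^ 2) ^ 2 + C0 ^ 2 * (xx p i ^ 8 / P ^ 5) ^ 2) := by
      refine (pow_le_pow_left₀ h4 h3 2).trans ?_
      nlinarith [sq_nonneg (1 - C0 * (xx p i ^ 2 / P ^ 2)),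
        sq_nonneg (1 - C0 * (xx p i ^ 8 / P ^ 5)),
        sq_nonneg (C0 * (xx p i ^ 2 / P ^ 2) - C0 * (xx p i ^ 8 / P ^ 5))]
    have h6 : (G t (Q - i) * G t (Q - (p - i))) ^ 2 ≤ S ^ 2 *
        (3 * (1 + C0 ^ 2 * (xx p i ^ 2 / P ^ 2) ^ 2 + C0 ^ 2 * (xx p i ^ 8 / P ^ 5) ^ 2)) := by
      rw [div_pow, div_le_iff₀ (by positivity)] at h5
      rw [mul_comm (G t (Q - i))]
      linarith
    have h7 : 0 ≤ aa Q p i * xx p i ^ 2 := mul_nonneg (PV341.aa_nonneg _ _ _) (sq_nonneg _)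
    refine (mul_le_mul_of_nonneg_left h6 h7).trans (le_of_eq ?_)
    have hbs := PV341.beta_sq hi
    have hbs' : beta Q p i ^ 2 * nrm Q p = aa Q p i * xx p i ^ 2 := by
      rw [hbs]; field_simp
    rw [← hbs']
    field_simp
  rw [rho_sq, div_le_iff₀ hn, nz_nuT]
  calc ∑ i ∈ half Q p, aa Q p i * xx p i ^ 2 * (G t (Q - i) * G t (Q - (p - i))) ^ 2
      ≤ ∑ i ∈ half Q p, S ^ 2 * (3 * (aa Q p i * xx p i ^ 2) +
        nrm Q p * (3 * C0 ^ 2 / P ^ 4) * (beta Q p i ^ 2 * xx p i ^ (2 * 2)) +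
        nrm Q p * (3 * C0 ^ 2 / P ^ 10) * (beta Q p i ^ 2 * xx p i ^ (2 * 8))) :=
        Finset.sum_le_sum hpt
    _ = S ^ 2 * (3 * nrm Q p +
        nrm Q p * (3 * C0 ^ 2 / P ^ 4) * ∑ i ∈ half Q p, beta Q p i ^ 2 * xx p i ^ (2 * 2) +
        nrm Q p * (3 * C0 ^ 2 / P ^ 10) * ∑ i ∈ half Q p, beta Q p i ^ 2 * xx p i ^ (2 * 8)) := by
        rw [← Finset.mul_sum, Finset.sum_add_distrib, Finset.sum_add_distrib, ← Finset.mul_sum,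
          ← Finset.mul_sum, ← Finset.mul_sum, nrm]
    _ ≤ S ^ 2 * (3 * nrm Q p +
        nrm Q p * (3 * C0 ^ 2 / P ^ 4) * (C2 * P ^ 2) +
        nrm Q p * (3 * C0 ^ 2 / P ^ 10) * (C8 * P ^ 8)) := by
        have k2 : ∑ i ∈ half Q p, beta Q p i ^ 2 * xx p i ^ (2 * 2) ≤ C2 * P ^ 2 :=
          hb2.trans (by gcongr)
        have k8 : ∑ i ∈ half Q p, beta Q p i ^ 2 * xx p i ^ (2 * 8) ≤ C8 * P ^ 8 :=
          hb8.trans (by gcongr)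
        gcongr
    _ ≤ S ^ 2 * (3 * nrm Q p + nrm Q p * (3 * C0 ^ 2) * C2 + nrm Q p * (3 * C0 ^ 2) * C8) := by
        have k1 : 3 * C0 ^ 2 / P ^ 4 * (C2 * P ^ 2) ≤ 3 * C0 ^ 2 * C2 := by
          rw [div_mul_eq_mul_div, div_le_iff₀ (by positivity)]
          have : P ^ 2 ≤ P ^ 4 := pow_le_pow_right₀ hP1' (by norm_num)
          calc 3 * C0 ^ 2 * (C2 * P ^ 2) = 3 * C0 ^ 2 * C2 * P ^ 2 := by ring
            _ ≤ 3 * C0 ^ 2 * C2 * P ^ 4 := by gcongr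
        have k3 : 3 * C0 ^ 2 / P ^ 10 * (C8 * P ^ 8) ≤ 3 * C0 ^ 2 * C8 := by
          rw [div_mul_eq_mul_div, div_le_iff₀ (by positivity)]
          have : P ^ 8 ≤ P ^ 10 := pow_le_pow_right₀ hP1' (by norm_num)
          calc 3 * C0 ^ 2 * (C8 * P ^ 8) = 3 * C0 ^ 2 * C8 * P ^ 8 := by ring
            _ ≤ 3 * C0 ^ 2 * C8 * P ^ 10 := by gcongr
        have l1 := mul_le_mul_of_nonneg_left k1 hn.le
        have l3 := mul_le_mul_of_nonneg_left k3 hn.le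
        gcongr S ^ 2 * ?_
        linarith
    _ = 3 * (1 + C0 ^ 2 * C2 + C0 ^ 2 * C8) * S ^ 2 * nrm Q p := by ring

/-! ### the reference scalar -/

theorem rpow_neg_le_of_le {a b t : ℝ} (ha : 0 < a) (hab : a ≤ b) (ht : 0 ≤ t) :
    b ^ (-t) ≤ a ^ (-t) := Real.rpow_le_rpow_of_nonpos ha hab (by linarith)

theorem prod_rpow_neg (t : Fin 3 → ℝ) {a : ℝ} (ha : 0 < a) :
    ∏ k : Fin 3, a ^ (-(t k)) = a ^ (-∑ k, t k) := by
  rw [← Real.rpow_sum_of_pos ha, Finset.sum_neg_distrib]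

theorem G_le_of {t : Fin 3 → ℝ} (ht : Adm t) {i : ℕ} {a : ℝ} (ha : 0 < a)
    (h : a ≤ (i : ℝ) + 1) : G t i ≤ a ^ (-∑ k, t k) := by
  rw [← prod_rpow_neg t ha, G]
  refine Finset.prod_le_prod (fun k _ => by positivity) fun k _ => ?_
  exact rpow_neg_le_of_le ha (by have : (0 : ℝ) ≤ (k : ℕ) := Nat.cast_nonneg _; linarith) (ht k).1

theorem le_G_of {t : Fin 3 → ℝ} (ht : Adm t) {i : ℕ} {a : ℝ}
    (h : (i : ℝ) + 3 ≤ a) : a ^ (-∑ k, t k) ≤ G t i := by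
  have ha : 0 < a := by have : (0 : ℝ) ≤ i := Nat.cast_nonneg _; linarith
  rw [← prod_rpow_neg t ha, G]
  refine Finset.prod_le_prod (fun k _ => by positivity) fun k _ => ?_
  have hk : (((k : ℕ)) : ℝ) ≤ 2 := by exact_mod_cast Nat.lt_succ_iff.1 k.2
  exact rpow_neg_le_of_le (by positivity) (by linarith) (ht k).1

theorem SS0_sq_mul_le {t : Fin 3 → ℝ} (ht : Adm t) {P : ℕ} (hP : 1 ≤ P) :
    SS0 t P ^ 2 * (P : ℝ) ^ sE t ≤ 64 := by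
  have hP' : (1 : ℝ) ≤ P := by exact_mod_cast hP
  have ha : (0 : ℝ) < (P : ℝ) / 2 := by positivity
  have h1 : (P : ℝ) / 2 ≤ ((P / 2 : ℕ) : ℝ) + 1 := by
    have : P ≤ 2 * (P / 2 + 1) := by omega
    have h : (P : ℝ) ≤ 2 * (((P / 2 : ℕ) : ℝ) + 1) := by exact_mod_cast this
    linarith
  have h2 : (P : ℝ) / 2 ≤ ((P - P / 2 : ℕ) : ℝ) + 1 := by
    have : P ≤ 2 * (P - P / 2 + 1) := by omega
    have h : (P : ℝ) ≤ 2 * (((P - P / 2 : ℕ) : ℝ) + 1) := by exact_mod_cast this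
    linarith
  have g1 := G_le_of ht ha h1
  have g2 := G_le_of ht ha h2
  have k1 := (PV341.G_pos t (P / 2)).le
  have k2 := (PV341.G_pos t (P - P / 2)).le
  have hx : 0 < ((P : ℝ) / 2) ^ (-∑ k, t k) := Real.rpow_pos_of_pos ha _
  have h3 : SS0 t P ^ 2 ≤ (((P : ℝ) / 2) ^ (-∑ k, t k)) ^ 4 := by
    unfold SS0
    calc (G t (P / 2) * G t (P - P / 2)) ^ 2 ≤ (((P : ℝ) / 2) ^ (-∑ k, t k) *
          ((P : ℝ) / 2) ^ (-∑ k, t k)) ^ 2 := by gcongr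
      _ = _ := by ring
  have h4 : (((P : ℝ) / 2) ^ (-∑ k, t k)) ^ 4 = 2 ^ sE t * ((P : ℝ) ^ sE t)⁻¹ := by
    rw [← Real.rpow_natCast, ← Real.rpow_mul ha.le, Real.div_rpow (by positivity) (by norm_num)]
    have e : -(∑ k, t k) * ((4 : ℕ) : ℝ) = - sE t := by unfold sE; push_cast; ring
    rw [e, Real.rpow_neg (by positivity), Real.rpow_neg (by norm_num), div_inv_eq_mul, mul_comm]
  have hPs : 0 < (P : ℝ) ^ sE t := Real.rpow_pos_of_pos (by linarith) _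
  have h5 : (2 : ℝ) ^ sE t ≤ 64 := by
    have := Real.rpow_le_rpow_of_exponent_le (x := 2) (by norm_num) (sE_le ht)
    refine this.trans (le_of_eq ?_)
    rw [show (6 : ℝ) = ((6 : ℕ) : ℝ) by norm_num, Real.rpow_natCast]
    norm_num
  calc SS0 t P ^ 2 * (P : ℝ) ^ sE t ≤ 2 ^ sE t * ((P : ℝ) ^ sE t)⁻¹ * (P : ℝ) ^ sE t := by
        rw [← h4]; gcongr
    _ = 2 ^ sE t := by rw [mul_assoc, inv_mul_cancel₀ hPs.ne', mul_one]
    _ ≤ 64 := h5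

theorem le_SS0_sq_mul {t : Fin 3 → ℝ} (ht : Adm t) {P : ℕ} (hP : 1 ≤ P) :
    (2 ^ 12)⁻¹ ≤ SS0 t P ^ 2 * (P : ℝ) ^ sE t := by
  have hP' : (1 : ℝ) ≤ P := by exact_mod_cast hP
  have ha : (0 : ℝ) < 4 * (P : ℝ) := by positivity
  have h1 : ((P / 2 : ℕ) : ℝ) + 3 ≤ 4 * (P : ℝ) := by
    have : P / 2 + 3 ≤ 4 * P := by omega
    exact_mod_cast this
  have h2 : ((P - P / 2 : ℕ) : ℝ) + 3 ≤ 4 * (P : ℝ) := by
    have : P - P / 2 + 3 ≤ 4 * P := by omega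
    exact_mod_cast this
  have g1 := le_G_of ht h1
  have g2 := le_G_of ht h2
  have hx : 0 < (4 * (P : ℝ)) ^ (-∑ k, t k) := Real.rpow_pos_of_pos ha _
  have k1 := (PV341.G_pos t (P / 2)).le
  have h3 : ((4 * (P : ℝ)) ^ (-∑ k, t k)) ^ 4 ≤ SS0 t P ^ 2 := by
    unfold SS0
    calc ((4 * (P : ℝ)) ^ (-∑ k, t k)) ^ 4 = ((4 * (P : ℝ)) ^ (-∑ k, t k) *
          (4 * (P : ℝ)) ^ (-∑ k, t k)) ^ 2 := by ring
      _ ≤ _ := by gcongr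
  have h4 : ((4 * (P : ℝ)) ^ (-∑ k, t k)) ^ 4 = (4 ^ sE t)⁻¹ * ((P : ℝ) ^ sE t)⁻¹ := by
    rw [← Real.rpow_natCast, ← Real.rpow_mul ha.le, Real.mul_rpow (by norm_num) (by positivity)]
    have e : -(∑ k, t k) * ((4 : ℕ) : ℝ) = - sE t := by unfold sE; push_cast; ring
    rw [e, Real.rpow_neg (by norm_num), Real.rpow_neg (by positivity)]
  have hPs : 0 < (P : ℝ) ^ sE t := Real.rpow_pos_of_pos (by linarith) _
  have h5 : (4 : ℝ) ^ sE t ≤ 2 ^ 12 := by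
    have := Real.rpow_le_rpow_of_exponent_le (x := 4) (by norm_num) (sE_le ht)
    refine this.trans (le_of_eq ?_)
    rw [show (6 : ℝ) = ((6 : ℕ) : ℝ) by norm_num, Real.rpow_natCast]
    norm_num
  have h6 : 0 < (4 : ℝ) ^ sE t := Real.rpow_pos_of_pos (by norm_num) _
  calc (2 ^ 12)⁻¹ ≤ ((4 : ℝ) ^ sE t)⁻¹ := by gcongr
    _ = (4 ^ sE t)⁻¹ * ((P : ℝ) ^ sE t)⁻¹ * (P : ℝ) ^ sE t := by
        rw [mul_assoc, inv_mul_cancel₀ hPs.ne', mul_one]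
    _ ≤ SS0 t P ^ 2 * (P : ℝ) ^ sE t := by
        rw [← h4]; gcongr

/-- **uniform bounds for the weights** -/
theorem hh_bounds : ∃ c C : ℝ, 0 < c ∧ c ≤ C ∧ ∀ (t : Fin 3 → ℝ), Adm t → ∀ (Q p : ℕ), 1 ≤ p →
    p ≤ 2 * Q - 1 → c ≤ hh t Q p ∧ hh t Q p ≤ C := by
  obtain ⟨C0, hC0, hr⟩ := rho_sq_le
  refine ⟨(2 ^ 37)⁻¹ * (2 ^ 12)⁻¹, C0 * 64 * (1 + 2 ^ 48), by positivity, ?_, ?_⟩
  · norm_num
    linarith
  intro t ht Q p hp hp2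
  have hP1 : 1 ≤ 2 * Q - p := by omega
  have e1 := EE_lower ht hp hp2
  have e2 := EE_upper ht hp hp2
  have r1 := le_rho_sq ht hp hp2
  have r2 := hr t ht Q p hp hp2
  have s1 := SS0_sq_mul_le ht hP1
  have s2 := le_SS0_sq_mul ht hP1
  have hPs : 0 < ((2 * Q - p : ℕ) : ℝ) ^ sE t :=
    Real.rpow_pos_of_pos (by exact_mod_cast hP1) _
  have hE0 : 0 ≤ EE t Q p := le_trans (by positivity) e1
  unfold hh
  constructor
  · calc (2 ^ 37)⁻¹ * (2 ^ 12)⁻¹ ≤ (2 ^ 37)⁻¹ * (SS0 t (2 * Q - p) ^ 2 *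
          ((2 * Q - p : ℕ) : ℝ) ^ sE t) := by gcongr
      _ = SS0 t (2 * Q - p) ^ 2 * ((2 ^ 37)⁻¹ * ((2 * Q - p : ℕ) : ℝ) ^ sE t) := by ring
      _ ≤ rho t Q p ^ 2 * EE t Q p := by gcongr
  · calc rho t Q p ^ 2 * EE t Q p ≤ (C0 * SS0 t (2 * Q - p) ^ 2) *
          ((1 + 2 ^ 48) * ((2 * Q - p : ℕ) : ℝ) ^ sE t) := by gcongr
      _ = C0 * (SS0 t (2 * Q - p) ^ 2 * ((2 * Q - p : ℕ) : ℝ) ^ sE t) * (1 + 2 ^ 48) := by ring
      _ ≤ C0 * 64 * (1 + 2 ^ 48) := by gcongr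

end Crest.Agent.R340.LocT163
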