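import Crest.Agent.R340.Defs_150

/-!
# R340 (helper735): cross term of the class about the pole with the ring next to the far pole

`RX4` : from `Defs150.RZ` at `g = 1`, the cross term with `kink (Q-1)` is `≤ 162 K (Q+1)⁻⁴`.
-/

set_option autoImplicit false
open scoped InnerProductSpace

namespace Crest.Agent.R340.RX4735

open Crest.Agent.R340.Fock649 Crest.Agent.R340.Emb596 Crest.Agent.R340.Geo986
  Crest.Agent.R340.Peel596 Crest.Agent.R340.Step596 Crest.Agent.R340.PathStep880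
open Crest.Agent.R340.PV341 (Adm)
open Crest.Agent.R340.Rot303 (cj Rg)
open Crest.Agent.R340.Avg814 (G2 tt)
open Crest.Agent.R340.Defs150

theorem Rg_one' (Q : ℕ) : Rg Q (1 : Matrix (Fin 2) (Fin 2) ℂ) = 1 := by
  unfold Rg
  rw [CS809.sp_one, Gam303.Gam_one]

theorem cj_one' {Q : ℕ} (X : Op (Fin (Q + 1))) :
    cj (1 : Matrix (Fin 2) (Fin 2) ℂ) X = X := by
  unfold cj
  rw [Rg_one', star_one, one_mul, mul_one]

theorem DyG_one {n Q : ℕ} {C : ℝ} {X : Op (Fin (Q + 1))} (h : Dy n Q C X) :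
    DyG n Q C (1 : G2) X := by
  unfold DyG
  have e : star ((1 : G2) : Matrix (Fin 2) (Fin 2) ℂ) = 1 := by simp
  rw [e, cj_one']
  exact h

theorem tt_one : tt (1 : G2) = 0 := by
  unfold tt
  simp

theorem weight_le {Q : ℕ} (hQ : 2 ≤ Q) :
    Real.sqrt (PSD716.dd Q (Q - 2)) * (1 + Dr Q (Q - 2) (Q * tt (1 : G2))) ^ (-(8 : ℝ)) ≤
      162 * (((Q : ℝ) + 1) ^ 4)⁻¹ := by
  have hQ' : (2 : ℝ) ≤ Q := by exact_mod_cast hQ
  have e1 : ((Q - 2 : ℕ) : ℝ) = Q - 2 := by rw [Nat.cast_sub hQ]; norm_num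
  have h1 : Real.sqrt (PSD716.dd Q (Q - 2)) ≤ 2 := by
    rw [Real.sqrt_le_left (by norm_num)]
    unfold PSD716.dd
    rw [e1]
    refine (min_le_right _ _).trans ?_
    linarith
  have h2 : Real.sqrt ((Q : ℝ) - 1) ≤ 1 + Dr Q (Q - 2) (Q * tt (1 : G2)) := by
    unfold Dr
    rw [tt_one, mul_zero, zero_add, Real.sqrt_one, e1]
    have h3 : (Q : ℝ) - 2 + 1 = Q - 1 := by ring
    rw [h3]
    have := le_abs_self (Real.sqrt ((Q : ℝ) - 1) - 1)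
    have h4 := abs_nonneg (Real.sqrt ((Q : ℝ) - ((Q : ℝ) - 2) + 1) - Real.sqrt ((Q : ℝ) - 0 + 1))
    linarith
  have hD : 0 < 1 + Dr Q (Q - 2) (Q * tt (1 : G2)) := by
    have : 0 ≤ Dr Q (Q - 2) (Q * tt (1 : G2)) := by unfold Dr; positivity
    linarith
  set D := 1 + Dr Q (Q - 2) (Q * tt (1 : G2)) with hDdef
  have h5 : (Q : ℝ) - 1 ≤ D ^ 2 := by
    have h6 := pow_le_pow_left₀ (Real.sqrt_nonneg _) h2 2
    rwa [Real.sq_sqrt (by linarith)] at h6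
  have h7 : ((Q : ℝ) + 1) / 3 ≤ D ^ 2 := by linarith
  have h8 : (((Q : ℝ) + 1) / 3) ^ 4 ≤ D ^ 8 := by
    have := pow_le_pow_left₀ (by positivity) h7 4
    rw [← pow_mul] at this
    exact this
  have h9 : D ^ (-(8 : ℝ)) = (D ^ 8)⁻¹ := by
    rw [Real.rpow_neg hD.le]
    congr 1
    exact_mod_cast Real.rpow_natCast D 8
  rw [h9]
  have h10 : (D ^ 8)⁻¹ ≤ 81 * (((Q : ℝ) + 1) ^ 4)⁻¹ := by
    rw [inv_le_comm₀ (by positivity) (by positivity), mul_inv, inv_inv]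
    refine le_trans (le_of_eq ?_) h8
    ring
  calc Real.sqrt (PSD716.dd Q (Q - 2)) * (D ^ 8)⁻¹ ≤ 2 * (81 * (((Q : ℝ) + 1) ^ 4)⁻¹) :=
        mul_le_mul h1 h10 (by positivity) (by norm_num)
    _ = _ := by ring

/-- **(RX4)** -/
theorem RX4 {nW : ℕ} {K : ℝ} (h : RZ nW K) {Q : ℕ} (hQ : 2 ≤ Q) {t : Fin 3 → ℝ} (ht : Adm t)
    (n : ℕ) {X : Op (Fin (Q + 1))} (hX : Dy nW Q 1 X) {ψ φ : Fk (Fin (Q + 1))}
    (hψ : ψ ∈ Zn (nuT t Q) Q n) (hφ : φ ∈ Zn (nuT t Q) Q n) :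
    ‖⟪off (Zn (nuT t Q) Q n) (TT Q (kink (Q - 1)) ψ), off (Zn (nuT t Q) Q n) (X φ)⟫_ℂ‖ ≤
      162 * K * (((Q : ℝ) + 1) ^ 4)⁻¹ * (‖ψ‖ * ‖φ‖) := by
  have h1 := h.2 Q (by omega) t ht n 1 X (DyG_one hX) ψ hψ φ hφ (Q - 2) (by omega)
  rw [show Q - 2 + 1 = Q - 1 by omega] at h1
  refine h1.trans ?_
  apply mul_le_mul_of_nonneg_right _ (by positivity)
  rw [mul_assoc]
  have := mul_le_mul_of_nonneg_left (weight_le hQ) h.1
  linarith

end Crest.Agent.R340.RX4735
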