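import Crest.Agent.R340.Peel3F_924
import Crest.Agent.R340.RX4_735

/-!
# R340 (helper735): 924's triple peel with the input (RZ) at the far ring, errors `Q⁻⁴`

* `crossX` : the cross term with a free number `eX` for the `X` part;
* `levX`   : `Lev` at flux `Q` from `RC`, `RZ`, `GZ`, `Dy`;
* `stepX`  : `step_of_move`, flux `Q → Q + 3`, all inputs in the form of Defs_150.
-/

set_option autoImplicit false
set_option linter.unusedSectionVars false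
open scoped InnerProductSpace ComplexConjugate

namespace Crest.Agent.R340.Peel3X735

open Finset
open Crest.Agent.R340.Fock649 Crest.Agent.R340.Emb596 Crest.Agent.R340.Geo986
  Crest.Agent.R340.Peel596 Crest.Agent.R340.PathStep880 Crest.Agent.R340.PeelX596
  Crest.Agent.R340.Step596 Crest.Agent.R340.Peel3F924
open Crest.Agent.R340.Scal725 (prof dd)
open Crest.Agent.R340.PV341 (Adm)
open Crest.Agent.R340.Defs150

theorem RX2_zero (Q : ℕ) (Z : Submodule ℂ (Fk (Fin (Q + 1)))) : RX2 Q Z 0 0 := by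
  intro ψ _ φ _ p _
  rw [zero_ap, map_zero, inner_zero_right, norm_zero, zero_mul, zero_mul]

/-- cross term with a free number for the `X` part -/
theorem crossX {Q : ℕ} (hQ : 2 ≤ Q) (Z : Submodule ℂ (Fk (Fin (Q + 1))))
    (hN : ∀ ψ ∈ Z, TT Q (fun _ => 1) ψ ∈ Z) (hL : ∀ ψ ∈ Z, TT Q (fun j => (j : ℝ)) ψ ∈ Z)
    {α R : ℝ} (hα0 : 0 ≤ α) (hα2 : α ≤ 2) (hαR : α ≤ R) (s a : ℝ) (ha : 0 ≤ a)
    (F : ℕ → ℝ) {M : ℝ} (hM : 0 ≤ M) (hF : ∀ p < Q - 1, |dd F p| ≤ M * dd (prof α R) p)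
    (X : Op (Fin (Q + 1))) {CG eX m : ℝ} (hCG : 0 ≤ CG) (hm : 20 ≤ m)
    (hG : RC2 Q Z CG m)
    (hX : ∀ ψ ∈ Z, ∀ φ ∈ Z,
      ‖⟪off Z (TT Q (kink (Q - 1)) ψ), off Z (X φ)⟫_ℂ‖ ≤ eX * (‖ψ‖ * ‖φ‖)) :
    ∀ ψ ∈ Z, ∀ φ ∈ Z,
      ‖⟪d (Fin.last Q) (c (Fin.last Q) ψ) -
          Z.starProjection (d (Fin.last Q) (c (Fin.last Q) ψ)),
        Dop Q s a F X φ⟫_ℂ‖ ≤
      (a * (M * (CG * (59049 * dd (prof α R) Q))) + eX) * ‖ψ‖ * ‖φ‖ := by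
  intro ψ hψ φ hφ
  have h1 := cross_gen hQ Z hN hL hα0 hα2 hαR s a ha F hM hF 0 hCG hm hG (RX2_zero Q Z) ψ hψ φ hφ
  have h2 := hX ψ hψ φ hφ
  have e1 : Dop Q s a F X φ = Dop Q s a F 0 φ - X φ := by
    rw [PeelX596.Dop_ap, PeelX596.Dop_ap, zero_ap, sub_zero]
  have e2 : ⟪d (Fin.last Q) (c (Fin.last Q) ψ) -
      Z.starProjection (d (Fin.last Q) (c (Fin.last Q) ψ)), X φ⟫_ℂ =
      ⟪off Z (TT Q (kink (Q - 1)) ψ), off Z (X φ)⟫_ℂ := by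
    rw [n_last_eq (by omega) ψ, ← off_apply, inner_off_left]
  rw [e1, inner_sub_right, e2]
  refine (norm_sub_le _ _).trans ?_
  rw [zero_mul, add_zero] at h1
  calc _ ≤ a * (M * (CG * (59049 * dd (prof α R) Q))) * ‖ψ‖ * ‖φ‖ + eX * (‖ψ‖ * ‖φ‖) :=
        add_le_add h1 h2
    _ = _ := by ring

/-- the error of the cross terms -/
noncomputable def dltX (M K1 K3 : ℝ) (g : ℕ → ℝ) (Q : ℕ) : ℝ :=
  3 * (M * (K1 * (59049 * dd g (Q + 1)))) + 162 * K3 * ((Q : ℝ) ^ 4)⁻¹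

/-- the error of the commutators -/
noncomputable def etaX (k : ℕ) (Q : ℕ) : ℝ := 2 * (4 ^ k / ((Q : ℝ) + 2) ^ k)

/-- one level of the triple peel: flux `Q'`, metric of the round sphere of flux `Q' + r` -/
theorem levX {nW k : ℕ} {K1 K3 κ : ℝ} (hRC : RC K1) (hRZ : RZ nW K3) (hGZ : GZ κ)
    (hk : 2 * k ≤ nW) {A S : ℝ} (hA0 : 0 ≤ A) (hA2 : A ≤ 2) (hAS : A ≤ S) {q Q' r n : ℕ}
    (hr : r ≤ 2) (hQ' : Q' + r = q + 5) (s : ℝ) (F : ℕ → ℝ) {M : ℝ} (hM : 0 ≤ M)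
    (hF : ∀ p < q + 4, |dd F p| ≤ M * dd (prof A S) p) {X : Op (Fin (Q' + 1))}
    (hX : Dy nW Q' 1 X) :
    Lev (nu0 (q + 5)) Q' n s 3 F X κ (dltX M K1 K3 (prof A S) (q + 2)) (etaX k (q + 2)) := by
  have e := Zn_C Q' r n (by omega)
  rw [hQ'] at e
  have hQ3 : q + 3 ≤ Q' := by omega
  have hQ3r : ((q + 2 : ℕ) : ℝ) + 1 ≤ Q' := by exact_mod_cast hQ3
  have hq0 : (0 : ℝ) < ((q + 2 : ℕ) : ℝ) := by positivity
  have hS : 0 ≤ S := hA0.trans hAS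
  have hdd : ∀ j, 0 ≤ dd (prof A S) j := Scal725.dd_prof_nonneg hS hA0 (by linarith)
  refine ⟨?_, ?_, ?_⟩
  · obtain ⟨Q'', rfl⟩ : ∃ Q'', Q' = Q'' + 1 := ⟨Q' - 1, by omega⟩
    have := hGZ.2 (tC r) (adm_tC r) (tC_two hr) Q'' n
    rw [e] at this
    exact this
  · have h := (hX.2.mono_exp hk).norm_lie_c_le (Fin.last Q')
    rw [cast_last, ← norm_neg, neg_sub] at h
    refine h.trans ?_
    unfold etaX
    rw [mul_one]
    apply mul_le_mul_of_nonneg_left _ (by norm_num)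
    apply div_le_div_of_nonneg_left (by positivity) (by positivity)
    apply pow_le_pow_left₀ (by positivity)
    linarith
  · rw [← e]
    intro ψ hψ φ hφ
    have h := crossX (by omega : 2 ≤ Q') (Zn (nuT (tC r) Q') Q' n)
      (fun ψ hψ => TT_one_mem_Zn hψ) (fun ψ hψ => TT_lin_mem_Zn hψ) hA0 hA2 hAS s 3 (by norm_num)
      F hM (fun p hp => hF p (by omega)) X (m := 20) hRC.1 le_rfl
      (hRC.2 Q' (by omega) (tC r) (adm_tC r) n)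
      (fun ψ hψ φ hφ => RX4735.RX4 hRZ (by omega) (adm_tC r) n hX hψ hφ) ψ hψ φ hφ
    refine h.trans ?_
    apply mul_le_mul_of_nonneg_right _ (norm_nonneg φ)
    apply mul_le_mul_of_nonneg_right _ (norm_nonneg ψ)
    unfold dltX
    apply add_le_add
    · apply mul_le_mul_of_nonneg_left _ (by norm_num)
      apply mul_le_mul_of_nonneg_left _ hM
      apply mul_le_mul_of_nonneg_left _ hRC.1
      apply mul_le_mul_of_nonneg_left _ (by norm_num)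
      exact dd_prof_le hA0 hAS (by omega)
    · apply mul_le_mul_of_nonneg_left _ (mul_nonneg (by norm_num) hRZ.1)
      apply inv_anti₀ (by positivity)
      apply pow_le_pow_left₀ hq0.le
      linarith

theorem dltX_nonneg {nW : ℕ} {M K1 K3 : ℝ} (hM : 0 ≤ M) (hRC : RC K1) (hRZ : RZ nW K3)
    {A S : ℝ} (hA0 : 0 ≤ A) (hAS : A ≤ S) (Q : ℕ) : 0 ≤ dltX M K1 K3 (prof A S) Q := by
  have hdd := Scal725.dd_prof_nonneg (hA0.trans hAS) hA0 (by linarith : A < S + 1) (Q + 1)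
  have h1 := hRC.1
  have h3 := hRZ.1
  unfold dltX
  positivity

/-- **the step of the strong pass from the path moves**, flux `q + 2 → q + 5` -/
theorem stepX' {nW k : ℕ} {K1 K3 κ : ℝ} (hRC : RC K1) (hRZ : RZ nW K3) (hGZ : GZ κ)
    (hk : 2 * k ≤ nW) {A S : ℝ} (hA0 : 0 ≤ A) (hA2 : A ≤ 2) (hAS : A ≤ S) {q n : ℕ}
    (s s0 s' e : ℝ) (F F0 : ℕ → ℝ) {M : ℝ} (hM : 0 ≤ M)
    (hF : ∀ p < q + 4, |dd F p| ≤ M * dd (prof A S) p)
    (hf1 : F (q + 5) ≤ F (q + 4)) (hf2 : F (q + 4) ≤ F (q + 3))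
    {X : Op (Fin (q + 5 + 1))} (hX : Dy nW (q + 5) 1 X)
    (hmvA : ∀ L, LB (nu0 (q + 2)) (q + 2) n
        (Dop (q + 2) s0 3 F0 (cmp (ee (show q + 2 ≤ q + 5 by omega)) X)) L →
      LB (nu0 (q + 5)) (q + 2) n
        (Dop (q + 2) s' 3 F (cmp (ee (show q + 2 ≤ q + 5 by omega)) X)) (L - e))
    (hmvB : ∀ L, LB (nu0 (q + 2)) (q + 2) (n + 1)
        (Dop (q + 2) s0 3 F0 (cmp (ee (show q + 2 ≤ q + 5 by omega)) X)) L →
      LB (nu0 (q + 5)) (q + 2) (n + 1)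
        (Dop (q + 2) s' 3 F (cmp (ee (show q + 2 ≤ q + 5 by omega)) X)) (L - e))
    (m1 m2 : ℝ)
    (hA : LB (nu0 (q + 2)) (q + 2) n
      (Dop (q + 2) s0 3 F0 (cmp (ee (show q + 2 ≤ q + 5 by omega)) X)) m1)
    (hB : LB (nu0 (q + 2)) (q + 2) (n + 1)
      (Dop (q + 2) s0 3 F0 (cmp (ee (show q + 2 ≤ q + 5 by omega)) X)) m2) :
    LB (nu0 (q + 5)) (q + 5) (n + 1) (Dop (q + 5) s 3 F X)
      (min (m1 - 3 * (F (q + 3) - F (q + 5))) (m2 + 3 * F (q + 5))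
        - (e + |s - 3 * F (q + 5) - s'| +
          6 * ((dltX M K1 K3 (prof A S) (q + 2) + etaX k (q + 2)) / κ))) := by
  have hA' := hmvA m1 hA
  have hB' := hmvB m2 hB
  have hδ := dltX_nonneg hM hRC hRZ hA0 hAS (q + 2)
  have l0 := levX (n := n + 1) hRC hRZ hGZ hk hA0 hA2 hAS (show 0 ≤ 2 by omega)
    (show q + 5 + 0 = q + 5 by omega) s F hM hF hX
  have l1 := levX (n := n + 1) hRC hRZ hGZ hk hA0 hA2 hAS (show 1 ≤ 2 by omega)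
    (show q + 4 + 1 = q + 5 by omega) s F hM hF (hX.cmp (show q + 4 ≤ q + 5 by omega))
  have l2 := levX (n := n + 1) hRC hRZ hGZ hk hA0 hA2 hAS (show 2 ≤ 2 by omega)
    (show q + 3 + 2 = q + 5 by omega) s F hM hF (hX.cmp (show q + 3 ≤ q + 5 by omega))
  have h := triple_peel (posM_nu0 (q + 5)) s s' 3 (by norm_num) F hf1 hf2 X hX.1 κ _ _
    (m1 - e) (m2 - e) hGZ.1 hδ l0 l1 l2 hA' hB'
  refine LB.mono h ?_
  have h1 := neg_abs_le (s - 3 * F (q + 5) - s')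
  have h2 : min (m1 - 3 * (F (q + 3) - F (q + 5))) (m2 + 3 * F (q + 5)) -
      (e + |s - 3 * F (q + 5) - s'|) ≤
      min (m1 - e + (s - 3 * F (q + 5) - s') - 3 * (F (q + 3) - F (q + 5)))
        (m2 - e + (s - s')) := by
    apply le_min
    · have := min_le_left (m1 - 3 * (F (q + 3) - F (q + 5))) (m2 + 3 * F (q + 5))
      linarith
    · have := min_le_right (m1 - 3 * (F (q + 3) - F (q + 5))) (m2 + 3 * F (q + 5))
      linarith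
  linarith

/-- **the step of the strong pass from the path moves**, flux `Q → Q + 3` -/
theorem stepX {nW k : ℕ} {K1 K3 κ : ℝ} (hRC : RC K1) (hRZ : RZ nW K3) (hGZ : GZ κ)
    (hk : 2 * k ≤ nW) {A S : ℝ} (hA0 : 0 ≤ A) (hA2 : A ≤ 2) (hAS : A ≤ S) {Q n : ℕ} (hQ : 2 ≤ Q)
    (s s0 s' e : ℝ) (F F0 : ℕ → ℝ) {M : ℝ} (hM : 0 ≤ M)
    (hF : ∀ p < Q + 2, |dd F p| ≤ M * dd (prof A S) p)
    (hf1 : F (Q + 3) ≤ F (Q + 2)) (hf2 : F (Q + 2) ≤ F (Q + 1))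
    {X : Op (Fin (Q + 3 + 1))} (hX : Dy nW (Q + 3) 1 X)
    (hmvA : ∀ L, LB (nu0 Q) Q n (Dop Q s0 3 F0 (cmp (ee (Nat.le_add_right Q 3)) X)) L →
      LB (nu0 (Q + 3)) Q n (Dop Q s' 3 F (cmp (ee (Nat.le_add_right Q 3)) X)) (L - e))
    (hmvB : ∀ L, LB (nu0 Q) Q (n + 1) (Dop Q s0 3 F0 (cmp (ee (Nat.le_add_right Q 3)) X)) L →
      LB (nu0 (Q + 3)) Q (n + 1) (Dop Q s' 3 F (cmp (ee (Nat.le_add_right Q 3)) X)) (L - e))
    (m1 m2 : ℝ)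
    (hA : LB (nu0 Q) Q n (Dop Q s0 3 F0 (cmp (ee (Nat.le_add_right Q 3)) X)) m1)
    (hB : LB (nu0 Q) Q (n + 1) (Dop Q s0 3 F0 (cmp (ee (Nat.le_add_right Q 3)) X)) m2) :
    LB (nu0 (Q + 3)) (Q + 3) (n + 1) (Dop (Q + 3) s 3 F X)
      (min (m1 - 3 * (F (Q + 1) - F (Q + 3))) (m2 + 3 * F (Q + 3))
        - (e + |s - 3 * F (Q + 3) - s'| +
          6 * ((dltX M K1 K3 (prof A S) Q + etaX k Q) / κ))) := by
  obtain ⟨q, rfl⟩ : ∃ q, Q = q + 2 := ⟨Q - 2, by omega⟩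
  exact stepX' hRC hRZ hGZ hk hA0 hA2 hAS s s0 s' e F F0 hM hF hf1 hf2 hX hmvA hmvB m1 m2 hA hB

/-- level `0` in the form used by the vacuum scalar -/
theorem levX0 {nW k : ℕ} {K1 K3 κ : ℝ} (hRC : RC K1) (hRZ : RZ nW K3) (hGZ : GZ κ)
    (hk : 2 * k ≤ nW) {A S : ℝ} (hA0 : 0 ≤ A) (hA2 : A ≤ 2) (hAS : A ≤ S) {Q n : ℕ} (hQ : 2 ≤ Q)
    (s : ℝ) (F : ℕ → ℝ) {M : ℝ} (hM : 0 ≤ M)
    (hF : ∀ p < Q + 2, |dd F p| ≤ M * dd (prof A S) p) {X : Op (Fin (Q + 3 + 1))}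
    (hX : Dy nW (Q + 3) 1 X) :
    Lev (nu0 (Q + 3)) (Q + 3) n s 3 F X κ (dltX M K1 K3 (prof A S) Q) (etaX k Q) := by
  obtain ⟨q, rfl⟩ : ∃ q, Q = q + 2 := ⟨Q - 2, by omega⟩
  exact levX hRC hRZ hGZ hk hA0 hA2 hAS (show 0 ≤ 2 by omega)
    (show q + 5 + 0 = q + 5 by omega) s F hM hF hX

end Crest.Agent.R340.Peel3X735
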