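import Crest.Agent.R340.Vac5_467
import Crest.Agent.R340.Defs_150

/-!
# Adapters for the vacuum (helper467, R340, O5 part 6)

`IsVac` of `Defs_150`: existence, independence of the choice; the line of zero modes at
`Q = 3 (n-1)` in every metric (`Zn_eq_span`, `inner_unique`), in particular along the path.
-/

set_option autoImplicit false
open scoped InnerProductSpace ComplexConjugate

namespace Crest.Agent.R340.Vac467

open Finset Fock649 Geo986 GG467 Emb596 Peel596 Step596 Crest.MathPhysics.Laughlin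
open Br320 (wM Bp HH toFk sector)
open Defs150 (IsVac)

variable {Q : ℕ}

/-- existence of a unit zero mode with `n` particles at `Q = 3 (n-1)`, every positive metric -/
theorem exists_unit_Zn {ν : ℕ → ℝ} (hν : PosM ν Q) {n : ℕ} (hn : 3 * (n - 1) ≤ Q) :
    ∃ Φ ∈ Zn ν Q n, ‖Φ‖ = 1 := by
  obtain ⟨Φ, h⟩ := exists_ref hν hn
  exact ⟨Φ, h.mem_Zn, h.unit⟩

/-- at `Q = 3 (n-1)` the zero modes with `n` particles are a line -/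
theorem Zn_eq_span {ν : ℕ → ℝ} (hν : PosM ν Q) {n : ℕ} (hn : Q = 3 * (n - 1))
    {Φ : Fk (Fin (Q + 1))} (h : Φ ∈ Zn ν Q n) (h0 : Φ ≠ 0) :
    Zn ν Q n = Submodule.span ℂ {Φ} := by
  refine le_antisymm (fun ψ hψ => ?_) ?_
  · rw [Submodule.mem_span_singleton]
    have hpos : 0 < ‖Φ‖ := norm_pos_iff.2 h0
    set Φ' : Fk (Fin (Q + 1)) := ((‖Φ‖⁻¹ : ℝ) : ℂ) • Φ with hΦ'
    have h1 : Φ' ∈ Zn ν Q n := Submodule.smul_mem _ _ h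
    have h2 : ‖Φ'‖ = 1 := by
      rw [hΦ', norm_smul, Complex.norm_real, norm_inv, norm_norm, inv_mul_cancel₀ hpos.ne']
    have h3 := (isRef_of_Zn hν hn h1 h2).span hν hn hψ
    refine ⟨(inner ℂ Φ' ψ : ℂ) * ((‖Φ‖⁻¹ : ℝ) : ℂ), ?_⟩
    conv_rhs => rw [h3]
    rw [hΦ', smul_smul]
  · rw [Submodule.span_le, Set.singleton_subset_iff]
    exact h

/-- expectation values on the line do not depend on the unit vector -/
theorem inner_unique {ν : ℕ → ℝ} (hν : PosM ν Q) {n : ℕ} (hn : Q = 3 * (n - 1))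
    {Φ Φ' : Fk (Fin (Q + 1))} (h : Φ ∈ Zn ν Q n) (h1 : ‖Φ‖ = 1) (h' : Φ' ∈ Zn ν Q n)
    (h1' : ‖Φ'‖ = 1) (T : Fk (Fin (Q + 1)) →L[ℂ] Fk (Fin (Q + 1))) :
    (inner ℂ Φ' (T Φ') : ℂ) = inner ℂ Φ (T Φ) := by
  have h3 := (isRef_of_Zn hν hn h h1).span hν hn h'
  set a := (inner ℂ Φ Φ' : ℂ)
  have h4 : ‖a‖ = 1 := by
    have h5 := congrArg norm h3
    rw [norm_smul, h1, h1', mul_one] at h5
    exact h5.symm
  rw [h3, map_smul, inner_smul_left, inner_smul_right, ← mul_assoc,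
    ← Complex.normSq_eq_conj_mul_self, Complex.normSq_eq_norm_sq, h4]
  simp

theorem isVac_Om (Q : ℕ) : IsVac Q (Om Q) := ⟨Om_mem_Zn Q, norm_Om Q⟩

theorem exists_isVac (Q : ℕ) : ∃ Ω, IsVac Q Ω := ⟨Om Q, isVac_Om Q⟩

theorem IsVac.inner_eq {Q : ℕ} (h3 : 3 ∣ Q) {Ω Ω' : Fk (Fin (Q + 1))} (h : IsVac Q Ω)
    (h' : IsVac Q Ω') (T : Fk (Fin (Q + 1)) →L[ℂ] Fk (Fin (Q + 1))) :
    (inner ℂ Ω' (T Ω') : ℂ) = inner ℂ Ω (T Ω) :=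
  inner_unique (posM_nu0 Q) (by omega) h.1 h.2 h'.1 h'.2 T

/-- every vacuum may be replaced by `Om Q` -/
theorem IsVac.inner_Om {Q : ℕ} (h3 : 3 ∣ Q) {Ω : Fk (Fin (Q + 1))} (h : IsVac Q Ω)
    (T : Fk (Fin (Q + 1)) →L[ℂ] Fk (Fin (Q + 1))) :
    (inner ℂ Ω (T Ω) : ℂ) = inner ℂ (Om Q) (T (Om Q)) :=
  IsVac.inner_eq h3 (isVac_Om Q) h T

theorem IsVac.ne_zero {Q : ℕ} {Ω : Fk (Fin (Q + 1))} (h : IsVac Q Ω) : Ω ≠ 0 := by
  intro h0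
  have := h.2
  rw [h0, norm_zero] at this
  exact zero_ne_one this

theorem IsVac.isRef {Q : ℕ} (h3 : 3 ∣ Q) {Ω : Fk (Fin (Q + 1))} (h : IsVac Q Ω) :
    IsRef (nu0 Q) Q (Q / 3 + 1) Ω := isRef_of_Zn (posM_nu0 Q) (by omega) h.1 h.2

/-- the vacuum spans its sector -/
theorem IsVac.span_eq {Q : ℕ} (h3 : 3 ∣ Q) {Ω : Fk (Fin (Q + 1))} (h : IsVac Q Ω) :
    Zn (nu0 Q) Q (Q / 3 + 1) = Submodule.span ℂ {Ω} :=
  Zn_eq_span (posM_nu0 Q) (by omega) h.1 (IsVac.ne_zero h)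

/-- `⟨dΓ(f)⟩ = cs f Q` in the vacuum -/
theorem IsVac.inner_dG {Q : ℕ} (h3 : 3 ∣ Q) {Ω : Fk (Fin (Q + 1))} (h : IsVac Q Ω) (f : ℕ → ℝ) :
    (inner ℂ Ω (dG (Matrix.diagonal fun j : Fin (Q + 1) => ((f j : ℝ) : ℂ)) Ω) : ℂ) =
      ((Scal725.cs f Q : ℝ) : ℂ) :=
  (IsVac.isRef h3 h).dens_diag (by omega) (by omega) f

/-- the vacuum line (`hvac` of 735's `strong_red`) -/
theorem IsVac.LB {Q : ℕ} (h3 : 3 ∣ Q) {Ω : Fk (Fin (Q + 1))} (h : IsVac Q Ω) {n : ℕ}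
    (hn : Q + 3 = 3 * n) (a : ℝ) (F : ℕ → ℝ) (X : Op (Fin (Q + 1))) :
    Peel596.LB (nu0 Q) Q n (Dop Q (a * Scal725.cs F Q + (⟪Ω, X Ω⟫_ℂ).re) a F X) 0 := by
  have e : n = Q / 3 + 1 := by omega
  subst e
  exact LB_vac (by omega) (by omega) h.1 h.2 a F X

/-- rotation invariance of the vacuum expectation -/
theorem IsVac.inner_cj {Q : ℕ} (h3 : 3 ∣ Q) {Ω : Fk (Fin (Q + 1))} (h : IsVac Q Ω)
    {g : Matrix (Fin 2) (Fin 2) ℂ} (hg : g * g.conjTranspose = 1) (A : Op (Fin (Q + 1))) :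
    (inner ℂ Ω (Rot303.cj g A Ω) : ℂ) = inner ℂ Ω (A Ω) :=
  (IsVac.isRef h3 h).inner_cj (by omega) hg A

/-- the line of zero modes of the geometry `nuT t` at `3 ∣ Q` -/
theorem exists_line {Q : ℕ} (h3 : 3 ∣ Q) (t : Fin 3 → ℝ) :
    ∃ u : Fk (Fin (Q + 1)), ‖u‖ = 1 ∧ u ∈ Zn (nuT t Q) Q (Q / 3 + 1) ∧
      Zn (nuT t Q) Q (Q / 3 + 1) = Submodule.span ℂ {u} := by
  obtain ⟨u, hu, hu1⟩ := exists_unit_Zn (posM_nuT t Q) (n := Q / 3 + 1) (by omega)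
  refine ⟨u, hu1, hu, Zn_eq_span (posM_nuT t Q) (by omega) hu ?_⟩
  intro h0
  rw [h0, norm_zero] at hu1
  exact zero_ne_one hu1

end Crest.Agent.R340.Vac467
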