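import Crest.Agent.R340.SPc_735
import Crest.Agent.R340.Vac6_467
import Crest.Agent.R340.Hstep2_596

/-!
# R340 / S0532: the strong pass `Defs150.SP` (helper735)

`SP_of` : from (RC), (RX), (RZ), (GZ), (TZ), (TX) and the weak pass `WP`.
-/

set_option autoImplicit false
set_option linter.unusedSectionVars false

open scoped InnerProductSpace

namespace Crest.Agent.R340.SP735

open Finset
open Crest.Agent.R340.Fock649 Crest.Agent.R340.Emb596 Crest.Agent.R340.Geo986
  Crest.Agent.R340.Peel596 Crest.Agent.R340.Step596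
open Crest.Agent.R340.Scal725
open Crest.Agent.R340.Defs150
open Crest.Agent.R340.Str735 (Cls Cls.zero)
open Crest.Agent.R340.StrR735 (DS strong_red base_small)
open Crest.Agent.R340.Hstep596 (fam fam_of_le fam_top fam_cmp fam_star norm_fam_le fam_DY)
open Crest.Agent.R340.Vac467 (Om isVac_Om)
open Crest.Agent.R340.Str875 (crudeS step_strong)
open Crest.Agent.R340.RecE735 (exists_rpow_le)

/-- `Dop` with the constant inside the profile -/
theorem Dop_smul_prof (Q : ℕ) (s C : ℝ) (f : ℕ → ℝ) (X : Op (Fin (Q + 1))) :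
    Dop Q s (3 * C) f X = Dop Q s 3 (fun j => C * f j) X := by
  unfold Dop
  congr 2
  have e : (Matrix.diagonal fun j : Fin (Q + 1) => (((C * f j : ℝ)) : ℂ)) =
      ((C : ℝ) : ℂ) • Matrix.diagonal fun j : Fin (Q + 1) => ((f j : ℝ) : ℂ) := by
    rw [← Matrix.diagonal_smul]
    congr 1
    funext j
    rw [Pi.smul_apply, smul_eq_mul, Complex.ofReal_mul]
  rw [e, dG_smul, smul_smul]
  congr 1
  push_cast
  ring

theorem DS_eq (Q : ℕ) (x C : ℝ) (f : ℕ → ℝ) (X : Op (Fin (Q + 1))) :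
    DS (fun j => C * f j) x Q X = Dop Q (3 * C * cs f Q + x) (3 * C) f X := by
  rw [Dop_smul_prof]
  unfold DS
  congr 1
  rw [cs_smul]
  ring

theorem abs_vac_le {Q : ℕ} (X : Op (Fin (Q + 1))) {B : ℝ} (hX : ‖X‖ ≤ B) :
    |(⟪Om Q, X (Om Q)⟫_ℂ).re| ≤ B := by
  have h := Weak716.re_inner_le_of_norm hX (Om Q)
  rw [Vac467.norm_Om, one_pow, mul_one] at h
  exact h

theorem SP_of {nW nS : ℕ} {a A R0 CW θ0 K1 K3 KR κ KT KX : ℝ} (hRC : RC K1) (hRX : RX nW KR)
    (hRZ : RZ nW K3) (hGZ : GZ κ) (hTZ' : TZ nW A KT) (hTX' : TX nS nW KX)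
    (hWP : WP nW a R0 CW θ0) (hR0 : 0 ≤ R0) (hCW : 0 ≤ CW) (hθ0 : 0 ≤ θ0)
    (ha0 : 0 < a) (ha1 : a < 1) (hA : 1 < A) (hA2 : A ≤ 3 / 2) (hAa : A < 1 + a)
    (hnW : nW ≤ nS) (hnS : 8 ≤ nS) :
    ∃ S : ℕ, A < (S : ℝ) + 1 ∧ ∀ C : ℝ, 40 ≤ C → SP nS A S C := by
  -- positive constants
  have hTZ : TZ nW A (KT + 1) := W0725.TZ.mono hTZ' (by linarith)
  have hTX : TX nS nW (KX + 1) := W0725.TX.mono hTX' (by linarith)
  have hKT : 0 < KT + 1 := by linarith [hTZ'.1]
  have hKX : 0 < KX + 1 := by linarith [hTX'.1]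
  have hc1 := c1_nonneg (R := R0) ha0 ha1 hA hR0 hCW hKT.le hKX.le
  -- the choice of `S`
  obtain ⟨S1, hS1⟩ := hcr (R := R0) ha0 ha1 hA hA2 hAa hR0 hCW hKT.le hKX.le hRC.1 hRZ.1
    (K1 := K1) (K3 := K3) (KR := KR) (κ := κ) hRX.1 hGZ.1
  obtain ⟨S2, _, hS2⟩ := exists_rpow_le (a := a) (10000 * c1 a A R0 CW (KT + 1) (KX + 1))
    (c := 1) ha0 one_pos
  have hδ : 0 < 1 + a - A := by linarith
  obtain ⟨S, hS⟩ := exists_nat_ge (max (max (max S1 S2) (max 4000 R0)) (2 * (A - 1) / (1 + a - A)))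
  have hSa : S1 ≤ S := le_trans (le_trans (le_trans (le_max_left _ _) (le_max_left _ _))
    (le_max_left _ _)) hS
  have hSb : S2 ≤ S := le_trans (le_trans (le_trans (le_max_right _ _) (le_max_left _ _))
    (le_max_left _ _)) hS
  have hSc : (4000 : ℝ) ≤ S := le_trans (le_trans (le_trans (le_max_left _ _) (le_max_right _ _))
    (le_max_left _ _)) hS
  have hSd : R0 ≤ S := le_trans (le_trans (le_trans (le_max_right _ _) (le_max_right _ _))
    (le_max_left _ _)) hS
  have hSe : 2 * (A - 1) ≤ (1 + a - A) * S := by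
    have h : 2 * (A - 1) / (1 + a - A) ≤ S := le_trans (le_max_right _ _) hS
    rw [div_le_iff₀ hδ] at h
    linarith
  have hS0 : (0 : ℝ) < S := by linarith
  have hSn : 2 ≤ S := by
    have : (2 : ℝ) ≤ S := by linarith
    exact_mod_cast this
  set e : ℝ := eS a A R0 CW (KT + 1) (KX + 1) S with hedef
  have he0 : 0 ≤ e := eS_nonneg ha0 ha1 hA hR0 hCW hKT.le hKX.le S
  have heS : 10000 * e ≤ S := by
    have h1 := eS_le (R := R0) ha0 ha1 hA hR0 hCW hKT.le hKX.le (show 1 ≤ S by omega)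
    have h2 := hS2 S hSb
    linarith
  refine ⟨S, by linarith, fun C hC => ?_⟩
  have hC0 : 0 < C := by linarith
  intro Q n X Ω hQ3 hn hX hΩ
  rcases Nat.eq_or_lt_of_le hn with hn' | hn'
  · -- no room: the vacuum sector
    exact Vac467.IsVac.LB hQ3 hΩ hn'.symm (3 * C) (prof A S) X
  have hnQ : 3 * n ≤ Q := by
    obtain ⟨k, rfl⟩ := hQ3
    omega
  have hxΩ : (⟪Ω, X Ω⟫_ℂ).re = (⟪Om Q, X (Om Q)⟫_ℂ).re := by
    have := Vac467.IsVac.inner_Om hQ3 hΩ X.ap
    rw [this]
  rw [hxΩ, ← DS_eq]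
  have hXn : ‖X‖ ≤ 1 := hX.2.norm_le
  have hp := prof_pos hS0.le (by linarith : A < (S : ℝ) + 1) Q
  have hcastn : (3 : ℝ) * n ≤ Q := by exact_mod_cast hnQ
  rcases le_or_gt (S : ℝ) (100 * ((Q + 3 : ℕ) : ℝ)) with hbig | hsmall
  · -- large flux
    have hred := strong_red (a := a) (A := A) (S := (S : ℝ)) (C := C) (e := e) (B := 1)
      ha0 ha1.le hA.le (by linarith) hAa hSe hSc hC0.le he0 heS (by linarith) Q
      (fam Q X) (fun q => (⟪Om q, fam Q X q (Om q)⟫_ℂ).re)
      (fun q _ => (norm_fam_le X q).trans hXn)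
      (fun q _ => abs_vac_le _ ((norm_fam_le X q).trans hXn))
      (fun N => crudeS K1 K3 KR (KT + 1) (KX + 1) κ a A C e (2 * C) S (N - 3))
      (fun m q F hq hq3 hm => by
        unfold DS
        exact Vac467.IsVac.LB hq3 (isVac_Om q) hm 3 F _)
      (fun m q Ψ hq3 hq hSq hm hΨ => by
        have hq1 : 1 ≤ q := by
          have h1 : (1 : ℝ) ≤ q := by
            push_cast at hSq
            linarith
          exact_mod_cast h1
        obtain ⟨f1, f2, f3⟩ := prof_facts ha0 ha1.le hA.le hAa hSe (by linarith) (by linarith)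
          hC0.le he0 heS hSq hΨ
        have hXq : Dy nS (q + 3) 1 (fam Q X (q + 3)) := by
          rw [fam_of_le hq]
          exact hX.cmp hq
        have hst := step_strong hRC hRZ hRX hGZ hTZ hTX hWP hCW hθ0 hKT hKX ha0 ha1 hA hA2 hSn
          le_rfl hR0 (by linarith) hSd hC0 he0
          (by
            rw [hedef]
            unfold eS
            have h1 : 2 * CW * (KX + 1) / C ≤ 2 * CW * (KX + 1) := by
              apply div_le_self (by positivity)
              linarith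
            linarith)
          hnW hnS (by positivity) hq3 hq1 hm hXq (isVac_Om q) (isVac_Om (q + 3)) hΨ f1 f2 f3
        rw [fam_cmp (Nat.le_add_right q 3) hq X] at hst
        exact hst)
      (fun q hq => hS1 S hSa C (by linarith) q hq)
    have h := hred Q n le_rfl hQ3 hnQ hbig
    rw [fam_top] at h
    refine h.mono ?_
    have : 0 ≤ (Q : ℝ) + 3 - 3 * n := by linarith
    positivity
  · -- small flux
    have hK : 3 * n + (Q + 3 - 3 * n) = Q + 3 := by omega
    have hbase := base_small (a := a) (A := A) (S := (S : ℝ)) (C := C) (e := 0) (B := 1)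
      (x := (⟪Om Q, X (Om Q)⟫_ℂ).re) (Q := Q) (Ψ := fun _ => 0) ha0 ha1.le hA.le (by linarith)
      (by linarith) hC0.le (by norm_num) (by norm_num)
      (by
        push_cast at hsmall
        linarith) (by linarith)
      (by
        refine Cls.zero (by simp) ?_
        intro r hr j
        exact Str735.DD_prof_nonneg hS0.le ha0.le (by linarith) hr j)
      (n := n) (K := Q + 3 - 3 * n) (by omega) hK (X := X) hXn (abs_vac_le X hXn)
    simp only [sub_zero] at hbase
    refine hbase.mono ?_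
    positivity

end Crest.Agent.R340.SP735
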