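import Crest.Agent.R340.StrR_735
import Crest.Agent.R340.RecE_735
import Crest.Agent.R340.CrsH_757

/-!
# R340 / S0532: strong pass, scalar part of the assembly (helper735)

* `rt_small` : `(e/N) rt_N ≤ 1/20`;
* `prof_facts` : the three facts on `F = C prof A S - Ψ`, `Ψ ∈ Cls (prof a S) (C e/N) N`;
* `Ab A g` : `g S Q` is absorbed by the margin `prof A S Q / (S + Q)` for `S` large, `S ≤ 200 Q`;
  calculus and the terms of the strong step.
-/

set_option autoImplicit false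
set_option linter.unusedSectionVars false

namespace Crest.Agent.R340.SP735

open Finset
open Crest.Agent.R340.Scal725
open Crest.Agent.R340.RecS735 Crest.Agent.R340.Str735 Crest.Agent.R340.StrB735
  Crest.Agent.R340.RecE735
open Crest.Agent.R340.Conv102 (DD DD_zero DD_succ DD_two DD_smul)

/-- `e * rt_N / N` is small for `N ≥ S/100` -/
theorem rt_small {a A S e : ℝ} (ha1 : a ≤ 1)
    (hA1 : 1 ≤ A) (hAa : A < 1 + a) (hS1 : 2 * (A - 1) ≤ (1 + a - A) * S)
    (hS : 400 ≤ S) (_hA2 : A ≤ 2) (he : 0 ≤ e) (heS : 10000 * e ≤ S) {N : ℕ}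
    (hN : S ≤ 100 * (N : ℝ)) : e / N * rt a A S N ≤ 1 / 20 := by
  have hS0 : 0 < S := by linarith
  have hN0 : (0 : ℝ) < N := by linarith
  have h1 := rt_div_le ha1 hA1 hAa hS1 (by linarith) N
  have h4 : S + (N : ℝ) ≤ 101 * N := by linarith
  have h3 : rt a A S N / N ≤ 101 / S := by
    rw [div_le_div_iff₀ (by positivity) hS0] at h1 ⊢
    linarith
  calc e / N * rt a A S N = e * (rt a A S N / N) := by ring
    _ ≤ e * (101 / S) := mul_le_mul_of_nonneg_left h3 he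
    _ ≤ 1 / 20 := by
        rw [mul_div_assoc', div_le_div_iff₀ hS0 (by norm_num)]
        linarith

/-- **profile facts** for the strong step from `Q` to `Q + 3` -/
theorem prof_facts {a A S C e : ℝ} (ha0 : 0 < a) (ha1 : a ≤ 1)
    (hA1 : 1 ≤ A) (hAa : A < 1 + a) (hS1 : 2 * (A - 1) ≤ (1 + a - A) * S)
    (hS : 400 ≤ S) (hA2 : A ≤ 2) (hC : 0 ≤ C) (he : 0 ≤ e) (heS : 10000 * e ≤ S) {Q : ℕ}
    (hN : S ≤ 100 * ((Q + 3 : ℕ) : ℝ)) {Ψ : ℕ → ℝ}
    (hΨ : Cls (prof a S) (C * (e / ((Q + 3 : ℕ) : ℝ))) (Q + 3) Ψ) :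
    (∀ p < Q + 2, |dd (fun j => C * prof A S j - Ψ j) p| ≤ (2 * C) * dd (prof A S) p) ∧
    (C * prof A S (Q + 3) - Ψ (Q + 3) ≤ C * prof A S (Q + 2) - Ψ (Q + 2)) ∧
    (C * prof A S (Q + 2) - Ψ (Q + 2) ≤ C * prof A S (Q + 1) - Ψ (Q + 1)) := by
  have hS0 : 0 < S := by linarith
  have hA : A < S + 1 := by linarith
  have haA : a ≤ A := by linarith
  have hN0 : (0 : ℝ) < ((Q + 3 : ℕ) : ℝ) := by positivity
  have hrt := rt_small ha1 hA1 hAa hS1 hS hA2 he heS hN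
  have hen : 0 ≤ e / ((Q + 3 : ℕ) : ℝ) := by positivity
  -- for `j ≤ Q + 3`
  have hj : ∀ j ≤ Q + 3, e / ((Q + 3 : ℕ) : ℝ) * rt a A S j ≤ 1 / 20 := by
    intro j hj
    refine (mul_le_mul_of_nonneg_left (rt_mono hS0.le haA hA hj) hen).trans hrt
  -- second differences
  have h2 : ∀ p, p + 2 ≤ Q + 3 → 0 ≤ dd Ψ p ∧ dd Ψ p ≤ C * (1 / 20) * dd (prof A S) p := by
    intro p hp
    have h := hΨ 2 le_rfl p hp
    rw [DD_two, DD_two] at h
    refine ⟨h.1, h.2.trans ?_⟩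
    have h3 := dd_le (a := a) (A := A) (M := rt a A S p) (A0 := rt a A S p) hS0.le ha0 haA hA
      (by
        have hr := rt_pos (a := a) hS0.le haA hA p
        apply mul_le_mul_of_nonneg_left _ hr.le
        nlinarith) le_rfl
    have h4 := dd_prof_nonneg hS0.le (by linarith : (0 : ℝ) ≤ A) hA p
    calc C * (e / ((Q + 3 : ℕ) : ℝ)) * dd (prof a S) p
        ≤ C * (e / ((Q + 3 : ℕ) : ℝ)) * (rt a A S p * dd (prof A S) p) :=
          mul_le_mul_of_nonneg_left h3 (by positivity)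
      _ = C * (e / ((Q + 3 : ℕ) : ℝ) * rt a A S p) * dd (prof A S) p := by ring
      _ ≤ C * (1 / 20) * dd (prof A S) p := by
          apply mul_le_mul_of_nonneg_right _ h4
          exact mul_le_mul_of_nonneg_left (hj p (by omega)) hC
  -- first differences
  have h1 : ∀ p, p + 1 ≤ Q + 3 →
      Ψ p - Ψ (p + 1) ≤ C * (prof A S p - prof A S (p + 1)) := by
    intro p hp
    have h := hΨ 1 (by norm_num) p hp
    rw [DD_one, DD_one] at h
    have h3 := diff_le (a := a) (A := A) (M := rt a A S p) (A0 := rt a A S p) hS0.le ha0 hA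
      (by
        have hr := rt_pos (a := a) hS0.le haA hA p
        exact mul_le_mul_of_nonneg_left haA hr.le) (le_refl (rt a A S p))
    have h4 : 0 ≤ prof A S p - prof A S (p + 1) := by
      have := prof_antitone hS0.le (by linarith : (0 : ℝ) ≤ A) hA (Nat.le_succ p)
      linarith
    refine h.2.trans ?_
    calc C * (e / ((Q + 3 : ℕ) : ℝ)) * (prof a S p - prof a S (p + 1))
        ≤ C * (e / ((Q + 3 : ℕ) : ℝ)) * (rt a A S p * (prof A S p - prof A S (p + 1))) :=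
          mul_le_mul_of_nonneg_left h3 (by positivity)
      _ = C * (e / ((Q + 3 : ℕ) : ℝ) * rt a A S p) * (prof A S p - prof A S (p + 1)) := by ring
      _ ≤ C * 1 * (prof A S p - prof A S (p + 1)) := by
          apply mul_le_mul_of_nonneg_right _ h4
          apply mul_le_mul_of_nonneg_left _ hC
          linarith [hj p (by omega)]
      _ = _ := by ring
  refine ⟨fun p hp => ?_, ?_, ?_⟩
  · have h := h2 p (by omega)
    have h4 := dd_prof_nonneg hS0.le (by linarith : (0 : ℝ) ≤ A) hA p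
    have e1 : dd (fun j => C * prof A S j - Ψ j) p = C * dd (prof A S) p - dd Ψ p := by
      unfold dd; ring
    rw [e1, abs_le]
    have h5 : 0 ≤ C * dd (prof A S) p := mul_nonneg hC h4
    constructor
    · nlinarith [h.1, h.2]
    · nlinarith [h.1, h.2]
  · have := h1 (Q + 2) (by omega)
    linarith
  · have := h1 (Q + 1) (by omega)
    linarith

/-! ### Absorption calculus -/

/-- `g S Q` is absorbed by the margin, `S` large and `S ≤ 200 Q` -/
def Ab (A : ℝ) (g : ℝ → ℕ → ℝ) : Prop :=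
  ∀ c : ℝ, 0 < c → ∃ S0 : ℝ, ∀ S : ℝ, S0 ≤ S → ∀ Q : ℕ, S ≤ 200 * (Q : ℝ) →
    g S Q ≤ c * (prof A S Q / (S + Q))

theorem Ab.add {A : ℝ} {g h : ℝ → ℕ → ℝ} (hg : Ab A g) (hh : Ab A h) :
    Ab A (fun S Q => g S Q + h S Q) := by
  intro c hc
  obtain ⟨S1, h1⟩ := hg (c / 2) (by positivity)
  obtain ⟨S2, h2⟩ := hh (c / 2) (by positivity)
  refine ⟨max S1 S2, fun S hS Q hQ => ?_⟩
  have e1 := h1 S ((le_max_left _ _).trans hS) Q hQ
  have e2 := h2 S ((le_max_right _ _).trans hS) Q hQ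
  show g S Q + h S Q ≤ _
  linarith

theorem Ab.smul {A : ℝ} {g : ℝ → ℕ → ℝ} (hg : Ab A g) {k : ℝ} (hk : 0 ≤ k) :
    Ab A (fun S Q => k * g S Q) := by
  intro c hc
  obtain ⟨S1, h1⟩ := hg (c / (k + 1)) (by positivity)
  refine ⟨max S1 (|A| + 1), fun S hS Q hQ => ?_⟩
  have e1 := h1 S ((le_max_left _ _).trans hS) Q hQ
  have hSA : |A| + 1 ≤ S := (le_max_right _ _).trans hS
  have hA := le_abs_self A
  have hS0 : 0 < S := by linarith [abs_nonneg A]
  show k * g S Q ≤ _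
  have hp := prof_pos hS0.le (by linarith : A < S + 1) Q
  have h0 : 0 ≤ prof A S Q / (S + Q) := by positivity
  calc k * g S Q ≤ k * (c / (k + 1) * (prof A S Q / (S + Q))) := mul_le_mul_of_nonneg_left e1 hk
    _ = k / (k + 1) * (c * (prof A S Q / (S + Q))) := by
        field_simp
    _ ≤ 1 * (c * (prof A S Q / (S + Q))) := by
        apply mul_le_mul_of_nonneg_right _ (by positivity)
        rw [div_le_one (by positivity)]
        linarith
    _ = _ := one_mul _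

theorem Ab.of_le {A : ℝ} {g h : ℝ → ℕ → ℝ} (hh : Ab A h) (S1 : ℝ)
    (hgh : ∀ S : ℝ, S1 ≤ S → ∀ Q : ℕ, S ≤ 200 * (Q : ℝ) → g S Q ≤ h S Q) : Ab A g := by
  intro c hc
  obtain ⟨S2, h2⟩ := hh c hc
  refine ⟨max S1 S2, fun S hS Q hQ => ?_⟩
  exact (hgh S ((le_max_left _ _).trans hS) Q hQ).trans
    (h2 S ((le_max_right _ _).trans hS) Q hQ)

theorem ab_pow {A p q : ℝ} (M : ℝ) (hA1 : 1 ≤ A) (hq : A + 1 ≤ q) (hp : p < q - 1) :
    Ab A (fun S Q => M * S ^ p * (Q : ℝ) ^ (-q)) := by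
  intro c hc
  obtain ⟨S0, _, h⟩ := pow_absorb (ε := 1 / 200) M hA1 (by norm_num) hq hp hc
  exact ⟨S0, fun S hS Q hQ => h S hS Q (by linarith)⟩

theorem ab_npow {A : ℝ} {p q : ℕ} (M : ℝ) (hA1 : 1 ≤ A) (hq : A + 1 ≤ q) (hp : p + 1 < q) :
    Ab A (fun S Q => M * S ^ p / (Q : ℝ) ^ q) := by
  intro c hc
  obtain ⟨S0, _, h⟩ := npow_absorb (ε := 1 / 200) M hA1 (by norm_num) hq hp hc
  exact ⟨S0, fun S hS Q hQ => h S hS Q (by linarith)⟩

theorem ab_dd {A : ℝ} {M : ℝ} (hM : 0 ≤ M) (hA1 : 1 ≤ A) (hA2 : A ≤ 2) :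
    Ab A (fun S Q => M * dd (prof A S) Q) := by
  intro c hc
  obtain ⟨S0, _, h⟩ := dd_log_absorb (ε := 1 / 200) M hA1 hA2 (by norm_num) hc
  refine ⟨max S0 400, fun S hS Q hQ => ?_⟩
  have hS400 : 400 ≤ S := (le_max_right _ _).trans hS
  refine le_trans ?_ (h S ((le_max_left _ _).trans hS) Q (by linarith))
  have hd := dd_prof_nonneg (by linarith : (0 : ℝ) ≤ S) (by linarith : (0 : ℝ) ≤ A)
    (by linarith : A < S + 1) Q
  apply mul_le_mul_of_nonneg_left _ hM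
  have hQ2 : (2 : ℝ) ≤ Q := by linarith
  have hlog : 1 ≤ Real.log ((Q : ℝ) + 2) := by
    rw [Real.le_log_iff_exp_le (by linarith)]
    have := Real.exp_one_lt_d9
    linarith
  nlinarith

theorem ab_crs {A a : ℝ} (K C1 : ℝ) (hK : 0 ≤ K) (hC1 : 0 ≤ C1) (ha0 : 0 ≤ a)
    (ha1 : a < 1) (hA1 : 1 ≤ A) (hAa : A < 1 + a) :
    Ab A (fun S Q => K * (C1 * S ^ (1 - a) / Q) *
      ((S + Q) * prof a S Q / ((Q : ℝ) + 2) ^ 2)) := by
  intro c hc
  obtain ⟨S0, _, h⟩ := CrsH757.crs_absorb (ε := 1 / 200) K C1 hK hC1 ha0 ha1 hA1 hAa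
    (by norm_num) hc
  exact ⟨S0, fun S hS Q hQ => h S hS Q (by linarith)⟩

/-- the margin at `Q` and at `Q + 3` -/
theorem margin_shift {A S : ℝ} (hA1 : 1 ≤ A) (hA2 : A ≤ 2) (hS : 400 ≤ S) (Q : ℕ) :
    prof A S Q / (S + Q) ≤ 2 * (prof A S (Q + 3) / (S + Q + 3)) := by
  have hA : A < S + 1 := by linarith
  have hQ : (0 : ℝ) ≤ Q := Nat.cast_nonneg Q
  have h := prof_le_mul (by linarith : (0 : ℝ) ≤ S) (by linarith : (0 : ℝ) ≤ A) hA Q 3
    (by push_cast; linarith)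
  have hp := prof_pos (by linarith : (0 : ℝ) ≤ S) hA (Q + 3)
  have h1 : 1 + 2 * (((3 : ℕ) : ℝ) * A) / (S + Q + 1) ≤ 1 + 1 / 10 := by
    have : 2 * (((3 : ℕ) : ℝ) * A) / (S + Q + 1) ≤ 1 / 10 := by
      rw [div_le_div_iff₀ (by positivity) (by norm_num)]
      push_cast
      linarith
    linarith
  have h2 : prof A S Q ≤ 11 / 10 * prof A S (Q + 3) := by
    refine h.trans ?_
    have := mul_le_mul_of_nonneg_left h1 hp.le
    linarith
  rw [mul_div_assoc', div_le_div_iff₀ (by linarith) (by linarith)]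
  have h3 : S + Q + 3 ≤ 11 / 10 * (S + Q) := by linarith
  calc prof A S Q * (S + Q + 3) ≤ (11 / 10 * prof A S (Q + 3)) * (11 / 10 * (S + Q)) :=
        mul_le_mul h2 h3 (by linarith) (by positivity)
    _ ≤ 2 * prof A S (Q + 3) * (S + Q) := by
        have h4 : 0 ≤ prof A S (Q + 3) * (S + Q) := by positivity
        nlinarith

/-- from absorption at `Q` to the margin of `strong_red` at `Q + 3` -/
theorem Ab.margin {A : ℝ} (hA1 : 1 ≤ A) (hA2 : A ≤ 2) {g : ℝ → ℕ → ℝ} (hg : Ab A g) :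
    ∃ S0 : ℝ, ∀ S : ℝ, S0 ≤ S → ∀ Q : ℕ, S ≤ 100 * ((Q + 3 : ℕ) : ℝ) →
      g S Q ≤ A * prof A S (Q + 3) / (S + Q + 3) := by
  obtain ⟨S0, h⟩ := hg (1 / 2) (by norm_num)
  refine ⟨max S0 600, fun S hS Q hQ => ?_⟩
  have hS6 : 600 ≤ S := (le_max_right _ _).trans hS
  push_cast at hQ
  have h1 := h S ((le_max_left _ _).trans hS) Q (by linarith)
  have h2 := margin_shift hA1 hA2 (by linarith : 400 ≤ S) Q
  have hp := prof_pos (by linarith : (0 : ℝ) ≤ S) (by linarith : A < S + 1) (Q + 3)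
  have h3 : 0 ≤ prof A S (Q + 3) / (S + Q + 3) := by positivity
  calc g S Q ≤ 1 / 2 * (prof A S Q / (S + Q)) := h1
    _ ≤ 1 * (prof A S (Q + 3) / (S + Q + 3)) := by linarith
    _ ≤ A * (prof A S (Q + 3) / (S + Q + 3)) := mul_le_mul_of_nonneg_right hA1 h3
    _ = _ := by ring

end Crest.Agent.R340.SP735
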