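import Crest.Agent.R340.W1_725
import Crest.Agent.R340.CrsY_874
import Crest.Agent.R340.Vac5_467

/-!
R340 (S0532), strong pass (helper725): the cross number of `Y` (input `hY` of `W0725.strong_move`) and
the vacuum scalar `s1` of `Str875.move_strong`.
-/

set_option autoImplicit false

open Matrix Finset MeasureTheory

namespace Crest.Agent.R340.W0725

open Crest.Agent.R340.Fock649 Crest.Agent.R340.Gam303 Crest.Agent.R340.Rot303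
open Crest.Agent.R340.Avg814 Crest.Agent.R340.CS809 Crest.Agent.R124.Haar
open Crest.Agent.R340.DomF735 Crest.Agent.R340.Scal725 Crest.Agent.R340.AvgG725
open Crest.Agent.R340.Geo986 Crest.Agent.R340.Peel596 Crest.Agent.R340.Conv102
open Crest.Agent.R340.Step596 Crest.Agent.R340.PathStep880 Crest.Agent.R340.Emb596
open Crest.Agent.R340.Defs150 Crest.Agent.R340.FX963 Crest.Agent.R340.Str875
open Crest.Agent.R340.Vac467 (IsRef vac_scalar)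
open Crest.Agent.R340.Str735 (Cls)
open Crest.Agent.R340.PV341 (Adm)
open scoped InnerProductSpace

noncomputable section

/-- `eY` -/
def eYc (KZ KRX KT KX A C : ℝ) (Q Q2 : ℕ) : ℝ :=
  3 * C * (560 * KZ * KT * (Q2 : ℝ) ^ A * (Q : ℝ) ^ (-(A + 3 / 2))) +
    48 * KRX * (KX / ((Q : ℝ) + 1) ^ 2) / (Q : ℝ) ^ 2

theorem abs_cr_YY_le {nW : ℕ} {KZ KRX KT KX A C : ℝ} (hRZ : RZ nW KZ) (hRX : RX nW KRX) {Q : ℕ}
    (hQ : 1 ≤ Q) {Q2 : ℕ} (h2 : 1 ≤ Q2) (hA0 : 0 ≤ A) (hA2 : A ≤ 3 / 2) (hKT : 0 ≤ KT)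
    (hC : 0 ≤ C) {T : G2 → Op (Fin (Q + 1))} (hTc : Continuous T)
    (hT : ∀ g, DyG nW Q (KT / ((Q : ℝ) + 1) ^ 2 * (1 + Q * tt g / Q2) ^ (-A)) g (T g))
    {YX : Op (Fin (Q + 1))} (hYX : Dy nW Q (KX / ((Q : ℝ) + 1) ^ 2) YX) {θ : ℝ}
    (hθ : θ ∈ Set.Ioc (0 : ℝ) 1) (k : ℕ) {ψ : Fk (Fin (Q + 1))}
    (hψ : ψ ∈ Zn (nuT (tA θ) Q) Q k) (h1 : ‖ψ‖ = 1) :
    |Str875.cr Q k θ (YY C Q T YX).ap ψ| ≤ eYc KZ KRX KT KX A C Q Q2 := by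
  have ht : Adm (tA θ) := adm_tA ⟨hθ.1.le, hθ.2⟩
  have hS : (1 : ℝ) ≤ Q2 := by exact_mod_cast h2
  have k1 := CrsY874.crs_T_le hRZ hQ ht k hS hA0 hA2 hKT hTc hT hψ
  have k2 := CrsY874.crs_Y_le hRX hQ ht k hYX hψ
  rw [h1, one_pow, mul_one] at k1 k2
  have e : Str875.cr Q k θ (YY C Q T YX).ap ψ =
      3 * C * crs (TT Q (gm 3 Q)) (Zn (nuT (tA θ) Q) Q k)
        (((Q : ℝ) + 1) • ∫ g, T g ∂hm : Op _).ap ψ +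
      crs (TT Q (gm 3 Q)) (Zn (nuT (tA θ) Q) Q k) YX.ap ψ := by
    unfold Str875.cr crs YY
    have e1 : (((3 * C : ℝ) : ℂ) • (((Q : ℝ) + 1) • ∫ g, T g ∂hm) + YX : Op (Fin (Q + 1))).ap ψ =
        ((3 * C : ℝ) : ℂ) • (((Q : ℝ) + 1) • ∫ g, T g ∂hm : Op (Fin (Q + 1))).ap ψ + YX.ap ψ := rfl
    rw [e1, map_add, map_smul, inner_add_right, inner_smul_right, Complex.add_re,
      Complex.re_ofReal_mul]
  rw [e]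
  refine (abs_add_le _ _).trans ?_
  unfold eYc
  rw [abs_mul, abs_of_nonneg (show (0 : ℝ) ≤ 3 * C by positivity)]
  exact add_le_add (mul_le_mul_of_nonneg_left k1 (by positivity)) k2

/-- **the vacuum scalar**: `s1` and the scalars of flux `Q + 3`. -/
theorem abs_s1_le {Q n0 : ℕ} (hn1 : 1 ≤ n0) (hn0 : Q = 3 * (n0 - 1)) {Φ : Fk (Fin (Q + 1))}
    (hΦ : IsRef (nu0 Q) Q n0 Φ) {Φ' : Fk (Fin (Q + 3 + 1))}
    (hΦ' : Φ' ∈ Zn (nu0 (Q + 3)) (Q + 3) (n0 + 1)) (hΦ1 : ‖Φ'‖ = 1) (s₀ : ℝ) (F : ℕ → ℝ)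
    (X : Op (Fin (Q + 3 + 1))) {δ η : ℝ}
    (hcomm : ‖c (Fin.last (Q + 3)) * X - X * c (Fin.last (Q + 3))‖ ≤ η)
    (hcross : ∀ ψ ∈ Zn (nu0 (Q + 3)) (Q + 3) (n0 + 1), ∀ φ ∈ Zn (nu0 (Q + 3)) (Q + 3) (n0 + 1),
      ‖⟪d (Fin.last (Q + 3)) (c (Fin.last (Q + 3)) ψ) -
          (Zn (nu0 (Q + 3)) (Q + 3) (n0 + 1)).starProjection
            (d (Fin.last (Q + 3)) (c (Fin.last (Q + 3)) ψ)),
        Dop (Q + 3) s₀ 3 F X φ⟫_ℂ‖ ≤ δ * ‖ψ‖ * ‖φ‖) :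
    |(3 * cs F (Q + 3) + (⟪Φ', X Φ'⟫_ℂ).re) - 3 * F (Q + 3) -
      s1 Q Φ F (cmp (ee (Nat.le_add_right Q 3)) X)| ≤ 3 * (δ + η) := by
  obtain ⟨u, hu1, hu2, hu3, hu4⟩ := exists_vac (flow_Gm 3 Q) hΦ.ne 1
  have hmem : Gm 3 Q 1 Φ ∈ Zn (nu0 (Q + 3)) Q n0 := by
    rw [← Zn_A, ← MZ_A]
    exact Submodule.mem_map_of_mem hΦ.mem_Zn
  have hn : 0 < ‖Gm 3 Q 1 Φ‖ := norm_pos_iff.2 ((flow_Gm 3 Q).ne_zero hΦ.ne 1)
  have hu : u ∈ Zn (nu0 (Q + 3)) Q n0 := by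
    have e : u = ((‖Gm 3 Q 1 Φ‖⁻¹ : ℝ) : ℂ) • Gm 3 Q 1 Φ := by
      rw [hu2, norm_smul, Complex.norm_real, norm_norm, hu1, mul_one, smul_smul,
        ← Complex.ofReal_mul, inv_mul_cancel₀ hn.ne', Complex.ofReal_one, one_smul]
    rw [e]
    exact Submodule.smul_mem _ _ hmem
  have h := vac_scalar hn1 hn0 hΦ' hΦ1 hu hu1 s₀ 3 F X hcomm hcross
  unfold s1
  rw [← hu4, ← hu4]
  exact h

end

end Crest.Agent.R340.W0725
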