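import Crest.Agent.R340.SPa_735
import Crest.Agent.R340.W2_725

/-!
# R340 / S0532: strong pass, the crude errors of the strong step are absorbed (helper735)
-/

set_option autoImplicit false
set_option linter.unusedSectionVars false

namespace Crest.Agent.R340.SP735

open Finset
open Crest.Agent.R340.Scal725
open Crest.Agent.R340.W0725 (eC C3 C3_pos eYc)
open Crest.Agent.R340.RecE735

/-- the size of the class: `e(S)` -/
noncomputable def eS (a A R CW KT KX : ℝ) (S : ℕ) : ℝ :=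
  4 * CW * KT * (C3 a A * (S * prof a R S)) + 2 * CW * KX

/-- constant of `e(S) ≤ C1 S^(1-a)` -/
noncomputable def c1 (a A R CW KT KX : ℝ) : ℝ :=
  4 * CW * KT * (C3 a A * (R + 1) ^ a) + 2 * CW * KX

variable {a A R CW KT KX : ℝ}

theorem c1_nonneg (ha0 : 0 < a) (ha1 : a < 1) (hA : 1 < A) (hR : 0 ≤ R) (hCW : 0 ≤ CW)
    (hKT : 0 ≤ KT) (hKX : 0 ≤ KX) : 0 ≤ c1 a A R CW KT KX := by
  have := (C3_pos ha0 ha1 hA).le
  unfold c1
  positivity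

theorem eS_nonneg (ha0 : 0 < a) (ha1 : a < 1) (hA : 1 < A) (hR : 0 ≤ R) (hCW : 0 ≤ CW)
    (hKT : 0 ≤ KT) (hKX : 0 ≤ KX) (S : ℕ) : 0 ≤ eS a A R CW KT KX S := by
  have := (C3_pos ha0 ha1 hA).le
  have := (prof_pos hR (by linarith : a < R + 1) S).le
  unfold eS
  positivity

theorem S_prof_le (ha0 : 0 < a) (ha1 : a < 1) (hR : 0 ≤ R) {S : ℕ} (hS : 1 ≤ S) :
    (S : ℝ) * prof a R S ≤ (R + 1) ^ a * (S : ℝ) ^ (1 - a) := by
  have hS0 : (0 : ℝ) < S := by exact_mod_cast hS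
  have h1 := prof_le_rpow hR ha0.le (by linarith : a < R + 1) S
  have h2 : ((R + 1) / (R + 1 + S)) ^ a ≤ ((R + 1) / S) ^ a := by
    apply Real.rpow_le_rpow (by positivity) _ ha0.le
    apply div_le_div_of_nonneg_left (by positivity) hS0
    linarith
  have h3 : ((R + 1) / (S : ℝ)) ^ a = (R + 1) ^ a * (S : ℝ) ^ (-a) := by
    rw [Real.div_rpow (by positivity) hS0.le, Real.rpow_neg hS0.le]
    rfl
  have h4 : (S : ℝ) ^ (1 - a) = S * (S : ℝ) ^ (-a) := by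
    rw [sub_eq_add_neg, Real.rpow_add hS0, Real.rpow_one]
  rw [h4]
  calc (S : ℝ) * prof a R S ≤ S * ((R + 1) ^ a * (S : ℝ) ^ (-a)) := by
        rw [← h3]
        exact mul_le_mul_of_nonneg_left (h1.trans h2) hS0.le
    _ = _ := by ring

theorem eS_le (ha0 : 0 < a) (ha1 : a < 1) (hA : 1 < A) (hR : 0 ≤ R) (hCW : 0 ≤ CW)
    (hKT : 0 ≤ KT) (hKX : 0 ≤ KX) {S : ℕ} (hS : 1 ≤ S) :
    eS a A R CW KT KX S ≤ c1 a A R CW KT KX * (S : ℝ) ^ (1 - a) := by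
  have h3 := (C3_pos ha0 ha1 hA).le
  have h1 := S_prof_le ha0 ha1 hR hS
  have hS1 : (1 : ℝ) ≤ S := by exact_mod_cast hS
  have h2 : (1 : ℝ) ≤ (S : ℝ) ^ (1 - a) := Real.one_le_rpow hS1 (by linarith)
  unfold eS c1
  have h4 : 4 * CW * KT * (C3 a A * (S * prof a R S)) ≤
      4 * CW * KT * (C3 a A * ((R + 1) ^ a * (S : ℝ) ^ (1 - a))) := by
    gcongr
  have h5 : 2 * CW * KX * 1 ≤ 2 * CW * KX * (S : ℝ) ^ (1 - a) := by
    gcongr
  calc 4 * CW * KT * (C3 a A * (S * prof a R S)) + 2 * CW * KX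
      ≤ 4 * CW * KT * (C3 a A * ((R + 1) ^ a * (S : ℝ) ^ (1 - a))) +
        2 * CW * KX * (S : ℝ) ^ (1 - a) := by linarith
    _ = _ := by ring

/-- the size of a ring cross term, see `CrsH_757` -/
noncomputable def cz (a : ℝ) (S : ℝ) (Q : ℕ) : ℝ := (S + Q) * prof a S Q / ((Q : ℝ) + 2) ^ 2

theorem cz_nonneg {S : ℝ} (hS : 0 ≤ S) (ha : a < S + 1) (Q : ℕ) : 0 ≤ cz a S Q := by
  have := (prof_pos hS ha Q).le
  unfold cz
  positivity

/-- term `eT` -/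
theorem eT_le (ha0 : 0 < a) (ha1 : a < 1) (hA : 1 < A) (hR : 0 ≤ R) (hCW : 0 ≤ CW)
    (hKT : 0 ≤ KT) (hKX : 0 ≤ KX) {S Q : ℕ} (hS : 1 ≤ S) (hQ : 1 ≤ Q) {C K : ℝ} (hC : 0 ≤ C)
    (hK : 0 ≤ K) :
    eC K a Q S (C * (eS a A R CW KT KX S / ((Q + 3 : ℕ) : ℝ))) ≤
      C * ((2952 * K / (1 - a)) * (c1 a A R CW KT KX * (S : ℝ) ^ (1 - a) / Q) * cz a S Q) := by
  have h1a : 0 < 1 - a := by linarith
  have hQ0 : (0 : ℝ) < Q := by exact_mod_cast hQ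
  have hcz := cz_nonneg (a := a) (Nat.cast_nonneg S) (by
    have : (0 : ℝ) ≤ S := Nat.cast_nonneg S
    linarith) Q
  have he := eS_le ha0 ha1 hA hR hCW hKT hKX hS
  have he0 := eS_nonneg ha0 ha1 hA hR hCW hKT hKX S
  have h1 : eS a A R CW KT KX S / ((Q + 3 : ℕ) : ℝ) ≤
      c1 a A R CW KT KX * (S : ℝ) ^ (1 - a) / Q := by
    apply div_le_div₀ (he0.trans he) he hQ0
    push_cast; linarith
  unfold eC
  have e1 : 984 * ((3 : ℕ) : ℝ) * K * (C * (eS a A R CW KT KX S / ((Q + 3 : ℕ) : ℝ))) / (1 - a) *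
      (((S : ℝ) + Q) * prof a S Q / ((Q : ℝ) + 2) ^ 2) =
      C * ((2952 * K / (1 - a)) * (eS a A R CW KT KX S / ((Q + 3 : ℕ) : ℝ)) * cz a S Q) := by
    unfold cz
    push_cast; ring
  rw [e1]
  gcongr

/-- term `eW` -/
theorem eW_le (ha0 : 0 < a) (ha1 : a < 1) (hA : 1 < A) (hR : 0 ≤ R) (hCW : 0 ≤ CW)
    (hKT : 0 ≤ KT) (hKX : 0 ≤ KX) {S Q : ℕ} (hS : 1 ≤ S) (hQ : 1 ≤ Q) {C K : ℝ} (hC : 1 ≤ C)
    (hK : 0 ≤ K) :
    eC K a Q S (3 * C * CW * (KT / ((Q : ℝ) + 1) ^ 2) * (C3 a A * (S * prof a R S)) +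
        CW * (KX / ((Q : ℝ) + 1) ^ 2)) ≤
      C * ((2952 * K / (1 - a)) * (c1 a A R CW KT KX * (S : ℝ) ^ (1 - a) / Q) * cz a S Q) := by
  have h1a : 0 < 1 - a := by linarith
  have hQ0 : (0 : ℝ) < Q := by exact_mod_cast hQ
  have hQ1 : (1 : ℝ) ≤ Q := by exact_mod_cast hQ
  have hcz := cz_nonneg (a := a) (Nat.cast_nonneg S) (by
    have : (0 : ℝ) ≤ S := Nat.cast_nonneg S
    linarith) Q
  have he := eS_le ha0 ha1 hA hR hCW hKT hKX hS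
  have he0 := eS_nonneg ha0 ha1 hA hR hCW hKT hKX S
  have h3 := (C3_pos ha0 ha1 hA).le
  have hpr := (prof_pos hR (by linarith : a < R + 1) S).le
  have h1 : 3 * C * CW * (KT / ((Q : ℝ) + 1) ^ 2) * (C3 a A * (S * prof a R S)) +
      CW * (KX / ((Q : ℝ) + 1) ^ 2) ≤ C * (eS a A R CW KT KX S / Q) := by
    have e1 : 3 * C * CW * (KT / ((Q : ℝ) + 1) ^ 2) * (C3 a A * (S * prof a R S)) +
      CW * (KX / ((Q : ℝ) + 1) ^ 2) =
      (3 * C * (CW * KT * (C3 a A * (S * prof a R S))) + CW * KX) / ((Q : ℝ) + 1) ^ 2 := by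
      field_simp
    rw [e1]
    have h4 : 3 * C * (CW * KT * (C3 a A * (S * prof a R S))) + CW * KX ≤
        C * eS a A R CW KT KX S := by
      unfold eS
      have h5 : 0 ≤ CW * KT * (C3 a A * (S * prof a R S)) := by positivity
      have h6 : 0 ≤ CW * KX := by positivity
      nlinarith [mul_nonneg (by linarith : 0 ≤ C - 1) h5, mul_nonneg (by linarith : 0 ≤ C - 1) h6]
    rw [mul_div_assoc']
    have h7 : 0 ≤ C * eS a A R CW KT KX S := by positivity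
    apply div_le_div₀ h7 h4 hQ0
    nlinarith
  have h2 : eS a A R CW KT KX S / Q ≤ c1 a A R CW KT KX * (S : ℝ) ^ (1 - a) / Q :=
    div_le_div_of_nonneg_right he hQ0.le
  have hC0 : 0 ≤ C := by linarith
  unfold eC
  set M := 3 * C * CW * (KT / ((Q : ℝ) + 1) ^ 2) * (C3 a A * (S * prof a R S)) +
      CW * (KX / ((Q : ℝ) + 1) ^ 2) with hM
  have e1 : 984 * ((3 : ℕ) : ℝ) * K * M / (1 - a) *
      (((S : ℝ) + Q) * prof a S Q / ((Q : ℝ) + 2) ^ 2) =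
      (2952 * K / (1 - a)) * M * cz a S Q := by
    unfold cz
    push_cast; ring
  rw [e1]
  calc (2952 * K / (1 - a)) * M * cz a S Q
      ≤ (2952 * K / (1 - a)) * (C * (c1 a A R CW KT KX * (S : ℝ) ^ (1 - a) / Q)) * cz a S Q := by
        have h8 : M ≤ C * (c1 a A R CW KT KX * (S : ℝ) ^ (1 - a) / Q) :=
          h1.trans (mul_le_mul_of_nonneg_left h2 hC0)
        gcongr
    _ = _ := by ring

/-- term `eY` -/
theorem eY_le {KZ KRX C : ℝ} (hKRX : 0 ≤ KRX) (hKX : 0 ≤ KX) (hC : 1 ≤ C) {S Q : ℕ}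
    (hQ : 1 ≤ Q) :
    eYc KZ KRX KT KX A C Q S ≤
      C * ((1680 * KZ * KT) * (S : ℝ) ^ A * (Q : ℝ) ^ (-(A + 3 / 2)) +
        (48 * KRX * KX) * (S : ℝ) ^ 0 / (Q : ℝ) ^ 4) := by
  have hQ0 : (0 : ℝ) < Q := by exact_mod_cast hQ
  have h1 : 48 * KRX * (KX / ((Q : ℝ) + 1) ^ 2) / (Q : ℝ) ^ 2 ≤
      (48 * KRX * KX) * (S : ℝ) ^ 0 / (Q : ℝ) ^ 4 := by
    rw [pow_zero, mul_one]
    have e : 48 * KRX * (KX / ((Q : ℝ) + 1) ^ 2) / (Q : ℝ) ^ 2 =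
        (48 * KRX * KX) / (((Q : ℝ) + 1) ^ 2 * (Q : ℝ) ^ 2) := by
      field_simp
    rw [e]
    apply div_le_div_of_nonneg_left (by positivity) (by positivity)
    have : (Q : ℝ) ^ 4 = (Q : ℝ) ^ 2 * (Q : ℝ) ^ 2 := by ring
    rw [this]
    gcongr
    linarith
  have h2 : 0 ≤ (48 * KRX * KX) * (S : ℝ) ^ 0 / (Q : ℝ) ^ 4 := by positivity
  unfold eYc
  nlinarith [mul_nonneg (by linarith : 0 ≤ C - 1) h2]

end Crest.Agent.R340.SP735
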