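import Crest.Agent.R340.Str4_875
import Crest.Agent.R340.Peel3F_924
import Crest.Agent.R340.RX4_735
import Crest.Agent.R340.Vac5_467
import Crest.Agent.R340.CrsY_874
import Crest.Agent.R340.StrR_735
import Crest.Agent.R340.W2_725

/-!
# R340, strong pass, operator side, part 5 (helper875): the STEP of `StrR735.strong_red`

* `cross_eX`, `lev_eX` : the inputs of one peeling level, `X` term as a free number;
* `vac_link`    : the vacuum scalar at the end of the path (467's `vac_scalar`);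
* `step_strong` : one step of the strong pass, all analytic inputs are the Props of Defs_150.
-/

set_option autoImplicit false
set_option linter.unusedSectionVars false

open scoped InnerProductSpace ComplexConjugate

namespace Crest.Agent.R340.Str875

open Finset MeasureTheory
open Crest.Agent.R340.PathStep880 Crest.Agent.R340.PeelX596
open Crest.Agent.R340.Fock649 Crest.Agent.R340.Emb596
open Crest.Agent.R340.Geo986 Crest.Agent.R340.Peel596 Crest.Agent.R340.Step596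
open Crest.Agent.R340.Peel3F924 (tC adm_tC tC_two Zn_C Lev triple_peel dd_prof_le cast_last
  cmp_ee_ee cmp_selfAdjoint)
open Crest.Agent.R340.Vac467 (IsRef isRef_of_Zn vac_scalar)
open Crest.Agent.R340.Scal725 (cs prof prof_pos dd)
open Crest.Agent.R340.Defs150
open Crest.Agent.R340.Avg814 (G2 hm tt)
open Crest.Agent.R340.W0725 (YY ep)
open Crest.Agent.R340.Str735 (Cls)
open Crest.Agent.R340.StrR735 (DS)

/-! ### 1. the cross term of one peeling level -/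

/-- **The cross term of the peeling step**, general profile, free number `eX` for the `X` term. -/
theorem cross_eX {Q : ℕ} (hQ : 2 ≤ Q) (Z : Submodule ℂ (Fk (Fin (Q + 1))))
    (hN : ∀ ψ ∈ Z, TT Q (fun _ => 1) ψ ∈ Z) (hL : ∀ ψ ∈ Z, TT Q (fun j => (j : ℝ)) ψ ∈ Z)
    {α R : ℝ} (hα0 : 0 ≤ α) (hα2 : α ≤ 2) (hαR : α ≤ R) (s a : ℝ) (ha : 0 ≤ a)
    (F : ℕ → ℝ) {M : ℝ} (hM : 0 ≤ M) (hF : ∀ p < Q - 1, |dd F p| ≤ M * dd (prof α R) p)
    (X : Op (Fin (Q + 1))) {CG eX m : ℝ} (hCG : 0 ≤ CG) (hm : 20 ≤ m)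
    (hG : RC2 Q Z CG m)
    (hX : ∀ ψ ∈ Z, ∀ φ ∈ Z,
      ‖⟪off Z (TT Q (kink (Q - 1)) ψ), off Z (X φ)⟫_ℂ‖ ≤ eX * (‖ψ‖ * ‖φ‖)) :
    ∀ ψ ∈ Z, ∀ φ ∈ Z,
      ‖⟪d (Fin.last Q) (c (Fin.last Q) ψ) -
          Z.starProjection (d (Fin.last Q) (c (Fin.last Q) ψ)),
        Dop Q s a F X φ⟫_ℂ‖ ≤
      (a * (M * (CG * (59049 * dd (prof α R) Q))) + eX) * ‖ψ‖ * ‖φ‖ := by
  intro ψ hψ φ hφ
  have hR : 0 ≤ R := hα0.trans hαR
  have hT : ∀ f g : ℕ → ℝ, (∀ j ≤ Q, f j = g j) → TT Q f = TT Q g := fun f g h => TT_congr h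
  rw [n_last_eq (by omega) ψ, ← off_apply, inner_off_left, ← inner_conj_symm, RCLike.norm_conj]
  have hD : off Z (Dop Q s a F X φ) =
      -(((a : ℝ) : ℂ) • off Z (TT Q F φ)) - off Z (X φ) := by
    rw [PeelX596.Dop_ap, map_sub, map_sub, map_smul, map_smul, off_of_mem hφ, smul_zero, zero_sub]
  rw [hD, inner_sub_left, inner_neg_left]
  refine (norm_sub_le _ _).trans ?_
  rw [norm_neg]
  have hkk : Q - 1 = (Q - 2) + 1 := by omega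
  -- the radial part
  have h1 : ‖⟪((a : ℝ) : ℂ) • off Z (TT Q F φ), off Z (TT Q (kink (Q - 1)) ψ)⟫_ℂ‖ ≤
      a * (M * (CG * (59049 * dd (prof α R) Q))) * (‖ψ‖ * ‖φ‖) := by
    rw [inner_smul_left, norm_mul, Complex.conj_ofReal, Complex.norm_real,
      Real.norm_of_nonneg ha, mul_assoc]
    apply mul_le_mul_of_nonneg_left _ ha
    rw [off_eq_sum (TT Q) hT Z (hN φ hφ) (hL φ hφ) F, sum_inner]
    refine (norm_sum_le _ _).trans ?_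
    have h2 : ∀ p ∈ range (Q - 1), ‖⟪((dd F p : ℝ) : ℂ) •
        off Z (TT Q (kink (p + 1)) φ), off Z (TT Q (kink (Q - 1)) ψ)⟫_ℂ‖ ≤
        dd (prof α R) p * ((PSD716.dd Q p * √(PSD716.dd Q p)) *
          (1 + PSD716.DD Q p (Q - 2)) ^ (-m)) * (M * (CG * (‖ψ‖ * ‖φ‖))) := by
      intro p hp
      have hp' := mem_range.1 hp
      rw [inner_smul_left, norm_mul, Complex.conj_ofReal, Complex.norm_real, Real.norm_eq_abs]
      have h3 := hG φ hφ ψ hψ p hp' (Q - 2) (by omega)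
      rw [← hkk] at h3
      have h4 : 0 ≤ CG * (PSD716.dd Q p * √(PSD716.dd Q p)) *
            (1 + PSD716.DD Q p (Q - 2)) ^ (-m) * (‖φ‖ * ‖ψ‖) := (norm_nonneg _).trans h3
      calc |dd F p| * ‖⟪off Z (TT Q (kink (p + 1)) φ), off Z (TT Q (kink (Q - 1)) ψ)⟫_ℂ‖
          ≤ (M * dd (prof α R) p) * (CG * (PSD716.dd Q p * √(PSD716.dd Q p)) *
            (1 + PSD716.DD Q p (Q - 2)) ^ (-m) * (‖φ‖ * ‖ψ‖)) :=
            mul_le_mul (hF p hp') h3 (norm_nonneg _) ((abs_nonneg _).trans (hF p hp'))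
        _ = _ := by ring
    refine (sum_le_sum h2).trans ?_
    rw [← sum_mul]
    have h4 := sum_peel hα0 hα2 hαR hQ hm
    calc _ ≤ 59049 * dd (prof α R) Q * (M * (CG * (‖ψ‖ * ‖φ‖))) :=
          mul_le_mul_of_nonneg_right h4 (by positivity)
      _ = _ := by ring
  -- the `X` part
  have h5 : ‖⟪off Z (X φ), off Z (TT Q (kink (Q - 1)) ψ)⟫_ℂ‖ ≤ eX * (‖ψ‖ * ‖φ‖) := by
    rw [← inner_conj_symm, RCLike.norm_conj]
    exact hX ψ hψ φ hφ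
  calc _ ≤ a * (M * (CG * (59049 * dd (prof α R) Q))) * (‖ψ‖ * ‖φ‖) +
        eX * (‖ψ‖ * ‖φ‖) := add_le_add h1 h5
    _ = _ := by ring

/-! ### 2. the levels of the triple peel -/

theorem Dy_mono_exp {n n' Q : ℕ} {C : ℝ} {X : Op (Fin (Q + 1))} (h : Dy n Q C X) (hn : n' ≤ n) :
    Dy n' Q C X := ⟨h.1, h.2.mono_exp hn⟩

/-- error of the cross terms -/
noncomputable def eD (M K1 K3 A S : ℝ) (Q : ℕ) : ℝ :=
  3 * (M * (K1 * (59049 * dd (prof A S) (Q + 1)))) + 162 * K3 * (((Q : ℝ) + 1) ^ 4)⁻¹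

/-- error of the commutators -/
noncomputable def eN (Q : ℕ) : ℝ := 512 * (((Q : ℝ) + 1) ^ 4)⁻¹

/-- one level: round metric of flux `Q + 3` on the orbitals `≤ Q'`, `Q' + r = Q + 3`, `r ≤ 2` -/
theorem lev_eX {Q Q' r n nW nS : ℕ} (hr : r ≤ 2) (hQ1 : 1 ≤ Q) (hQ' : Q' + r = Q + 3)
    {A S : ℝ} (hA0 : 0 ≤ A) (hA2 : A ≤ 2) (hAS : A ≤ S) (s : ℝ)
    (F : ℕ → ℝ) {M : ℝ} (hM : 0 ≤ M) (hF : ∀ p < Q + 2, |dd F p| ≤ M * dd (prof A S) p)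
    {X : Op (Fin (Q' + 1))} {K1 K3 κ : ℝ} (hRC : RC K1) (hRZ : RZ nW K3) (hGZ : GZ κ)
    (hnW : nW ≤ nS) (hnS : 8 ≤ nS) (hX : Dy nS Q' 1 X) :
    Lev (nu0 (Q + 3)) Q' n s 3 F X κ (eD M K1 K3 A S Q) (eN Q) := by
  have e := Zn_C Q' r n (by omega)
  rw [hQ'] at e
  have hQQ : Q + 1 ≤ Q' := by omega
  have hQQr : (Q : ℝ) + 1 ≤ Q' := by exact_mod_cast hQQ
  refine ⟨?_, ?_, ?_⟩
  · rw [← e]
    obtain ⟨q, rfl⟩ : ∃ q, Q' = q + 1 := ⟨Q' - 1, by omega⟩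
    exact hGZ.2 _ (adm_tC r) (tC_two hr) q n
  · have h := (hX.2.mono_exp (show 2 * 4 ≤ nS by omega)).norm_lie_c_le (Fin.last Q')
    rw [cast_last, ← norm_neg, neg_sub] at h
    refine h.trans ?_
    unfold eN
    have h1 : (((Q' : ℝ) + 1) ^ 4)⁻¹ ≤ (((Q : ℝ) + 1) ^ 4)⁻¹ := by
      apply inv_anti₀ (by positivity)
      apply pow_le_pow_left₀ (by positivity)
      linarith
    rw [mul_one, div_eq_mul_inv]
    linarith
  · rw [← e]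
    have h := cross_eX (show 2 ≤ Q' by omega) (Zn (nuT (tC r) Q') Q' n)
      (fun ψ hψ => TT_one_mem_Zn hψ) (fun ψ hψ => TT_lin_mem_Zn hψ) hA0 hA2 hAS s 3 (by norm_num)
      F hM (fun p hp => hF p (by omega)) X (eX := 162 * K3 * (((Q' : ℝ) + 1) ^ 4)⁻¹) (m := 20)
      hRC.1 le_rfl (hRC.2 Q' (by omega) _ (adm_tC r) n)
      (fun ψ hψ φ hφ => RX4735.RX4 hRZ (by omega) (adm_tC r) n (Dy_mono_exp hX hnW) hψ hφ)
    intro ψ hψ φ hφ
    refine (h ψ hψ φ hφ).trans ?_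
    apply mul_le_mul_of_nonneg_right _ (norm_nonneg _)
    apply mul_le_mul_of_nonneg_right _ (norm_nonneg _)
    unfold eD
    apply add_le_add
    · have h1 := dd_prof_le (α := A) (R := S) hA0 hAS hQQ
      have h2 := hRC.1
      gcongr
    · have h1 : (((Q' : ℝ) + 1) ^ 4)⁻¹ ≤ (((Q : ℝ) + 1) ^ 4)⁻¹ := by
        apply inv_anti₀ (by positivity)
        apply pow_le_pow_left₀ (by positivity)
        linarith
      have h2 := hRZ.1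
      gcongr

/-! ### 3. the vacuum scalar -/

/-- the scalar `s1` at the end of the path against the scalars of flux `Q + 3` -/
theorem vac_link {Q n0 nW nS : ℕ} (hQ1 : 1 ≤ Q) (hn1 : 1 ≤ n0) (hn0 : Q = 3 * (n0 - 1))
    {Φ : Fk (Fin (Q + 1))} (hΦ : IsRef (nu0 Q) Q n0 Φ)
    {Φ' : Fk (Fin (Q + 3 + 1))} (hΦ' : IsRef (nu0 (Q + 3)) (Q + 3) (n0 + 1) Φ')
    {A S : ℝ} (hA0 : 0 ≤ A) (hA2 : A ≤ 2) (hAS : A ≤ S)
    (F : ℕ → ℝ) {M : ℝ} (hM : 0 ≤ M) (hF : ∀ p < Q + 2, |dd F p| ≤ M * dd (prof A S) p)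
    {X : Op (Fin (Q + 3 + 1))} {K1 K3 κ : ℝ} (hRC : RC K1) (hRZ : RZ nW K3) (hGZ : GZ κ)
    (hnW : nW ≤ nS) (hnS : 8 ≤ nS) (hX : Dy nS (Q + 3) 1 X) :
    |(3 * cs F (Q + 3) + (inner ℂ Φ' (X Φ')).re) - 3 * F (Q + 3) -
      s1 Q Φ F (cmp (ee (Nat.le_add_right Q 3)) X)| ≤ 3 * (eD M K1 K3 A S Q + eN Q) := by
  obtain ⟨u, hu1, _, hu3, hu4⟩ := exists_vac (flow_Gm 3 Q) hΦ.ne 1
  have hu : u ∈ Zn (nu0 (Q + 3)) Q n0 := by
    rw [← Zn_A, ← MZ_A, Zn_vac_eq_span hn0 hΦ, hu3]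
    exact Submodule.mem_span_singleton_self _
  have hL := lev_eX (r := 0) (n := n0 + 1) (by norm_num) hQ1 rfl hA0 hA2 hAS 0 F hM hF hRC hRZ hGZ
    hnW hnS hX
  have h := vac_scalar hn1 hn0 hΦ'.mem_Zn hΦ'.unit hu hu1 0 3 F X hL.comm hL.cross
  unfold s1
  rw [← hu4, ← hu4]
  exact h

/-! ### 4. the step -/

/-- the crude error of one step -/
noncomputable def crudeS (K1 K3 KR KT KX κ a A C e M : ℝ) (S Q : ℕ) : ℝ :=
  12 * eH K1 a S (C * (3 * e / ((Q + 3 : ℕ) : ℝ) ^ 2)) Q +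
  2 * (3 * C * (560 * K3 * KT * (S : ℝ) ^ A * (Q : ℝ) ^ (-(A + 3 / 2))) +
    48 * KR * (KX / ((Q : ℝ) + 1) ^ 2) / (Q : ℝ) ^ 2) +
  2 * (3 * eH K1 a S (C * (e / ((Q + 3 : ℕ) : ℝ))) Q) +
  (3 + 6 / κ) * (eD M K1 K3 A S Q + eN Q)

/-- `cmp` of the identity embedding -/
theorem cmp_refl {Q : ℕ} (X : Op (Fin (Q + 1))) : cmp (ee (le_refl Q)) X = X := by
  refine Op.ext fun ψ => ?_
  refine ext_inner_left ℂ fun φ => ?_
  have hid : ∀ ψ : Fk (Fin (Q + 1)), emb (ee (le_refl Q)) ψ = ψ := by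
    intro ψ
    have : (emb (ee (le_refl Q)) : Fk (Fin (Q + 1)) →L[ℂ] Fk (Fin (Q + 1))) =
        ContinuousLinearMap.id ℂ _ := by
      refine ContinuousLinearMap.ext fun ψ => ?_
      rw [fk_eq_sum ψ, map_sum, map_sum]
      refine Finset.sum_congr rfl fun S _ => ?_
      rw [map_smul, map_smul, emb_ket, ContinuousLinearMap.id_apply]
      congr 2
      ext i
      simp only [Finset.mem_map, RelEmbedding.coe_toEmbedding]
      constructor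
      · rintro ⟨j, hj, rfl⟩
        have : (ee (le_refl Q) j : Fin (Q + 1)) = j := Fin.ext rfl
        rw [this]; exact hj
      · intro hi
        exact ⟨i, hi, Fin.ext rfl⟩
    rw [this]; rfl
  rw [inner_cmp, hid, hid]

/-- **STEP of the strong pass** (735's `hstep`), all analytic inputs are the Props of Defs_150 and
the three facts on the profile `F = C prof A S - Ψ`. -/
theorem step_strong {nW nS : ℕ} {a A R0 CW θ0 K1 K3 KR κ KT KX R C e M : ℝ} (hRC : RC K1)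
    (hRZ : RZ nW K3) (hRX : RX nW KR) (hGZ : GZ κ) (hTZ : TZ nW A KT) (hTX : TX nS nW KX)
    (hWP : WP nW a R0 CW θ0) (hCW : 0 ≤ CW) (hθ0 : 0 ≤ θ0) (hKT : 0 < KT) (hKX : 0 < KX)
    (ha0 : 0 < a) (ha1 : a < 1) (hA : 1 < A) (hA2 : A ≤ 3 / 2) {S : ℕ} (hS2 : 2 ≤ S)
    (hR : R0 ≤ R) (hR0 : 0 ≤ R) (haR : a < R + 1) (hRS : R ≤ S) (hC : 0 < C) (he0 : 0 ≤ e)
    (he : 4 * CW * KT * (W0725.C3 a A * (S * prof a R S)) + 2 * CW * KX / C ≤ e)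
    (hnW : nW ≤ nS) (hnS : 8 ≤ nS) (hM : 0 ≤ M)
    {Q n : ℕ} (hQ3 : 3 ∣ Q) (hQ : 1 ≤ Q) (hn : 3 * n ≤ Q)
    {X : Op (Fin (Q + 3 + 1))} (hX : Dy nS (Q + 3) 1 X)
    {Φ : Fk (Fin (Q + 1))} (hΦ : IsVac Q Φ) {Φ' : Fk (Fin (Q + 3 + 1))} (hΦ' : IsVac (Q + 3) Φ')
    {Ψ : ℕ → ℝ} (hΨ : Cls (prof a S) (C * (e / ((Q + 3 : ℕ) : ℝ))) (Q + 3) Ψ)
    (hF : ∀ p < Q + 2, |dd (fun j => C * prof A S j - Ψ j) p| ≤ M * dd (prof A S) p)
    (hf1 : C * prof A S (Q + 3) - Ψ (Q + 3) ≤ C * prof A S (Q + 2) - Ψ (Q + 2))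
    (hf2 : C * prof A S (Q + 2) - Ψ (Q + 2) ≤ C * prof A S (Q + 1) - Ψ (Q + 1)) :
    ∃ eps : ℕ → ℝ, Cls (prof a S) (C * (3 * e / ((Q + 3 : ℕ) : ℝ) ^ 2)) Q eps ∧
      ∀ m1 m2,
        LB (nu0 Q) Q n (DS (fun j => C * prof A S j - (Ψ j + eps j))
          (inner ℂ Φ (cmp (ee (Nat.le_add_right Q 3)) X Φ)).re Q
          (cmp (ee (Nat.le_add_right Q 3)) X)) m1 →
        LB (nu0 Q) Q (n + 1) (DS (fun j => C * prof A S j - (Ψ j + eps j))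
          (inner ℂ Φ (cmp (ee (Nat.le_add_right Q 3)) X Φ)).re Q
          (cmp (ee (Nat.le_add_right Q 3)) X)) m2 →
        LB (nu0 (Q + 3)) (Q + 3) (n + 1) (DS (fun j => C * prof A S j - Ψ j)
          (inner ℂ Φ' (X Φ')).re (Q + 3) X)
          (min (m1 - 3 * ((C * prof A S (Q + 1) - Ψ (Q + 1)) -
              (C * prof A S (Q + 3) - Ψ (Q + 3))))
            (m2 + 3 * (C * prof A S (Q + 3) - Ψ (Q + 3))) -
              crudeS K1 K3 KR KT KX κ a A C e M S Q) := by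
  have hS1 : 1 ≤ S := by omega
  have hSr : (2 : ℝ) ≤ S := by exact_mod_cast hS2
  have hn0 : Q = 3 * (Q / 3 + 1 - 1) := by omega
  have hn1 : 1 ≤ Q / 3 + 1 := by omega
  have hRf : IsRef (nu0 Q) Q (Q / 3 + 1) Φ := isRef_of_Zn (posM_nu0 Q) hn0 hΦ.1 hΦ.2
  have hRf' : IsRef (nu0 (Q + 3)) (Q + 3) (Q / 3 + 1 + 1) Φ' := by
    refine isRef_of_Zn (posM_nu0 (Q + 3)) (by omega) ?_ hΦ'.2
    have h := hΦ'.1
    rwa [show (Q + 3) / 3 + 1 = Q / 3 + 1 + 1 by omega] at h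
  have hXQ : Dy nS Q 1 (cmp (ee (Nat.le_add_right Q 3)) X) := hX.cmp _
  refine ⟨ep a A Q S R S (3 * C * CW * (KT / ((Q : ℝ) + 1) ^ 2)) (CW * (KX / ((Q : ℝ) + 1) ^ 2)),
    W0725.Cls_ep' ha0 ha1 hA hQ hS1 hR0 haR hRS hC hCW hKT.le hKX.le he, fun m1 m2 hA1 hB1 => ?_⟩
  have hEY : ∀ T : G2 → Op (Fin (Q + 1)), Continuous T →
      (∀ g, DyG nW Q (KT / ((Q : ℝ) + 1) ^ 2 * (1 + Q * tt g / S) ^ (-A)) g (T g)) →
      ∀ YX : Op (Fin (Q + 1)), Dy nW Q (KX / ((Q : ℝ) + 1) ^ 2) YX →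
      ∀ θ' ∈ Set.Ioc (0 : ℝ) 1, ∀ k, ∀ ψ ∈ Zn (nuT (tA θ') Q) Q k, ‖ψ‖ = 1 →
        |cr Q k θ' (YY C Q T YX).ap ψ| ≤ W0725.eYc K3 KR KT KX A C Q S :=
    fun T hTc hT YX hYX θ' hθ' k ψ hψ h1 =>
      W0725.abs_cr_YY_le hRZ hRX hQ hS1 (by linarith) hA2 hKT.le hC.le hTc hT hYX hθ' k hψ h1
  have mvA := move_full hRC hTZ hTX hWP hCW hθ0 hKT hKX ha0 ha1 hA hS2 hR hR0 haR hRS hC he0 he hQ
    hn1 hn0 (n := n) (by omega) hRf hΨ hXQ hEY m1 hA1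
  have mvB := move_full hRC hTZ hTX hWP hCW hθ0 hKT hKX ha0 ha1 hA hS2 hR hR0 haR hRS hC he0 he hQ
    hn1 hn0 (n := n + 1) (by omega) hRf hΨ hXQ hEY m2 hB1
  -- the three levels
  have hAS : A ≤ S := by linarith
  set F : ℕ → ℝ := fun j => C * prof A S j - Ψ j with hFdef
  set s : ℝ := 3 * cs F (Q + 3) + (inner ℂ Φ' (X Φ')).re with hs
  have lev : ∀ r ≤ 2, ∀ Q' (h : Q' ≤ Q + 3), Q' + r = Q + 3 →
      Lev (nu0 (Q + 3)) Q' (n + 1) s 3 F (cmp (ee h) X) κ (eD M K1 K3 A S Q) (eN Q) :=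
    fun r hr Q' h hQ' => lev_eX hr hQ hQ' (by linarith) (by linarith) hAS s F hM hF hRC hRZ hGZ
      hnW hnS (hX.cmp h)
  have hvl := vac_link hQ hn1 hn0 hRf hRf' (A := A) (S := S) (by linarith) (by linarith) hAS F hM hF
    hRC hRZ hGZ hnW hnS hX
  rw [← hs] at hvl
  obtain ⟨q, rfl⟩ : ∃ q, Q = q + 2 := ⟨Q - 2, by omega⟩
  have hδ : 0 ≤ eD M K1 K3 A S (q + 2) := by
    have h1 := hRC.1
    have h2 := hRZ.1
    have h3 : 0 ≤ dd (prof A S) (q + 2 + 1) :=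
      Scal725.dd_prof_nonneg (by linarith) (by linarith) (by linarith) _
    unfold eD
    positivity
  have l0 := lev 0 (by omega) (q + 2 + 3) le_rfl rfl
  rw [cmp_refl] at l0
  have tp := triple_peel (posM_nu0 (q + 5)) s (s1 (q + 2) Φ F
      (cmp (ee (Nat.le_add_right (q + 2) 3)) X)) 3 (by norm_num) F hf1 hf2 X hX.1 κ _ _ _ _ hGZ.1 hδ
    l0 (lev 1 (by omega) (q + 4) (by omega) (by omega))
    (lev 2 (by omega) (q + 3) (by omega) (by omega)) mvA mvB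
  have hκ := hGZ.1
  refine LB.mono tp ?_
  set E0 : ℝ := eD M K1 K3 A S (q + 2) + eN (q + 2) with hE0
  have hv := (abs_le.1 hvl).1
  set Em : ℝ := 12 * eH K1 a S (C * (3 * e / ((q + 2 + 3 : ℕ) : ℝ) ^ 2)) (q + 2) +
    2 * W0725.eYc K3 KR KT KX A C (q + 2) S +
    2 * (3 * eH K1 a S (C * (e / ((q + 2 + 3 : ℕ) : ℝ))) (q + 2)) with hEm
  have hcr : crudeS K1 K3 KR KT KX κ a A C e M S (q + 2) = Em + (3 + 6 / κ) * E0 := by
    rw [hEm, hE0]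
    unfold crudeS W0725.eYc
    ring
  have e6 : (3 + 6 / κ) * E0 = 3 * E0 + 3 * (2 * (E0 / κ)) := by
    field_simp
    ring
  rw [hcr, e6]
  have hF1 : C * prof A S (q + 2 + 1) - Ψ (q + 2 + 1) = F (q + 3) := rfl
  have hF3 : C * prof A S (q + 2 + 3) - Ψ (q + 2 + 3) = F (q + 5) := rfl
  rw [hF1, hF3]
  have i1 : min (m1 - 3 * (F (q + 3) - F (q + 5))) (m2 + 3 * F (q + 5)) ≤
      m1 - 3 * (F (q + 3) - F (q + 5)) := min_le_left _ _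
  have i2 : min (m1 - 3 * (F (q + 3) - F (q + 5))) (m2 + 3 * F (q + 5)) ≤
      m2 + 3 * F (q + 5) := min_le_right _ _
  have hv' : -(3 * E0) ≤ s - 3 * F (q + 5) -
      s1 (q + 2) Φ F (cmp (ee (Nat.le_add_right (q + 2) 3)) X) := hv
  have i3 : min (m1 - 3 * (F (q + 3) - F (q + 5))) (m2 + 3 * F (q + 5)) - Em - 3 * E0 ≤
      min (m1 - Em + (s - 3 * F (q + 5) -
          s1 (q + 2) Φ F (cmp (ee (Nat.le_add_right (q + 2) 3)) X)) - 3 * (F (q + 3) - F (q + 5)))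
        (m2 - Em + (s - s1 (q + 2) Φ F (cmp (ee (Nat.le_add_right (q + 2) 3)) X))) :=
    le_min (by linarith) (by linarith)
  linarith

end Crest.Agent.R340.Str875
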