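import Crest.Agent.R340.SPb_735
import Crest.Agent.R340.Str5_875

/-!
# R340 / S0532: strong pass, `hcr` for 875's crude error (helper735)
-/

set_option autoImplicit false
set_option linter.unusedSectionVars false

namespace Crest.Agent.R340.SP735

open Finset
open Crest.Agent.R340.Scal725
open Crest.Agent.R340.W0725 (eC C3 C3_pos eYc)
open Crest.Agent.R340.Str875 (eH eD eN crudeS)
open Crest.Agent.R340.RecE735

variable {a A R CW KT KX : ℝ}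

/-- the majorant of `crudeS / C` -/
noncomputable def gC (a A R CW KT KX K1 K3 KR κ : ℝ) (S : ℝ) (Q : ℕ) : ℝ :=
  18 * ((2952 * K1 / (1 - a)) * (c1 a A R CW KT KX * S ^ (1 - a) / Q) *
      ((S + Q) * prof a S Q / ((Q : ℝ) + 2) ^ 2)) +
    (2 * ((1680 * K3 * KT) * S ^ A * (Q : ℝ) ^ (-(A + 3 / 2))) +
      (2 * ((48 * KR * KX) * S ^ 0 / (Q : ℝ) ^ 4) +
        ((3 + 6 / κ) * ((354294 * K1) * dd (prof A S) Q) +
          (3 + 6 / κ) * ((162 * K3 + 512) * S ^ 0 / (Q : ℝ) ^ 4))))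

theorem Ab_gC (ha0 : 0 < a) (ha1 : a < 1) (hA : 1 < A) (_hA2 : A ≤ 3 / 2) (hAa : A < 1 + a)
    (hR : 0 ≤ R) (hCW : 0 ≤ CW) (hKT : 0 ≤ KT) (hKX : 0 ≤ KX) {K1 K3 KR κ : ℝ} (hK1 : 0 ≤ K1)
    (hκ : 0 < κ) : Ab A (gC a A R CW KT KX K1 K3 KR κ) := by
  have h1a : 0 < 1 - a := by linarith
  have hc1 := c1_nonneg (R := R) ha0 ha1 hA hR hCW hKT hKX
  have hk : 0 ≤ 3 + 6 / κ := by positivity
  have t1 := (ab_crs (A := A) (a := a) (2952 * K1 / (1 - a)) (c1 a A R CW KT KX) (by positivity)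
    hc1 ha0.le ha1 hA.le hAa).smul (show (0 : ℝ) ≤ 18 by norm_num)
  have t2 := (ab_pow (A := A) (p := A) (q := A + 3 / 2) (1680 * K3 * KT) hA.le (by linarith)
    (by linarith)).smul (show (0 : ℝ) ≤ 2 by norm_num)
  have t3 := (ab_npow (A := A) (p := 0) (q := 4) (48 * KR * KX) hA.le
    (by push_cast; linarith) (by norm_num)).smul (show (0 : ℝ) ≤ 2 by norm_num)
  have t4 := (ab_dd (A := A) (M := 354294 * K1) (by positivity) hA.le (by linarith)).smul hk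
  have t5 := (ab_npow (A := A) (p := 0) (q := 4) (162 * K3 + 512) hA.le
    (by push_cast; linarith) (by norm_num)).smul hk
  exact t1.add (t2.add (t3.add (t4.add t5)))

theorem eH_first_le {K1 S M : ℝ} {Q : ℕ} (ha1 : a < 1) (hK1 : 0 ≤ K1) (hM : 0 ≤ M)
    (hS : 0 ≤ S) (haS : a < S + 1) :
    eH K1 a S (M * (3 / ((Q + 3 : ℕ) : ℝ))) Q ≤ eH K1 a S M Q := by
  have h1a : 0 < 1 - a := by linarith
  have hp := (prof_pos hS haS Q).le
  have h3 : (3 : ℝ) / ((Q + 3 : ℕ) : ℝ) ≤ 1 := by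
    rw [div_le_one (by positivity)]
    push_cast
    linarith [(Nat.cast_nonneg Q : (0 : ℝ) ≤ Q)]
  have h4 : M * (3 / ((Q + 3 : ℕ) : ℝ)) ≤ M := by
    have := mul_le_mul_of_nonneg_left h3 hM
    linarith
  unfold eH
  gcongr

/-- **the crude error is at most `C gC`** -/
theorem crudeS_le (ha0 : 0 < a) (ha1 : a < 1) (hA : 1 < A) (hR : 0 ≤ R) (hCW : 0 ≤ CW)
    (hKT : 0 ≤ KT) (hKX : 0 ≤ KX) {K1 K3 KR κ C : ℝ} (hK1 : 0 ≤ K1) (hK3 : 0 ≤ K3)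
    (hKR : 0 ≤ KR) (hκ : 0 < κ) (hC : 1 ≤ C) {S Q : ℕ} (hSA : A < S) (hQ : 1 ≤ Q) :
    crudeS K1 K3 KR KT KX κ a A C (eS a A R CW KT KX S) (2 * C) S Q ≤
      C * gC a A R CW KT KX K1 K3 KR κ S Q := by
  have hS0 : (0 : ℝ) < S := by linarith
  have hS : 1 ≤ S := by
    have : 0 < S := by exact_mod_cast hS0
    omega
  have hQ0 : (0 : ℝ) < Q := by exact_mod_cast hQ
  have hC0 : 0 ≤ C := by linarith
  have he0 := eS_nonneg (R := R) ha0 ha1 hA hR hCW hKT hKX S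
  set e := eS a A R CW KT KX S with hedef
  -- the two ring terms
  have hT : eH K1 a S (C * (e / ((Q + 3 : ℕ) : ℝ))) Q ≤
      C * ((2952 * K1 / (1 - a)) * (c1 a A R CW KT KX * (S : ℝ) ^ (1 - a) / Q) * cz a S Q) :=
    eT_le ha0 ha1 hA hR hCW hKT hKX hS hQ hC0 hK1
  have hW : eH K1 a S (C * (3 * e / ((Q + 3 : ℕ) : ℝ) ^ 2)) Q ≤
      eH K1 a S (C * (e / ((Q + 3 : ℕ) : ℝ))) Q := by
    have h := eH_first_le (a := a) (K1 := K1) (S := (S : ℝ)) (Q := Q)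
      (M := C * (e / ((Q + 3 : ℕ) : ℝ))) ha1 hK1 (by positivity) hS0.le (by linarith)
    have e1 : C * (3 * e / ((Q + 3 : ℕ) : ℝ) ^ 2) =
        C * (e / ((Q + 3 : ℕ) : ℝ)) * (3 / ((Q + 3 : ℕ) : ℝ)) := by
      field_simp
    rw [e1]
    exact h
  -- the `Y` term
  have hY := eY_le (A := A) (KT := KT) (KZ := K3) (KRX := KR) (C := C) hKR hKX hC (S := S) hQ
  unfold eYc at hY
  -- the peeling terms
  have hdd : dd (prof A S) (Q + 1) ≤ dd (prof A S) Q :=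
    Scal725.dd_prof_antitone hS0.le (by linarith) (by linarith) (Nat.le_succ Q)
  have hd0 := Scal725.dd_prof_nonneg hS0.le (by linarith : (0 : ℝ) ≤ A) (by linarith) (Q + 1)
  have h4 : (((Q : ℝ) + 1) ^ 4)⁻¹ ≤ 1 / (Q : ℝ) ^ 4 := by
    rw [← one_div]
    apply div_le_div_of_nonneg_left (by norm_num) (by positivity)
    apply pow_le_pow_left₀ hQ0.le
    linarith
  have hP : eD (2 * C) K1 K3 A S Q + eN Q ≤
      C * ((354294 * K1) * dd (prof A S) Q + (162 * K3 + 512) * (S : ℝ) ^ 0 / (Q : ℝ) ^ 4) := by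
    unfold eD eN
    have g1 : 3 * (2 * C * (K1 * (59049 * dd (prof A S) (Q + 1)))) ≤
        C * ((354294 * K1) * dd (prof A S) Q) := by
      have : 0 ≤ C * (354294 * K1) := by positivity
      have := mul_le_mul_of_nonneg_left hdd this
      linarith
    have g2 : 162 * K3 * (((Q : ℝ) + 1) ^ 4)⁻¹ + 512 * (((Q : ℝ) + 1) ^ 4)⁻¹ ≤
        1 * ((162 * K3 + 512) * (S : ℝ) ^ 0 / (Q : ℝ) ^ 4) := by
      have h5 : 0 ≤ 162 * K3 + 512 := by positivity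
      have := mul_le_mul_of_nonneg_left h4 h5
      rw [pow_zero, mul_one, one_mul]
      calc _ = (162 * K3 + 512) * (((Q : ℝ) + 1) ^ 4)⁻¹ := by ring
        _ ≤ (162 * K3 + 512) * (1 / (Q : ℝ) ^ 4) := this
        _ = _ := by ring
    have g3 : 1 * ((162 * K3 + 512) * (S : ℝ) ^ 0 / (Q : ℝ) ^ 4) ≤
        C * ((162 * K3 + 512) * (S : ℝ) ^ 0 / (Q : ℝ) ^ 4) := by
      apply mul_le_mul_of_nonneg_right hC
      positivity
    linarith
  have hk : 0 ≤ 3 + 6 / κ := by positivity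
  have hP' := mul_le_mul_of_nonneg_left hP hk
  unfold crudeS gC
  unfold cz at hT
  linarith

/-- **hcr** -/
theorem hcr (ha0 : 0 < a) (ha1 : a < 1) (hA : 1 < A) (hA2 : A ≤ 3 / 2) (hAa : A < 1 + a)
    (hR : 0 ≤ R) (hCW : 0 ≤ CW)
    (hKT : 0 ≤ KT) (hKX : 0 ≤ KX) {K1 K3 KR κ : ℝ} (hK1 : 0 ≤ K1) (hK3 : 0 ≤ K3)
    (hKR : 0 ≤ KR) (hκ : 0 < κ) :
    ∃ S0 : ℝ, ∀ S : ℕ, S0 ≤ S → ∀ C : ℝ, 1 ≤ C → ∀ Q : ℕ, (S : ℝ) ≤ 100 * ((Q + 3 : ℕ) : ℝ) →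
      crudeS K1 K3 KR KT KX κ a A C (eS a A R CW KT KX S) (2 * C) S Q ≤
        C * (A * prof A S (Q + 3) / (S + Q + 3)) := by
  obtain ⟨S0, h⟩ := (Ab_gC (K1 := K1) (K3 := K3) (KR := KR) (κ := κ) ha0 ha1 hA hA2 hAa hR hCW hKT
    hKX hK1 hκ).margin hA.le (by linarith)
  refine ⟨max S0 600, fun S hS C hC Q hQ => ?_⟩
  have hS6 : (600 : ℝ) ≤ S := (le_max_right _ _).trans hS
  have hQ1 : 1 ≤ Q := by
    have : (1 : ℝ) ≤ Q := by
      push_cast at hQ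
      linarith
    exact_mod_cast this
  refine (crudeS_le ha0 ha1 hA hR hCW hKT hKX hK1 hK3 hKR hκ hC (by linarith) hQ1).trans ?_
  exact mul_le_mul_of_nonneg_left (h S ((le_max_left _ _).trans hS) Q hQ) (by linarith)

end Crest.Agent.R340.SP735
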