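import Crest.Agent.R340.SP_735
import Crest.Agent.R340.LR11_667
import Crest.Agent.R340.GeoD_986
import Crest.Agent.R340.TX3_880
import Crest.Agent.R340.WPF_788

/-!
# R340 / S0532: the strong pass from the gap and (TZ) (helper735)
-/

set_option autoImplicit false

namespace Crest.Agent.R340.SP735

open Crest.Agent.R340.Defs150 Crest.Agent.R340.Geo986

/-- **SP** from the gap of all fluxes and (TZ). -/
theorem sp_final {γ : ℝ} (hγ : 0 < γ) (hG : ∀ Q : ℕ, GapG (nu0 Q) Q γ)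
    (hTZ : ∀ A : ℝ, 1 ≤ A → A ≤ 2 → ∃ K, TZ 24 A K) :
    ∃ A : ℝ, ∃ S : ℕ, ∃ CS : ℝ, 1 < A ∧ A ≤ 3 / 2 ∧ A < (S : ℝ) + 1 ∧ 0 ≤ CS ∧ SP 40 A S CS := by
  obtain ⟨⟨K1, hRC⟩, hRX', hRZ'⟩ := LR667.exists_RC_RX_RZ hγ hG
  obtain ⟨KR, hRX⟩ := hRX' 24 (by norm_num)
  obtain ⟨K3, hRZ⟩ := hRZ' 24 (by norm_num)
  obtain ⟨κ, hκ, _, hκ'⟩ := G0_sector hγ
  have hGZ : GZ κ := ⟨hκ, hκ' hG⟩
  obtain ⟨KX, hTX⟩ := TX880.exists_TX_40_24 hγ hG
  obtain ⟨a0, ha0, hW⟩ := K1in788.WP_RC (nW := 24) (by norm_num) hRC hRX hGZ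
  -- the exponents
  set a : ℝ := min a0 (1 / 100) with ha
  have ha1 : 0 < a := lt_min ha0 (by norm_num)
  have ha2 : a ≤ 1 / 100 := min_le_right _ _
  obtain ⟨R0, C0, hR0, hC0, hWP⟩ := hW a ha1 (min_le_left _ _)
  obtain ⟨KT, hTZ⟩ := hTZ (1 + a / 2) (by linarith) (by linarith)
  obtain ⟨S, hS, hSP⟩ := SP_of hRC hRX hRZ hGZ hTZ hTX (hWP C0 le_rfl) (by linarith) (by linarith)
    (by norm_num) ha1 (by linarith) (by linarith) (by linarith) (by linarith) (by norm_num)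
    (by norm_num)
  exact ⟨1 + a / 2, S, 40, by linarith, by linarith, hS, by norm_num, hSP 40 le_rfl⟩

end Crest.Agent.R340.SP735
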