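import Crest.Agent.R340.Str2_875
import Crest.Agent.R340.Defs_150
import Crest.Agent.R340.Conv5_102
import Crest.Agent.R340.AvgG_725
import Crest.Agent.R340.F5_725

/-!
# R340, strong pass, operator side, part 3 (helper875): the averaged weak estimate (W0)

From `Defs150.WP` (weak pass) to the hypothesis (W0) of `move_strong`, for
`Y = 3 C (Q+1) ∫ T g dg + Y_X`, `T g ∈ DyG nW Q (K/(Q+1)² (1+Q t/S)^(-A)) g`,
`Y_X ∈ Dy nW Q (K'/(Q+1)²)`: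
`|⟪ψ, Y ψ⟫ - ⟪Y⟫_vac ‖ψ‖²| ≤ hh (epsP ..) Q ψ`, `epsP = 3 C CW K/(Q+1)² Ph A Q S (prof a R) +
CW K'/(Q+1)² prof a S`.
-/

set_option autoImplicit false
set_option linter.unusedSectionVars false

open scoped InnerProductSpace

namespace Crest.Agent.R340.Str875

open Finset Matrix MeasureTheory
open Crest.Agent.R340.PathStep880
open Crest.Agent.R340.Fock649
open Crest.Agent.R340.Geo986 Crest.Agent.R340.Peel596 Crest.Agent.R340.Step596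
open Crest.Agent.R340.Vac467 (IsRef)
open Crest.Agent.R340.Scal725 (cs prof prof_pos)
open Crest.Agent.R340.DomF735 (dGf)
open Crest.Agent.R340.Defs150
open Crest.Agent.R340.FX963 (DY)
open Crest.Agent.R340.Rot303 (cj Rg)
open Crest.Agent.R340.Avg814 (G2 hm tt)
open Crest.Agent.R340.Conv102 (Ph)
open Crest.Agent.R124.Haar (integrable_of_cont)

/-! ### 1. from WP to the two-sided estimate on the class -/

theorem Dy_smul {n Q : ℕ} {C : ℝ} {X : Op (Fin (Q + 1))} (h : Dy n Q C X) (r : ℝ) :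
    Dy n Q (|r| * C) (((r : ℝ) : ℂ) • X) := by
  refine ⟨?_, ?_⟩
  · have h1 := h.1
    rw [IsSelfAdjoint] at h1 ⊢
    rw [star_smul, h1, Complex.star_def, Complex.conj_ofReal]
  · have h2 := h.2.smul ((r : ℝ) : ℂ)
    rw [Complex.norm_real, Real.norm_eq_abs] at h2
    exact h2

theorem Dy_mono {n Q : ℕ} {C C' : ℝ} {X : Op (Fin (Q + 1))} (h : Dy n Q C X) (hC : C ≤ C') :
    Dy n Q C' X := ⟨h.1, h.2.mono hC⟩

theorem re_inner_Dop' (Q : ℕ) (s a : ℝ) (f : ℕ → ℝ) (X : Op (Fin (Q + 1)))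
    (ψ : Fk (Fin (Q + 1))) :
    (inner ℂ ψ (Dop Q s a f X ψ)).re =
      s * ‖ψ‖ ^ 2 - a * (inner ℂ ψ (dGf f Q ψ)).re - (inner ℂ ψ (X ψ)).re := by
  have e : (Dop Q s a f X) ψ = (s : ℂ) • ψ - (a : ℂ) • dGf f Q ψ - X ψ := by
    unfold Dop
    rw [sub_ap, sub_ap, smul_ap, smul_ap, one_ap]
    rfl
  rw [e]
  simp only [inner_sub_right, inner_smul_right, Complex.sub_re, Complex.re_ofReal_mul]
  rw [re_inner_self]

theorem isVac_of_ref {Q : ℕ} {Φ : Fk (Fin (Q + 1))} (hΦ : IsRef (nu0 Q) Q (Q / 3 + 1) Φ) :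
    IsVac Q Φ := ⟨hΦ.mem_Zn, hΦ.unit⟩

/-- one-sided form for the class with constant `1` -/
theorem W_one {nW : ℕ} {a R0 CW θ : ℝ} (hWP : WP nW a R0 CW θ) (hθ : 0 ≤ θ) (hCW : 0 ≤ CW)
    {S : ℝ} (hS : R0 ≤ S) (hS0 : 0 ≤ S) (haS : a < S + 1)
    {Q n : ℕ} (h3 : 3 ∣ Q) (hn : 3 * n ≤ Q) {T : Op (Fin (Q + 1))} (hT : Dy nW Q 1 T)
    {Ω : Fk (Fin (Q + 1))} (hΩ : IsVac Q Ω) {ψ : Fk (Fin (Q + 1))} (hψ : ψ ∈ Zn (nu0 Q) Q n) :
    (inner ℂ ψ (T ψ)).re - (inner ℂ Ω (T Ω)).re * ‖ψ‖ ^ 2 ≤ CW * hh (prof a S) Q ψ := by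
  have h1 := hWP S hS Q n T Ω h3 hn hT hΩ ψ hψ
  have h2 : 0 ≤ θ * CW * ((Q : ℝ) + 3 - 3 * n) * prof a S Q * ‖ψ‖ ^ 2 := by
    have h4 : (0 : ℝ) ≤ (Q : ℝ) + 3 - 3 * n := by
      have : (3 : ℝ) * n ≤ Q := by exact_mod_cast hn
      linarith
    have h5 := (prof_pos hS0 haS Q).le
    positivity
  have h3 := re_inner_Dop' Q (3 * CW * cs (prof a S) Q + (inner ℂ Ω (T Ω)).re) (3 * CW) (prof a S)
    T ψ
  rw [h3] at h1
  unfold hh
  linarith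

/-- **two-sided (W) on the class** -/
theorem W_two {nW : ℕ} {a R0 CW θ : ℝ} (hWP : WP nW a R0 CW θ) (hθ : 0 ≤ θ) (hCW : 0 ≤ CW)
    {S : ℝ} (hS : R0 ≤ S) (hS0 : 0 ≤ S) (haS : a < S + 1)
    {Q n : ℕ} (h3 : 3 ∣ Q) (hn : 3 * n ≤ Q) {κ : ℝ} {T : Op (Fin (Q + 1))} (hT : Dy nW Q κ T)
    {Ω : Fk (Fin (Q + 1))} (hΩ : IsVac Q Ω) {ψ : Fk (Fin (Q + 1))} (hψ : ψ ∈ Zn (nu0 Q) Q n) :
    |(inner ℂ ψ (T ψ)).re - (inner ℂ Ω (T Ω)).re * ‖ψ‖ ^ 2| ≤ CW * κ * hh (prof a S) Q ψ := by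
  have hκ : 0 ≤ κ := hT.2.nonneg
  rcases hκ.eq_or_lt with h0 | hpos
  · have h1 : T = 0 := by
      have := hT.2.norm_le
      rw [← h0] at this
      exact norm_le_zero_iff.1 this
    rw [h1, ← h0, zero_ap, zero_ap, inner_zero_right, inner_zero_right]
    simp
  have key : ∀ r : ℝ, |r| = 1 → r * ((inner ℂ ψ (T ψ)).re - (inner ℂ Ω (T Ω)).re * ‖ψ‖ ^ 2) ≤
      CW * κ * hh (prof a S) Q ψ := by
    intro r hr
    have h1 : Dy nW Q 1 ((((r * κ⁻¹ : ℝ)) : ℂ) • T) := by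
      have h2 := Dy_smul hT (r * κ⁻¹)
      rw [abs_mul, hr, one_mul, abs_of_pos (inv_pos.2 hpos), inv_mul_cancel₀ hpos.ne'] at h2
      exact h2
    have h3 := W_one hWP hθ hCW hS hS0 haS h3 hn h1 hΩ hψ
    rw [smul_ap, smul_ap, inner_smul_right, inner_smul_right, Complex.re_ofReal_mul,
      Complex.re_ofReal_mul] at h3
    have h4 := mul_le_mul_of_nonneg_left h3 hκ
    have h5 : κ * (r * κ⁻¹ * (inner ℂ ψ (T ψ)).re - r * κ⁻¹ * (inner ℂ Ω (T Ω)).re * ‖ψ‖ ^ 2) =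
        r * ((inner ℂ ψ (T ψ)).re - (inner ℂ Ω (T Ω)).re * ‖ψ‖ ^ 2) := by
      field_simp
    rw [h5] at h4
    linarith
  rw [abs_le]
  constructor
  · have := key (-1) (by norm_num)
    linarith
  · have := key 1 (by norm_num)
    linarith

/-! ### 2. the average -/

/-- **(W0), radial part**: `Y = (Q+1) ∫ T g dg`. -/
theorem W_avg {nW : ℕ} {a R0 CW θ : ℝ} (hWP : WP nW a R0 CW θ) (hθ : 0 ≤ θ) (hCW : 0 ≤ CW)
    {R : ℝ} (hR : R0 ≤ R) (hR0 : 0 ≤ R) (haR : a < R + 1)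
    {Q n : ℕ} (h3 : 3 ∣ Q) (hn : 3 * n ≤ Q) {A K : ℝ} (hA : 0 ≤ A) {S : ℕ} (hS : 1 ≤ S)
    {T : G2 → Op (Fin (Q + 1))} (hTc : Continuous T)
    (hT : ∀ g, DyG nW Q (K / ((Q : ℝ) + 1) ^ 2 * (1 + Q * tt g / S) ^ (-A)) g (T g))
    {Φ : Fk (Fin (Q + 1))} (hΦ : IsRef (nu0 Q) Q (Q / 3 + 1) Φ) {ψ : Fk (Fin (Q + 1))}
    (hψ : ψ ∈ Zn (nu0 Q) Q n) :
    |(inner ℂ ψ ((((Q : ℝ) + 1) • ∫ g, T g ∂hm) ψ)).re -
        (inner ℂ Φ ((((Q : ℝ) + 1) • ∫ g, T g ∂hm) Φ)).re * ‖ψ‖ ^ 2| ≤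
      CW * (K / ((Q : ℝ) + 1) ^ 2) * hh (Ph A Q S (prof a R)) Q ψ := by
  have := AvgG725.secondCountable_G2
  have hQ3 : Q = 3 * (Q / 3 + 1 - 1) := by omega
  have hS0 : (0 : ℝ) < S := by exact_mod_cast hS
  have hb : ∀ g : G2, 0 < 1 + (Q : ℝ) * tt g / S := by
    intro g
    have := Avg814.tt_nonneg g
    positivity
  set s : G2 → ℝ := fun g => (1 + (Q : ℝ) * tt g / S) ^ (-A) with hs
  have hspos : ∀ g, 0 < s g := fun g => Real.rpow_pos_of_pos (hb g) _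
  have hsc : Continuous s := by
    have h1 : Continuous fun g : G2 => 1 + (Q : ℝ) * tt g / S := by
      have := Avg814.continuous_tt
      fun_prop
    exact h1.rpow_const fun g => Or.inl (hb g).ne'
  set Tt : G2 → Op (Fin (Q + 1)) := fun g => (((s g)⁻¹ : ℝ) : ℂ) • T g with hTt
  have hTtc : Continuous Tt :=
    (Complex.continuous_ofReal.comp (hsc.inv₀ fun g => (hspos g).ne')).smul hTc
  set t : G2 → ℝ := fun g => (inner ℂ Φ (Tt g Φ)).re with ht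
  have htc : Continuous t :=
    Complex.continuous_re.comp ((innerSL ℂ Φ).continuous.comp
      ((Avg814.evL Φ).continuous.comp hTtc))
  set s' : G2 → ℝ := fun g => ((Q : ℝ) + 1) * s g with hs'
  have hs'c : Continuous s' := continuous_const.mul hsc
  have hW : ∀ g : G2, ∀ φ ∈ Zn (nu0 Q) Q n,
      |(inner ℂ φ (cj (g : Matrix (Fin 2) (Fin 2) ℂ)ᴴ (Tt g) φ) : ℂ).re - t g * ‖φ‖ ^ 2| ≤
        (CW * (K / ((Q : ℝ) + 1) ^ 2)) * AvgG725.hf (prof a R) Q φ := by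
    intro g φ hφ
    have h1 : Dy nW Q (K / ((Q : ℝ) + 1) ^ 2)
        (cj (g : Matrix (Fin 2) (Fin 2) ℂ)ᴴ (Tt g)) := by
      have h2 : cj (g : Matrix (Fin 2) (Fin 2) ℂ)ᴴ (Tt g) =
          (((s g)⁻¹ : ℝ) : ℂ) • cj (star (g : Matrix (Fin 2) (Fin 2) ℂ)) (T g) := by
        rw [hTt]
        unfold cj
        simp only [mul_smul_comm, smul_mul_assoc]
        rfl
      rw [h2]
      have h3 := Dy_smul (hT g) ((s g)⁻¹)
      rw [abs_of_pos (inv_pos.2 (hspos g))] at h3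
      refine Dy_mono h3 (le_of_eq ?_)
      rw [mul_comm (K / ((Q : ℝ) + 1) ^ 2), ← mul_assoc]
      have : (s g)⁻¹ * (1 + (Q : ℝ) * tt g / S) ^ (-A) = 1 := inv_mul_cancel₀ (hspos g).ne'
      rw [this, one_mul]
    have h4 := W_two hWP hθ hCW hR hR0 haR h3 hn h1 (isVac_of_ref hΦ) hφ
    have hg : (g : Matrix (Fin 2) (Fin 2) ℂ)ᴴ * ((g : Matrix (Fin 2) (Fin 2) ℂ)ᴴ)ᴴ = 1 := by
      rw [conjTranspose_conjTranspose]; exact AvgG725.g2_ct_mul g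
    rw [hΦ.inner_cj hQ3 hg] at h4
    exact h4
  have h := AvgG725.w_average (Z := Zn (nu0 Q) Q n)
    (fun g ψ hψ => F5725.star_Rg_mem_Zn n g hψ) hTtc (t := t) hW (s := s')
    (cw := fun g => Conv102.wt A Q S (tt g)) hs'c.aestronglyMeasurable
    (fun g => by
      rw [abs_of_pos (mul_pos (by positivity) (hspos g))]
      exact Conv102.le_wt hA hS (Avg814.tt_nonneg g) (Avg814.tt_le_one g))
    ((Conv102.continuous_wt A Q S).comp Avg814.continuous_tt)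
    (integrable_of_cont (hs'c.mul htc)) (Conv102.wt_dGf A Q S (prof a R))
    (Conv102.wt_cs A Q S (prof a R)) hψ
  have e1 : (∫ g : G2, ((s' g : ℝ) : ℂ) • Tt g ∂hm) = ((Q : ℝ) + 1) • ∫ g, T g ∂hm := by
    rw [← integral_smul]
    refine integral_congr_ae (Filter.Eventually.of_forall fun g => ?_)
    simp only [hs', hTt]
    rw [smul_smul, ← Complex.ofReal_mul, mul_assoc, mul_inv_cancel₀ (hspos g).ne', mul_one]
    exact Complex.coe_smul _ _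
  have hint : Integrable (fun g : G2 => ((s' g : ℝ) : ℂ) • Tt g) hm :=
    integrable_of_cont ((Complex.continuous_ofReal.comp hs'c).smul hTtc)
  have e2 : (∫ g, s' g * t g ∂hm) = (inner ℂ Φ ((((Q : ℝ) + 1) • ∫ g, T g ∂hm) Φ)).re := by
    rw [← e1, Avg814.re_inner_integral_ap hint]
    refine integral_congr_ae (Filter.Eventually.of_forall fun g => ?_)
    show s' g * (inner ℂ Φ (Tt g Φ)).re = (inner ℂ Φ ((((s' g : ℝ) : ℂ) • Tt g) Φ)).re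
    generalize Tt g = B
    rw [smul_ap, inner_smul_right, Complex.re_ofReal_mul]
  rw [e1, e2] at h
  exact h

end Crest.Agent.R340.Str875
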