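import Crest.Agent.R340.W0_725
import Crest.Agent.R340.CrsH_757

/-!
# R340, strong pass, operator side, part 4 (helper875): the absorption move with all inputs plugged

`move_full` : from `RC`, `TZ`, `TX`, `WP` and the bound `eY` for the cross number of
`YY = 3 C (Q+1) ∫ T + YX`, the move of `move_strong` for the profile `F = C prof A S - Ψ`,
`Ψ ∈ Cls (prof a S) (C e'/(Q+3))`, with the explicit profile `ep` of W0_725.
-/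

set_option autoImplicit false
set_option linter.unusedSectionVars false

open scoped InnerProductSpace

namespace Crest.Agent.R340.Str875

open Set MeasureTheory
open Crest.Agent.R340.PathStep880
open Crest.Agent.R340.Fock649
open Crest.Agent.R340.Geo986 Crest.Agent.R340.Peel596 Crest.Agent.R340.Step596
open Crest.Agent.R340.Vac467 (IsRef)
open Crest.Agent.R340.Scal725 (cs prof prof_pos dd)
open Crest.Agent.R340.Defs150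
open Crest.Agent.R340.Avg814 (G2 hm tt)
open Crest.Agent.R340.W0725 (YY ep star_YY W0 Cls_ep')
open Crest.Agent.R340.Str735 (Cls)
open Crest.Agent.R340.Conv102 (DD)

/-- the error of one cross number of a profile of class `M * prof a S` (CrsH_757, `b = 3`) -/
noncomputable def eH (K1 a S M : ℝ) (Q : ℕ) : ℝ :=
  984 * (3 : ℕ) * K1 * M / (1 - a) * ((S + Q) * prof a S Q / ((Q : ℝ) + 2) ^ 2)

/-- cross number of a profile of class `Cls (prof a S) M` -/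
theorem abs_cr_le {K1 : ℝ} (hRC : RC K1) {Q : ℕ} (hQ : 1 ≤ Q) {a S M : ℝ} (hM : 0 ≤ M)
    (ha0 : 0 ≤ a) (ha1 : a < 1) (hS : 0 ≤ S) {H : ℕ → ℝ} {Q' : ℕ} (hQ' : Q ≤ Q')
    (hH : Cls (prof a S) M Q' H) {θ : ℝ} (hθ : θ ∈ Icc (0 : ℝ) 1) (k : ℕ)
    {ψ : Fk (Fin (Q + 1))} (hψ : ψ ∈ Zn (nuT (tA θ) Q) Q k) (h1 : ‖ψ‖ = 1) :
    |cr Q k θ (TT Q H) ψ| ≤ eH K1 a S M Q := by
  have h := CrsH757.abs_crs_le hRC hQ (adm_tA hθ) k 3 hψ hM ha0 ha1 hS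
    (CrsH757.abs_dd_le_of_DD (f := prof a S) fun j hj => hH 2 le_rfl j (by omega))
  rw [h1, one_pow, mul_one] at h
  exact h

/-- the profile `C f - Ψ` -/
theorem TT_lin_sub (Q : ℕ) (C : ℝ) (f Ψ : ℕ → ℝ) :
    TT Q (fun j => C * f j - Ψ j) = ((C : ℝ) : ℂ) • TT Q f - TT Q Ψ := by
  have h : TT Q (C • f - Ψ) = C • TT Q f - TT Q Ψ := by rw [map_sub, map_smul]
  have h2 : (C • f - Ψ) = fun j => C * f j - Ψ j := rfl
  have h3 : C • TT Q f = ((C : ℝ) : ℂ) • TT Q f := (Complex.coe_smul C (TT Q f)).symm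
  rw [← h2, h, h3]

theorem cr_lin_sub (Q k : ℕ) (θ C : ℝ) (f Ψ : ℕ → ℝ) (ψ : Fk (Fin (Q + 1))) :
    cr Q k θ (TT Q (fun j => C * f j - Ψ j)) ψ =
      C * cr Q k θ (TT Q f) ψ - cr Q k θ (TT Q Ψ) ψ := by
  rw [TT_lin_sub]
  have h1 := crs_sub (TT Q (gm 3 Q)) (Zn (nuT (tA θ) Q) Q k) (((C : ℝ) : ℂ) • TT Q f) (TT Q Ψ) ψ
  rw [crs_smul] at h1
  exact h1

theorem re_inner_YY (C : ℝ) (Q : ℕ) (T : G2 → Op (Fin (Q + 1))) (YX : Op (Fin (Q + 1)))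
    (ψ : Fk (Fin (Q + 1))) : (inner ℂ ψ (YY C Q T YX ψ)).re =
      3 * C * (inner ℂ ψ ((((Q : ℝ) + 1) • ∫ g, T g ∂hm) ψ)).re + (inner ℂ ψ (YX ψ)).re := by
  unfold W0725.YY
  rw [add_ap, smul_ap, inner_add_right, inner_smul_right, Complex.add_re,
    Complex.re_ofReal_mul]

/-- **the absorption move, inputs plugged.** -/
theorem move_full {nW nS : ℕ} {a A R0 CW θ0 K1 KT KX R C e eY : ℝ} (hRC : RC K1)
    (hTZ : TZ nW A KT) (hTX : TX nS nW KX) (hWP : WP nW a R0 CW θ0) (hCW : 0 ≤ CW)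
    (hθ0 : 0 ≤ θ0) (hKT : 0 < KT) (hKX : 0 < KX) (ha0 : 0 < a) (ha1 : a < 1) (hA : 1 < A)
    {S : ℕ} (hS2 : 2 ≤ S) (hR : R0 ≤ R) (hR0 : 0 ≤ R) (haR : a < R + 1) (hRS : R ≤ S)
    (hC : 0 < C) (he0 : 0 ≤ e)
    (he : 4 * CW * KT * (W0725.C3 a A * (S * prof a R S)) + 2 * CW * KX / C ≤ e)
    {Q n n0 : ℕ} (hQ : 1 ≤ Q) (hn1 : 1 ≤ n0) (hn0 : Q = 3 * (n0 - 1)) (hn : n ≤ n0)
    {Φ : Fk (Fin (Q + 1))} (hΦ : IsRef (nu0 Q) Q n0 Φ) {Ψ : ℕ → ℝ}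
    (hΨ : Cls (prof a S) (C * (e / ((Q + 3 : ℕ) : ℝ))) (Q + 3) Ψ)
    {X : Op (Fin (Q + 1))} (hX : Dy nS Q 1 X)
    (hEY : ∀ T : G2 → Op (Fin (Q + 1)), Continuous T →
      (∀ g, DyG nW Q (KT / ((Q : ℝ) + 1) ^ 2 * (1 + Q * tt g / S) ^ (-A)) g (T g)) →
      ∀ YX : Op (Fin (Q + 1)), Dy nW Q (KX / ((Q : ℝ) + 1) ^ 2) YX →
      ∀ θ' ∈ Ioc (0 : ℝ) 1, ∀ k, ∀ ψ ∈ Zn (nuT (tA θ') Q) Q k, ‖ψ‖ = 1 →
        |cr Q k θ' (YY C Q T YX).ap ψ| ≤ eY)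
    (m : ℝ)
    (h0 : LB (nu0 Q) Q n (Dop Q (3 * cs (fun j => C * prof A S j - (Ψ j +
        ep a A Q S R S (3 * C * CW * (KT / ((Q : ℝ) + 1) ^ 2)) (CW * (KX / ((Q : ℝ) + 1) ^ 2)) j)) Q
          + (inner ℂ Φ (X Φ)).re) 3
      (fun j => C * prof A S j - (Ψ j +
        ep a A Q S R S (3 * C * CW * (KT / ((Q : ℝ) + 1) ^ 2)) (CW * (KX / ((Q : ℝ) + 1) ^ 2)) j))
      X) m) :
    LB (nu0 (Q + 3)) Q n
      (Dop Q (s1 Q Φ (fun j => C * prof A S j - Ψ j) X) 3 (fun j => C * prof A S j - Ψ j) X)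
      (m - (12 * eH K1 a S (C * (3 * e / ((Q + 3 : ℕ) : ℝ) ^ 2)) Q + 2 * eY +
        2 * (3 * eH K1 a S (C * (e / ((Q + 3 : ℕ) : ℝ))) Q))) := by
  have hS0 : (0 : ℝ) < S := by
    have : 0 < S := by omega
    exact_mod_cast this
  have hS2' : (2 : ℝ) ≤ S := by exact_mod_cast hS2
  have hS1 : 1 ≤ S := by omega
  set E : ℕ → ℝ := ep a A Q S R S (3 * C * CW * (KT / ((Q : ℝ) + 1) ^ 2))
    (CW * (KX / ((Q : ℝ) + 1) ^ 2)) with hE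
  have hcls : Cls (prof a S) (C * (3 * e / ((Q + 3 : ℕ) : ℝ) ^ 2)) Q E :=
    Cls_ep' ha0 ha1 hA hQ hS1 hR0 haR hRS hC hCW hKT.le hKX.le he
  have eF : (fun j => C * prof A S j - (Ψ j + E j)) =
      fun j => (fun j => C * prof A S j - Ψ j) j - E j := by
    funext j
    simp only
    ring
  rw [eF] at h0
  refine move_strong hn1 hn0 hΦ (fun j => C * prof A S j - Ψ j) E X hX.1 ?_ ?_ h0
  · intro θ hθ k ψ hψ h1
    have hθ' : θ ∈ Icc (0 : ℝ) 1 := ⟨hθ.1.le, hθ.2⟩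
    exact abs_cr_le hRC hQ (by positivity) ha0.le ha1 hS0.le le_rfl hcls hθ' k hψ h1
  · intro θ hθ
    have hθ' : θ ∈ Icc (0 : ℝ) 1 := ⟨hθ.1.le, hθ.2⟩
    obtain ⟨T, hTc, hTD, hTi⟩ := hTZ.2 Q hQ θ hθ' S hS2'
    obtain ⟨YX, hYX, hYi⟩ := hTX.2 Q hQ θ hθ' X hX
    refine ⟨YY C Q T YX, star_YY hTD hYX.1, ?_, ?_, ?_⟩
    · intro k ψ hψ h1
      have e1 : cr Q k θ (TT Q (prof A S)) ψ =
          (inner ℂ ψ ((((Q : ℝ) + 1) • ∫ g, T g ∂hm) ψ)).re := hTi k ψ hψ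
      have e2 : cr Q k θ X.ap ψ = (inner ℂ ψ (YX ψ)).re := hYi k ψ hψ
      have e3 := abs_cr_le hRC hQ (by positivity) ha0.le ha1 hS0.le (by omega) hΨ hθ' k hψ h1
      rw [cr_lin_sub, re_inner_YY, ← e1, ← e2]
      have e4 : 3 * (C * cr Q k θ (TT Q (prof A S)) ψ - cr Q k θ (TT Q Ψ) ψ) + cr Q k θ X.ap ψ -
          (3 * C * cr Q k θ (TT Q (prof A S)) ψ + cr Q k θ X.ap ψ) =
          -(3 * cr Q k θ (TT Q Ψ) ψ) := by ring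
      rw [e4, abs_neg, abs_mul, abs_of_pos (by norm_num : (0 : ℝ) < 3)]
      linarith
    · intro θ' hθ1 k ψ hψ h1
      exact hEY T hTc hTD YX hYX θ' hθ1 k ψ hψ h1
    · exact W0 hWP hCW hθ0 hR hR0 haR (hR.trans hRS) hS0.le (by linarith) hn1 hn0 hn hΦ hC.le hKT
        (by linarith) hS1 hTc hTD hKX hYX

end Crest.Agent.R340.Str875
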