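import Crest.Agent.R340.TX1_880
import Crest.Agent.R340.FX2_963
import Crest.Agent.R340.PathStep4_880

/-!
# R340, (TX) part 2 (helper880): `∑_p hh_p ⁅dG h, star B_p⁆ ⁅B_p, S⁆` is in the dyadic class

`B_p = Bg (nuT t Q) Q p`. If `S ∈ DY Q (k+q+5) C`, `|h j| ≤ κ (sj j)^q`, `|hh_p| ≤ Ch`, then
`YY ∈ DY Q (k+1) (K Ch κ C)`, `K` depends on `k`, `q` only (`dy_YY`).
-/

set_option autoImplicit false

namespace Crest.Agent.R340.TX880

open Finset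
open Crest.Agent.R340.Fock649 Crest.Agent.R340.Geo986
open Crest.Agent.R340.PV341 (Adm)
open Crest.Agent.R340.Peel596 (c_mul_dG_diagonal)
open Crest.Agent.R340.PD757 (sj sj_sq sj_pos one_le_sj sj_le_two_pow sum_far_pow)
open Crest.Agent.R340.FX963 (LocN DY locN_iff)
open Crest.Agent.R340.QL331 (Car fcar farS nearS mem_farS mem_nearS)

variable {Q : ℕ}

theorem sj_mono {i j : ℕ} (h : i ≤ j) : sj i ≤ sj j := by
  unfold PD757.sj
  apply Real.sqrt_le_sqrt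
  have : (i : ℝ) ≤ j := by exact_mod_cast h
  linarith

/-! ### 1. algebra of the pair operators -/

theorem norm_Bg_le (ν : ℕ → ℝ) (Q p : ℕ) : ‖Bg ν Q p‖ ≤ sj p := by
  rw [Bg_eq]
  exact (norm_sum_smul_cc_le _ _).trans (sum_abs_le ν Q p)

/-- diagonal one-body operator -/
noncomputable def Dh (Q : ℕ) (h : ℕ → ℝ) : Op (Fin (Q + 1)) :=
  dG (Matrix.diagonal fun i : Fin (Q + 1) => ((h i : ℝ) : ℂ))

theorem star_Dh (Q : ℕ) (h : ℕ → ℝ) : star (Dh Q h) = Dh Q h := by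
  unfold Dh
  rw [star_dG, Matrix.diagonal_conjTranspose]
  congr 2
  funext i
  simp

theorem cc_mul_Dh (h : ℕ → ℝ) (i j : Fin (Q + 1)) :
    c j * c i * Dh Q h = Dh Q h * (c j * c i) + ((h i + h j : ℝ) : ℂ) • (c j * c i) := by
  unfold Dh
  rw [mul_assoc, c_mul_dG_diagonal, mul_add, ← mul_assoc, c_mul_dG_diagonal, add_mul,
    mul_smul_comm, smul_mul_assoc, mul_assoc, add_assoc, ← add_smul]
  congr 2
  push_cast
  ring

theorem Bg_mul_Dh (ν : ℕ → ℝ) (h : ℕ → ℝ) (p : ℕ) : Bg ν Q p * Dh Q h - Dh Q h * Bg ν Q p =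
    ∑ x ∈ pairs Q p, ((be ν Q p x * (h x.1 + h x.2) : ℝ) : ℂ) • (c x.2 * c x.1) := by
  rw [Bg_eq, Finset.sum_mul, Finset.mul_sum, ← Finset.sum_sub_distrib]
  refine Finset.sum_congr rfl fun x _ => ?_
  rw [smul_mul_assoc, cc_mul_Dh, mul_smul_comm, smul_add, smul_smul, add_sub_cancel_left]
  push_cast
  rfl

/-- the creation side: `⁅dG h, star B_p⁆` -/
theorem lie_Dh_star (ν : ℕ → ℝ) (h : ℕ → ℝ) (p : ℕ) : ⁅Dh Q h, star (Bg ν Q p)⁆ =
    star (∑ x ∈ pairs Q p, ((be ν Q p x * (h x.1 + h x.2) : ℝ) : ℂ) • (c x.2 * c x.1)) := by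
  rw [← Bg_mul_Dh, star_sub, star_mul, star_mul, star_Dh, Ring.lie_def]

theorem norm_lie_Dh_le (ν : ℕ → ℝ) {h : ℕ → ℝ} {κ : ℝ} {q : ℕ} (hκ : 0 ≤ κ)
    (hh : ∀ j ≤ Q, |h j| ≤ κ * sj j ^ q) (p : ℕ) :
    ‖⁅Dh Q h, star (Bg ν Q p)⁆‖ ≤ 2 * κ * sj p ^ (q + 1) := by
  rw [lie_Dh_star, norm_star]
  refine (norm_sum_smul_cc_le _ _).trans ?_
  have h1 : ∀ x ∈ pairs Q p, |be ν Q p x * (h x.1 + h x.2)| ≤ |be ν Q p x| * (2 * κ * sj p ^ q) := by
    intro x hx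
    have hx2 := (mem_pairs.1 hx).2
    rw [abs_mul]
    apply mul_le_mul_of_nonneg_left _ (abs_nonneg _)
    have e1 := hh x.1 (by omega)
    have e2 := hh x.2 (by omega)
    have e3 : sj (x.1 : ℕ) ≤ sj p := sj_mono (by omega)
    have e4 : sj (x.2 : ℕ) ≤ sj p := sj_mono (by omega)
    have e5 := (sj_pos (x.1 : ℕ)).le
    have e6 := (sj_pos (x.2 : ℕ)).le
    calc |h x.1 + h x.2| ≤ |h x.1| + |h x.2| := abs_add_le _ _
      _ ≤ κ * sj p ^ q + κ * sj p ^ q :=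
        add_le_add (e1.trans (by gcongr)) (e2.trans (by gcongr))
      _ = _ := by ring
  refine (Finset.sum_le_sum h1).trans ?_
  rw [← Finset.sum_mul]
  have h2 := sum_abs_le ν Q p
  have h3 := (sj_pos p).le
  calc (∑ x ∈ pairs Q p, |be ν Q p x|) * (2 * κ * sj p ^ q) ≤ sj p * (2 * κ * sj p ^ q) := by gcongr
    _ = _ := by ring

/-! ### 2. locality of the pair operators -/

theorem par_c (i : Fin (Q + 1)) : (fcar : Car (Op (Fin (Q + 1))) (Fock649.L (Fin (Q + 1)))).par (c i) =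
    -c i := by
  have h := (fcar : Car (Op (Fin (Q + 1))) (Fock649.L (Fin (Q + 1)))).par_an (e i)
  rwa [QL331.fcar_an, an_e] at h

theorem LocN.mul' {L : ℕ} {X Y : Op (Fin (Q + 1))} (h : LocN Q L X) (h' : LocN Q L Y) :
    LocN Q L (X * Y) := by
  rw [locN_iff] at *; exact h.mul h'

theorem LocN.sum' {L : ℕ} {σ : Type*} (s : Finset σ) {X : σ → Op (Fin (Q + 1))}
    (h : ∀ i ∈ s, LocN Q L (X i)) : LocN Q L (∑ i ∈ s, X i) := by
  classical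
  induction s using Finset.induction_on with
  | empty =>
    have := (LocN.one Q L).smul 0
    rwa [zero_smul] at this
  | insert a s ha ih =>
    rw [Finset.sum_insert ha]
    exact (h a (Finset.mem_insert_self _ _)).add (ih fun i hi => h i (Finset.mem_insert_of_mem hi))

theorem commute_cc_c {i j k : Fin (Q + 1)} : Commute (c j * c i : Op (Fin (Q + 1))) (c k) := by
  have h1 : (c i * c k : Op (Fin (Q + 1))) = -(c k * c i) := eq_neg_of_add_eq_zero_left (c_c i k)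
  have h2 : (c j * c k : Op (Fin (Q + 1))) = -(c k * c j) := eq_neg_of_add_eq_zero_left (c_c j k)
  show c j * c i * c k = c k * (c j * c i)
  rw [mul_assoc, h1, mul_neg, ← mul_assoc, h2, neg_mul, neg_neg, mul_assoc]

theorem commute_cc_d {i j k : Fin (Q + 1)} (hi : i ≠ k) (hj : j ≠ k) :
    Commute (c j * c i : Op (Fin (Q + 1))) (d k) := by
  have h1 : (c i * d k : Op (Fin (Q + 1))) = -(d k * c i) :=
    eq_neg_of_add_eq_zero_left (by rw [c_d, if_neg hi])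
  have h2 : (c j * d k : Op (Fin (Q + 1))) = -(d k * c j) :=
    eq_neg_of_add_eq_zero_left (by rw [c_d, if_neg hj])
  show c j * c i * d k = d k * (c j * c i)
  rw [mul_assoc, h1, mul_neg, ← mul_assoc, h2, neg_mul, neg_neg, mul_assoc]

theorem locN_cc {L : ℕ} {i j : Fin (Q + 1)} (hi : (i : ℕ) < L) (hj : (j : ℕ) < L) :
    LocN Q L (c j * c i) := by
  refine ⟨QL331.Car.ev_odd_mul_odd _ (par_c j) (par_c i), fun k hk => ⟨commute_cc_c, ?_⟩⟩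
  apply commute_cc_d
  · intro h; subst h; omega
  · intro h; subst h; omega

theorem locN_pair {L p : ℕ} (hp : p < L) (r : Fin (Q + 1) × Fin (Q + 1) → ℝ) :
    LocN Q L (∑ x ∈ pairs Q p, ((r x : ℝ) : ℂ) • (c x.2 * c x.1)) := by
  refine LocN.sum' _ fun x hx => ?_
  have hx2 := (mem_pairs.1 hx).2
  exact (locN_cc (by omega) (by omega)).smul _

theorem locN_Bg {L p : ℕ} (hp : p < L) (ν : ℕ → ℝ) : LocN Q L (Bg ν Q p) := by
  rw [Bg_eq]; exact locN_pair hp _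

theorem locN_lie_Dh {L p : ℕ} (hp : p < L) (ν h : ℕ → ℝ) :
    LocN Q L (⁅Dh Q h, star (Bg ν Q p)⁆) := by
  rw [lie_Dh_star]; exact (locN_pair hp _).star

theorem norm_lie_le {X Y : Op (Fin (Q + 1))} : ‖⁅X, Y⁆‖ ≤ 2 * ‖X‖ * ‖Y‖ := by
  rw [Ring.lie_def]
  calc ‖X * Y - Y * X‖ ≤ ‖X * Y‖ + ‖Y * X‖ := norm_sub_le _ _
    _ ≤ ‖X‖ * ‖Y‖ + ‖Y‖ * ‖X‖ := add_le_add (norm_mul_le _ _) (norm_mul_le _ _)
    _ = _ := by ring

/-- only the pairs with an orbital `< L` see an operator local in orbitals `< L` -/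
theorem lie_Bg_le_of_loc {ν : ℕ → ℝ} {p L : ℕ} {Y : Op (Fin (Q + 1))} (hY : LocN Q L Y) :
    ‖⁅Bg ν Q p, Y⁆‖ ≤
      2 * (∑ x ∈ (pairs Q p).filter (fun x => (x.1 : ℕ) < L), |be ν Q p x|) * ‖Y‖ := by
  have h1 : Bg ν Q p = (∑ x ∈ (pairs Q p).filter (fun x => (x.1 : ℕ) < L),
      ((be ν Q p x : ℝ) : ℂ) • (c x.2 * c x.1)) +
      ∑ x ∈ (pairs Q p).filter (fun x => ¬ (x.1 : ℕ) < L),
        ((be ν Q p x : ℝ) : ℂ) • (c x.2 * c x.1) := by
    rw [Bg_eq, Finset.sum_filter_add_sum_filter_not]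
  have h2 : Commute (∑ x ∈ (pairs Q p).filter (fun x => ¬ (x.1 : ℕ) < L),
        ((be ν Q p x : ℝ) : ℂ) • (c x.2 * c x.1)) Y := by
    refine Commute.sum_left _ _ _ fun x hx => ?_
    obtain ⟨hx1, hx2⟩ := Finset.mem_filter.1 hx
    have hx3 : (x.1 : ℕ) < x.2 := (mem_pairs.1 hx1).1
    refine Commute.smul_left ?_ _
    exact ((hY.2 x.2 (by omega)).1.mul_right (hY.2 x.1 (by omega)).1).symm
  have h3 : ⁅Bg ν Q p, Y⁆ = ⁅∑ x ∈ (pairs Q p).filter (fun x => (x.1 : ℕ) < L),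
      ((be ν Q p x : ℝ) : ℂ) • (c x.2 * c x.1), Y⁆ := by
    rw [h1, Ring.lie_def, Ring.lie_def, add_mul, mul_add, h2.eq]
    abel
  rw [h3]
  refine norm_lie_le.trans ?_
  gcongr
  exact norm_sum_smul_cc_le _ _

/-- **commutator of `B_p` with the dyadic class** -/
theorem exists_lie_Bg (m : ℕ) : ∃ K : ℝ, 1 ≤ K ∧ ∀ (t : Fin 3 → ℝ), Adm t → ∀ (Q : ℕ) (C : ℝ)
    (S : Op (Fin (Q + 1))), DY Q (m + 1) C S → ∀ p : ℕ,
      ‖⁅Bg (nuT t Q) Q p, S⁆‖ ≤ K * C * ((sj p)⁻¹) ^ m := by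
  obtain ⟨K, hK1, hK⟩ := exists_tail m
  refine ⟨4 * K + 2 * 4 ^ (m + 1), by have : (0:ℝ) ≤ 2 * 4 ^ (m + 1) := by positivity
                                      linarith, fun t ht Q C S hS p => ?_⟩
  have hC := hS.nonneg
  have hs := sj_pos p
  rcases Nat.lt_or_ge p 4 with hp | hp
  · have h2 : sj p ≤ 2 := by
      have := sj_le_two_pow (l := 1) (j := p) (by omega)
      simpa using this
    have h3 : 1 ≤ 2 ^ m * ((sj p)⁻¹) ^ m := by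
      rw [← mul_pow]
      apply one_le_pow₀
      rw [← div_eq_mul_inv, one_le_div hs]
      exact h2
    have h4 : ‖⁅Bg (nuT t Q) Q p, S⁆‖ ≤ 4 * C := by
      refine norm_lie_le.trans ?_
      have := norm_Bg_le (nuT t Q) Q p
      have h5 := hS.norm_le
      calc 2 * ‖Bg (nuT t Q) Q p‖ * ‖S‖ ≤ 2 * 2 * C := by
            gcongr
            exact this.trans h2
        _ = 4 * C := by ring
    have h5 : (4 : ℝ) * 2 ^ m ≤ 2 * 4 ^ (m + 1) := by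
      have : (2 : ℝ) ^ m ≤ 4 ^ m := by gcongr; norm_num
      have h0 : (0 : ℝ) ≤ 4 ^ m := by positivity
      rw [pow_succ]
      linarith
    calc ‖⁅Bg (nuT t Q) Q p, S⁆‖ ≤ 4 * C * 1 := by rw [mul_one]; exact h4
      _ ≤ 4 * C * (2 ^ m * ((sj p)⁻¹) ^ m) := by gcongr
      _ = (4 * 2 ^ m) * C * ((sj p)⁻¹) ^ m := by ring
      _ ≤ (4 * K + 2 * 4 ^ (m + 1)) * C * ((sj p)⁻¹) ^ m := by
        gcongr
        linarith
  · obtain ⟨l, hl1, hl2⟩ : ∃ l : ℕ, 4 * 4 ^ l ≤ p ∧ p + 1 ≤ 4 ^ (l + 2) := by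
      have h1 := Nat.pow_log_le_self 4 (show p ≠ 0 by omega)
      have h2 := Nat.lt_pow_succ_log_self (show 1 < 4 by norm_num) p
      have h3 : 1 ≤ Nat.log 4 p := Nat.log_pos (by norm_num) hp
      obtain ⟨l, hl⟩ := Nat.exists_eq_add_of_le h3
      refine ⟨l, ?_, ?_⟩
      · rw [hl, pow_add, pow_one] at h1; exact h1
      · rw [hl] at h2
        have e : (1 + l).succ = l + 2 := by omega
        rw [e] at h2
        omega
    obtain ⟨Y, hY, hSY⟩ := hS.app l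
    have hYn : ‖Y‖ ≤ 2 * C := by
      have h1 : ‖Y‖ ≤ ‖S‖ + ‖S - Y‖ := by
        have : Y = S - (S - Y) := by abel
        calc ‖Y‖ = ‖S - (S - Y)‖ := by rw [← this]
          _ ≤ _ := norm_sub_le _ _
      have h2 : C * ((2 ^ l)⁻¹) ^ (m + 1) ≤ C * 1 := by
        gcongr
        apply pow_le_one₀ (by positivity)
        rw [inv_le_one_iff₀]
        right
        exact one_le_pow₀ (by norm_num)
      linarith [hS.norm_le]
    have e1 : ⁅Bg (nuT t Q) Q p, S⁆ = ⁅Bg (nuT t Q) Q p, Y⁆ + ⁅Bg (nuT t Q) Q p, S - Y⁆ := by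
      simp only [Ring.lie_def, mul_sub, sub_mul]; abel
    have h1 := lie_Bg_le_of_loc (ν := nuT t Q) (p := p) hY
    have h2 := hK t ht Q p (4 ^ l) hl1
    have h3 : ‖⁅Bg (nuT t Q) Q p, Y⁆‖ ≤ 2 * (K * ((sj p)⁻¹) ^ m) * (2 * C) := by
      refine h1.trans ?_
      have h0 : 0 ≤ ∑ x ∈ (pairs Q p).filter (fun x => (x.1 : ℕ) < 4 ^ l), |be (nuT t Q) Q p x| :=
        Finset.sum_nonneg fun _ _ => abs_nonneg _
      gcongr
    have h4 : ‖⁅Bg (nuT t Q) Q p, S - Y⁆‖ ≤ 2 * sj p * (C * ((2 ^ l)⁻¹) ^ (m + 1)) := by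
      refine norm_lie_le.trans ?_
      have := norm_Bg_le (nuT t Q) Q p
      gcongr
    have h5 : ((2 : ℝ) ^ l)⁻¹ ≤ 4 * (sj p)⁻¹ := by
      have h6 := sj_le_two_pow hl2
      rw [← div_eq_mul_inv, inv_eq_one_div, div_le_div_iff₀ (by positivity) hs, one_mul]
      calc sj p ≤ 2 ^ (l + 2) := h6
        _ = _ := by rw [pow_add]; ring
    have h6 : 2 * sj p * (C * ((2 ^ l)⁻¹) ^ (m + 1)) ≤
        2 * 4 ^ (m + 1) * C * ((sj p)⁻¹) ^ m := by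
      calc 2 * sj p * (C * ((2 ^ l)⁻¹) ^ (m + 1)) ≤ 2 * sj p * (C * (4 * (sj p)⁻¹) ^ (m + 1)) := by
            gcongr
        _ = _ := by
          rw [mul_pow, pow_succ (sj p)⁻¹ m]
          field_simp
    rw [e1]
    calc _ ≤ ‖⁅Bg (nuT t Q) Q p, Y⁆‖ + ‖⁅Bg (nuT t Q) Q p, S - Y⁆‖ := norm_add_le _ _
      _ ≤ 2 * (K * ((sj p)⁻¹) ^ m) * (2 * C) + 2 * 4 ^ (m + 1) * C * ((sj p)⁻¹) ^ m :=
        add_le_add h3 (h4.trans h6)
      _ = _ := by ring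

/-! ### 3. the sum over `p` -/

/-- `∑_p hh_p ⁅dG h, star B_p⁆ ⁅B_p, S⁆` -/
noncomputable def YY (ν : ℕ → ℝ) (Q : ℕ) (hh h : ℕ → ℝ) (S : Op (Fin (Q + 1))) :
    Op (Fin (Q + 1)) :=
  ∑ p : Fin (2 * Q), ((hh p : ℝ) : ℂ) • (⁅Dh Q h, star (Bg ν Q p)⁆ * ⁅Bg ν Q p, S⁆)

theorem Bg_mul_Nh (ν : ℕ → ℝ) (Q p : ℕ) :
    Bg ν Q p * Nh = (Nh : Op (Fin (Q + 1))) * Bg ν Q p + (2 : ℂ) • Bg ν Q p := by
  unfold Bg
  rw [smul_mul_assoc, PathStep880.bz_mul_Nh, smul_add, mul_smul_comm, smul_comm (2 : ℂ)]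

theorem star_Bg_mul_Nh (ν : ℕ → ℝ) (Q p : ℕ) : star (Bg ν Q p) * Nh =
    (Nh : Op (Fin (Q + 1))) * star (Bg ν Q p) - (2 : ℂ) • star (Bg ν Q p) := by
  have h := congrArg star (Bg_mul_Nh ν Q p)
  rw [star_mul, star_add, star_mul, star_smul, FX963.star_Nh] at h
  have e : star (2 : ℂ) = 2 := by simp
  rw [e] at h
  rw [h]
  abel

theorem Dh_comm_Nh (Q : ℕ) (h : ℕ → ℝ) : Dh Q h * Nh = (Nh : Op (Fin (Q + 1))) * Dh Q h :=
  (Nh_comm_dG _).symm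

theorem commute_term (ν : ℕ → ℝ) (h : ℕ → ℝ) (p : ℕ) {S : Op (Fin (Q + 1))}
    (hS : Commute S (Nh : Op (Fin (Q + 1)))) :
    Commute (⁅Dh Q h, star (Bg ν Q p)⁆ * ⁅Bg ν Q p, S⁆) (Nh : Op (Fin (Q + 1))) := by
  set B := Bg ν Q p
  set N := (Nh : Op (Fin (Q + 1)))
  have hB : B * N = N * B + (2 : ℂ) • B := Bg_mul_Nh ν Q p
  have hB' : star B * N = N * star B - (2 : ℂ) • star B := star_Bg_mul_Nh ν Q p
  have hD : Dh Q h * N = N * Dh Q h := Dh_comm_Nh Q h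
  have hS' : S * N = N * S := hS
  have h1 : ⁅B, S⁆ * N = N * ⁅B, S⁆ + (2 : ℂ) • ⁅B, S⁆ := by
    rw [Ring.lie_def, sub_mul, mul_assoc, hS', ← mul_assoc, hB, mul_assoc S B N, hB, mul_add,
      ← mul_assoc S N B, hS', add_mul, smul_mul_assoc, mul_smul_comm, mul_sub, smul_sub]
    simp only [mul_assoc]
    abel
  have h2 : ⁅Dh Q h, star B⁆ * N = N * ⁅Dh Q h, star B⁆ - (2 : ℂ) • ⁅Dh Q h, star B⁆ := by
    rw [Ring.lie_def, sub_mul, mul_assoc, hB', mul_sub, ← mul_assoc (Dh Q h) N, hD,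
      mul_assoc (star B) (Dh Q h) N, hD, ← mul_assoc (star B) N, hB', sub_mul, smul_mul_assoc,
      mul_smul_comm, mul_sub, smul_sub]
    simp only [mul_assoc]
    abel
  show ⁅Dh Q h, star B⁆ * ⁅B, S⁆ * N = N * (⁅Dh Q h, star B⁆ * ⁅B, S⁆)
  rw [mul_assoc, h1, mul_add, ← mul_assoc, h2, sub_mul, mul_smul_comm, smul_mul_assoc, mul_assoc,
    sub_add_cancel]

theorem pairs_zero (Q : ℕ) : pairs Q 0 = ∅ := by
  refine Finset.eq_empty_of_forall_notMem fun x hx => ?_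
  obtain ⟨h1, h2⟩ := mem_pairs.1 hx
  have h3 : (x.1 : ℕ) < x.2 := h1
  omega

theorem Bg_zero (ν : ℕ → ℝ) (Q : ℕ) : Bg ν Q 0 = 0 := by
  rw [Bg_eq, pairs_zero, Finset.sum_empty]

theorem card_nearS_le (n L : ℕ) : (nearS n L).card ≤ L := by
  have h : (nearS n L).card ≤ (Finset.range L).card := by
    refine Finset.card_le_card_of_injOn (fun x => (x : ℕ)) ?_ ?_
    · intro x hx
      have := mem_nearS.1 hx
      simpa using this
    · intro x _ y _ h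
      exact Fin.ext h
  rwa [Finset.card_range] at h

/-- **(TX), class part**: `YY` is in the dyadic class. -/
theorem exists_dy_YY (q k : ℕ) : ∃ K : ℝ, 1 ≤ K ∧ ∀ (t : Fin 3 → ℝ), Adm t → ∀ (Q : ℕ)
    (hh h : ℕ → ℝ) (Ch κ C : ℝ) (S : Op (Fin (Q + 1))), 0 ≤ κ → (∀ p < 2 * Q, |hh p| ≤ Ch) →
      0 ≤ Ch → (∀ j ≤ Q, |h j| ≤ κ * sj j ^ q) → DY Q (k + q + 5) C S →
      DY Q (k + 1) (K * (Ch * κ * C)) (YY (nuT t Q) Q hh h S) := by
  obtain ⟨K, hK1, hK⟩ := exists_lie_Bg (k + q + 4)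
  refine ⟨4 + 4 * K, by linarith, fun t ht Q hh h Ch κ C S hκ hhh hCh hh' hS => ?_⟩
  have hC := hS.nonneg
  have hterm : ∀ p : Fin (2 * Q), ∀ Z : Op (Fin (Q + 1)), ∀ b : ℝ,
      ‖⁅Bg (nuT t Q) Q p, Z⁆‖ ≤ b →
      ‖((hh p : ℝ) : ℂ) • (⁅Dh Q h, star (Bg (nuT t Q) Q p)⁆ * ⁅Bg (nuT t Q) Q p, Z⁆)‖ ≤
        Ch * (2 * κ * sj p ^ (q + 1)) * b := by
    intro p Z b hb
    rw [norm_smul, Complex.norm_real, Real.norm_eq_abs, mul_assoc]
    have h1 := norm_lie_Dh_le (nuT t Q) hκ hh' p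
    have h2 := (sj_pos (p : ℕ)).le
    have h3 := hhh p p.2
    refine mul_le_mul h3 ?_ (norm_nonneg _) hCh
    refine (norm_mul_le _ _).trans ?_
    exact mul_le_mul h1 hb (norm_nonneg _) (by positivity)
  -- the approximants
  have happ : ∀ l : ℕ, ∃ Y, LocN Q (4 ^ l) Y ∧
      ‖YY (nuT t Q) Q hh h S - Y‖ ≤ (4 + 4 * K) * (Ch * κ * C) * ((2 ^ l)⁻¹) ^ (k + 1) ∧
      (l = 0 → Y = 0) := by
    intro l
    obtain ⟨Sl, hSl, hSSl⟩ := hS.app l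
    refine ⟨∑ p ∈ nearS (2 * Q) (4 ^ l), ((hh p : ℝ) : ℂ) •
      (⁅Dh Q h, star (Bg (nuT t Q) Q p)⁆ * ⁅Bg (nuT t Q) Q p, Sl⁆), ?_, ?_, ?_⟩
    · refine LocN.sum' _ fun p hp => ?_
      have hp' := mem_nearS.1 hp
      refine LocN.smul _ (LocN.mul' (locN_lie_Dh hp' _ _) ?_)
      rw [Ring.lie_def]
      exact (LocN.mul' (locN_Bg hp' _) hSl).sub (LocN.mul' hSl (locN_Bg hp' _))
    · have hsplit : YY (nuT t Q) Q hh h S - (∑ p ∈ nearS (2 * Q) (4 ^ l), ((hh p : ℝ) : ℂ) •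
          (⁅Dh Q h, star (Bg (nuT t Q) Q p)⁆ * ⁅Bg (nuT t Q) Q p, Sl⁆)) =
          (∑ p ∈ nearS (2 * Q) (4 ^ l), ((hh p : ℝ) : ℂ) •
            (⁅Dh Q h, star (Bg (nuT t Q) Q p)⁆ * ⁅Bg (nuT t Q) Q p, S - Sl⁆)) +
          ∑ p ∈ farS (2 * Q) (4 ^ l), ((hh p : ℝ) : ℂ) •
            (⁅Dh Q h, star (Bg (nuT t Q) Q p)⁆ * ⁅Bg (nuT t Q) Q p, S⁆) := by
        have e1 : YY (nuT t Q) Q hh h S = (∑ p ∈ nearS (2 * Q) (4 ^ l), ((hh p : ℝ) : ℂ) •
            (⁅Dh Q h, star (Bg (nuT t Q) Q p)⁆ * ⁅Bg (nuT t Q) Q p, S⁆)) +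
          ∑ p ∈ farS (2 * Q) (4 ^ l), ((hh p : ℝ) : ℂ) •
            (⁅Dh Q h, star (Bg (nuT t Q) Q p)⁆ * ⁅Bg (nuT t Q) Q p, S⁆) := by
          unfold YY nearS farS
          rw [← Finset.sum_filter_add_sum_filter_not Finset.univ
            (fun j : Fin (2 * Q) => (j : ℕ) < 4 ^ l)]
          congr 1
          apply Finset.sum_congr _ fun _ _ => rfl
          ext j
          simp
        rw [e1, add_sub_right_comm, ← Finset.sum_sub_distrib]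
        congr 1
        refine Finset.sum_congr rfl fun p _ => ?_
        rw [← smul_sub, ← mul_sub]
        congr 2
        simp only [Ring.lie_def, mul_sub, sub_mul]
        abel
      rw [hsplit]
      have hn : ‖∑ p ∈ nearS (2 * Q) (4 ^ l), ((hh p : ℝ) : ℂ) •
            (⁅Dh Q h, star (Bg (nuT t Q) Q p)⁆ * ⁅Bg (nuT t Q) Q p, S - Sl⁆)‖ ≤
          4 * (Ch * κ * C) * ((2 ^ l)⁻¹) ^ (k + 1) := by
        refine (norm_sum_le _ _).trans ?_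
        have h1 : ∀ p ∈ nearS (2 * Q) (4 ^ l), ‖((hh p : ℝ) : ℂ) •
            (⁅Dh Q h, star (Bg (nuT t Q) Q p)⁆ * ⁅Bg (nuT t Q) Q p, S - Sl⁆)‖ ≤
            Ch * (2 * κ * (2 ^ l) ^ (q + 1)) * (2 * 2 ^ l * (C * ((2 ^ l)⁻¹) ^ (k + q + 5))) := by
          intro p hp
          have hp' := mem_nearS.1 hp
          have h2 : sj (p : ℕ) ≤ 2 ^ l := sj_le_two_pow (by omega)
          have h3 := (sj_pos (p : ℕ)).le
          have h4 : ‖⁅Bg (nuT t Q) Q p, S - Sl⁆‖ ≤ 2 * 2 ^ l * (C * ((2 ^ l)⁻¹) ^ (k + q + 5)) := by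
            refine norm_lie_le.trans ?_
            have := (norm_Bg_le (nuT t Q) Q p).trans h2
            gcongr
          refine (hterm p (S - Sl) _ h4).trans ?_
          gcongr
        refine (Finset.sum_le_sum h1).trans ?_
        rw [Finset.sum_const, nsmul_eq_mul]
        have h5 : ((nearS (2 * Q) (4 ^ l)).card : ℝ) ≤ (2 ^ l) ^ 2 := by
          have h6 : ((nearS (2 * Q) (4 ^ l)).card : ℝ) ≤ ((4 ^ l : ℕ) : ℝ) := by
            exact_mod_cast card_nearS_le (2 * Q) (4 ^ l)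
          refine h6.trans (le_of_eq ?_)
          push_cast
          rw [← pow_mul, mul_comm l 2, pow_mul]
          norm_num
        calc ((nearS (2 * Q) (4 ^ l)).card : ℝ) * (Ch * (2 * κ * (2 ^ l) ^ (q + 1)) *
              (2 * 2 ^ l * (C * ((2 ^ l)⁻¹) ^ (k + q + 5))))
            ≤ (2 ^ l) ^ 2 * (Ch * (2 * κ * (2 ^ l) ^ (q + 1)) *
              (2 * 2 ^ l * (C * ((2 ^ l)⁻¹) ^ (k + q + 5)))) := by gcongr
          _ = 4 * (Ch * κ * C) * ((2 ^ l) ^ (q + 4) * ((2 ^ l)⁻¹) ^ (k + q + 5)) := by ring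
          _ = _ := by
            have h7 : ((2 : ℝ) ^ l)⁻¹ ^ (k + q + 5) =
                ((2 : ℝ) ^ l)⁻¹ ^ (q + 4) * ((2 : ℝ) ^ l)⁻¹ ^ (k + 1) := by
              rw [← pow_add]; congr 1; omega
            rw [h7, ← mul_assoc ((2 ^ l : ℝ) ^ (q + 4)), ← mul_pow, mul_inv_cancel₀ (by positivity),
              one_pow, one_mul]
      have hf : ‖∑ p ∈ farS (2 * Q) (4 ^ l), ((hh p : ℝ) : ℂ) •
            (⁅Dh Q h, star (Bg (nuT t Q) Q p)⁆ * ⁅Bg (nuT t Q) Q p, S⁆)‖ ≤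
          4 * K * (Ch * κ * C) * ((2 ^ l)⁻¹) ^ (k + 1) := by
        refine (norm_sum_le _ _).trans ?_
        have h1 : ∀ p ∈ farS (2 * Q) (4 ^ l), ‖((hh p : ℝ) : ℂ) •
            (⁅Dh Q h, star (Bg (nuT t Q) Q p)⁆ * ⁅Bg (nuT t Q) Q p, S⁆)‖ ≤
            2 * K * (Ch * κ * C) * ((sj (p : ℕ))⁻¹) ^ (k + 3) := by
          intro p _
          have h2 := hK t ht Q C S hS p
          have h3 := sj_pos (p : ℕ)
          refine (hterm p S _ h2).trans (le_of_eq ?_)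
          have h7 : (sj (p : ℕ))⁻¹ ^ (k + q + 4) =
              (sj (p : ℕ))⁻¹ ^ (q + 1) * (sj (p : ℕ))⁻¹ ^ (k + 3) := by
            rw [← pow_add]; congr 1; omega
          rw [h7]
          calc Ch * (2 * κ * sj (p : ℕ) ^ (q + 1)) *
                (K * C * ((sj (p : ℕ))⁻¹ ^ (q + 1) * (sj (p : ℕ))⁻¹ ^ (k + 3)))
              = 2 * K * (Ch * κ * C) * ((sj (p : ℕ) ^ (q + 1) * (sj (p : ℕ))⁻¹ ^ (q + 1)) *
                (sj (p : ℕ))⁻¹ ^ (k + 3)) := by ring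
            _ = _ := by rw [← mul_pow, mul_inv_cancel₀ h3.ne', one_pow, one_mul]
        refine (Finset.sum_le_sum h1).trans ?_
        rw [← Finset.mul_sum]
        have h2 := sum_far_pow (2 * Q) l k
        calc _ ≤ 2 * K * (Ch * κ * C) * (2 * (((2:ℝ) ^ l)⁻¹) ^ (k + 1)) := by gcongr
          _ = _ := by ring
      calc _ ≤ _ := norm_add_le _ _
        _ ≤ 4 * (Ch * κ * C) * ((2 ^ l)⁻¹) ^ (k + 1) +
            4 * K * (Ch * κ * C) * ((2 ^ l)⁻¹) ^ (k + 1) := add_le_add hn hf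
        _ = _ := by ring
    · intro hl
      subst hl
      refine Finset.sum_eq_zero fun p hp => ?_
      have hp' := mem_nearS.1 hp
      have hp0 : (p : ℕ) = 0 := by omega
      rw [hp0, Bg_zero]
      simp [Ring.lie_def]
  refine ⟨?_, ?_, fun l => ?_⟩
  · unfold YY
    refine Commute.sum_left _ _ _ fun p _ => ?_
    exact (commute_term _ _ _ hS.comm).smul_left _
  · obtain ⟨Y, -, h1, h2⟩ := happ 0
    rw [h2 rfl, sub_zero] at h1
    simpa using h1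
  · obtain ⟨Y, h0, h1, -⟩ := happ l
    exact ⟨Y, h0, h1⟩

end Crest.Agent.R340.TX880
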