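import Crest.Agent.R340.Top_644
import Crest.Agent.R340.LR2_667
import Crest.Agent.R340.U6_856
import Crest.Agent.R340.FI3_331
import Crest.Agent.R340.PD5_757
import Crest.Agent.R340.Rot5_303

/-!
R340 (S0532), block L9d, part 2 (helper644): the final assembly.

`s0532_of : UP m → (gap of HH Q above its zero modes) → EvoP m → EvoP (2m+14) → S0532`.
-/

set_option autoImplicit false
set_option linter.unusedSectionVars false

open scoped InnerProductSpace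
open MeasureTheory Complex
open Crest.Agent.R340
open Crest.Agent.R340.LR667 (Fl SS IsFilter)
open Crest.Agent.R340.Fock649
open Crest.Agent.R340.QL331 (fcar Car thF)
open Crest.Agent.R340.DC867 (gen nz star_nz gen_false gen_true norm_gen_le)
open Crest.Agent.R340.Filt867 (FarB NearB EvoHyp mom cEvo)
open Crest.Agent.R340.Flow644
open Crest.Agent.R340.FlowLR644
open Crest.Agent.R340.U856 (Fam FamQ UP PZ LΨ LΨ_mem LΨ_HH LΨ_ne uniq_PZ sm)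
open Crest.Agent.R340.DLi482 (nuQ)
open Crest.Agent.R340.CS809 (U2 dQ dQ_nonneg dQ_comm dQ_triangle)
open Crest.Agent.R340.FI331 (fb uf norm_uf continuous_uf)
open Crest.Agent.R340.Br320 (HH star_HH)
open Crest.MathPhysics.Laughlin

namespace Crest.Agent.R340.Top644

theorem exists_band {β : ℝ} (hβ : 0 < β) : ∃ w : ℝ → ℝ, IsBand w β := by
  obtain ⟨w, h1, _, h3, h4, h5⟩ := LR667.exists_filter hβ
  exact ⟨w, ⟨⟨h1, h3, h4⟩, h5⟩⟩

/-! ### the gap of the unperturbed Hamiltonian -/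

theorem PZ_of_zero {Q : ℕ} {v : Fk (Fin (Q + 1))} (h : HH Q v = 0) : PZ Q v = v := by
  unfold U856.PZ GG467.PK
  exact GG467.pj_of_mem h

theorem gapS_laughlin {N : ℕ} {γ : ℝ}
    (hgap : ∀ φ : Fk (Fin (3 * (N - 1) + 1)), PZ (3 * (N - 1)) φ = 0 →
      γ * ‖φ‖ ^ 2 ≤ (⟪φ, HH (3 * (N - 1)) φ⟫_ℂ).re) :
    ∃ Ψ : Fk (Fin (3 * (N - 1) + 1)), Ψ ∈ Br320.sector (Fin (3 * (N - 1) + 1)) N ∧
      HH (3 * (N - 1)) Ψ = 0 ∧ Ψ ≠ 0 ∧
      HasGapS (Bridge649.sector (Fin (3 * (N - 1) + 1)) N) (HH (3 * (N - 1))).ap γ 0 Ψ := by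
  set L0 := LΨ N with hL0
  have hne : ‖L0‖ ≠ 0 := norm_ne_zero_iff.2 (LΨ_ne N)
  set Ψ : Fk (Fin (3 * (N - 1) + 1)) := ((‖L0‖⁻¹ : ℝ) : ℂ) • L0 with hΨ
  have hΨs : Ψ ∈ Br320.sector (Fin (3 * (N - 1) + 1)) N :=
    Submodule.smul_mem _ _ (LΨ_mem N)
  have hΨn : ‖Ψ‖ = 1 := by
    rw [hΨ, norm_smul, Complex.norm_real, norm_inv, norm_norm, inv_mul_cancel₀ hne]
  have hΨ0 : HH (3 * (N - 1)) Ψ = 0 := by
    have h1 : HH (3 * (N - 1)) Ψ = ((‖L0‖⁻¹ : ℝ) : ℂ) • HH (3 * (N - 1)) L0 :=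
      (HH (3 * (N - 1))).ap.map_smul _ _
    rw [h1, LΨ_HH, smul_zero]
  have hΨne : Ψ ≠ 0 := by
    intro h
    rw [h, norm_zero] at hΨn
    exact zero_ne_one hΨn
  refine ⟨Ψ, hΨs, hΨ0, hΨne, ?_, hΨn, ?_, ?_⟩
  · exact BrEq649.mem_sector_eq.2 hΨs
  · show HH (3 * (N - 1)) Ψ = _
    rw [hΨ0, Complex.ofReal_zero, zero_smul]
  · intro χ hχ horth
    have hχ' : χ ∈ Br320.sector (Fin (3 * (N - 1) + 1)) N := BrEq649.mem_sector_eq.1 hχ
    obtain ⟨z, hz⟩ := uniq_PZ hΨs hΨ0 hΨne χ hχ'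
    have h1 : ⟪Ψ, PZ (3 * (N - 1)) χ⟫_ℂ = ⟪Ψ, χ⟫_ℂ := by
      have h2 := inner_star_right (PZ (3 * (N - 1))) Ψ χ
      have h3 : star (PZ (3 * (N - 1))) = PZ (3 * (N - 1)) := GG467.star_PK _
      rw [h3] at h2
      rw [h2, PZ_of_zero hΨ0]
    have hz0 : z = 0 := by
      rw [hz, inner_smul_right, inner_self_eq_norm_sq_to_K, hΨn, horth] at h1
      simpa using h1
    have h4 : PZ (3 * (N - 1)) χ = 0 := by rw [hz, hz0, zero_smul]
    have h5 := hgap χ h4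
    rw [zero_add]
    exact h5

/-! ### the perturbation -/

/-- the perturbation `∫ φ(g) n(g) dν(g)` -/
noncomputable def VV (Q : ℕ) (φ : U2 → ℝ) : Op (Fin (Q + 1)) :=
  ∫ g, φ g • nz fcar (uf Q) g ∂(nuQ Q)

theorem n0g_eq (Q : ℕ) (g : U2) :
    Rot303.n0g Q (g : Matrix (Fin 2) (Fin 2) ℂ) = nz fcar (uf Q) g := by
  have h0 : FI331.idx Q 0 = (0 : Fin (Q + 1)) := Fin.ext (by simp [FI331.idx])
  have h1 : uf Q 0 g = Fock649.mv (CS809.sp Q (g : Matrix (Fin 2) (Fin 2) ℂ)) (e 0) := by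
    unfold FI331.uf FI331.vec
    rw [h0]
  unfold DC867.nz Rot303.n0g
  rw [QL331.fcar_cr, QL331.fcar_an, h1]

/-- the second quantised Toeplitz operator as perturbation -/
theorem dG_toeplitz_VV {Q : ℕ} (hQ : 1 ≤ Q) {φ : S2 → ℝ} (hφ : Measurable φ)
    (hφ1 : ∀ x, |φ x| ≤ 1) :
    dG (toeplitz Q φ) = VV Q (fun g => ((Q : ℝ) + 1) / (2 * Q - 1) * φ (CS809.pt g)) := by
  have hQ' : (0 : ℝ) < 2 * (Q : ℝ) - 1 := by
    have : (1 : ℝ) ≤ Q := by exact_mod_cast hQ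
    linarith
  rw [Rot303.dG_toeplitz hφ hφ1]
  unfold VV DLi482.nuQ
  rw [integral_smul_measure, ENNReal.toReal_ofReal hQ'.le, ← integral_smul]
  have h1 : ((Q : ℂ) + 1) = (((Q : ℝ) + 1 : ℝ) : ℂ) := by push_cast; rfl
  rw [h1, ← integral_smul]
  refine integral_congr_ae (Filter.Eventually.of_forall fun g => ?_)
  simp only
  rw [n0g_eq, Complex.coe_smul, Complex.coe_smul, smul_smul, smul_smul]
  congr 1
  have hne : (2 * (Q : ℝ) - 1) * (((Q : ℝ) + 1) / (2 * Q - 1)) = (Q : ℝ) + 1 :=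
    mul_div_cancel₀ _ hQ'.ne'
  rw [← mul_assoc, hne]

theorem VV_smul (Q : ℕ) (a : ℝ) (φ : U2 → ℝ) : VV Q (fun g => a * φ g) = a • VV Q φ := by
  unfold VV
  rw [← integral_smul]
  congr 1
  funext g
  rw [smul_smul]

/-! ### profile of the density -/

theorem nz_profile {Q : ℕ} (hQ : 1 ≤ Q) {K : ℝ} {M : ℕ}
    (hK : ∀ t : ℝ, 0 ≤ t → 48 * Real.exp (-(t ^ 2 / 16)) ≤ K / (1 + t) ^ M)
    (g : U2) (k : Fin 2 × Bool) (y : U2) :
    ‖⁅nz (fcar : Car (Op (Fin (Q + 1))) (L (Fin (Q + 1)))) (uf Q) g, gen fcar (uf Q) k y⁆‖ ≤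
      K / (1 + dQ Q y g) ^ M := by
  have hin : ∀ k : Fin 2, ‖(inner ℂ (uf Q k y) (uf Q 0 g) : ℂ)‖ ≤ K / (1 + dQ Q y g) ^ M := by
    intro k
    refine (FI331.norm_inner_uf_le hQ k 0 y g).trans ?_
    refine le_trans ?_ (hK _ (dQ_nonneg Q y g))
    have := Real.exp_pos (-(dQ Q y g ^ 2 / 16))
    linarith
  have han : ∀ k : Fin 2, ‖⁅nz (fcar : Car (Op (Fin (Q + 1))) (L (Fin (Q + 1)))) (uf Q) g,
      fcar.an (uf Q k y)⁆‖ ≤ K / (1 + dQ Q y g) ^ M := by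
    intro k
    rw [DC867.lie_n_an, norm_neg, norm_smul]
    have h1 : ‖(fcar : Car (Op (Fin (Q + 1))) (L (Fin (Q + 1)))).an (uf Q 0 g)‖ ≤ 1 :=
      (fcar.norm_an_le _).trans (norm_uf Q 0 g).le
    calc _ ≤ ‖(inner ℂ (uf Q k y) (uf Q 0 g) : ℂ)‖ * 1 := by gcongr
      _ ≤ _ := by rw [mul_one]; exact hin k
  obtain ⟨k, b⟩ := k
  cases b
  · exact han k
  · have h1 := han k
    have h2 : ⁅nz (fcar : Car (Op (Fin (Q + 1))) (L (Fin (Q + 1)))) (uf Q) g,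
        gen fcar (uf Q) (k, true) y⁆ =
        -star ⁅nz (fcar : Car (Op (Fin (Q + 1))) (L (Fin (Q + 1)))) (uf Q) g,
          fcar.an (uf Q k y)⁆ := by
      rw [gen_true]
      have e1 : star (fcar.an (uf Q k y)) =
        (fcar : Car (Op (Fin (Q + 1))) (L (Fin (Q + 1)))).cr (uf Q k y) := rfl
      simp only [Ring.lie_def, star_sub, star_mul, star_nz, e1]
      abel
    rw [h2, norm_neg, norm_star]
    exact h1

/-! ### the final theorem -/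

/-- evolution estimates for the perturbed Hamiltonians, uniformly in the flux -/
def EvoP (m : ℕ) : Prop :=
  ∃ (Q₀ : ℕ) (μ0 v C0 Cf Cn : ℝ), ∀ Q, Q₀ ≤ Q → ∀ φ : U2 → ℝ, Measurable φ → (∀ g, |φ g| ≤ 1) →
    ∀ s ∈ Set.Icc (0 : ℝ) 1, ∃ κ,
      EvoHyp (fcar : Car (Op (Fin (Q + 1))) (L (Fin (Q + 1)))) (nuQ Q) (fb Q) (uf Q) (dQ Q)
        (HH Q + s • VV Q φ) κ μ0 v C0 Cf Cn m

theorem integrable_weight (Q : ℕ) (g : U2) :
    Integrable (fun z => 1 / (1 + dQ Q g z) ^ 3) (nuQ Q) := by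
  have h0 : Continuous fun z : U2 => (g, z) := Continuous.prodMk continuous_const continuous_id
  have h1 : Continuous fun z => dQ Q g z := by
    have h3 := (FI331.continuous_dQ Q).comp h0
    exact h3
  have h2 : Continuous fun z => 1 / (1 + dQ Q g z) ^ 3 := by
    refine continuous_const.div ((continuous_const.add h1).pow 3) fun z => ?_
    have := dQ_nonneg Q g z
    positivity
  exact U856.cint h2

/-- gap of the unperturbed Hamiltonian above its zero modes -/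
def GapP (γ : ℝ) : Prop :=
  ∃ Q₀ : ℕ, ∀ Q, Q₀ ≤ Q → ∀ φ : Fk (Fin (Q + 1)), PZ Q φ = 0 →
    γ * ‖φ‖ ^ 2 ≤ (⟪φ, HH Q φ⟫_ℂ).re

theorem s0532_of {m : ℕ} {γ : ℝ} (hγ : 0 < γ) (hU : UP m) (hG : GapP γ) (hE1 : EvoP m)
    (hE2 : EvoP (2 * m + 14)) :
    ∃ c₀ Δ : ℝ, 0 < c₀ ∧ 0 < Δ ∧ ∃ N₀ : ℕ, ∀ N : ℕ, N₀ ≤ N →
      ∀ φ : S2 → ℝ, Measurable φ → (∀ x, |φ x| ≤ 1) → ∀ c : ℝ, |c| ≤ c₀ →
        HasFermionicGap
          (interaction (3 * (N - 1)) N +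
            (c : ℂ) • oneBody N (toeplitz (3 * (N - 1)) φ)) Δ := by
  classical
  obtain ⟨w, hw⟩ := exists_band (β := γ / 2) (by positivity)
  obtain ⟨q1, CU, hCU, hU⟩ := hU
  obtain ⟨q2, hG⟩ := hG
  obtain ⟨q3, μ1, v1, C1, Cf1, Cn1, hE1⟩ := hE1
  obtain ⟨q4, μ2, v2, C2, Cf2, Cn2, hE2⟩ := hE2
  obtain ⟨K1, hK10, hK1⟩ := FI331.gauss_poly m
  obtain ⟨K2, hK20, hK2⟩ := FI331.gauss_poly (2 * m + 14)
  set K : ℝ := |cEvo v1 μ1 C1 Cf1 Cn1 m * mom w (m + 9) * K1| +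
    |cEvo v2 μ2 C2 Cf2 Cn2 (2 * m + 14) * mom w (2 * m + 14 + 10) * K2| with hK
  have hK0 : 0 ≤ K := by positivity
  set Cf : ℝ := 4 * PD757.Kn (2 * m + 9 + 3) with hCf
  set Cn : ℝ := 2 * PD757.Ks m with hCn
  have hCf0 : 0 ≤ Cf := by
    have := PD757.Kn_pos (2 * m + 9 + 3)
    rw [hCf]; positivity
  have hCn0 : 0 ≤ Cn := by
    have := PD757.Ks_pos m
    rw [hCn]; positivity
  set CX := cX w K 1 Cf Cn m with hCX
  have hCX0 : 0 < CX := cX_pos hK0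
  set c0 : ℝ := min 1 (1 / (4 * (CU + 1) * CX)) with hc0
  have hc00 : 0 < c0 := by positivity
  refine ⟨c0, 3 * γ / 4, hc00, by positivity, q1 + q2 + q3 + q4 + 3, ?_⟩
  intro N hN φ hφ hφ1 c hc
  set Q := 3 * (N - 1) with hQdef
  have hQN : q1 + q2 + q3 + q4 + 2 ≤ Q := by omega
  have hQ1 : 1 ≤ Q := by omega
  have hQ2 : 2 ≤ Q := by omega
  have hQr : (2 : ℝ) ≤ Q := by exact_mod_cast hQ2
  obtain ⟨Ψ, hΨs, hΨ0, hΨne, hgap⟩ := gapS_laughlin (N := N) (γ := γ) (fun φ h => hG _ (by omega) φ h)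
  -- the density of the perturbation
  set sg : ℝ := if 0 ≤ c then 1 else -1 with hsg
  have hsgc : sg * |c| = c := by
    rw [hsg]
    split_ifs with h
    · rw [abs_of_nonneg h, one_mul]
    · rw [abs_of_neg (not_le.1 h)]; ring
  have hsg1 : |sg| = 1 := by
    rw [hsg]
    split_ifs <;> simp
  set φ' : U2 → ℝ := fun g => sg * (((Q : ℝ) + 1) / (2 * Q - 1) * φ (CS809.pt g)) with hφ'
  have hφ'm : Measurable φ' := measurable_const.mul (measurable_const.mul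
    (hφ.comp Rot303.measurable_pt))
  have hφ'1 : ∀ g, |φ' g| ≤ 1 := by
    intro g
    rw [hφ', abs_mul, abs_mul, hsg1, one_mul]
    have h1 : |((Q : ℝ) + 1) / (2 * Q - 1)| ≤ 1 := by
      rw [abs_of_nonneg (by apply div_nonneg <;> linarith), div_le_one (by linarith)]
      linarith
    calc _ ≤ (1 : ℝ) * 1 := mul_le_mul h1 (hφ1 _) (abs_nonneg _) zero_le_one
      _ = 1 := one_mul 1
  have hVφ : (c : ℂ) • dG (toeplitz Q φ) = |c| • VV Q φ' := by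
    rw [hφ', VV_smul, ← dG_toeplitz_VV hQ1 hφ hφ1, smul_smul, mul_comm, hsgc, Complex.coe_smul]
  have hE : ∀ s ∈ Set.Icc (0 : ℝ) 1, ∃ κ,
      EvoHyp (fcar : Car (Op (Fin (Q + 1))) (L (Fin (Q + 1)))) (nuQ Q) (fb Q) (uf Q) (dQ Q)
        (HH Q + s • VV Q φ') κ μ1 v1 C1 Cf1 Cn1 m := fun s hs =>
    hE1 Q (by omega) φ' hφ'm hφ'1 s hs
  have hE' : ∀ s ∈ Set.Icc (0 : ℝ) 1, ∃ κ,
      EvoHyp (fcar : Car (Op (Fin (Q + 1))) (L (Fin (Q + 1)))) (nuQ Q) (fb Q) (uf Q) (dQ Q)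
        (HH Q + s • VV Q φ') κ μ2 v2 C2 Cf2 Cn2 (2 * m + 14) := fun s hs =>
    hE2 Q (by omega) φ' hφ'm hφ'1 s hs
  have hHth : Commute (HH Q) (thF : Op (Fin (Q + 1))) := by
    obtain ⟨κ, h⟩ := hE 0 ⟨le_rfl, zero_le_one⟩
    have h1 := h.hth
    rw [zero_smul, add_zero] at h1
    exact h1
  have hHN : Commute (Nh : Op (Fin (Q + 1))) (HH Q) := Bridge649.Nh_comm_HH Q
  obtain ⟨e, ψ, h⟩ := top_step (ν := nuQ Q) (N := N) (n := Q + 1) (Nat.succ_pos _) (fb Q)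
    (u := uf Q) (fun k z => (norm_uf Q k z).le) (continuous_uf Q) (D := dQ Q)
    (dQ_nonneg Q) (dQ_comm Q) (dQ_triangle Q) ⟨_, FI331.dQ_le Q⟩ (Cs := 1) zero_le_one
    (fun g => ⟨integrable_weight Q g, FI331.int_le_nuQ hQ1 g zero_le_one
      (fun h => by have := dQ_nonneg Q g h; positivity) (fun h => le_rfl)⟩)
    (m := m) hCf0 hCn0 (PD757.far_B fcar (2 * m + 9)) (PD757.near_B fcar m)
    (H := HH Q) (V := VV Q φ') (star_HH Q) hHN hHth hφ'm hφ'1 rfl hγ hw hgap hK0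
    (fun s hs g k y => by
      obtain ⟨κ, h⟩ := hE s hs
      refine (h.Fl hw.toIsFilter (ev_nz fcar (uf Q) g) hK10 (nz_profile hQ1 hK1 g) k y).trans ?_
      have hd : 0 < (1 + dQ Q y g) ^ m := by have := dQ_nonneg Q y g; positivity
      refine div_le_div_of_nonneg_right ?_ hd.le
      refine (le_abs_self _).trans ?_
      rw [hK]
      linarith [abs_nonneg (cEvo v2 μ2 C2 Cf2 Cn2 (2 * m + 14) * mom w (2 * m + 14 + 10) * K2)])
    (fun s hs g k y => by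
      obtain ⟨κ, h⟩ := hE' s hs
      refine (h.SS hw.toIsFilter (ev_nz fcar (uf Q) g) hK20 (nz_profile hQ1 hK2 g) k y).trans ?_
      have hd : 0 < (1 + dQ Q y g) ^ (2 * m + 14) := by have := dQ_nonneg Q y g; positivity
      refine div_le_div_of_nonneg_right ?_ hd.le
      refine (le_abs_self _).trans ?_
      rw [hK]
      linarith [abs_nonneg (cEvo v1 μ1 C1 Cf1 Cn1 m * mom w (m + 9) * K1)])
    hCU
    (fun X hX hXΨ s hs hs1 χ hχ =>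
      hU N Q hQdef (by omega) Ψ hΨs hΨ0 hΨne X hX hXΨ s hs hs1 χ (BrEq649.mem_sector_eq.1 hχ))
    (c := |c|) (abs_nonneg c) (hc.trans (min_le_left _ _)) (by
      have h1 : |c| ≤ 1 / (4 * (CU + 1) * CX) := hc.trans (min_le_right _ _)
      calc CU * CX * |c| ≤ (CU + 1) * CX * (1 / (4 * (CU + 1) * CX)) := by
            gcongr
            linarith
        _ = 1 / 4 := by field_simp)
  refine Br320.hasFermionicGap_of_sector ⟨e, ψ, BrEq649.mem_sector_eq.1 h.1, ?_, ?_, ?_⟩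
  · intro h0
    have := h.2.1
    rw [h0, norm_zero] at this
    exact zero_ne_one this
  · have h1 := h.2.2.1
    unfold Br320.HT
    rw [hVφ]
    exact h1
  · intro χ hχ horth
    have h1 := h.2.2.2 χ (BrEq649.mem_sector_eq.2 hχ) horth
    unfold Br320.HT
    rw [hVφ]
    exact h1

end Crest.Agent.R340.Top644
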