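import Crest.Agent.R340.Tth1_927
import Crest.Agent.R340.Geo4_927
import Crest.Agent.R340.Mom_814
import Crest.Agent.R340.Avg2_814
import Crest.Agent.R340.FI1_331
import Crest.Agent.R340.LocT4_163

set_option autoImplicit false
set_option linter.unusedSectionVars false

/-!
# Row 340: geometry theta, concrete data (helper927)

Moments, `σ`, `J`, hat-box law in the form of `LR667.LocData`.
-/

open scoped ENNReal NNReal
open MeasureTheory Matrix

namespace Crest.Agent.R340.Tth927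

open Crest.Agent.R340.CS809 Crest.Agent.R340.Fock649 Crest.Agent.R340.FI331
  Crest.Agent.R340.LR667 Crest.Agent.R340.Avg814
open Crest.Agent.R340.LocT163 (nuQ lintegral_nuQ)

/-! ### centre, width, moments -/

/-- centre of the frame at `g` -/
noncomputable def JJ (Q : ℕ) (g : U2) : ℝ := Q * tt g

/-- width of the frame at `g` -/
noncomputable def sg (Q : ℕ) (g : U2) : ℝ :=
  Real.sqrt (1 + Mom814.sig Q (g : Matrix (Fin 2) (Fin 2) ℂ) ^ 2)

theorem JJ_eq (Q : ℕ) (g : U2) : JJ Q g = Mom814.jg Q (g : Matrix (Fin 2) (Fin 2) ℂ) := rfl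

theorem JJ_mem (Q : ℕ) (g : U2) : JJ Q g ∈ Set.Icc (0 : ℝ) Q := by
  have h0 := tt_nonneg g
  have h1 := tt_le_one g
  have hQ : (0 : ℝ) ≤ Q := Nat.cast_nonneg Q
  constructor
  · exact mul_nonneg hQ h0
  · unfold JJ; nlinarith

theorem one_le_sg (Q : ℕ) (g : U2) : 1 ≤ sg Q g := by
  unfold sg
  apply Real.one_le_sqrt.2
  have := sq_nonneg (Mom814.sig Q (g : Matrix (Fin 2) (Fin 2) ℂ))
  linarith

theorem sg_sq_le (Q : ℕ) (g : U2) : sg Q g ^ 2 ≤ 1 + min (JJ Q g) (Q - JJ Q g) := by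
  have h0 := tt_nonneg g
  have h1 := tt_le_one g
  have hQ : (0 : ℝ) ≤ Q := Nat.cast_nonneg Q
  unfold sg
  rw [Real.sq_sqrt (by positivity), Mom814.sig, mul_pow, mul_pow, Real.sq_sqrt hQ, norm_11 g]
  show 1 + (Q : ℝ) * tt g * (1 - tt g) ≤ _
  have h2 : (Q : ℝ) * tt g * (1 - tt g) ≤ min (JJ Q g) (Q - JJ Q g) := by
    apply le_min
    · unfold JJ
      have : 0 ≤ (Q : ℝ) * tt g := by positivity
      nlinarith
    · unfold JJ
      have : 0 ≤ (Q : ℝ) * (1 - tt g) := mul_nonneg hQ (by linarith)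
      nlinarith
  linarith

/-- constants of the moments -/
noncomputable def Cmo (m : ℕ) : ℝ := Mom814.CM m * 2 ^ m

theorem Cmo_nonneg (m : ℕ) : 0 ≤ Cmo m := mul_nonneg (Mom814.CM_nonneg m) (by positivity)

theorem moment_le (Q m : ℕ) (g : U2) (k : Fin (Q + 1)) :
    ‖mv (dg fun j : Fin (Q + 1) => |((j : ℕ) : ℝ) - JJ Q g| ^ m) (fb Q g k)‖ ≤
      Cmo m * (sg Q g * (1 + ((k : ℕ) : ℝ))) ^ m := by
  have h1 := Mom814.norm_weight_le Q (U2_ct_mul g) m k
    (fun j : Fin (Q + 1) => ((|((j : ℕ) : ℝ) - JJ Q g| ^ m : ℝ) : ℂ)) (D := 1) zero_le_one (by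
      intro j
      rw [one_mul, Complex.norm_real, Real.norm_of_nonneg (by positivity)]
      exact le_rfl)
  have h2 : mv (dg fun j : Fin (Q + 1) => |((j : ℕ) : ℝ) - JJ Q g| ^ m) (fb Q g k) =
      WithLp.toLp 2 (fun j : Fin (Q + 1) => ((|((j : ℕ) : ℝ) - JJ Q g| ^ m : ℝ) : ℂ) *
        Mom814.uf Q (g : Matrix (Fin 2) (Fin 2) ℂ) k j) := by
    ext j
    rw [mv_dg_apply, fb_apply, vec_apply, PiLp.toLp_apply, Mom814.uf_of_lt _ k.2]
  rw [h2]
  refine h1.trans ?_
  rw [one_mul, Cmo, mul_assoc]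
  refine mul_le_mul_of_nonneg_left ?_ (Mom814.CM_nonneg m)
  rw [← mul_pow]
  have h3 : 1 + Mom814.sig Q (g : Matrix (Fin 2) (Fin 2) ℂ) ≤ 2 * sg Q g := by
    have h4 : Mom814.sig Q (g : Matrix (Fin 2) (Fin 2) ℂ) ≤ sg Q g := by
      unfold sg
      apply Real.le_sqrt_of_sq_le
      linarith
    have := one_le_sg Q g
    linarith
  have h5 := Mom814.sig_nonneg Q (g : Matrix (Fin 2) (Fin 2) ℂ)
  have hk : (0 : ℝ) ≤ ((k : ℕ) : ℝ) := Nat.cast_nonneg _
  refine pow_le_pow_left₀ (by positivity) ?_ m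
  nlinarith

/-- hat-box law for the centre -/
theorem push_JJ {Q : ℕ} (hQ : 1 ≤ Q) (F : ℝ → ℝ≥0∞) (hF : Measurable F) :
    ∫⁻ z, F (JJ Q z) ∂(nuQ Q) ≤ ENNReal.ofReal 2 * ∫⁻ t in Set.Icc (0 : ℝ) Q, F t := by
  have hQ1 : (1 : ℝ) ≤ Q := by exact_mod_cast hQ
  have hQ0 : (0 : ℝ) < Q := by linarith
  have e1 : ∫⁻ z, F (JJ Q z) ∂hm = ∫⁻ x in Set.Icc (0 : ℝ) 1, F (Q * x) := by
    have := lintegral_tt (F := fun x => F (Q * x)) (hF.comp (measurable_const_mul _))
    exact this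
  have e2 : ∫⁻ x in Set.Icc (0 : ℝ) 1, F (Q * x) =
      ENNReal.ofReal (Q : ℝ)⁻¹ * ∫⁻ t in Set.Icc (0 : ℝ) Q, F t := by
    rw [← lintegral_indicator measurableSet_Icc, ← lintegral_indicator measurableSet_Icc]
    have e3 : ∀ x : ℝ, (Set.Icc (0 : ℝ) 1).indicator (fun x => F (Q * x)) x =
        (Set.Icc (0 : ℝ) Q).indicator F (Q * x) := by
      intro x
      by_cases hx : x ∈ Set.Icc (0 : ℝ) 1
      · rw [Set.indicator_of_mem hx, Set.indicator_of_mem]
        exact ⟨by nlinarith [hx.1], by nlinarith [hx.2]⟩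
      · rw [Set.indicator_of_notMem hx, Set.indicator_of_notMem]
        intro h
        apply hx
        constructor
        · by_contra hneg
          push Not at hneg
          nlinarith [h.1]
        · by_contra hneg
          push Not at hneg
          nlinarith [h.2]
    simp only [e3]
    have hm' : Measurable ((Set.Icc (0 : ℝ) Q).indicator F) := hF.indicator measurableSet_Icc
    have h4 := lintegral_map (μ := volume) hm' (measurable_const_mul (Q : ℝ))
    rw [← h4, Real.map_volume_mul_left hQ0.ne', lintegral_smul_measure,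
      abs_of_pos (inv_pos.2 hQ0), smul_eq_mul]
  rw [lintegral_nuQ, e1, e2, ← mul_assoc]
  gcongr
  rw [← ENNReal.ofReal_natCast, ← ENNReal.ofReal_mul (by positivity)]
  apply ENNReal.ofReal_le_ofReal
  rw [← div_eq_mul_inv, div_le_iff₀ hQ0, Nat.cast_sub (by omega)]
  push_cast
  linarith

end Crest.Agent.R340.Tth927
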