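import Crest.Agent.R340.Tth2_927
import Crest.Agent.R340.FI2_331
import Crest.Agent.R340.PD5_757
import Crest.Agent.R340.Filt3_867

set_option autoImplicit false
set_option linter.unusedSectionVars false

/-!
# Row 340: the evolution theorem and the truncations (T) in geometry theta (helper927)

`evoHyp_theta` : `Filt867.EvoHyp` for `HT t Q`, constants uniform in `Q ≥ 1` and `Adm t`;
`bT_prof` : exponential profile of `bT t Q z`; `trunc_theta` : (T) of `LR667.LocData`.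
-/

open scoped ENNReal NNReal
open MeasureTheory Matrix

namespace Crest.Agent.R340.Tth927

open Crest.Agent.R340.CS809 Crest.Agent.R340.Fock649 Crest.Agent.R340.FI331
  Crest.Agent.R340.LR667 Crest.Agent.R340.Avg814 Crest.Agent.R340.QL331
open Crest.Agent.R340.LocT163 (nuQ muQ HT bT kT vT Bv pb uF vF)
open Crest.Agent.R340.PV341 (Adm)
open Crest.Agent.R340.Filt867 (EvoHyp cPoly cPoly_nonneg cEvo)
open Crest.Agent.R340.PD757 (Kn Ks)

/-- the two names of the frame vectors -/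
theorem uF_eq_uf {Q : ℕ} (hQ : 1 ≤ Q) : LocT163.uF Q = FI331.uf Q := by
  funext k g
  ext i
  rw [LocT163.uF_apply hQ, FI331.uf, vec_apply]
  congr 1
  apply Fin.ext
  rw [idx_val hQ]
  rfl

theorem hκ_theta {Q : ℕ} (hQ : 1 ≤ Q) {t : Fin 3 → ℝ} (ht : Adm t) (X : Op (Fin (Q + 1)))
    (k : Fin 2 × Bool) (w : U2) :
    ‖⁅X, ⁅HT t Q, DC867.gen fcar (FI331.uf Q) k w⁆⁆‖ₑ ≤
      ∫⁻ y, kT t Q w y * prof (DC867.gen fcar (FI331.uf Q)) X y ∂(muQ Q) := by
  have h := LocT163.dcomm_theta hQ ht X k w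
  rwa [uF_eq_uf hQ] at h

/-- a pair annihilator is even -/
theorem ev_pb {ι : Type*} [Fintype ι] [LinearOrder ι] (v1 v0 : L ι) :
    (fcar : Car (Op ι) (L ι)).Ev (pb v1 v0) :=
  Car.ev_odd_mul_odd _ (Car.par_an _ v1) (Car.par_an _ v0)

theorem commute_th_of_ev {ι : Type*} [Fintype ι] [LinearOrder ι] {a : Op ι}
    (h : (fcar : Car (Op ι) (L ι)).Ev a) : Commute a (fcar : Car (Op ι) (L ι)).th := by
  have h1 : (fcar : Car (Op ι) (L ι)).th * a * (fcar : Car (Op ι) (L ι)).th = a := h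
  show a * _ = _ * a
  calc a * (fcar : Car (Op ι) (L ι)).th
      = (fcar : Car (Op ι) (L ι)).th * a * (fcar : Car (Op ι) (L ι)).th *
          (fcar : Car (Op ι) (L ι)).th := by rw [h1]
    _ = (fcar : Car (Op ι) (L ι)).th * a := by
        rw [mul_assoc, (fcar : Car (Op ι) (L ι)).th_sq, mul_one]

theorem ev_bT (t : Fin 3 → ℝ) (Q : ℕ) (z : U2) :
    (fcar : Car (Op (Fin (Q + 1))) (L (Fin (Q + 1)))).Ev (bT t Q z) := ev_pb _ _

theorem integrable_bb {Q : ℕ} (hQ : 1 ≤ Q) (t : Fin 3 → ℝ) :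
    Integrable (fun z => star (bT t Q z) * bT t Q z) (nuQ Q) := by
  have h := LocT163.continuous_bT hQ t
  exact LocT163.integrable_nuQ Q (h.star.mul h)

theorem HT_comm_th {Q : ℕ} (hQ : 1 ≤ Q) (t : Fin 3 → ℝ) :
    Commute (HT t Q) (fcar : Car (Op (Fin (Q + 1))) (L (Fin (Q + 1)))).th := by
  have hi := integrable_bb hQ t
  show HT t Q * _ = _ * HT t Q
  rw [LocT163.HT_eq, integral_mul_op hi, mul_integral_op hi]
  refine integral_congr_ae (Filter.Eventually.of_forall fun z => ?_)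
  exact (commute_th_of_ev ((ev_bT t Q z).star.mul (ev_bT t Q z))).eq

/-- constant of the overlaps of the frame -/
noncomputable def C12 : ℝ := 12 * Real.exp (4 * 1 ^ 2)

theorem C12_pos : 0 < C12 := by unfold C12; positivity

/-- **all hypotheses of the evolution theorem for `HT t Q`**, constants uniform in `Q ≥ 1`,
`Adm t` -/
theorem evoHyp_theta {Q : ℕ} (hQ : 1 ≤ Q) {t : Fin 3 → ℝ} (ht : Adm t) (m : ℕ) :
    EvoHyp (fcar : Car (Op (Fin (Q + 1))) (L (Fin (Q + 1)))) (muQ Q) (fb Q) (FI331.uf Q) (dQ Q)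
      (HT t Q) (kT t Q) 1 (vT 1) C12 (4 * Kn (m + 7)) (2 * Ks m) m where
  htop := alg_univ
  hH := LocT163.isSelfAdjoint_HT t Q
  hth := HT_comm_th hQ t
  hu k z := (norm_uf Q k z).le
  hκ := hκ_theta hQ ht
  hD0 := dQ_nonneg Q
  hDsymm := dQ_comm Q
  hDtri x y z := dQ_triangle Q x y z
  hDb := ⟨2 * Real.sqrt Q, dQ_le Q⟩
  hμ := one_pos
  hv := LocT163.vT_nonneg 1
  hC0 := C12_pos.le
  hS w := LocT163.schur_theta zero_le_one hQ ht w
  hov k l w z := norm_inner_uf_exp hQ 1 k l w z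
  hCf := by have := PD757.Kn_pos (m + 7); positivity
  hCn := by have := PD757.Ks_pos m; positivity
  hfar := PD757.far_B' _ m
  hnear := PD757.near_B _ m

/-! ### profile of the local pair annihilators -/

/-- constant of the profile -/
noncomputable def Cb : ℝ := 2 * (Bv + 1) * LocT163.Kd 1

theorem Cb_nonneg : 0 ≤ Cb := by
  have h1 := LocT163.Bv_nonneg
  have h2 := LocT163.Kd_nonneg 1
  unfold Cb; positivity

theorem norm_lie_pb_an {ι : Type*} [Fintype ι] [LinearOrder ι] (v1 v0 u : L ι) :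
    ⁅pb v1 v0, an u⁆ = 0 := by
  have a1 : an v1 * an u = - (an u * an v1) := eq_neg_of_add_eq_zero_left (an_an v1 u)
  have a0 : an v0 * an u = - (an u * an v0) := eq_neg_of_add_eq_zero_left (an_an v0 u)
  rw [pb, Ring.lie_def, mul_assoc, a0, mul_neg, ← mul_assoc, a1]
  simp [mul_assoc]

theorem lie_pb_cr {ι : Type*} [Fintype ι] [LinearOrder ι] (v1 v0 u : L ι) :
    ⁅pb v1 v0, cr u⁆ = (inner ℂ v0 u : ℂ) • an v1 - (inner ℂ v1 u : ℂ) • an v0 := by
  have h1 : an v1 * cr u = (inner ℂ v1 u : ℂ) • (1 : Op ι) - cr u * an v1 :=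
    eq_sub_of_add_eq (an_cr v1 u)
  have h0 : an v0 * cr u = (inner ℂ v0 u : ℂ) • (1 : Op ι) - cr u * an v0 :=
    eq_sub_of_add_eq (an_cr v0 u)
  rw [pb, Ring.lie_def, mul_assoc, h0, mul_sub, ← mul_assoc, h1, sub_mul]
  simp only [mul_smul_comm, smul_mul_assoc, mul_one, one_mul, mul_assoc]
  abel

theorem inner_uf_vF_le {μ : ℝ} (hμ : 0 ≤ μ) {Q : ℕ} (hQ : 1 ≤ Q) {t : Fin 3 → ℝ} (ht : Adm t)
    (k l : Fin 2) (w z : U2) :
    ‖(inner ℂ (FI331.uf Q k w) (vF t Q l z) : ℂ)‖ ≤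
      LocT163.Kd μ * Real.exp (-(μ + 1) * dQ Q w z) := by
  have h := LocT163.inner_decay hμ hQ ht k l w z
  rw [uF_eq_uf hQ, ← le_div_iff₀ (Real.exp_pos _)] at h
  refine h.trans (le_of_eq ?_)
  rw [div_eq_mul_inv, ← Real.exp_neg, mul_assoc, ← Real.exp_add]
  congr 2
  ring

/-- exponential profile of `bT t Q z` -/
theorem bT_prof {Q : ℕ} (hQ : 1 ≤ Q) {t : Fin 3 → ℝ} (ht : Adm t) (z : U2) (k : Fin 2 × Bool)
    (w : U2) :
    ‖⁅bT t Q z, DC867.gen fcar (FI331.uf Q) k w⁆‖ ≤ Cb * Real.exp (-1 * dQ Q w z) := by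
  have hB := LocT163.Bv_nonneg
  have hK := LocT163.Kd_nonneg 1
  obtain ⟨k, c⟩ := k
  cases c
  · rw [DC867.gen_false, fcar_an, bT, norm_lie_pb_an, norm_zero]
    exact mul_nonneg Cb_nonneg (Real.exp_pos _).le
  · rw [DC867.gen_true, fcar_cr, bT, lie_pb_cr]
    have hn : ∀ l : Fin 2, ‖(inner ℂ (vF t Q l z) (FI331.uf Q k w) : ℂ)‖ ≤
        LocT163.Kd 1 * Real.exp (-1 * dQ Q w z) := by
      intro l
      rw [norm_inner_symm]
      refine (inner_uf_vF_le zero_le_one hQ ht k l w z).trans ?_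
      have := dQ_nonneg Q w z
      gcongr
      linarith
    have hv : ∀ l : Fin 2, ‖an (vF t Q l z)‖ ≤ Bv + 1 := by
      intro l
      rw [norm_an]
      have := LocT163.norm_vF_le hQ (fun k => (ht k).1) (fun k => (ht k).2) l z
      linarith
    refine (norm_sub_le _ _).trans ?_
    rw [norm_smul, norm_smul]
    calc ‖(inner ℂ (vF t Q 0 z) (FI331.uf Q k w) : ℂ)‖ * ‖an (vF t Q 1 z)‖ +
          ‖(inner ℂ (vF t Q 1 z) (FI331.uf Q k w) : ℂ)‖ * ‖an (vF t Q 0 z)‖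
        ≤ LocT163.Kd 1 * Real.exp (-1 * dQ Q w z) * (Bv + 1) +
          LocT163.Kd 1 * Real.exp (-1 * dQ Q w z) * (Bv + 1) :=
          add_le_add (mul_le_mul (hn 0) (hv 1) (norm_nonneg _) (by positivity))
            (mul_le_mul (hn 1) (hv 0) (norm_nonneg _) (by positivity))
      _ = Cb * Real.exp (-1 * dQ Q w z) := by unfold Cb; ring

/-- bound of the norm of `bT` -/
noncomputable def Kb : ℝ := Bv ^ 2 + 1

theorem Kb_pos : 0 < Kb := by unfold Kb; positivity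

theorem norm_bT_le' {Q : ℕ} (hQ : 1 ≤ Q) {t : Fin 3 → ℝ} (ht : Adm t) (z : U2) :
    ‖bT t Q z‖ ≤ Kb := by
  have := LocT163.norm_bT_le hQ ht z
  unfold Kb; linarith

/-- the constants of (T) -/
noncomputable def Dt (M : ℕ) : ℝ :=
  Kb + 4 * Kn (M + 3) * (Kb * cPoly (vT 1) 1 (Cb / Kb) (M + 1 + 4))

theorem Dt_ge (M : ℕ) : Kb ≤ Dt M := by
  have h1 := PD757.Kn_pos (M + 3)
  have h2 := Kb_pos
  have h3 := cPoly_nonneg (LocT163.vT_nonneg 1) one_pos
    (div_nonneg Cb_nonneg h2.le) (M + 1 + 4)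
  have : 0 ≤ 4 * Kn (M + 3) * (Kb * cPoly (vT 1) 1 (Cb / Kb) (M + 1 + 4)) := by positivity
  unfold Dt; linarith

theorem Dt_nonneg (M : ℕ) : 0 ≤ Dt M := Kb_pos.le.trans (Dt_ge M)

/-- **(T) in geometry theta** -/
theorem trunc_theta {Q : ℕ} (hQ : 1 ≤ Q) {t : Fin 3 → ℝ} (ht : Adm t) (M : ℕ) (s : ℝ) (z : U2) :
    Trunc (fb Q z) (tau (HT t Q) s (bT t Q z)) (Dt M * (1 + |s|) ^ (M + 5)) M := by
  have hKb := Kb_pos
  have h := trunc_tau (muQ Q) (fb Q) (LocT163.isSelfAdjoint_HT t Q)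
    (u := FI331.uf Q) (fun k z => (norm_uf Q k z).le) (κ := kT t Q) (hκ_theta hQ ht)
    (D := dQ Q) (dQ_nonneg Q) (fun x y z => dQ_triangle Q x y z) ⟨2 * Real.sqrt Q, dQ_le Q⟩
    (μ0 := 1) (v := vT 1) (C0 := Cb / Kb) one_pos (LocT163.vT_nonneg 1)
    (div_nonneg Cb_nonneg hKb.le)
    (fun w => LocT163.schur_theta zero_le_one hQ ht w) (M := M + 1)
    (Cf := 4 * Kn (M + 3)) (PD757.far_B _ M) (X := bT t Q z) (x := z) hKb
    (norm_bT_le' hQ ht z) (by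
      intro k w
      refine (bT_prof hQ ht z k w).trans (le_of_eq ?_)
      rw [mul_div_cancel₀ _ hKb.ne']) s
  intro l
  obtain ⟨Y, hY1, hY2⟩ := h l
  refine ⟨Y, hY1, hY2.trans ?_⟩
  have h1 : ((1 / 2 : ℝ) ^ (M + 1)) ^ l ≤ ((1 / 2 : ℝ) ^ M) ^ l :=
    pow_le_pow_left₀ (by positivity) (pow_le_pow_of_le_one (by norm_num) (by norm_num)
      (Nat.le_succ M)) l
  have h2 := PD757.Kn_pos (M + 3)
  have h3 := cPoly_nonneg (LocT163.vT_nonneg 1) one_pos
    (div_nonneg Cb_nonneg hKb.le) (M + 1 + 4)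
  have h4 : 4 * Kn (M + 3) * (Kb * cPoly (vT 1) 1 (Cb / Kb) (M + 1 + 4)) ≤ Dt M := by
    unfold Dt; linarith
  have h5 : 0 ≤ 1 + |s| := by positivity
  have h6 := Dt_nonneg M
  calc 4 * Kn (M + 3) * (Kb * cPoly (vT 1) 1 (Cb / Kb) (M + 1 + 4)) * (1 + |s|) ^ (M + 1 + 4) *
        ((1 / 2 : ℝ) ^ (M + 1)) ^ l
      ≤ Dt M * (1 + |s|) ^ (M + 1 + 4) * ((1 / 2 : ℝ) ^ M) ^ l := by gcongr
    _ = _ := by rw [show M + 1 + 4 = M + 5 by ring]

end Crest.Agent.R340.Tth927
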