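import Crest.Agent.R340.Tz6_877
import Crest.Agent.R340.Tz3_877
import Crest.Agent.R340.LR5_667
import Crest.Agent.R340.FI1_331
import Crest.Agent.R340.Avg2_814
import Crest.Agent.R340.PathStep2_880

/-!
# Row 340, block O10: kernel bounds `KBd` of linearised profiles in the frame `uf Q` (helper877)
-/

set_option autoImplicit false

namespace Crest.Agent.R340.Tz877

open Finset Complex MeasureTheory
open Crest.Agent.R340.Fock649 Crest.Agent.R340.FI331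
open Crest.Agent.R340.LR667 (dg mv_dg_apply)
open Crest.Agent.R340.CS809 (U2 sb sp sp_j_zero sb_mul_self dQ dQ_nonneg)
open Crest.Agent.R340.Avg814 (tt norm_00)

theorem idx_zero (Q : ℕ) : idx Q 0 = 0 := by
  apply Fin.ext
  simp [idx]

theorem uf_zero_apply (Q : ℕ) (g : U2) (j : Fin (Q + 1)) :
    uf Q 0 g j = ((sb Q j : ℝ) : ℂ) * ((g : Matrix (Fin 2) (Fin 2) ℂ) 0 0 ^ (Q - (j : ℕ)) *
      (g : Matrix (Fin 2) (Fin 2) ℂ) 1 0 ^ (j : ℕ)) := by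
  unfold uf
  rw [vec_apply, idx_zero, sp_j_zero]

/-- matrix elements of diagonal one-body matrices between coherent vectors -/
theorem inner_uf_dg (Q : ℕ) (g h : U2) (F : ℕ → ℝ) :
    (inner ℂ (uf Q 0 h) (mv (dg fun j : Fin (Q + 1) => F j) (uf Q 0 g)) : ℂ) =
      ME ((g : Matrix (Fin 2) (Fin 2) ℂ) 1 0) ((g : Matrix (Fin 2) (Fin 2) ℂ) 0 0)
        ((h : Matrix (Fin 2) (Fin 2) ℂ) 1 0) ((h : Matrix (Fin 2) (Fin 2) ℂ) 0 0) Q F := by
  rw [inner_eq_sum]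
  unfold ME
  rw [Finset.sum_range]
  refine Finset.sum_congr rfl fun j _ => ?_
  rw [mv_dg_apply, uf_zero_apply, uf_zero_apply, map_mul, map_mul, map_pow, map_pow,
    Complex.conj_ofReal, mul_pow, mul_pow]
  have h1 : ((Q.choose j : ℕ) : ℂ) = ((sb Q j : ℝ) : ℂ) * ((sb Q j : ℝ) : ℂ) := by
    rw [← Complex.ofReal_mul, sb_mul_self]
    simp
  rw [h1]
  ring

theorem ME_flip (g0 g1 h0 h1 : ℂ) (Q : ℕ) (F : ℕ → ℝ) :
    ME g1 g0 h1 h0 Q (fun i => F (Q - i)) = ME g0 g1 h0 h1 Q F := by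
  unfold ME
  rw [← Finset.sum_flip]
  refine Finset.sum_congr rfl fun i hi => ?_
  have hi' : i ≤ Q := Nat.lt_succ_iff.1 (mem_range.1 hi)
  have e : Q - (Q - i) = i := Nat.sub_sub_self hi'
  simp only [e, Nat.choose_symm hi']
  ring

theorem inner_uf_dg' (Q : ℕ) (g h : U2) (F : ℕ → ℝ) :
    (inner ℂ (uf Q 0 h) (mv (dg fun j : Fin (Q + 1) => F (Q - j)) (uf Q 0 g)) : ℂ) =
      ME ((g : Matrix (Fin 2) (Fin 2) ℂ) 0 0) ((g : Matrix (Fin 2) (Fin 2) ℂ) 1 0)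
        ((h : Matrix (Fin 2) (Fin 2) ℂ) 0 0) ((h : Matrix (Fin 2) (Fin 2) ℂ) 1 0) Q F := by
  rw [inner_uf_dg Q g h (fun i => F (Q - i)), ME_flip]

/-! ### distances -/

theorem sq_dd (g h : U2) : dd ((g : Matrix (Fin 2) (Fin 2) ℂ) 0 0)
    ((g : Matrix (Fin 2) (Fin 2) ℂ) 1 0) ((h : Matrix (Fin 2) (Fin 2) ℂ) 0 0)
    ((h : Matrix (Fin 2) (Fin 2) ℂ) 1 0) ^ 2 = 1 - CS809.ov g h := by
  have hg : ‖(g : Matrix (Fin 2) (Fin 2) ℂ) 0 0‖ ^ 2 + ‖(g : Matrix (Fin 2) (Fin 2) ℂ) 1 0‖ ^ 2 =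
      1 := by
    rw [norm_00]; unfold tt; ring
  have hh : ‖(h : Matrix (Fin 2) (Fin 2) ℂ) 0 0‖ ^ 2 + ‖(h : Matrix (Fin 2) (Fin 2) ℂ) 1 0‖ ^ 2 =
      1 := by
    rw [norm_00]; unfold tt; ring
  have e : CS809.ov g h = ‖(starRingEnd ℂ) ((g : Matrix (Fin 2) (Fin 2) ℂ) 0 0) *
      (h : Matrix (Fin 2) (Fin 2) ℂ) 0 0 + (starRingEnd ℂ) ((g : Matrix (Fin 2) (Fin 2) ℂ) 1 0) *
      (h : Matrix (Fin 2) (Fin 2) ℂ) 1 0‖ ^ 2 := by
    unfold CS809.ov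
    rw [Matrix.mul_apply, Fin.sum_univ_two, Matrix.conjTranspose_apply, Matrix.conjTranspose_apply]
    rfl
  rw [e]
  unfold dd
  generalize (g : Matrix (Fin 2) (Fin 2) ℂ) 0 0 = a at *
  generalize (g : Matrix (Fin 2) (Fin 2) ℂ) 1 0 = b at *
  generalize (h : Matrix (Fin 2) (Fin 2) ℂ) 0 0 = c at *
  generalize (h : Matrix (Fin 2) (Fin 2) ℂ) 1 0 = d at *
  have n : ∀ z : ℂ, ‖z‖ ^ 2 = z.re ^ 2 + z.im ^ 2 := fun z => by
    rw [← Complex.normSq_eq_norm_sq, Complex.normSq_apply]; ring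
  have key : ‖a * d - b * c‖ ^ 2 + ‖(starRingEnd ℂ) a * c + (starRingEnd ℂ) b * d‖ ^ 2 =
      (‖a‖ ^ 2 + ‖b‖ ^ 2) * (‖c‖ ^ 2 + ‖d‖ ^ 2) := by
    rw [n, n, n, n, n, n]
    simp only [Complex.sub_re, Complex.sub_im, Complex.mul_re, Complex.mul_im, Complex.add_re,
      Complex.add_im, Complex.conj_re, Complex.conj_im]
    ring
  rw [hg, hh] at key
  linarith

theorem dQ_eq_dd (Q : ℕ) (g h : U2) : dQ Q g h = 2 * (Real.sqrt Q *
    dd ((g : Matrix (Fin 2) (Fin 2) ℂ) 0 0) ((g : Matrix (Fin 2) (Fin 2) ℂ) 1 0)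
      ((h : Matrix (Fin 2) (Fin 2) ℂ) 0 0) ((h : Matrix (Fin 2) (Fin 2) ℂ) 1 0)) := by
  have h0 : (0 : ℝ) ≤ 2 * (Real.sqrt Q *
    dd ((g : Matrix (Fin 2) (Fin 2) ℂ) 0 0) ((g : Matrix (Fin 2) (Fin 2) ℂ) 1 0)
      ((h : Matrix (Fin 2) (Fin 2) ℂ) 0 0) ((h : Matrix (Fin 2) (Fin 2) ℂ) 1 0)) := by
    have := Real.sqrt_nonneg (Q : ℝ)
    have := dd_nonneg (g0 := (g : Matrix (Fin 2) (Fin 2) ℂ) 0 0)
      (g1 := (g : Matrix (Fin 2) (Fin 2) ℂ) 1 0) (h0 := (h : Matrix (Fin 2) (Fin 2) ℂ) 0 0)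
      (h1 := (h : Matrix (Fin 2) (Fin 2) ℂ) 1 0)
    positivity
  rw [FI331.dQ_eq, ← sq_dd, ← Real.sqrt_sq h0]
  congr 1
  rw [mul_pow, mul_pow, Real.sq_sqrt (Nat.cast_nonneg Q)]
  ring

theorem dd_flip (g0 g1 h0 h1 : ℂ) : dd g1 g0 h1 h0 = dd g0 g1 h0 h1 := by
  unfold dd
  rw [show g1 * h0 - g0 * h1 = -(g0 * h1 - g1 * h0) by ring, norm_neg]

/-! ### kernel bounds -/

/-- constants of the kernel bounds -/
noncomputable def kC (C : ℕ → ℝ) (CL : ℝ) (M : ℕ) : ℝ := 2 ^ M * Classical.choose (kb_exists C CL M)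

theorem kC_nonneg {C : ℕ → ℝ} {CL : ℝ} (hC : ∀ p, 0 ≤ C p) (hCL : 0 ≤ CL) (M : ℕ) :
    0 ≤ kC C CL M := by
  have := (Classical.choose_spec (kb_exists C CL M) hC hCL).1
  unfold kC
  positivity

/-- the abstract step from weighted matrix elements to the kernel bound -/
theorem kbd_aux {C0 X D D' d d' Y : ℝ} {M : ℕ} (hC0 : 0 ≤ C0) (hX : 0 ≤ X) (hY : 0 ≤ Y)
    (hD : 0 ≤ D) (hD' : 0 ≤ D') (e : d = 2 * D) (e' : d' = 2 * D')
    (h : (1 + D') ^ M * Y ≤ C0 * X * (1 + D) ^ 12) :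
    Y ≤ 2 ^ M * C0 * X * (1 + d) ^ 12 * (1 / (1 + d') ^ M) := by
  have hp : 0 < (1 + d') ^ M := by rw [e']; positivity
  rw [mul_one_div, le_div_iff₀ hp]
  have h1 : (1 + d') ^ M ≤ 2 ^ M * (1 + D') ^ M := by
    rw [← mul_pow]
    apply pow_le_pow_left₀ (by rw [e']; positivity)
    rw [e']; linarith
  have h2 : (1 + D) ^ 12 ≤ (1 + d) ^ 12 := by
    apply pow_le_pow_left₀ (by positivity)
    rw [e]; linarith
  calc Y * (1 + d') ^ M ≤ Y * (2 ^ M * (1 + D') ^ M) := by gcongr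
    _ = 2 ^ M * ((1 + D') ^ M * Y) := by ring
    _ ≤ 2 ^ M * (C0 * X * (1 + D) ^ 12) := by gcongr
    _ ≤ 2 ^ M * (C0 * X * (1 + d) ^ 12) := by gcongr
    _ = _ := by ring

variable {Q : ℕ} {G : ℕ → ℝ} {α β K : ℝ → ℝ} {C : ℕ → ℝ} {CL : ℝ}

/-- **kernel bounds, profile in `j`** (distance from the north pole) -/
theorem kbd_north (hL : LinD Q G α β K C CL) (z : U2) :
    KBd (uf Q) (dQ Q) (dg fun j : Fin (Q + 1) => G j - α (Q * tt z) - β (Q * tt z) *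
      (((j : ℕ) : ℝ) - Q * tt z)) z 12
      ((1 + Q * tt z * (1 - tt z)) * K (Q * tt z)) (kC C CL) where
  T_nonneg := by
    have h1 : 0 ≤ tt z := sq_nonneg _
    have h2 : 0 ≤ 1 - tt z := by rw [← norm_00]; positivity
    have h3 := hL.K_nonneg (Q * tt z) (by positivity)
    positivity
  c_nonneg := kC_nonneg hL.C_nonneg hL.CL_nonneg
  le M w w' := by
    have hz : ‖(z : Matrix (Fin 2) (Fin 2) ℂ) 1 0‖ ^ 2 + ‖(z : Matrix (Fin 2) (Fin 2) ℂ) 0 0‖ ^ 2 =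
        1 := by rw [norm_00]; unfold tt; ring
    have hw : ‖(w : Matrix (Fin 2) (Fin 2) ℂ) 1 0‖ ^ 2 + ‖(w : Matrix (Fin 2) (Fin 2) ℂ) 0 0‖ ^ 2 =
        1 := by rw [norm_00]; unfold tt; ring
    have hw' : ‖(w' : Matrix (Fin 2) (Fin 2) ℂ) 1 0‖ ^ 2 +
        ‖(w' : Matrix (Fin 2) (Fin 2) ℂ) 0 0‖ ^ 2 = 1 := by rw [norm_00]; unfold tt; ring
    have h := (Classical.choose_spec (kb_exists C CL M) hL.C_nonneg hL.CL_nonneg).2 Q G α β K hL
      _ _ _ _ _ _ hz hw hw'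
    rw [norm_00] at h
    change (1 + _) ^ M * ‖ME _ _ _ _ Q (fun i => G i - α (Q * tt z) - β (Q * tt z) *
      (i - Q * tt z))‖ ≤ _ * ((1 + Q * tt z * (1 - tt z)) * K (Q * tt z)) * _ at h
    rw [← inner_uf_dg Q w w' (fun i => G i - α (Q * tt z) - β (Q * tt z) * (i - Q * tt z))] at h
    have h1 : 0 ≤ tt z := sq_nonneg _
    have h2 : 0 ≤ 1 - tt z := by rw [← norm_00]; positivity
    have h3 := hL.K_nonneg (Q * tt z) (by positivity)
    exact kbd_aux (Classical.choose_spec (kb_exists C CL M) hL.C_nonneg hL.CL_nonneg).1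
      (by positivity) (norm_nonneg _)
      (mul_nonneg (Real.sqrt_nonneg _) dd_nonneg) (mul_nonneg (Real.sqrt_nonneg _) dd_nonneg)
      (by rw [dQ_eq_dd, dd_comm, dd_flip]) (by rw [dQ_eq_dd, dd_comm, dd_flip]) h

/-- **kernel bounds, profile in `Q - j`** (distance from the south pole) -/
theorem kbd_south (hL : LinD Q G α β K C CL) (z : U2) :
    KBd (uf Q) (dQ Q) (dg fun j : Fin (Q + 1) => G (Q - j) - α (Q * (1 - tt z)) -
      β (Q * (1 - tt z)) * (((Q - (j : ℕ) : ℕ) : ℝ) - Q * (1 - tt z))) z 12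
      ((1 + Q * tt z * (1 - tt z)) * K (Q * (1 - tt z))) (kC C CL) where
  T_nonneg := by
    have h1 : 0 ≤ tt z := sq_nonneg _
    have h2 : 0 ≤ 1 - tt z := by rw [← norm_00]; positivity
    have h3 := hL.K_nonneg (Q * (1 - tt z)) (by positivity)
    positivity
  c_nonneg := kC_nonneg hL.C_nonneg hL.CL_nonneg
  le M w w' := by
    have hz : ‖(z : Matrix (Fin 2) (Fin 2) ℂ) 0 0‖ ^ 2 + ‖(z : Matrix (Fin 2) (Fin 2) ℂ) 1 0‖ ^ 2 =
        1 := by rw [norm_00]; unfold tt; ring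
    have hw : ‖(w : Matrix (Fin 2) (Fin 2) ℂ) 0 0‖ ^ 2 + ‖(w : Matrix (Fin 2) (Fin 2) ℂ) 1 0‖ ^ 2 =
        1 := by rw [norm_00]; unfold tt; ring
    have hw' : ‖(w' : Matrix (Fin 2) (Fin 2) ℂ) 0 0‖ ^ 2 +
        ‖(w' : Matrix (Fin 2) (Fin 2) ℂ) 1 0‖ ^ 2 = 1 := by rw [norm_00]; unfold tt; ring
    have h := (Classical.choose_spec (kb_exists C CL M) hL.C_nonneg hL.CL_nonneg).2 Q G α β K hL
      _ _ _ _ _ _ hz hw hw'
    rw [norm_00] at h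
    change (1 + _) ^ M * ‖ME _ _ _ _ Q (fun i => G i - α (Q * (1 - tt z)) - β (Q * (1 - tt z)) *
      (i - Q * (1 - tt z)))‖ ≤ _ * ((1 + Q * (1 - tt z) * tt z) * K (Q * (1 - tt z))) * _ at h
    rw [← inner_uf_dg' Q w w' (fun i => G i - α (Q * (1 - tt z)) - β (Q * (1 - tt z)) *
      (i - Q * (1 - tt z))), show (Q : ℝ) * (1 - tt z) * tt z = Q * tt z * (1 - tt z) by ring] at h
    have h1 : 0 ≤ tt z := sq_nonneg _
    have h2 : 0 ≤ 1 - tt z := by rw [← norm_00]; positivity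
    have h3 := hL.K_nonneg (Q * (1 - tt z)) (by positivity)
    exact kbd_aux (Classical.choose_spec (kb_exists C CL M) hL.C_nonneg hL.CL_nonneg).1
      (by positivity) (norm_nonneg _)
      (mul_nonneg (Real.sqrt_nonneg _) dd_nonneg) (mul_nonneg (Real.sqrt_nonneg _) dd_nonneg)
      (by rw [dQ_eq_dd, dd_comm]) (by rw [dQ_eq_dd, dd_comm]) h

/-- weaker constants -/
theorem KBd.mono {ι S : Type*} [Fintype ι] [DecidableEq ι] [LinearOrder ι] {u : Fin 2 → S → L ι}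
    {d : S → S → ℝ} {A : Matrix ι ι ℂ} {z : S} {q : ℕ} {T : ℝ} {c c' : ℕ → ℝ}
    (h : KBd u d A z q T c) (hd : ∀ x y, 0 ≤ d x y) (hc : ∀ M, c M ≤ c' M) :
    KBd u d A z q T c' where
  T_nonneg := h.T_nonneg
  c_nonneg M := (h.c_nonneg M).trans (hc M)
  le M w w' := by
    refine (h.le M w w').trans ?_
    have := h.T_nonneg
    have := hd w z
    have := hd w' w
    have := hc M
    gcongr

/-! ### the metric profile -/

/-- the profile `-∑_{k<3} log (i + (k+1))` -/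
theorem linD_gm (Q : ℕ) : LinD Q
    (fun i => -((Real.log (i + 1) + Real.log (i + 2)) + Real.log (i + 3)))
    (fun m => -((Real.log (m + 1) + Real.log (m + 2)) + Real.log (m + 3)))
    (fun m => -((1 / (m + 1) + 1 / (m + 2)) + 1 / (m + 3)))
    (fun m => 1 / (1 + m) ^ 2) (fun p => 1826 * cLin p + 1826 * cLin p + 1826 * cLin p)
    (1 + 1 + 1) :=
  (((linD_log Q (k := 1) le_rfl).add (linD_log Q (k := 2) (by norm_num))).add
    (linD_log Q (k := 3) (by norm_num))).neg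

theorem gm_three (Q : ℕ) (j : ℕ) (hj : j ≤ Q) : PathStep880.gm 3 Q j =
    -((Real.log (((Q - j : ℕ) : ℝ) + 1) + Real.log (((Q - j : ℕ) : ℝ) + 2)) +
      Real.log (((Q - j : ℕ) : ℝ) + 3)) := by
  unfold PathStep880.gm
  rw [Nat.cast_sub hj, sum_range_succ, sum_range_succ, sum_range_one]
  push_cast
  have e1 : (Q : ℝ) - j + 0 + 1 = Q - j + 1 := by ring
  have e2 : (Q : ℝ) - j + 1 + 1 = Q - j + 2 := by ring
  have e3 : (Q : ℝ) - j + 2 + 1 = Q - j + 3 := by ring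
  rw [e1, e2, e3]

/-- bound of the product of the sizes -/
theorem T1T2_le {Q : ℕ} (hQ : 1 ≤ Q) {t S A : ℝ} (ht0 : 0 ≤ t) (ht1 : t ≤ 1) (hS : 1 ≤ S) :
    ((1 + Q * t * (1 - t)) * (1 / (1 + Q * (1 - t)) ^ 2)) *
      ((1 + Q * t * (1 - t)) * ((S / (S + Q * t)) ^ A / (S + Q * t) ^ 2)) ≤
      4 / ((Q : ℝ) + 1) ^ 2 * (1 + Q * t / S) ^ (-A) := by
  have hQ' : (1 : ℝ) ≤ Q := by exact_mod_cast hQ
  have h1t : 0 ≤ 1 - t := sub_nonneg.2 ht1
  have hj : 0 ≤ (Q : ℝ) * t := by positivity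
  have hi : 0 ≤ (Q : ℝ) * (1 - t) := by positivity
  have hS0 : 0 < S := by linarith
  have hV : (1 + Q * t * (1 - t)) * (Q + 1) ≤ 2 * ((1 + Q * (1 - t)) * (1 + Q * t)) := by
    nlinarith [mul_nonneg (mul_nonneg hj h1t) (sub_nonneg.2 hQ')]
  have hV0 : 0 ≤ 1 + Q * t * (1 - t) := by positivity
  have e : (S / (S + Q * t)) ^ A = (1 + Q * t / S) ^ (-A) := by
    rw [Real.rpow_neg (by positivity), ← Real.inv_rpow (by positivity)]
    congr 1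
    field_simp
  rw [e]
  set R := (1 + Q * t / S) ^ (-A) with hR
  have hR0 : 0 ≤ R := by positivity
  have h2 : ((1 + Q * t * (1 - t)) * (1 / (1 + Q * (1 - t)) ^ 2)) *
      ((1 + Q * t * (1 - t)) * (R / (S + Q * t) ^ 2)) =
      R * ((1 + Q * t * (1 - t)) / ((1 + Q * (1 - t)) * (S + Q * t))) ^ 2 := by
    field_simp
  rw [h2]
  have h3 : (1 + Q * t * (1 - t)) / ((1 + Q * (1 - t)) * (S + Q * t)) ≤ 2 / (Q + 1) := by
    rw [div_le_div_iff₀ (by positivity) (by positivity)]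
    refine hV.trans ?_
    have : 1 + (Q : ℝ) * t ≤ S + Q * t := by linarith
    gcongr
  calc R * ((1 + Q * t * (1 - t)) / ((1 + Q * (1 - t)) * (S + Q * t))) ^ 2
      ≤ R * (2 / ((Q : ℝ) + 1)) ^ 2 := by gcongr
    _ = _ := by rw [div_pow]; ring

end Crest.Agent.R340.Tz877
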