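import Crest.Agent.R340.Tz4_877
import Crest.Agent.R340.FI2_331
import Crest.Agent.R340.LocT4_163
import Crest.Agent.R340.TzP_421

/-!
# R340 (helper757): continuity and particle number of the operators `Top` (part (D) of 877's list)
-/

set_option autoImplicit false
set_option linter.unusedSectionVars false

open MeasureTheory

namespace Crest.Agent.R340.TzD757

open Crest.Agent.R340.Fock649 Crest.Agent.R340.LR667 Crest.Agent.R340.Tz877
  Crest.Agent.R340.Rot303 Crest.Agent.R340.LocT163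
open Crest.Agent.R340.PV341 (Adm)

section general

variable {ι : Type*} [Fintype ι] [LinearOrder ι] {S : Type*} [TopologicalSpace S]

theorem continuous_SS {w : ℝ → ℝ} (hw : IsFilter w) {H : Op ι} (hH : IsSelfAdjoint H) :
    Continuous fun X : Op ι => SS w H X := by
  refine (LipschitzWith.of_dist_le_mul (K := Real.toNNReal (∫ t, |t| * |w t|))
    fun X Y => ?_).continuous
  rw [dist_eq_norm, dist_eq_norm, ← SS_sub' hw hH]
  refine (norm_SS_le hw hH (X - Y)).trans ?_
  gcongr
  exact Real.le_coe_toNNReal _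

theorem continuous_dG : Continuous (dG : Matrix ι ι ℂ → Op ι) := by
  unfold dG
  refine continuous_finsetSum _ fun i _ => continuous_finsetSum _ fun j _ => ?_
  exact (continuous_id.matrix_elem i j).smul continuous_const

theorem continuous_lie {f h : S → Op ι} (hf : Continuous f) (hh : Continuous h) :
    Continuous fun z => ⁅f z, h z⁆ := by
  simp only [Ring.lie_def]
  exact (hf.mul hh).sub (hh.mul hf)

/-- **continuity of `Top`** -/
theorem continuous_Top {w : ℝ → ℝ} (hw : IsFilter w) {H : Op ι} (hH : IsSelfAdjoint H)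
    {v1 v0 : S → L ι} (h1 : Continuous v1) (h0 : Continuous v0) {X B : S → Matrix ι ι ℂ}
    (hX : Continuous X) (hB : Continuous B) :
    Continuous fun z => Tz877.Top w H (v1 z) (v0 z) (X z) (B z) := by
  unfold Tz877.Top
  have hb : Continuous fun z => an (v1 z) * an (v0 z) :=
    (FI331.continuous_an.comp h1).mul (FI331.continuous_an.comp h0)
  have a1 := continuous_lie (continuous_dG.comp hX) (continuous_star.comp hb)
  have a2 := continuous_lie hb ((continuous_SS hw hH).comp (continuous_dG.comp hB))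
  exact ((a1.mul a2).const_smul Complex.I).neg

theorem pair_mul_Nh (v1 v0 : L ι) :
    (an v1 * an v0) * (Nh : Op ι) = (Nh + 2) * (an v1 * an v0) := by
  have e1 : ∀ v : L ι, an v * (Nh : Op ι) = Nh * an v + an v := by
    intro v
    have h : (Nh : Op ι) * an v = an v * Nh - an v := by
      have h' := Nh_comm_an (ι := ι) v
      rw [sub_eq_iff_eq_add] at h'
      rw [h']; abel
    rw [h]; abel
  calc (an v1 * an v0) * (Nh : Op ι) = an v1 * (an v0 * Nh) := by rw [mul_assoc]
    _ = (an v1 * Nh) * an v0 + an v1 * an v0 := by rw [e1, mul_add, mul_assoc]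
    _ = (Nh * an v1 + an v1) * an v0 + an v1 * an v0 := by rw [e1 v1]
    _ = (Nh + 2) * (an v1 * an v0) := by
        rw [add_mul, add_mul, mul_assoc, two_mul]; abel

theorem star_Nh : star (Nh : Op ι) = Nh := by
  unfold Nh
  rw [star_dG, Matrix.conjTranspose_one]

theorem star_pair_mul_Nh (v1 v0 : L ι) :
    star (an v1 * an v0) * (Nh : Op ι) = (Nh - 2) * star (an v1 * an v0) := by
  have h := congrArg star (pair_mul_Nh (ι := ι) v1 v0)
  rw [star_mul, star_Nh, star_mul (Nh + 2), star_add, star_Nh] at h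
  have h2 : star (2 : Op ι) = 2 := by
    have : (2 : Op ι) = 1 + 1 := by norm_num
    rw [this, star_add, star_one]
  rw [h2] at h
  rw [sub_mul]
  rw [mul_add] at h
  have h3 : (2 : Op ι) * star (an v1 * an v0) = star (an v1 * an v0) * 2 := by
    rw [two_mul, mul_two]
  rw [h3, h, add_sub_cancel_right]

/-- `Top` conserves the particle number -/
theorem Top_comm_Nh {w : ℝ → ℝ} (hw : IsFilter w) {H : Op ι} (hH : IsSelfAdjoint H)
    (hN : Commute H (Nh : Op ι)) (v1 v0 : L ι) (X B : Matrix ι ι ℂ) :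
    Commute (Tz877.Top w H v1 v0 X B) (Nh : Op ι) := by
  have cX : Commute (dG X) (Nh : Op ι) := (Nh_comm_dG X).symm
  have cB : Commute (dG B) (Nh : Op ι) := (Nh_comm_dG B).symm
  have cS : Commute (SS w H (dG B)) (Nh : Op ι) := Filt867.SS_comm hw hH hN cB
  have hp := pair_mul_Nh (ι := ι) v1 v0
  have hs := star_pair_mul_Nh (ι := ι) v1 v0
  unfold Tz877.Top
  generalize an v1 * an v0 = b at hp hs ⊢
  -- ⁅dG X, b*⁆ Nh = (Nh - 2) ⁅dG X, b*⁆
  have k1 : ⁅dG X, star b⁆ * (Nh : Op ι) = (Nh - 2) * ⁅dG X, star b⁆ := by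
    rw [Ring.lie_def, sub_mul, mul_sub]
    have e1 : dG X * star b * (Nh : Op ι) = (Nh - 2) * (dG X * star b) := by
      rw [mul_assoc, hs, ← mul_assoc, ← mul_assoc]
      congr 1
      rw [mul_sub, sub_mul, cX.eq, two_mul, mul_two]
    have e2 : star b * dG X * (Nh : Op ι) = (Nh - 2) * (star b * dG X) := by
      rw [mul_assoc, cX.eq, ← mul_assoc, hs, mul_assoc]
    rw [e1, e2]
  have k2 : ⁅b, SS w H (dG B)⁆ * (Nh : Op ι) = (Nh + 2) * ⁅b, SS w H (dG B)⁆ := by
    rw [Ring.lie_def, sub_mul, mul_sub]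
    have e1 : b * SS w H (dG B) * (Nh : Op ι) = (Nh + 2) * (b * SS w H (dG B)) := by
      rw [mul_assoc, cS.eq, ← mul_assoc, hp, mul_assoc]
    have e2 : SS w H (dG B) * b * (Nh : Op ι) = (Nh + 2) * (SS w H (dG B) * b) := by
      rw [mul_assoc, hp, ← mul_assoc, ← mul_assoc]
      congr 1
      rw [mul_add, add_mul, cS.eq, two_mul, mul_two]
    rw [e1, e2]
  refine Commute.neg_left (Commute.smul_left ?_ _)
  show _ * _ = _ * _
  rw [mul_assoc, k2, ← mul_assoc, mul_add, k1, sub_mul, add_mul, mul_two, sub_mul]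
  have e3 : (2 : Op ι) * ⁅dG X, star b⁆ = ⁅dG X, star b⁆ + ⁅dG X, star b⁆ := two_mul _
  rw [e3]
  simp only [add_mul, mul_assoc]
  abel

/-- the tangent-subtracted diagonal matrices depend continuously on the centre -/
theorem continuous_dg_lin {Q : ℕ} (f : ℕ → ℝ) {al be : S → ℝ} (ha : Continuous al)
    (hb : Continuous be) :
    Continuous fun z => dg fun j : Fin (Q + 1) => f j - al z - be z * (j : ℕ) := by
  unfold dg
  refine Continuous.matrix_diagonal ?_
  refine continuous_pi fun j => ?_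
  exact Complex.continuous_ofReal.comp
    ((continuous_const.sub ha).sub (hb.mul continuous_const))

end general

/-- **(D)** continuity of `g ↦ Top` for `b = bT t Q g` and tangent-subtracted profiles -/
theorem continuous_Top_theta {Q : ℕ} (hQ : 1 ≤ Q) (t : Fin 3 → ℝ) {w : ℝ → ℝ} (hw : IsFilter w)
    (f F : ℕ → ℝ) {al be al' be' : CS809.U2 → ℝ} (h1 : Continuous al) (h2 : Continuous be)
    (h3 : Continuous al') (h4 : Continuous be') :
    Continuous fun g : CS809.U2 => Tz877.Top w (HT t Q) (vF t Q 1 g) (vF t Q 0 g)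
      (dg fun j : Fin (Q + 1) => f j - al g - be g * (j : ℕ))
      (dg fun j : Fin (Q + 1) => F j - al' g - be' g * (j : ℕ)) :=
  continuous_Top hw (isSelfAdjoint_HT t Q) (continuous_vF hQ t 1) (continuous_vF hQ t 0)
    (continuous_dg_lin f h1 h2) (continuous_dg_lin F h3 h4)

/-- (D1) in 877's form -/
theorem continuous_Top_vF {Q : ℕ} (hQ : 1 ≤ Q) (t : Fin 3 → ℝ) {w : ℝ → ℝ} (hw : IsFilter w)
    {X B : CS809.U2 → Matrix (Fin (Q + 1)) (Fin (Q + 1)) ℂ} (hX : Continuous X)
    (hB : Continuous B) :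
    Continuous fun g : CS809.U2 => Tz877.Top w (HT t Q) (vF t Q 1 g) (vF t Q 0 g) (X g) (B g) :=
  continuous_Top hw (isSelfAdjoint_HT t Q) (continuous_vF hQ t 1) (continuous_vF hQ t 0) hX hB

/-- (D2) in 877's form -/
theorem Top_HT_comm_Nh {Q : ℕ} (hQ : 1 ≤ Q) (t : Fin 3 → ℝ) {w : ℝ → ℝ} (hw : IsFilter w)
    (v1 v0 : L (Fin (Q + 1))) (X B : Matrix (Fin (Q + 1)) (Fin (Q + 1)) ℂ) :
    Commute (Tz877.Top w (HT t Q) v1 v0 X B) (Nh : Op (Fin (Q + 1))) :=
  Top_comm_Nh hw (isSelfAdjoint_HT t Q) (TzP421.HT_comm_Nh hQ t) v1 v0 X B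

end Crest.Agent.R340.TzD757
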