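import Crest.Agent.R340.AvgG_725
import Crest.Agent.R340.Conv5_102
import Crest.Agent.R340.Defs_150
import Crest.Agent.R340.Str2_875
import Crest.Agent.R340.Str_735

/-!
R340 (S0532), strong pass, the input (W0) of `Str875.move_strong` (helper725).

From the output `Defs150.WP` of the weak pass, the family `T` of `Defs150.TZ` and the operator `YX` of
`Defs150.TX`:

* `abs_le_of_WP` : one operator of the class;
* `abs_int_le`   : the rotated and integrated family, with 102's weight `wt` and profile `Ph`;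
* `W0`           : literally the last clause of `hT` of `move_strong`, for
  `Y = 3 C (Q+1) ∫ T + YX` and the explicit profile `ep`.
-/

set_option autoImplicit false

open Matrix Finset MeasureTheory

namespace Crest.Agent.R340.W0725

open Crest.Agent.R340.Fock649 Crest.Agent.R340.Gam303 Crest.Agent.R340.Rot303
open Crest.Agent.R340.Avg814 Crest.Agent.R340.CS809 Crest.Agent.R124.Haar
open Crest.Agent.R340.DomF735 Crest.Agent.R340.Scal725 Crest.Agent.R340.AvgG725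
open Crest.Agent.R340.Geo986 Crest.Agent.R340.Peel596 Crest.Agent.R340.Conv102
open Crest.Agent.R340.Defs150 Crest.Agent.R340.FX963 Crest.Agent.R340.Str875
open Crest.Agent.R340.Vac467 (IsRef)

noncomputable section

variable {Q : ℕ}

/-! ### scalars -/

theorem cs_smul' (r : ℝ) (f : ℕ → ℝ) (Q : ℕ) : cs (fun j => r * f j) Q = r * cs f Q := by
  unfold cs
  rw [← mul_sum]; ring

theorem cs_add' (f g : ℕ → ℝ) (Q : ℕ) : cs (fun j => f j + g j) Q = cs f Q + cs g Q := by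
  unfold cs
  rw [sum_add_distrib]; ring

theorem dGf_smul' (r : ℝ) (f : ℕ → ℝ) (Q : ℕ) :
    dGf (fun j => r * f j) Q = ((r : ℝ) : ℂ) • dGf f Q := by
  unfold dGf
  rw [← dG_smul]
  congr 1
  ext i k
  by_cases h : i = k
  · subst h; simp [res]
  · simp [Matrix.diagonal_apply_ne _ h]

theorem dGf_add' (f g : ℕ → ℝ) (Q : ℕ) :
    dGf (fun j => f j + g j) Q = dGf f Q + dGf g Q := by
  unfold dGf
  rw [← dG_add]
  congr 1
  ext i k
  by_cases h : i = k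
  · subst h; simp [res]
  · simp [Matrix.diagonal_apply_ne _ h]

theorem hf_smul (r : ℝ) (f : ℕ → ℝ) (ψ : Fk (Fin (Q + 1))) :
    hf (fun j => r * f j) Q ψ = r * hf f Q ψ := by
  unfold hf
  rw [cs_smul', dGf_smul', smul_ap, inner_smul_right, Complex.re_ofReal_mul]
  ring

theorem hf_add (f g : ℕ → ℝ) (ψ : Fk (Fin (Q + 1))) :
    hf (fun j => f j + g j) Q ψ = hf f Q ψ + hf g Q ψ := by
  unfold hf
  rw [cs_add', dGf_add', add_ap, inner_add_right, Complex.add_re]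
  ring

theorem hh_eq_hf (f : ℕ → ℝ) (ψ : Fk (Fin (Q + 1))) : hh f Q ψ = hf f Q ψ := rfl

/-! ### the vacuum -/

theorem isVac_of_isRef {n0 : ℕ} (hn1 : 1 ≤ n0) (hn0 : Q = 3 * (n0 - 1)) {Φ : Fk (Fin (Q + 1))}
    (hΦ : IsRef (nu0 Q) Q n0 Φ) : IsVac Q Φ := by
  refine ⟨?_, hΦ.unit⟩
  have e : Q / 3 + 1 = n0 := by omega
  rw [e]; exact hΦ.mem_Zn

theorem hf_vac {n0 : ℕ} (hn1 : 1 ≤ n0) (hn0 : Q = 3 * (n0 - 1)) {Φ : Fk (Fin (Q + 1))}
    (hΦ : IsRef (nu0 Q) Q n0 Φ) (f : ℕ → ℝ) : hf f Q Φ = 0 := by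
  have h := hΦ.dens_diag hn1 hn0 f
  have e : dGf f Q = dG (Matrix.diagonal fun j : Fin (Q + 1) => ((f j : ℝ) : ℂ)) := rfl
  unfold hf
  rw [e, h, Complex.ofReal_re, hΦ.unit]
  ring

theorem form_smul (A : Op (Fin (Q + 1))) (z : ℂ) (φ : Fk (Fin (Q + 1))) :
    (inner ℂ (z • φ) (A (z • φ)) : ℂ).re = ‖z‖ ^ 2 * (inner ℂ φ (A φ) : ℂ).re := by
  rw [map_smul, inner_smul_left, inner_smul_right, ← mul_assoc, Complex.conj_mul']
  norm_cast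
  rw [Complex.re_ofReal_mul]

theorem hf_smul_vec (f : ℕ → ℝ) (z : ℂ) (φ : Fk (Fin (Q + 1))) :
    hf f Q (z • φ) = ‖z‖ ^ 2 * hf f Q φ := by
  unfold hf
  rw [form_smul, norm_smul]
  ring

/-! ### one operator -/

theorem DY_of_scale {n : ℕ} {c : ℝ} (hc : 0 < c) {X : Op (Fin (Q + 1))} (h : Dy n Q c X) :
    Dy n Q 1 (((c⁻¹ : ℝ) : ℂ) • X) := by
  refine ⟨?_, ?_⟩
  · unfold IsSelfAdjoint
    rw [star_smul, h.1.star_eq, Complex.star_def, Complex.conj_ofReal]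
  · have h1 := h.2.smul (((c⁻¹ : ℝ) : ℂ))
    rwa [Complex.norm_real, Real.norm_of_nonneg (inv_nonneg.2 hc.le), inv_mul_cancel₀ hc.ne'] at h1

theorem dy_neg {n : ℕ} {c : ℝ} {X : Op (Fin (Q + 1))} (h : Dy n Q c X) : Dy n Q c (-X) :=
  ⟨h.1.neg, h.2.neg⟩

theorem re_inner_Dop' (s C : ℝ) (f : ℕ → ℝ) (X : Op (Fin (Q + 1))) (φ : Fk (Fin (Q + 1))) :
    (inner ℂ φ (Dop Q s (3 * C) f X φ) : ℂ).re =
      s * ‖φ‖ ^ 2 - 3 * C * (inner ℂ φ (dGf f Q φ) : ℂ).re - (inner ℂ φ (X φ) : ℂ).re := by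
  have e : dG (Matrix.diagonal fun j : Fin (Q + 1) => ((f j : ℝ) : ℂ)) = dGf f Q := rfl
  have h2 : ((RCLike.ofReal ‖φ‖ : ℂ) ^ 2).re = ‖φ‖ ^ 2 := by norm_cast
  unfold Dop
  rw [e, sub_ap, sub_ap, smul_ap, smul_ap, one_ap, inner_sub_right, inner_sub_right,
    inner_smul_right, inner_smul_right, Complex.sub_re, Complex.sub_re, Complex.re_ofReal_mul,
    Complex.re_ofReal_mul, inner_self_eq_norm_sq_to_K, h2]

/-- **(W) for one operator about the pole**, all sectors `3 n ≤ Q + 3`. -/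
theorem abs_le_of_WP {nW : ℕ} {a R0 CW θ : ℝ} (hWP : WP nW a R0 CW θ) (hCW : 0 ≤ CW) (hθ : 0 ≤ θ)
    {S : ℝ} (hS : R0 ≤ S) (hS0 : 0 ≤ S) (haS : a < S + 1) {n n0 : ℕ} (hn1 : 1 ≤ n0)
    (hn0 : Q = 3 * (n0 - 1)) (hn : n ≤ n0) {Φ : Fk (Fin (Q + 1))} (hΦ : IsRef (nu0 Q) Q n0 Φ)
    {c : ℝ} (hc : 0 < c) {X : Op (Fin (Q + 1))} (hX : Dy nW Q c X) {ψ : Fk (Fin (Q + 1))}
    (hψ : ψ ∈ Zn (nu0 Q) Q n) :
    |(inner ℂ ψ (X ψ) : ℂ).re - (inner ℂ Φ (X Φ) : ℂ).re * ‖ψ‖ ^ 2| ≤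
      c * CW * hf (prof a S) Q ψ := by
  rcases Nat.lt_or_ge n n0 with hlt | hge
  · have hv := isVac_of_isRef hn1 hn0 hΦ
    have h3 : 3 ∣ Q := by rw [hn0]; exact Dvd.intro _ rfl
    have h3n : 3 * n ≤ Q := by omega
    have hX1 := DY_of_scale hc hX
    have h1 := hWP S hS Q n _ Φ h3 h3n hX1 hv ψ hψ
    have h2 := hWP S hS Q n _ Φ h3 h3n (dy_neg hX1) hv ψ hψ
    have hpos : 0 ≤ θ * CW * ((Q : ℝ) + 3 - 3 * n) * prof a S Q * ‖ψ‖ ^ 2 := by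
      have k1 : (0 : ℝ) ≤ (Q : ℝ) + 3 - 3 * n := by
        have : ((3 * n : ℕ) : ℝ) ≤ ((Q : ℕ) : ℝ) := by exact_mod_cast h3n
        push_cast at this
        linarith
      have k2 := (prof_pos hS0 haS Q).le
      positivity
    rw [re_inner_Dop', smul_ap, smul_ap, inner_smul_right, inner_smul_right,
      Complex.re_ofReal_mul, Complex.re_ofReal_mul] at h1
    rw [re_inner_Dop', neg_ap, neg_ap, smul_ap, smul_ap, inner_neg_right, inner_neg_right,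
      inner_smul_right, inner_smul_right, Complex.neg_re, Complex.neg_re,
      Complex.re_ofReal_mul, Complex.re_ofReal_mul] at h2
    have h3' : CW * hf (prof a S) Q ψ = 3 * CW * cs (prof a S) Q * ‖ψ‖ ^ 2 -
        3 * CW * (inner ℂ ψ (dGf (prof a S) Q ψ) : ℂ).re := by unfold hf; ring
    have h4 : |c⁻¹ * ((inner ℂ ψ (X ψ) : ℂ).re - (inner ℂ Φ (X Φ) : ℂ).re * ‖ψ‖ ^ 2)| ≤
        CW * hf (prof a S) Q ψ := by
      rw [abs_le, h3']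
      constructor
      · linarith
      · linarith
    rw [abs_mul, abs_of_pos (inv_pos.2 hc), inv_mul_le_iff₀ hc] at h4
    rw [mul_assoc]
    exact h4
  · have hnn : n = n0 := le_antisymm hn hge
    subst hnn
    have e := hΦ.span (posM_nu0 Q) hn0 hψ
    set z : ℂ := (inner ℂ Φ ψ : ℂ)
    rw [e, form_smul, hf_smul_vec, hf_vac hn1 hn0 hΦ, norm_smul, hΦ.unit]
    have : ‖z‖ ^ 2 * (inner ℂ Φ (X Φ) : ℂ).re - (inner ℂ Φ (X Φ) : ℂ).re * (‖z‖ * 1) ^ 2 = 0 := by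
      ring
    rw [this]
    simp

/-! ### the family -/

/-- the weight of the family `T` at `g` -/
def ct (K A : ℝ) (Q Q2 : ℕ) (g : G2) : ℝ :=
  K / ((Q : ℝ) + 1) ^ 2 * (1 + Q * tt g / Q2) ^ (-A)

theorem ct_pos {K : ℝ} (hK : 0 < K) (A : ℝ) (Q Q2 : ℕ) (g : G2) : 0 < ct K A Q Q2 g := by
  have h0 := tt_nonneg g
  have h1 : 0 < 1 + Q * tt g / Q2 := by positivity
  unfold ct
  have := Real.rpow_pos_of_pos h1 (-A)
  positivity

theorem continuous_ct (K A : ℝ) (Q Q2 : ℕ) : Continuous (ct K A Q Q2) := by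
  unfold ct
  refine continuous_const.mul (Continuous.rpow_const ?_ fun g => Or.inl ?_)
  · exact continuous_const.add ((continuous_const.mul continuous_tt).div_const _)
  · have h0 := tt_nonneg g
    have : 0 < 1 + Q * tt g / Q2 := by positivity
    exact this.ne'

theorem continuous_re_inner {A : G2 → Op (Fin (Q + 1))} (hA : Continuous A)
    (v w : Fk (Fin (Q + 1))) : Continuous fun g => (inner ℂ v (A g w) : ℂ).re :=
  Complex.continuous_re.comp ((innerSL ℂ v).continuous.comp ((evL w).continuous.comp hA))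

/-- **(W) for the family.** -/
theorem abs_int_le {nW : ℕ} {a R0 CW θ : ℝ} (hWP : WP nW a R0 CW θ) (hCW : 0 ≤ CW) (hθ : 0 ≤ θ)
    {S : ℝ} (hS : R0 ≤ S) (hS0 : 0 ≤ S) (haS : a < S + 1) {n n0 : ℕ} (hn1 : 1 ≤ n0)
    (hn0 : Q = 3 * (n0 - 1)) (hn : n ≤ n0) {Φ : Fk (Fin (Q + 1))} (hΦ : IsRef (nu0 Q) Q n0 Φ)
    {K A : ℝ} (hK : 0 < K) (hA : 0 ≤ A) {Q2 : ℕ} (h2 : 1 ≤ Q2)
    {T : G2 → Op (Fin (Q + 1))} (hTc : Continuous T)
    (hT : ∀ g, DyG nW Q (ct K A Q Q2 g) g (T g)) {ψ : Fk (Fin (Q + 1))}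
    (hψ : ψ ∈ Zn (nu0 Q) Q n) :
    |(inner ℂ ψ (((((Q : ℝ) + 1)) • ∫ g, T g ∂hm) ψ) : ℂ).re -
      (inner ℂ Φ (((((Q : ℝ) + 1)) • ∫ g, T g ∂hm) Φ) : ℂ).re * ‖ψ‖ ^ 2| ≤
      CW * (K / ((Q : ℝ) + 1) ^ 2) * hf (Ph A Q Q2 (prof a S)) Q ψ := by
  have := secondCountable_G2
  -- normalised family
  set T' : G2 → Op (Fin (Q + 1)) := fun g => (((ct K A Q Q2 g)⁻¹ : ℝ) : ℂ) • T g with hT'
  have hcc := continuous_ct K A Q Q2
  have hT'c : Continuous T' :=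
    (Complex.continuous_ofReal.comp (hcc.inv₀ fun g => (ct_pos hK A Q Q2 g).ne')).smul hTc
  have hT'D : ∀ g : G2, Dy nW Q 1 (cj (g : Matrix (Fin 2) (Fin 2) ℂ)ᴴ (T' g)) := by
    intro g
    have h1 := DY_of_scale (ct_pos hK A Q Q2 g) (hT g)
    have e : cj (g : Matrix (Fin 2) (Fin 2) ℂ)ᴴ (T' g) = (((ct K A Q Q2 g)⁻¹ : ℝ) : ℂ) •
        cj (star (g : Matrix (Fin 2) (Fin 2) ℂ)) (T g) := by
      rw [hT', star_eq_conjTranspose]
      unfold cj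
      rw [mul_smul_comm, smul_mul_assoc]
    rw [e]
    exact h1
  set t : G2 → ℝ := fun g =>
    (inner ℂ Φ (cj (g : Matrix (Fin 2) (Fin 2) ℂ)ᴴ (T' g) Φ) : ℂ).re with ht
  have hZ : ∀ k : ℕ, ∀ g : G2, ∀ φ ∈ Zn (nu0 Q) Q k,
      star (Rg Q (g : Matrix (Fin 2) (Fin 2) ℂ)) φ ∈ Zn (nu0 Q) Q k := by
    intro k g φ hφ
    rw [star_Rg]
    refine Vac467.Rg_mem_Zn ?_ hφ
    rw [conjTranspose_conjTranspose]; exact g2_ct_mul g
  have hWk : ∀ k ≤ n0, ∀ g : G2, ∀ φ ∈ Zn (nu0 Q) Q k,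
      |(inner ℂ φ (cj (g : Matrix (Fin 2) (Fin 2) ℂ)ᴴ (T' g) φ) : ℂ).re - t g * ‖φ‖ ^ 2| ≤
        CW * hf (prof a S) Q φ := by
    intro k hk g φ hφ
    have h1 := abs_le_of_WP hWP hCW hθ hS hS0 haS hn1 hn0 hk hΦ one_pos (hT'D g) hφ
    rwa [one_mul] at h1
  have htc : Continuous t := by
    have h1 : Continuous fun g : G2 => Rg Q ((g : Matrix (Fin 2) (Fin 2) ℂ)ᴴ) :=
      continuous_Rg.comp continuous_subtype_val.matrix_conjTranspose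
    have h2 : Continuous fun g : G2 => cj (g : Matrix (Fin 2) (Fin 2) ℂ)ᴴ (T' g) :=
      (h1.mul hT'c).mul h1.star
    exact continuous_re_inner h2 Φ Φ
  set s : G2 → ℝ := fun g => ((Q : ℝ) + 1) * ct K A Q Q2 g with hs
  have hsc : Continuous s := continuous_const.mul hcc
  set cw' : G2 → ℝ := fun g => K / ((Q : ℝ) + 1) ^ 2 * Conv102.wt A Q Q2 (tt g) with hcw'
  have hcwc : Continuous cw' := continuous_const.mul ((continuous_wt A Q Q2).comp continuous_tt)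
  have hsw : ∀ g, |s g| ≤ cw' g := by
    intro g
    have h0 := ct_pos hK A Q Q2 g
    have h1 := le_wt hA (Q := Q) h2 (tt_nonneg g) (tt_le_one g)
    have hq : (0 : ℝ) < (Q : ℝ) + 1 := by positivity
    rw [hs, hcw', abs_of_pos (mul_pos hq h0)]
    have e : ((Q : ℝ) + 1) * ct K A Q Q2 g =
        K / ((Q : ℝ) + 1) ^ 2 * (((Q : ℝ) + 1) * (1 + Q * tt g / Q2) ^ (-A)) := by
      unfold ct; ring
    rw [e]
    have hKq : 0 ≤ K / ((Q : ℝ) + 1) ^ 2 := by positivity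
    exact mul_le_mul_of_nonneg_left h1 hKq
  have hst : Integrable (fun g => s g * t g) hm := integrable_of_cont (hsc.mul htc)
  have hΦ1 : ∫ g : G2, (cw' g : ℂ) • cj (g : Matrix (Fin 2) (Fin 2) ℂ) (dGf (prof a S) Q) ∂hm =
      dGf (fun j => K / ((Q : ℝ) + 1) ^ 2 * Ph A Q Q2 (prof a S) j) Q := by
    rw [dGf_smul', ← wt_dGf, ← integral_smul]
    refine integral_congr_ae (Filter.Eventually.of_forall fun g => ?_)
    simp only [hcw']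
    rw [smul_smul, ← Complex.ofReal_mul]
  have hcs1 : cs (fun j => K / ((Q : ℝ) + 1) ^ 2 * Ph A Q Q2 (prof a S) j) Q =
      (∫ g, cw' g ∂hm) * cs (prof a S) Q := by
    rw [cs_smul', wt_cs, hcw', integral_const_mul]
    ring
  have hop : (∫ g, (s g : ℂ) • T' g ∂hm) = (((Q : ℝ) + 1)) • ∫ g, T g ∂hm := by
    rw [← integral_smul]
    refine integral_congr_ae (Filter.Eventually.of_forall fun g => ?_)
    simp only [hs, hT']
    rw [smul_smul, ← Complex.ofReal_mul, mul_assoc, mul_inv_cancel₀ (ct_pos hK A Q Q2 g).ne',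
      mul_one]
    exact Complex.coe_smul _ _
  have key : ∀ k ≤ n0, ∀ φ ∈ Zn (nu0 Q) Q k,
      |(inner ℂ φ (((((Q : ℝ) + 1)) • ∫ g, T g ∂hm) φ) : ℂ).re -
        (∫ g, s g * t g ∂hm) * ‖φ‖ ^ 2| ≤
        CW * hf (fun j => K / ((Q : ℝ) + 1) ^ 2 * Ph A Q Q2 (prof a S) j) Q φ := by
    intro k hk φ hφ
    have h1 := w_average (hZ k) hT'c (hWk k hk) hsc.aestronglyMeasurable hsw hcwc hst hΦ1 hcs1 hφ
    rw [hop] at h1
    exact h1
  have hv := key n0 le_rfl Φ hΦ.mem_Zn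
  rw [hf_vac hn1 hn0 hΦ, mul_zero, hΦ.unit, one_pow, mul_one] at hv
  have hv' : (inner ℂ Φ (((((Q : ℝ) + 1)) • ∫ g, T g ∂hm) Φ) : ℂ).re = ∫ g, s g * t g ∂hm := by
    have := abs_nonpos_iff.1 hv
    linarith
  have h1 := key n hn ψ hψ
  rw [hv']
  rw [hf_smul] at h1
  refine h1.trans (le_of_eq ?_)
  ring

/-! ### the sum -/

/-- **the profile which absorbs the cross error** -/
def ep (a : ℝ) (A : ℝ) (Q Q2 : ℕ) (S S' r1 r2 : ℝ) (j : ℕ) : ℝ :=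
  r1 * Ph A Q Q2 (prof a S) j + r2 * prof a S' j

/-- the operator `3 C (Q+1) ∫ T + YX` -/
def YY (C : ℝ) (Q : ℕ) (T : G2 → Op (Fin (Q + 1))) (YX : Op (Fin (Q + 1))) : Op (Fin (Q + 1)) :=
  ((3 * C : ℝ) : ℂ) • (((Q : ℝ) + 1) • ∫ g, T g ∂hm) + YX

theorem isSelfAdjoint_cj' {X : Op (Fin (Q + 1))} (g : Matrix (Fin 2) (Fin 2) ℂ)
    (hX : IsSelfAdjoint X) : IsSelfAdjoint (cj g X) := by
  unfold IsSelfAdjoint
  rw [cj_star, hX.star_eq]

theorem sa_of_DyG {nW : ℕ} {c : ℝ} {g : G2} {X : Op (Fin (Q + 1))} (h : DyG nW Q c g X) :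
    star X = X := by
  have h1 := isSelfAdjoint_cj' (g : Matrix (Fin 2) (Fin 2) ℂ) h.1
  rw [cj_cj, star_eq_conjTranspose, g2_mul_ct, cj_id] at h1
  exact h1

theorem star_YY {nW : ℕ} {c : G2 → ℝ} {C : ℝ} {T : G2 → Op (Fin (Q + 1))}
    (hT : ∀ g, DyG nW Q (c g) g (T g)) {YX : Op (Fin (Q + 1))} (hY : star YX = YX) :
    star (YY C Q T YX) = YY C Q T YX := by
  unfold YY
  rw [star_add, star_smul, star_smul, star_integral_op, hY]
  have e : (∫ g, star (T g) ∂hm) = ∫ g, T g ∂hm :=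
    integral_congr_ae (Filter.Eventually.of_forall fun g => sa_of_DyG (hT g))
  rw [e, Complex.star_def, Complex.conj_ofReal]
  simp

/-- **(W0)**: the last clause of `hT` in `Str875.move_strong`. -/
theorem W0 {nW : ℕ} {a R0 CW θ : ℝ} (hWP : WP nW a R0 CW θ) (hCW : 0 ≤ CW) (hθ : 0 ≤ θ)
    {S S' : ℝ} (hS : R0 ≤ S) (hS0 : 0 ≤ S) (haS : a < S + 1) (hS' : R0 ≤ S') (hS0' : 0 ≤ S')
    (haS' : a < S' + 1) {n n0 : ℕ} (hn1 : 1 ≤ n0)
    (hn0 : Q = 3 * (n0 - 1)) (hn : n ≤ n0) {Φ : Fk (Fin (Q + 1))} (hΦ : IsRef (nu0 Q) Q n0 Φ)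
    {K A C : ℝ} (hC : 0 ≤ C) (hK : 0 < K) (hA : 0 ≤ A) {Q2 : ℕ} (h2 : 1 ≤ Q2)
    {T : G2 → Op (Fin (Q + 1))} (hTc : Continuous T)
    (hT : ∀ g, DyG nW Q (K / ((Q : ℝ) + 1) ^ 2 * (1 + Q * tt g / Q2) ^ (-A)) g (T g))
    {KX : ℝ} (hKX : 0 < KX) {YX : Op (Fin (Q + 1))} (hYX : Dy nW Q (KX / ((Q : ℝ) + 1) ^ 2) YX) :
    ∀ ψ ∈ Zn (nu0 Q) Q n,
      -(hh (ep a A Q Q2 S S' (3 * C * CW * (K / ((Q : ℝ) + 1) ^ 2))
        (CW * (KX / ((Q : ℝ) + 1) ^ 2))) Q ψ) ≤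
        (inner ℂ ψ (YY C Q T YX ψ)).re - (inner ℂ Φ (YY C Q T YX Φ)).re * ‖ψ‖ ^ 2 := by
  intro ψ hψ
  have h1 := abs_int_le hWP hCW hθ hS hS0 haS hn1 hn0 hn hΦ hK hA h2 hTc hT hψ
  have hc : 0 < KX / ((Q : ℝ) + 1) ^ 2 := by positivity
  have h3 := abs_le_of_WP hWP hCW hθ hS' hS0' haS' hn1 hn0 hn hΦ hc hYX hψ
  have h1' := (abs_le.1 h1).1
  have h3' := (abs_le.1 h3).1
  have e1 : ∀ φ : Fk (Fin (Q + 1)), (inner ℂ φ (YY C Q T YX φ) : ℂ).re =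
      3 * C * (inner ℂ φ (((((Q : ℝ) + 1)) • ∫ g, T g ∂hm) φ) : ℂ).re +
        (inner ℂ φ (YX φ) : ℂ).re := by
    intro φ
    unfold YY
    rw [add_ap, smul_ap, inner_add_right, inner_smul_right, Complex.add_re,
      Complex.re_ofReal_mul]
  have e2 : hh (ep a A Q Q2 S S' (3 * C * CW * (K / ((Q : ℝ) + 1) ^ 2))
      (CW * (KX / ((Q : ℝ) + 1) ^ 2))) Q ψ =
      3 * C * (CW * (K / ((Q : ℝ) + 1) ^ 2) * hf (Ph A Q Q2 (prof a S)) Q ψ) +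
        KX / ((Q : ℝ) + 1) ^ 2 * CW * hf (prof a S') Q ψ := by
    rw [hh_eq_hf]
    have := hf_add (Q := Q) (fun j => 3 * C * CW * (K / ((Q : ℝ) + 1) ^ 2) * Ph A Q Q2 (prof a S) j)
      (fun j => CW * (KX / ((Q : ℝ) + 1) ^ 2) * prof a S' j) ψ
    unfold ep
    rw [this, hf_smul, hf_smul]
    ring
  rw [e1, e1, e2]
  have h4 := mul_le_mul_of_nonneg_left h1' (show (0 : ℝ) ≤ 3 * C by positivity)
  linarith

/-! ### the class of the profile `ep` -/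

open Crest.Agent.R340.Str735 (Cls DD_add DD_prof_nonneg)

/-- constant of `Cls_ep` -/
def C3 (a A : ℝ) : ℝ := CP a A 0 + CP a A 1 + CP a A 2

theorem C3_pos {a A : ℝ} (ha0 : 0 < a) (ha1 : a < 1) (hA : 1 < A) : 0 < C3 a A := by
  unfold C3
  have h0 := CP_pos ha0 ha1 hA 0
  have h1 := CP_pos ha0 ha1 hA 1
  have h2 := CP_pos ha0 ha1 hA 2
  linarith

theorem CP_le_C3 {a A : ℝ} (ha0 : 0 < a) (ha1 : a < 1) (hA : 1 < A) {r : ℕ} (hr : r ≤ 2) :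
    CP a A r ≤ C3 a A := by
  unfold C3
  have h0 := CP_pos ha0 ha1 hA 0
  have h1 := CP_pos ha0 ha1 hA 1
  have h2 := CP_pos ha0 ha1 hA 2
  interval_cases r <;> linarith

/-- **class of `ep`** (`R ≤ Q2`): -/
theorem Cls_ep {a A R : ℝ} (ha0 : 0 < a) (ha1 : a < 1) (hA : 1 < A) {Q2 : ℕ} (hQ : 1 ≤ Q)
    (h2 : 1 ≤ Q2) (hR : 0 ≤ R) (haR : a < R + 1) (hR2 : R ≤ Q2) {r1 r2 : ℝ} (h1 : 0 ≤ r1)
    (hr2 : 0 ≤ r2) :
    Cls (prof a Q2) (r1 * (C3 a A * (Q2 * prof a R Q2)) + r2) Q (ep a A Q Q2 R Q2 r1 r2) := by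
  intro r hr j hj
  have h20 : (0 : ℝ) ≤ Q2 := Nat.cast_nonneg _
  have h21 : (1 : ℝ) ≤ Q2 := by exact_mod_cast h2
  have hp := DD_prof_nonneg (S := (Q2 : ℝ)) h20 ha0.le (by linarith) hr j
  obtain ⟨k1, k2⟩ := DD_Ph (R := R) ha0 ha1 hA hQ h2 hR hR2 r j hj
  have hpr := (prof_pos hR haR Q2).le
  have k3 : CP a A r * (Q2 * prof a R Q2) * DD (prof a Q2) r j ≤
      C3 a A * (Q2 * prof a R Q2) * DD (prof a Q2) r j :=
    mul_le_mul_of_nonneg_right (mul_le_mul_of_nonneg_right (CP_le_C3 ha0 ha1 hA hr)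
      (mul_nonneg h20 hpr)) hp
  have e : DD (ep a A Q Q2 R Q2 r1 r2) r j =
      r1 * DD (Ph A Q Q2 (prof a R)) r j + r2 * DD (prof a Q2) r j := by
    unfold ep
    rw [DD_add, DD_smul, DD_smul]
  rw [e]
  constructor
  · exact add_nonneg (mul_nonneg h1 k1) (mul_nonneg hr2 hp)
  · have k4 := mul_le_mul_of_nonneg_left (k2.trans k3) h1
    have k5 : (r1 * (C3 a A * (Q2 * prof a R Q2)) + r2) * DD (prof a Q2) r j =
        r1 * (C3 a A * (Q2 * prof a R Q2) * DD (prof a Q2) r j) + r2 * DD (prof a Q2) r j := by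
      ring
    rw [k5]
    linarith

/-- the class of `ep` in the form of `StrR735.strong_red` -/
theorem Cls_ep' {a A R : ℝ} (ha0 : 0 < a) (ha1 : a < 1) (hA : 1 < A) {Q2 : ℕ} (hQ : 1 ≤ Q)
    (h2 : 1 ≤ Q2) (hR : 0 ≤ R) (haR : a < R + 1) (hR2 : R ≤ Q2) {C CW K KX e : ℝ} (hC : 0 < C)
    (hCW : 0 ≤ CW) (hK : 0 ≤ K) (hKX : 0 ≤ KX)
    (he : 4 * CW * K * (C3 a A * (Q2 * prof a R Q2)) + 2 * CW * KX / C ≤ e) :
    Cls (prof a Q2) (C * (3 * e / ((Q + 3 : ℕ) : ℝ) ^ 2)) Q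
      (ep a A Q Q2 R Q2 (3 * C * CW * (K / ((Q : ℝ) + 1) ^ 2)) (CW * (KX / ((Q : ℝ) + 1) ^ 2))) := by
  have hq1 : (1 : ℝ) ≤ Q := by exact_mod_cast hQ
  have h20 : (0 : ℝ) ≤ Q2 := Nat.cast_nonneg _
  have h21 : (1 : ℝ) ≤ Q2 := by exact_mod_cast h2
  have hpr := (prof_pos hR haR Q2).le
  have hC3 := (C3_pos ha0 ha1 hA).le
  refine (Cls_ep ha0 ha1 hA hQ h2 hR haR hR2 (by positivity) (by positivity)).mono ?_
    (fun r hr j => DD_prof_nonneg h20 ha0.le (by linarith) hr j)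
  set W : ℝ := C3 a A * (Q2 * prof a R Q2) with hW
  have hW0 : 0 ≤ W := by positivity
  have e1 : 3 * C * CW * (K / ((Q : ℝ) + 1) ^ 2) * W + CW * (KX / ((Q : ℝ) + 1) ^ 2) =
      (3 * C * CW * K * W + CW * KX) / ((Q : ℝ) + 1) ^ 2 := by
    field_simp
  have e2 : C * (3 * e / ((Q + 3 : ℕ) : ℝ) ^ 2) = (3 * (C * e)) / ((Q : ℝ) + 3) ^ 2 := by
    push_cast; ring
  rw [e1, e2, div_le_div_iff₀ (by positivity) (by positivity)]
  have h5 : 3 * (4 * (C * CW * K * W) + 2 * (CW * KX)) ≤ 3 * (C * e) := by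
    have h6 := mul_le_mul_of_nonneg_left he hC.le
    have h7 : C * (4 * CW * K * W + 2 * CW * KX / C) = 4 * (C * CW * K * W) + 2 * (CW * KX) := by
      field_simp
    rw [h7] at h6
    linarith
  have h8 : ((Q : ℝ) + 3) ^ 2 ≤ 4 * ((Q : ℝ) + 1) ^ 2 := by nlinarith
  have h9 : 0 ≤ C * CW * K * W := by positivity
  have h10 : 0 ≤ CW * KX := by positivity
  have h11 : 0 ≤ ((Q : ℝ) + 1) ^ 2 := by positivity
  calc (3 * C * CW * K * W + CW * KX) * ((Q : ℝ) + 3) ^ 2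
      ≤ (3 * C * CW * K * W + CW * KX) * (4 * ((Q : ℝ) + 1) ^ 2) :=
        mul_le_mul_of_nonneg_left h8 (by linarith)
    _ = (3 * (4 * (C * CW * K * W)) + 4 * (CW * KX)) * ((Q : ℝ) + 1) ^ 2 := by ring
    _ ≤ (3 * (4 * (C * CW * K * W) + 2 * (CW * KX))) * ((Q : ℝ) + 1) ^ 2 :=
        mul_le_mul_of_nonneg_right (by linarith) h11
    _ ≤ _ := mul_le_mul_of_nonneg_right h5 h11

end

end Crest.Agent.R340.W0725
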