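import Crest.Agent.R340.W0_725
import Crest.Agent.R340.CrsH_757

/-!
R340 (S0532), strong pass (helper725): the strong move with all inputs of block E.

* `TZ.mono`, `TX.mono`;
* `eC`          : the bound of `CrsH757.abs_crs_le` for `b = 3`;
* `strong_move` : `Str875.move_strong` with `hW`, `hT` discharged from `RC`, `TZ`, `TX`, `WP`; the only
  remaining hypothesis is `hY` (the cross number of `Y` in the other geometries).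
-/

set_option autoImplicit false

open Matrix Finset MeasureTheory

namespace Crest.Agent.R340.W0725

open Crest.Agent.R340.Fock649 Crest.Agent.R340.Gam303 Crest.Agent.R340.Rot303
open Crest.Agent.R340.Avg814 Crest.Agent.R340.CS809 Crest.Agent.R124.Haar
open Crest.Agent.R340.DomF735 Crest.Agent.R340.Scal725 Crest.Agent.R340.AvgG725
open Crest.Agent.R340.Geo986 Crest.Agent.R340.Peel596 Crest.Agent.R340.Conv102
open Crest.Agent.R340.Step596 Crest.Agent.R340.PathStep880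
open Crest.Agent.R340.Defs150 Crest.Agent.R340.FX963 Crest.Agent.R340.Str875
open Crest.Agent.R340.Vac467 (IsRef)
open Crest.Agent.R340.Str735 (Cls)
open Crest.Agent.R340.PV341 (Adm)

noncomputable section

theorem dy_mono {n Q : ℕ} {C C' : ℝ} {X : Op (Fin (Q + 1))} (h : Dy n Q C X) (hC : C ≤ C') :
    Dy n Q C' X := ⟨h.1, h.2.mono hC⟩

theorem TZ.mono {nW : ℕ} {A K K' : ℝ} (h : TZ nW A K) (hK : K ≤ K') : TZ nW A K' := by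
  refine ⟨h.1.trans hK, fun Q hQ θ hθ S hS => ?_⟩
  obtain ⟨T, hc, hT, hn⟩ := h.2 Q hQ θ hθ S hS
  refine ⟨T, hc, fun g => dy_mono (hT g) ?_, hn⟩
  have h0 := tt_nonneg g
  have : 0 ≤ (1 + Q * tt g / S) ^ (-A) := by positivity
  gcongr

theorem TX.mono {nS nW : ℕ} {K K' : ℝ} (h : TX nS nW K) (hK : K ≤ K') : TX nS nW K' := by
  refine ⟨h.1.trans hK, fun Q hQ θ hθ X hX => ?_⟩
  obtain ⟨Y, hY, hn⟩ := h.2 Q hQ θ hθ X hX
  refine ⟨Y, dy_mono hY ?_, hn⟩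
  gcongr

/-- the bound of `CrsH757.abs_crs_le` for `b = 3` and unit vectors -/
def eC (K a : ℝ) (Q Q2 : ℕ) (M : ℝ) : ℝ :=
  984 * (3 : ℕ) * K * M / (1 - a) * ((Q2 + Q) * prof a Q2 Q / ((Q : ℝ) + 2) ^ 2)

theorem abs_cr_le {K : ℝ} (hRC : RC K) {Q : ℕ} (hQ : 1 ≤ Q) {a : ℝ} (ha0 : 0 ≤ a) (ha1 : a < 1)
    {Q2 : ℕ} {M : ℝ} (hM : 0 ≤ M) {H : ℕ → ℝ} (hH : Cls (prof a Q2) M Q H) {θ : ℝ}
    (hθ : θ ∈ Set.Ioc (0 : ℝ) 1) (k : ℕ) {ψ : Fk (Fin (Q + 1))}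
    (hψ : ψ ∈ Zn (nuT (tA θ) Q) Q k) (h1 : ‖ψ‖ = 1) :
    |cr Q k θ (TT Q H) ψ| ≤ eC K a Q Q2 M := by
  have ht : Adm (tA θ) := adm_tA ⟨hθ.1.le, hθ.2⟩
  have h := CrsH757.abs_crs_le hRC hQ ht k 3 hψ (H := H) (S := (Q2 : ℝ)) hM ha0 ha1
    (Nat.cast_nonneg _) (CrsH757.abs_dd_le_of_DD fun j hj => hH 2 le_rfl j hj)
  rw [h1, one_pow, mul_one] at h
  exact h

theorem TT_smul_apply (Q : ℕ) (C : ℝ) (f : ℕ → ℝ) (ψ : Fk (Fin (Q + 1))) :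
    TT Q (fun j => C * f j) ψ = (C : ℂ) • TT Q f ψ := by
  have h : TT Q (C • f) = C • TT Q f := map_smul (TT Q) C f
  have h2 : (C • f) = fun j => C * f j := rfl
  rw [← h2, h]
  exact (Complex.coe_smul C (TT Q f ψ)).symm

/-- the strong move -/
theorem strong_move {nS nW : ℕ} {KR KT KX a A R0 CW θ0 : ℝ} (hRC : RC KR) (hTZ : TZ nW A KT)
    (hTX : TX nS nW KX) (hWP : WP nW a R0 CW θ0) (hKT : 0 < KT) (hKX : 0 < KX) (hCW : 0 ≤ CW)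
    (hθ0 : 0 ≤ θ0) (ha0 : 0 < a) (ha1 : a < 1) (hA : 1 < A) {R : ℝ} (hR0 : R0 ≤ R) (hR : 0 ≤ R)
    (haR : a < R + 1) {Q2 : ℕ} (h2 : 2 ≤ Q2) (hRQ : R ≤ Q2) {Q n n0 : ℕ} (hQ : 1 ≤ Q)
    (hn1 : 1 ≤ n0) (hn0 : Q = 3 * (n0 - 1)) (hn : n ≤ n0) {Φ : Fk (Fin (Q + 1))}
    (hΦ : IsRef (nu0 Q) Q n0 Φ) {C : ℝ} (hC : 0 ≤ C) {Ψ : ℕ → ℝ} {MΨ : ℝ} (hM : 0 ≤ MΨ)
    (hΨ : Cls (prof a Q2) MΨ Q Ψ) {X : Op (Fin (Q + 1))} (hX : Dy nS Q 1 X) {eY m : ℝ}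
    (hY : ∀ T : G2 → Op (Fin (Q + 1)), Continuous T →
      (∀ g, DyG nW Q (KT / ((Q : ℝ) + 1) ^ 2 * (1 + Q * tt g / Q2) ^ (-A)) g (T g)) →
      ∀ YX : Op (Fin (Q + 1)), Dy nW Q (KX / ((Q : ℝ) + 1) ^ 2) YX →
      ∀ θ' ∈ Set.Ioc (0 : ℝ) 1, ∀ k, ∀ ψ ∈ Zn (nuT (tA θ') Q) Q k, ‖ψ‖ = 1 →
        |cr Q k θ' (YY C Q T YX).ap ψ| ≤ eY)
    (h0 : LB (nu0 Q) Q n (Dop Q (3 * cs (fun j => (C * prof A Q2 j - Ψ j) -
        ep a A Q Q2 R Q2 (3 * C * CW * (KT / ((Q : ℝ) + 1) ^ 2))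
          (CW * (KX / ((Q : ℝ) + 1) ^ 2)) j) Q + (inner ℂ Φ (X Φ)).re) 3
      (fun j => (C * prof A Q2 j - Ψ j) -
        ep a A Q Q2 R Q2 (3 * C * CW * (KT / ((Q : ℝ) + 1) ^ 2))
          (CW * (KX / ((Q : ℝ) + 1) ^ 2)) j) X) m) :
    LB (nu0 (Q + 3)) Q n
      (Dop Q (s1 Q Φ (fun j => C * prof A Q2 j - Ψ j) X) 3 (fun j => C * prof A Q2 j - Ψ j) X)
      (m - (12 * eC KR a Q Q2 (3 * C * CW * (KT / ((Q : ℝ) + 1) ^ 2) *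
          (C3 a A * (Q2 * prof a R Q2)) + CW * (KX / ((Q : ℝ) + 1) ^ 2)) +
        2 * eY + 2 * (3 * eC KR a Q Q2 MΨ))) := by
  have h21 : 1 ≤ Q2 := by omega
  have h2r : (2 : ℝ) ≤ Q2 := by exact_mod_cast h2
  have hpr := (prof_pos hR haR Q2).le
  have hC3 := (C3_pos ha0 ha1 hA).le
  refine move_strong hn1 hn0 hΦ (fun j => C * prof A Q2 j - Ψ j)
    (ep a A Q Q2 R Q2 (3 * C * CW * (KT / ((Q : ℝ) + 1) ^ 2)) (CW * (KX / ((Q : ℝ) + 1) ^ 2)))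
    X hX.1.star_eq ?_ ?_ h0
  · intro θ hθ k ψ hψ h1
    exact abs_cr_le hRC hQ ha0.le ha1 (by positivity)
      (Cls_ep ha0 ha1 hA hQ h21 hR haR hRQ (by positivity) (by positivity)) hθ k hψ h1
  · intro θ hθ
    have hθ' : θ ∈ Set.Icc (0 : ℝ) 1 := ⟨hθ.1.le, hθ.2⟩
    obtain ⟨T, hTc, hTD, hTn⟩ := hTZ.2 Q hQ θ hθ' (Q2 : ℝ) h2r
    obtain ⟨YX, hYD, hYn⟩ := hTX.2 Q hQ θ hθ' X hX
    refine ⟨YY C Q T YX, star_YY hTD hYD.1.star_eq, ?_, ?_, ?_⟩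
    · intro k ψ hψ h1
      have e1 : cr Q k θ (TT Q fun j => C * prof A Q2 j - Ψ j) ψ =
          C * cr Q k θ (TT Q (prof A Q2)) ψ - cr Q k θ (TT Q Ψ) ψ := by
        unfold Str875.cr
        rw [TT_sub_apply, TT_smul_apply, map_sub, map_smul, inner_sub_right, inner_smul_right,
          Complex.sub_re, Complex.re_ofReal_mul]
      have e2 : (inner ℂ ψ (YY C Q T YX ψ) : ℂ).re =
          3 * C * cr Q k θ (TT Q (prof A Q2)) ψ + cr Q k θ X.ap ψ := by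
        have e3 : cr Q k θ (TT Q (prof A Q2)) ψ =
            (inner ℂ ψ (((((Q : ℝ) + 1)) • ∫ g, T g ∂hm) ψ) : ℂ).re := hTn k ψ hψ
        have e4 : cr Q k θ X.ap ψ = (inner ℂ ψ (YX ψ) : ℂ).re := hYn k ψ hψ
        rw [e3, e4]
        unfold YY
        rw [add_ap, smul_ap, inner_add_right, inner_smul_right, Complex.add_re,
          Complex.re_ofReal_mul]
      have e5 : 3 * cr Q k θ (TT Q fun j => C * prof A Q2 j - Ψ j) ψ + cr Q k θ X.ap ψ -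
          (inner ℂ ψ (YY C Q T YX ψ) : ℂ).re = -(3 * cr Q k θ (TT Q Ψ) ψ) := by
        rw [e1, e2]; ring
      rw [e5, abs_neg, abs_mul, abs_of_pos (by norm_num : (0 : ℝ) < 3)]
      exact mul_le_mul_of_nonneg_left (abs_cr_le hRC hQ ha0.le ha1 hM hΨ hθ k hψ h1)
        (by norm_num)
    · intro θ' hθ'' k ψ hψ h1
      exact hY T hTc hTD YX hYD θ' hθ'' k ψ hψ h1
    · exact W0 hWP hCW hθ0 hR0 hR haR (hR0.trans hRQ) (Nat.cast_nonneg _) (by linarith) hn1 hn0 hn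
        hΦ hC hKT (by linarith) h21 hTc hTD hKX hYD

end

end Crest.Agent.R340.W0725
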